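import Vale.Agent.P054S.CDef
import Vale.Agent.P054A.GenS

/-!
Basic facts on varieties.  exists_on: Nullstellensatz (MvPolynomial.IsPrime.vanishingIdeal_zeroLocus,
zeroLocus over the field itself).  exists_isVar: exists_generic_system with A = the complex numbers (the
comap along C is bot or the map lies in the span anyway), a point p on P off the minor; locP φ p ≤ P by
locP_le, and q G in the span with q not in P, so q not in the prime locP φ p.  dim_le: IsVar.low,
one_le_dg, H_anti, le_of_growth.  loc_eq: locP_le and eq_of_le.  card_le_one: a linear form through one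
point and not the other, eval_ne_zero_of_dim_zero.  exists_fin_H: take W with H (vanI W) M maximal
(bounded by H_le_pow); exists_notin_of_H_lt, exists_on for q g, and H grows strictly since otherwise
the surjection between the quotients in degree M is injective (or use exists_sep and card_le_H_of_sep).
-/

namespace Vale.Agent.P054S

open MvPolynomial Vale.Agent.P054A
open scoped Classical

variable {σ : Type} [Fintype σ] {P Q : Ideal (MvPolynomial σ ℂ)} {v w : ℕ}

theorem exists_on (hP : P.IsPrime) {q : MvPolynomial σ ℂ} (hq : q ∉ P) :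
    ∃ p, On p P ∧ eval p q ≠ 0 := by
  by_contra hc
  refine hq ?_
  rw [← MvPolynomial.IsPrime.vanishingIdeal_zeroLocus (K := ℂ) P]
  intro p hp
  by_contra h
  exact hc ⟨p, fun g hg => by simpa [aeval_eq_eval] using hp g hg, by simpa [aeval_eq_eval] using h⟩

theorem exists_isVar (hP : P.IsPrime) : ∃ v, IsVar v P := by
  obtain ⟨c, φ, J, h1, h2, h3⟩ := exists_generic_system P hP
  obtain ⟨p, hp, hm⟩ := exists_on hP h2
  have hs : Simple φ J p := ⟨fun i => hp _ (h1 i), hm⟩
  have hb : P.comap (C : ℂ →+* MvPolynomial σ ℂ) = ⊥ :=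
    (Ideal.eq_bot_or_top _).resolve_right (Ideal.comap_ne_top _ hP.ne_top)
  have hle := locP_le hP h1 hp
  have hc : IsComp c p P := by
    refine ⟨φ, J, hs, le_antisymm hle fun G hG => ?_⟩
    obtain ⟨q, hq, hqG⟩ := h3 G hG
    rw [hb, Ideal.map_bot, sup_bot_eq] at hqG
    exact ((locP_prime hs).mem_or_mem (show q * G ∈ locP φ p from
      ⟨1, by simp, by simpa using hqG⟩)).resolve_left fun h => hq (hle h)
  exact ⟨Fintype.card σ - c, c, p, Nat.sub_add_cancel hc.le_card, hc⟩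

theorem IsVar.prime (h : IsVar v P) : P.IsPrime := by
  obtain ⟨c, p, -, h⟩ := h
  exact h.prime

theorem IsVar.le_card (h : IsVar v P) : v ≤ Fintype.card σ := by
  obtain ⟨c, p, h, -⟩ := h
  omega

theorem IsVar.H_le (h : IsVar v P) (M : ℕ) : H P M ≤ dg v P * (M + 1) ^ v := by
  obtain ⟨c, p, hv, h⟩ := h
  obtain rfl : v = Fintype.card σ - c := by omega
  exact h.H_le M

theorem IsVar.one_le_dg (h : IsVar v P) : 1 ≤ dg v P := by
  obtain ⟨c, p, hv, h⟩ := h
  obtain rfl : v = Fintype.card σ - c := by omega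
  exact h.one_le_dg

theorem IsVar.low (h : IsVar v P) :
    ∃ M₀, ∀ M, M₀ ≤ M → dg v P * (M + 1) ^ v ≤ (2 * v + 2) ^ (2 * v) * H P M := by
  obtain ⟨c, p, hv, g, J, hs, rfl⟩ := h
  exact ⟨_, fun M hM => dg_le_H hs (s := Finset.univ.sup fun i => (g i).totalDegree)
    (fun i => Finset.le_sup (f := fun i => (g i).totalDegree) (Finset.mem_univ i))
    (by rw [Fintype.card_fin]; exact hv) hM⟩

theorem IsVar.eq_of_le (h : IsVar v P) (h' : IsVar v Q) (hle : P ≤ Q) : P = Q := by
  obtain ⟨c, p, hv, h⟩ := h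
  obtain ⟨c', p', hv', h'⟩ := h'
  obtain rfl : c = c' := by omega
  exact h.eq_of_le h' hle

theorem CVar_le_of_H (h : IsVar v P) {a : ℕ} (ha : ∀ M, H P M ≤ a * (M + 1) ^ w) : v ≤ w := by
  obtain ⟨M₀, hM⟩ := h.low
  refine le_of_growth (a := a) (C := (2 * v + 2) ^ (2 * v)) (s := M₀) (t := 1) fun M => ?_
  rw [one_mul]
  calc (M + 1) ^ v ≤ (M + M₀ + 1) ^ v := Nat.pow_le_pow_left (by omega) v
    _ ≤ dg v P * (M + M₀ + 1) ^ v := Nat.le_mul_of_pos_left _ h.one_le_dg
    _ ≤ _ := hM _ (Nat.le_add_left _ _)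
    _ ≤ _ := Nat.mul_le_mul_left _ (ha _)

theorem IsVar.dim_le (h : IsVar v P) (h' : IsVar w Q) (hle : P ≤ Q) : w ≤ v :=
  CVar_le_of_H h' fun M => (H_anti hle M).trans (h.H_le M)

/-- growth bounds the dimension -/
theorem IsVar.le_of_H (h : IsVar v P) {a : ℕ} (ha : ∀ M, H P M ≤ a * (M + 1) ^ w) : v ≤ w :=
  CVar_le_of_H h ha

theorem isVar_bot : IsVar (Fintype.card σ) (⊥ : Ideal (MvPolynomial σ ℂ)) :=
  ⟨0, 0, rfl, Fin.elim0, Fin.elim0, ⟨fun i => i.elim0, by simp [minor]⟩, locP_empty _ _⟩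

theorem isVar_loc {κ : Type} [Fintype κ] [DecidableEq κ] {f : κ → MvPolynomial σ ℂ} {J : κ → σ}
    {p : σ → ℂ} (h : Simple f J p) (hv : v + Fintype.card κ = Fintype.card σ) :
    IsVar v (locP f p) := ⟨_, p, hv, h.isComp⟩

theorem IsVar.loc_eq {κ : Type} [Fintype κ] [DecidableEq κ] {f : κ → MvPolynomial σ ℂ} {J : κ → σ}
    {p : σ → ℂ} (h : IsVar v P) (hv : v + Fintype.card κ = Fintype.card σ) (hf : ∀ i, f i ∈ P)
    (hp : On p P) (hm : eval p (minor f J) ≠ 0) : locP f p = P :=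
  (isVar_loc ⟨fun i => hp _ (hf i), hm⟩ hv).eq_of_le h (locP_le h.prime hf hp)

/-- the dimension is the transcendence degree of the generic point -/
theorem IsVar.trdeg (h : IsVar v P) {L : Type} [Field L] [Algebra ℂ L] (ζ : σ → L)
    (hk : ∀ G, aeval ζ G = 0 ↔ G ∈ P) (hL : IntermediateField.adjoin ℂ (Set.range ζ) = ⊤) :
    Algebra.trdeg ℂ L = v := by
  obtain ⟨c, p, hv, g, J, hs, rfl⟩ := h
  rw [lowj_trdeg hs ζ hk hL, Fintype.card_fin, ← hv, Nat.add_sub_cancel]

theorem mem_onT {T : Finset (σ → ℂ)} {p : σ → ℂ} : p ∈ onT T P ↔ p ∈ T ∧ On p P := by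
  rw [onT, Finset.mem_filter]

theorem IsVar.card_le_one (h : IsVar 0 P) (T : Finset (σ → ℂ)) : (onT T P).card ≤ 1 := by
  refine Finset.card_le_one.2 fun a ha b hb => funext fun l => ?_
  by_contra hne
  have hg : (X l - C (a l) : MvPolynomial σ ℂ) ∉ P := fun hg =>
    hne (by simpa [sub_eq_zero, eq_comm] using (mem_onT.1 hb).2 _ hg)
  exact eval_ne_zero_of_dim_zero h.prime (a := dg 0 P) (fun M => by simpa using h.H_le M) hg
    (mem_onT.1 ha).2 (by simp)

theorem CVar_step (W : Finset (σ → ℂ)) {M : ℕ} {g : MvPolynomial σ ℂ} {p : σ → ℂ}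
    (hg : g ∈ vanI (W : Set (σ → ℂ))) (hd : g.totalDegree ≤ M) (hp : eval p g ≠ 0) :
    H (vanI (W : Set (σ → ℂ))) M + 1 ≤ H (vanI ((insert p W : Finset (σ → ℂ)) : Set (σ → ℂ))) M := by
  obtain ⟨S, hS, hc, hs⟩ := exists_sep W M
  have hpS : p ∉ S := fun h => hp (hg p (hS h))
  rw [← hc, ← Finset.card_insert_of_notMem hpS]
  refine card_le_H_of_sep (insert p S) id (fun a ha G hG => hG a ?_) fun a ha => ?_
  · exact Finset.mem_coe.2 (Finset.insert_subset_insert p hS ha)
  · rcases Finset.mem_insert.1 ha with rfl | ha'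
    · exact ⟨g, hd, hp, fun a' h1 h2 => hg a' (hS ((Finset.mem_insert.1 h1).resolve_left h2))⟩
    · obtain ⟨G, h1, h2, h3⟩ := hs a ha'
      refine ⟨G - C (eval p G / eval p g) * g, (totalDegree_sub _ _).trans (max_le h1 ?_), ?_,
        fun a' h4 h5 => ?_⟩
      · exact (totalDegree_mul _ _).trans (by rw [totalDegree_C, zero_add]; exact hd)
      · simp [h2, hg a (hS ha')]
      · rcases Finset.mem_insert.1 h4 with rfl | h6
        · simp [div_mul_cancel₀ _ hp]
        · simp [h3 a' h6 h5, hg a' (hS h6)]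

theorem exists_fin_H (hP : P.IsPrime) {q : MvPolynomial σ ℂ} (hq : q ∉ P) (M : ℕ) :
    ∃ W : Finset (σ → ℂ), (∀ p ∈ W, On p P ∧ eval p q ≠ 0) ∧
      H P M ≤ H (vanI (W : Set (σ → ℂ))) M := by
  have key : ∀ k, k ≤ H P M → ∃ W : Finset (σ → ℂ), (∀ p ∈ W, On p P ∧ eval p q ≠ 0) ∧
      k ≤ H (vanI (W : Set (σ → ℂ))) M := by
    intro k
    induction k with
    | zero => exact fun _ => ⟨∅, by simp, Nat.zero_le _⟩
    | succ k ih =>
      intro hk
      obtain ⟨W, hW, h⟩ := ih (by omega)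
      by_cases h1 : k + 1 ≤ H (vanI (W : Set (σ → ℂ))) M
      · exact ⟨W, hW, h1⟩
      obtain ⟨g, hg, hgP, hd⟩ := exists_notin_of_H_lt (I := P) (J := vanI (W : Set (σ → ℂ)))
        (M := M) (by omega)
      obtain ⟨p, hp, h2⟩ := exists_on hP (q := q * g) fun h => (hP.mem_or_mem h).elim hq hgP
      rw [map_mul, mul_ne_zero_iff] at h2
      refine ⟨insert p W, fun a ha => ?_, (Nat.succ_le_succ h).trans (CVar_step W hg hd h2.2)⟩
      rcases Finset.mem_insert.1 ha with rfl | ha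
      exacts [⟨hp, h2.1⟩, hW a ha]
  exact key _ le_rfl

end Vale.Agent.P054S
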