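import Vale.Agent.P054S.Defs
import Vale.Agent.P054S.CVar

/-!
Primes with their dimension.
-/

namespace Vale.Agent.P054S

open MvPolynomial Vale.Agent.P054A Sum
open scoped Classical

variable {σ : Type} [Fintype σ] {P Q : Ideal (MvPolynomial σ ℂ)} {j : ℕ}

theorem pd_iff : PD j P ↔ IsVar j P :=
  ⟨fun ⟨h, p, hp⟩ => ⟨_, p, by omega, hp⟩, fun ⟨c, p, h, hp⟩ =>
    ⟨by omega, p, by rwa [show Fintype.card σ - j = c by omega]⟩⟩

theorem PD.var (h : PD j P) : IsVar j P := pd_iff.1 h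

theorem IsVar.pd (h : IsVar j P) : PD j P := pd_iff.2 h

theorem mem_zs {S : Finset (σ → ℂ)} {p : σ → ℂ} : p ∈ zs S P ↔ p ∈ S ∧ On p P := Finset.mem_filter

theorem zs_eq (S : Finset (σ → ℂ)) (P : Ideal (MvPolynomial σ ℂ)) : zs S P = onT S P := by
  ext p
  rw [mem_zs, mem_onT]

theorem PD.prime (h : PD j P) : P.IsPrime := by
  exact h.var.prime

theorem PD.H_le (h : PD j P) (M : ℕ) : H P M ≤ dg j P * (M + 1) ^ j := by
  exact h.var.H_le M

theorem PD.one_le_dg (h : PD j P) : 1 ≤ dg j P := by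
  exact h.var.one_le_dg

theorem PD.pow_le (h : PD j P) (M : ℕ) : (M + 1) ^ j ≤ H P (j * M) := by
  obtain ⟨c, p, hc, g, J, h1, rfl⟩ := h.var
  have h2 : Function.Injective J := inj_of_minor_ne (f := g) fun h0 => h1.2 (by rw [h0, map_zero])
  have h3 : (Finset.univ.image J)ᶜ.card = j := by
    rw [Finset.card_compl, Finset.card_image_of_injective _ h2, Finset.card_univ, Fintype.card_fin]
    omega
  have h4 := pow_le_H_of_free (I := locP g p) (Finset.univ.image J)ᶜ (fun G hG hv =>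
    eq_zero_of_free h1 (fun l hl ⟨i, hi⟩ => Finset.mem_compl.1 (hv l hl)
      (Finset.mem_image.2 ⟨i, Finset.mem_univ i, hi⟩)) hG) M
  rwa [h3] at h4

/-- Nullstellensatz for primes. -/
theorem exists_on_ne (hP : P.IsPrime) {g : MvPolynomial σ ℂ} (hg : g ∉ P) :
    ∃ p, On p P ∧ eval p g ≠ 0 := by
  exact exists_on hP hg

theorem exists_PD (hP : P.IsPrime) : ∃ j, PD j P := by
  exact (exists_isVar hP).imp fun _ h => h.pd

theorem PD.le_of_H (h : PD j P) {I : Ideal (MvPolynomial σ ℂ)} (hI : I ≤ P) {v a : ℕ}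
    (ha : ∀ M, H I M ≤ a * (M + 1) ^ v) : j ≤ v := by
  exact h.var.le_of_H fun M => (H_anti hI M).trans (ha M)

theorem PD.unique (h : PD j P) {j' : ℕ} (h' : PD j' P) : j = j' := by
  exact le_antisymm (h'.var.dim_le h.var le_rfl) (h.var.dim_le h'.var le_rfl)

theorem PD.eq_of_le (h : PD j P) (h' : PD j Q) (hle : P ≤ Q) : P = Q := by
  exact h.var.eq_of_le h'.var hle

theorem PD.dim_le (h : PD j P) {j' : ℕ} (h' : PD j' Q) (hle : P ≤ Q) : j' ≤ j := by
  exact h.var.dim_le h'.var hle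

theorem PD.dim_lt (h : PD j P) {j' : ℕ} (h' : PD j' Q) (hlt : P < Q) : j' < j := by
  refine lt_of_le_of_ne (h.dim_le h' hlt.le) fun e => ?_
  subst e
  exact hlt.ne (h.eq_of_le h' hlt.le)

theorem PD_bot : PD (Fintype.card σ) (⊥ : Ideal (MvPolynomial σ ℂ)) := by
  exact isVar_bot.pd

theorem PD_point (p : σ → ℂ) : PD 0 (vanI {p}) := by
  have h1 : (vanI {p} : Ideal (MvPolynomial σ ℂ)) = RingHom.ker (eval p) := by
    ext g
    exact locb_mem
  obtain ⟨v, hv⟩ := exists_PD (P := vanI {p}) (h1 ▸ RingHom.ker_isPrime _)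
  have h2 : v ≤ 0 := hv.le_of_H le_rfl (a := 1) fun M => by
    simpa using H_vanI_le_card ({p} : Finset (σ → ℂ)) M
  rwa [Nat.le_zero.1 h2] at hv

theorem PD.eq_point (h : PD 0 P) {p : σ → ℂ} (hp : On p P) : P = vanI {p} := by
  exact h.eq_of_le (PD_point p) fun g hg => locb_mem.2 (hp g hg)

theorem PD.card_zs_le_one (h : PD 0 P) (S : Finset (σ → ℂ)) : (zs S P).card ≤ 1 := by
  rw [zs_eq]
  exact h.var.card_le_one S

/-- A prime containing all `X l - C (p l)` has dimension zero. -/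
theorem PD.eq_zero_of_coord (h : PD j P) (p : σ → ℂ) (hp : ∀ l, X l - C (p l) ∈ P) : j = 0 := by
  refine Nat.le_zero.1 ((PD_point p).dim_le h fun g hg => not_not.1 fun hn => ?_)
  obtain ⟨q, h1, h2⟩ := exists_on_ne h.prime hn
  have h3 : q = p := funext fun l => by simpa [sub_eq_zero] using h1 _ (hp l)
  exact h2 (h3 ▸ locb_mem.1 hg)

theorem Simple.pd {κ : Type} [Fintype κ] [DecidableEq κ] {f : κ → MvPolynomial σ ℂ} {J : κ → σ}
    {p : σ → ℂ} (h : Simple f J p) (hj : j + Fintype.card κ = Fintype.card σ) :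
    PD j (locP f p) := by
  exact (isVar_loc h hj).pd

/-- A simple system of the right length inside `P` cuts out `P` at its simple points. -/
theorem PD.locP_eq (h : PD j P) {κ : Type} [Fintype κ] [DecidableEq κ]
    {f : κ → MvPolynomial σ ℂ} {J : κ → σ} (hj : j + Fintype.card κ = Fintype.card σ)
    (hf : ∀ i, f i ∈ P) {p : σ → ℂ} (hp : On p P) (hJ : eval p (minor f J) ≠ 0) :
    Simple f J p ∧ locP f p = P := by
  exact ⟨⟨fun i => hp _ (hf i), hJ⟩, h.var.loc_eq hj hf hp hJ⟩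

theorem PD.dg_le_H (h : PD j P) {c s : ℕ} {f : Fin c → MvPolynomial σ ℂ} {J : Fin c → σ}
    (hj : j + c = Fintype.card σ) (hf : Sys P s f J) {M : ℕ} (hM : 2 * (c * s) ≤ M) :
    dg j P * (M + 1) ^ j ≤ (2 * j + 2) ^ (2 * j) * H P M := by
  obtain ⟨p, h1, h2⟩ := exists_on_ne h.prime hf.2
  obtain ⟨h3, h4⟩ := h.locP_eq (by simpa using hj) (fun i => (hf.1 i).1) h1 h2
  have h5 := P054A.dg_le_H h3 (fun i => (hf.1 i).2) (v := j) (by simpa using hj) (M := M)
    (by simpa using hM)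
  rwa [h4] at h5

/-- The transcendence degree of the function field. -/
theorem PD.trdeg (h : PD j P) {L : Type} [Field L] [Algebra ℂ L] (ζ : σ → L)
    (hk : ∀ G, aeval ζ G = 0 ↔ G ∈ P) :
    Algebra.trdeg ℂ (IntermediateField.adjoin ℂ (Set.range ζ)) = (j : Cardinal) := by
  obtain ⟨c, p, hc, g, J, h1, rfl⟩ := h.var
  rw [trdeg_loc h1 ζ hk, Fintype.card_fin, show Fintype.card σ - c = j by omega]

theorem Dens.mono {S S' : Finset (σ → ℂ)} {M M' j₀ : ℕ} (h : Dens S M j₀) (hS : S' ⊆ S)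
    (hM : M ≤ M') : Dens S' M' j₀ := by
  intro j hj P hP
  refine (Finset.card_le_card fun p hp => ?_).trans ((h j hj P hP).trans (by gcongr))
  exact mem_zs.2 ⟨hS (mem_zs.1 hp).1, (mem_zs.1 hp).2⟩

theorem apd_sep {S : Finset (σ → ℂ)} {M : ℕ}
    (h : ∀ p ∈ S, ∃ g : MvPolynomial σ ℂ, g.totalDegree ≤ M ∧ eval p g ≠ 0 ∧
      ∀ q ∈ S, q ≠ p → eval q g = 0) (P : Ideal (MvPolynomial σ ℂ)) : (zs S P).card ≤ H P M :=
  card_le_H_of_sep (zs S P) id (fun _ hp => (mem_zs.1 hp).2) fun p hp =>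
    (h p (mem_zs.1 hp).1).imp fun _ hg => ⟨hg.1, hg.2.1, fun q hq => hg.2.2 q (mem_zs.1 hq).1⟩

theorem dens_of_sep {S : Finset (σ → ℂ)} {M : ℕ}
    (h : ∀ p ∈ S, ∃ g : MvPolynomial σ ℂ, g.totalDegree ≤ M ∧ eval p g ≠ 0 ∧
      ∀ q ∈ S, q ≠ p → eval q g = 0) (j₀ : ℕ) : Dens S (M + 1) j₀ := by
  intro j _ P hP
  exact (apd_sep h P).trans (hP.H_le M)

theorem capT_of_sep {S : Finset (σ → ℂ)} {M : ℕ}
    (h : ∀ p ∈ S, ∃ g : MvPolynomial σ ℂ, g.totalDegree ≤ M ∧ eval p g ≠ 0 ∧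
      ∀ q ∈ S, q ≠ p → eval q g = 0) (j₀ : ℕ) : CapT S (M + 1) j₀ := by
  intro j h1 _ P hP
  obtain ⟨p, hp, -⟩ := exists_on_ne hP.prime (g := 1)
    fun h => hP.prime.ne_top ((Ideal.eq_top_iff_one _).2 h)
  obtain ⟨l, hl⟩ : ∃ l, X l - C (p l) ∉ P := by
    by_contra hc
    push Not at hc
    exact absurd (hP.eq_zero_of_coord p hc) (by omega)
  have h2 := H_sup_add hP.prime hl (m := 1)
    ((totalDegree_sub _ _).trans (by simp [totalDegree_X])) M
  have h3 : On p (P ⊔ Ideal.span {X l - C (p l)}) := fun g hg => locb_mem.1 ((sup_le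
    (fun a ha => locb_mem.2 (hp a ha)) ((Ideal.span_singleton_le_iff_mem _).2 (locb_X p l)) :
      _ ≤ vanI {p}) hg)
  have h4 := one_le_H h3 (M + 1)
  have h5 := apd_sep h P
  have h6 := H_vanI_le_card (zs S P) (M + 1)
  obtain ⟨g, a1, a2, a3⟩ := exists_notin_of_H_lt (I := P)
    (J := vanI ((zs S P : Finset (σ → ℂ)) : Set (σ → ℂ))) (M := M + 1) (by omega)
  exact ⟨g, a2, a3, fun q b1 b2 => a1 q (Finset.mem_coe.2 (mem_zs.2 ⟨b1, b2⟩))⟩

end Vale.Agent.P054S
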