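import Vale.Agent.P054S.CKr

/-!
Bezout for arbitrary primes.  sum_H_le: for Q in T take h Q in all other members and not in Q (product;
IsVar.eq_of_le), D = bound for the degrees; the map (g Q) ↦ sum of h Q * g Q is injective from the product of
the quotients in degree M to the quotient by I in degree M + D (or induct: H (I ⊓ J)).  sum_dg_asym: M = max of D and the M₀ of
IsVar.low.  children: T = minimal primes (Ideal.finite_minimalPrimes_of_isNoetherianRing), H_sec; a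
point p gives the prime vanI {p} (ker of eval) above P + (g), Ideal.exists_minimalPrimes_le.
-/

namespace Vale.Agent.P054S

open MvPolynomial Vale.Agent.P054A
open scoped Classical

variable {σ : Type} [Fintype σ] {P Q : Ideal (MvPolynomial σ ℂ)} {v w : ℕ}

theorem cbez_two {I J : Ideal (MvPolynomial σ ℂ)} (hQ : Q.IsPrime) (hIQ : I ≤ Q) (hIJ : I ≤ J)
    {g : MvPolynomial σ ℂ} (hgJ : g ∈ J) (hgQ : g ∉ Q) {d : ℕ} (hd : g.totalDegree ≤ d) (M : ℕ) :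
    H J (M + d) + H Q M ≤ H I (M + d) := by
  have h1 := Hil_rank (Ideal.Quotient.factorₐ ℂ hIJ).toLinearMap
    ((restrictTotalDegree σ ℂ (M + d)).map (Ideal.Quotient.mkₐ ℂ I).toLinearMap)
  rw [← Submodule.map_comp] at h1
  refine le_trans (Nat.add_le_add_left ?_ _) h1.le
  let φ : restrictTotalDegree σ ℂ M →ₗ[ℂ] MvPolynomial σ ℂ ⧸ I :=
    LinearMap.mulLeft ℂ (Ideal.Quotient.mk I g) ∘ₗ hilAMap I M
  have hφ : ∀ f : restrictTotalDegree σ ℂ M,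
      φ f = Ideal.Quotient.mk I (g * (f : MvPolynomial σ ℂ)) := fun f => rfl
  refine hilA_le (φ.codRestrict (LinearMap.ker (Ideal.Quotient.factorₐ ℂ hIJ).toLinearMap ⊓
    (restrictTotalDegree σ ℂ (M + d)).map (Ideal.Quotient.mkₐ ℂ I).toLinearMap) fun f => ?_)
    fun f hf => ?_
  · rw [hφ]
    refine ⟨?_, g * (f : MvPolynomial σ ℂ), ?_, rfl⟩
    · exact Ideal.Quotient.eq_zero_iff_mem.2 (Ideal.mul_mem_right _ _ hgJ)
    · have hf := f.2
      rw [SetLike.mem_coe]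
      rw [mem_restrictTotalDegree] at hf ⊢
      exact (totalDegree_mul g _).trans (by omega)
  · have h2 : φ f = 0 := congrArg Subtype.val hf
    rw [hφ] at h2
    exact (hQ.mem_or_mem (hIQ (Ideal.Quotient.eq_zero_iff_mem.1 h2))).resolve_left hgQ

theorem sum_H_le (T : Finset (Ideal (MvPolynomial σ ℂ))) (hT : ∀ Q ∈ T, IsVar v Q) :
    ∃ D, ∀ I : Ideal (MvPolynomial σ ℂ), (∀ Q ∈ T, I ≤ Q) → ∀ M,
      ∑ Q ∈ T, H Q M ≤ H I (M + D) := by
  induction T using Finset.induction_on with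
  | empty => exact ⟨0, fun I _ M => by simp⟩
  | insert Q T hQ ih =>
    obtain ⟨D, hD⟩ := ih fun Q' h => hT Q' (Finset.mem_insert_of_mem h)
    have hv := hT Q (Finset.mem_insert_self _ _)
    have hn : ¬ T.inf id ≤ Q := fun hle => by
      obtain ⟨Q', h1, h2⟩ := (hv.prime.inf_le' (s := T) (f := id)).1 hle
      have h3 : Q' = Q := (hT Q' (Finset.mem_insert_of_mem h1)).eq_of_le hv h2
      exact hQ (h3 ▸ h1)
    obtain ⟨g, hg1, hg2⟩ := SetLike.not_le_iff_exists.1 hn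
    refine ⟨D + g.totalDegree, fun I hI M => ?_⟩
    have h1 := cbez_two hv.prime (hI Q (Finset.mem_insert_self _ _))
      (Finset.le_inf fun Q' h => hI Q' (Finset.mem_insert_of_mem h) : I ≤ T.inf id) hg1 hg2
      (Nat.le_add_left g.totalDegree D) M
    have h2 := hD (T.inf id) (fun Q' h => Finset.inf_le (f := id) h) M
    have h3 := H_mono (T.inf id) (show M + D ≤ M + (D + g.totalDegree) by omega)
    rw [Finset.sum_insert hQ]
    omega

theorem sum_dg_asym (T : Finset (Ideal (MvPolynomial σ ℂ))) (hT : ∀ Q ∈ T, IsVar v Q)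
    {I : Ideal (MvPolynomial σ ℂ)} (hI : ∀ Q ∈ T, I ≤ Q) {a : ℕ}
    (ha : ∀ M, H I M ≤ a * (M + 1) ^ v) : ∑ Q ∈ T, dg v Q ≤ (4 * v + 4) ^ (2 * v) * a := by
  obtain ⟨D, hD⟩ := sum_H_le T hT
  choose! M₀ hM₀ using fun Q hQ => (hT Q hQ).low
  obtain ⟨M, hM1, hM2⟩ : ∃ M, D ≤ M ∧ ∀ Q ∈ T, M₀ Q ≤ M :=
    ⟨D + T.sup M₀, Nat.le_add_right _ _, fun Q hQ =>
      (Finset.le_sup hQ).trans (Nat.le_add_left _ _)⟩
  refine Nat.le_of_mul_le_mul_right ?_ (Nat.pow_pos (n := v) (Nat.succ_pos M))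
  have h2 : (2 : ℕ) ^ v ≤ 2 ^ (2 * v) := Nat.pow_le_pow_right (by norm_num) (by omega)
  calc (∑ Q ∈ T, dg v Q) * (M + 1) ^ v = ∑ Q ∈ T, dg v Q * (M + 1) ^ v := Finset.sum_mul _ _ _
    _ ≤ ∑ Q ∈ T, (2 * v + 2) ^ (2 * v) * H Q M :=
        Finset.sum_le_sum fun Q hQ => hM₀ Q hQ M (hM2 Q hQ)
    _ = (2 * v + 2) ^ (2 * v) * ∑ Q ∈ T, H Q M := (Finset.mul_sum _ _ _).symm
    _ ≤ (2 * v + 2) ^ (2 * v) * (a * (M + D + 1) ^ v) :=
        Nat.mul_le_mul_left _ ((hD I hI M).trans (ha _))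
    _ ≤ (2 * v + 2) ^ (2 * v) * (a * (2 * (M + 1)) ^ v) := by
        refine Nat.mul_le_mul_left _ (Nat.mul_le_mul_left _ (Nat.pow_le_pow_left ?_ _))
        omega
    _ = 2 ^ v * ((2 * v + 2) ^ (2 * v) * a * (M + 1) ^ v) := by rw [mul_pow]; ring
    _ ≤ 2 ^ (2 * v) * ((2 * v + 2) ^ (2 * v) * a * (M + 1) ^ v) := Nat.mul_le_mul_right _ h2
    _ = (4 * v + 4) ^ (2 * v) * a * (M + 1) ^ v := by
        rw [show 4 * v + 4 = 2 * (2 * v + 2) by ring, mul_pow 2 (2 * v + 2), ← mul_assoc,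
          ← mul_assoc]

/-- the constant in Bezout's inequality -/
def cB (n : ℕ) : ℕ := (12 * n + 12) ^ (2 * n + 1)

theorem one_le_cB (n : ℕ) : 1 ≤ cB n := Nat.one_le_pow _ _ (by omega)

theorem cbez_cB {v n : ℕ} (h : v ≤ n) : (4 * v + 4) ^ (2 * v) * 3 ^ (v + 1) ≤ cB n :=
  calc (4 * v + 4) ^ (2 * v) * 3 ^ (v + 1) ≤ (4 * v + 4) ^ (2 * v + 1) * 3 ^ (2 * v + 1) :=
        Nat.mul_le_mul (Nat.pow_le_pow_right (by omega) (by omega))
          (Nat.pow_le_pow_right (by omega) (by omega))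
    _ = ((4 * v + 4) * 3) ^ (2 * v + 1) := (mul_pow _ _ _).symm
    _ ≤ (12 * n + 12) ^ (2 * v + 1) := Nat.pow_le_pow_left (by omega) _
    _ ≤ (12 * n + 12) ^ (2 * n + 1) := Nat.pow_le_pow_right (by omega) (by omega)

/-- Bezout: the components of a hypersurface section -/
theorem IsVar.children (h : IsVar (v + 1) P) {g : MvPolynomial σ ℂ} (hg : g ∉ P) {m : ℕ}
    (hm : g.totalDegree ≤ m) (h1 : 1 ≤ m) :
    ∃ T : Finset (Ideal (MvPolynomial σ ℂ)), (∀ Q ∈ T, IsVar v Q ∧ P ≤ Q ∧ g ∈ Q) ∧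
      ∑ Q ∈ T, dg v Q ≤ cB (Fintype.card σ) * dg (v + 1) P * m ∧
      (∀ Q' : Ideal (MvPolynomial σ ℂ), Q'.IsPrime → P ≤ Q' → g ∈ Q' → ∃ Q ∈ T, Q ≤ Q') ∧
      ∀ p, On p P → eval p g = 0 → ∃ Q ∈ T, On p Q := by
  have hfin := Ideal.finite_minimalPrimes_of_isNoetherianRing (MvPolynomial σ ℂ)
    (P ⊔ Ideal.span {g})
  have hle : ∀ Q ∈ hfin.toFinset, P ⊔ Ideal.span {g} ≤ Q := fun Q hQ =>
    (hfin.mem_toFinset.1 hQ).1.2
  have hv : ∀ Q ∈ hfin.toFinset, IsVar v Q := fun Q hQ => h.krull hg (hfin.mem_toFinset.1 hQ)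
  have h3 : ∀ Q' : Ideal (MvPolynomial σ ℂ), Q'.IsPrime → P ≤ Q' → g ∈ Q' →
      ∃ Q ∈ hfin.toFinset, Q ≤ Q' := fun Q' hQ' hP hgQ => by
    obtain ⟨Q, h4, h5⟩ := Ideal.exists_minimalPrimes_le (I := P ⊔ Ideal.span {g}) (J := Q')
      (sup_le hP ((Ideal.span_singleton_le_iff_mem _).2 hgQ))
    exact ⟨Q, hfin.mem_toFinset.2 h4, h5⟩
  refine ⟨hfin.toFinset, fun Q hQ => ⟨hv Q hQ, le_sup_left.trans (hle Q hQ),
    hle Q hQ (Ideal.mem_sup_right (Ideal.mem_span_singleton_self g))⟩, ?_, h3, fun p hp h0 => ?_⟩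
  · refine (sum_dg_asym _ hv hle (H_sec h.prime h.H_le hg hm h1)).trans ?_
    rw [← mul_assoc, ← mul_assoc]
    exact Nat.mul_le_mul_right _ (Nat.mul_le_mul_right _
      (cbez_cB ((Nat.le_succ v).trans h.le_card)))
  · obtain ⟨Q, h4, h5⟩ := h3 (RingHom.ker (eval p)) (RingHom.ker_isPrime _)
      (fun f hf => hp f hf) h0
    exact ⟨Q, h4, fun f hf => h5 hf⟩

/-- counting form: if subvarieties of dimension v hold few points then so does the section -/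
theorem IsVar.card_sec (h : IsVar (v + 1) P) {g : MvPolynomial σ ℂ} (hg : g ∉ P) {m : ℕ}
    (hm : g.totalDegree ≤ m) (h1 : 1 ≤ m) (T : Finset (σ → ℂ)) {a b : ℕ}
    (hT : ∀ Q, IsVar v Q → P ≤ Q → g ∈ Q → (onT T Q).card * b ≤ a * dg v Q) :
    ((onT T P).filter fun p => eval p g = 0).card * b
      ≤ a * (cB (Fintype.card σ) * dg (v + 1) P * m) := by
  obtain ⟨S, h2, h3, -, h4⟩ := h.children hg hm h1
  have h5 : ((onT T P).filter fun p => eval p g = 0) ⊆ S.biUnion fun Q => onT T Q := by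
    intro p hp
    rw [Finset.mem_filter, mem_onT] at hp
    obtain ⟨Q, hQ, h6⟩ := h4 p hp.1.2 hp.2
    exact Finset.mem_biUnion.2 ⟨Q, hQ, mem_onT.2 ⟨hp.1.1, h6⟩⟩
  calc ((onT T P).filter fun p => eval p g = 0).card * b ≤ (∑ Q ∈ S, (onT T Q).card) * b :=
        Nat.mul_le_mul_right _ ((Finset.card_le_card h5).trans Finset.card_biUnion_le)
    _ = ∑ Q ∈ S, (onT T Q).card * b := Finset.sum_mul _ _ _
    _ ≤ ∑ Q ∈ S, a * dg v Q :=
        Finset.sum_le_sum fun Q hQ => hT Q (h2 Q hQ).1 (h2 Q hQ).2.1 (h2 Q hQ).2.2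
    _ = a * ∑ Q ∈ S, dg v Q := (Finset.mul_sum _ _ _).symm
    _ ≤ _ := Nat.mul_le_mul_left _ h3

end Vale.Agent.P054S
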