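import Vale.Agent.P054S.CVar
import Vale.Agent.P054A.Mult

/-!
The Walsh lemma.
-/

namespace Vale.Agent.P054S

open MvPolynomial Vale.Agent.P054A
open scoped Classical

variable {σ : Type} [Fintype σ] {P Q : Ideal (MvPolynomial σ ℂ)} {v w : ℕ}

/-- the state of the induction -/
structure WS (P : Ideal (MvPolynomial σ ℂ)) (t B : ℕ) {c : ℕ} (f : Fin c → MvPolynomial σ ℂ)
    (J : Fin c → σ) (Q : Ideal (MvPolynomial σ ℂ)) (w M : ℕ) : Prop where
  hw : w + c = Fintype.card σ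
  mem : ∀ i, f i ∈ P
  mn : minor f J ∉ P
  deg : ∀ i, (f i).totalDegree ≤ B * (M + 1)
  loc : ∀ p, On p P → eval p (minor f J) ≠ 0 → locP f p = Q
  lt : M < t
  low : dg w Q * (M + 1) ^ w ≤ B * H P M

variable {t B c M : ℕ} {f : Fin c → MvPolynomial σ ℂ} {J : Fin c → σ}

theorem wal_same (hP : P.IsPrime) (hf : ∀ i, f i ∈ P) {p p' : σ → ℂ} (hp : On p P) (hp' : On p' P)
    (hm : eval p' (minor f J) ≠ 0) : locP f p ≤ locP f p' := by
  rintro g ⟨q, hq, hg⟩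
  have h1 : Simple f J p' := ⟨fun i => hp' _ (hf i), hm⟩
  have h2 : Ideal.span (Set.range f) ≤ locP f p' :=
    Ideal.span_le.2 (Set.range_subset_iff.2 (mem_locP f p'))
  exact ((locP_prime h1).mem_or_mem (h2 hg)).resolve_left fun h =>
    hq (hp q (locP_le hP hf hp' h))

theorem WS.pt (h : WS P t B f J Q w M) (hP : P.IsPrime) {q : MvPolynomial σ ℂ} (hq : q ∉ P) :
    ∃ p, On p P ∧ eval p q ≠ 0 ∧ Simple f J p ∧ locP f p = Q := by
  obtain ⟨p, h1, h2⟩ := exists_on hP (q := q * minor f J) fun h0 => (hP.mem_or_mem h0).elim hq h.mn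
  rw [map_mul, mul_ne_zero_iff] at h2
  exact ⟨p, h1, h2.1, ⟨fun i => h1 _ (h.mem i), h2.2⟩, h.loc p h1 h2.2⟩

theorem WS.var (h : WS P t B f J Q w M) (hP : P.IsPrime) : IsVar w Q ∧ Q ≤ P := by
  obtain ⟨p, h1, -, h2, rfl⟩ := h.pt hP h.mn
  exact ⟨isVar_loc h2 (by simpa using h.hw), locP_le hP h.mem h1⟩

theorem WS.big (h : WS P t B f J Q w M) (hP : P.IsPrime) {u : ℕ} (hu : 2 * (c * (B * (M + 1))) ≤ u)
    (he : ∀ g ∈ P, g.totalDegree ≤ u → g ∈ Q) :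
    dg w Q * (u + 1) ^ w ≤ (2 * Fintype.card σ + 2) ^ (2 * Fintype.card σ) * H P u := by
  obtain ⟨p, -, -, h2, rfl⟩ := h.pt hP h.mn
  have hw := h.hw
  refine (dg_le_H h2 h.deg (by simpa using hw) (by simpa using hu)).trans (Nat.mul_le_mul ?_ ?_)
  · exact (Nat.pow_le_pow_left (by omega) _).trans (Nat.pow_le_pow_right (by omega) (by omega))
  · by_contra hc
    obtain ⟨g, h3, h4, h5⟩ := exists_notin_of_H_lt (not_le.1 hc)
    exact h4 (he g h3 h5)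

theorem WS.mono (h : WS P t B f J Q w M) {B' : ℕ} (hB : B ≤ B') : WS P t B' f J Q w M :=
  ⟨h.hw, h.mem, h.mn, fun i => (h.deg i).trans (Nat.mul_le_mul_right _ hB), h.loc, h.lt,
    h.low.trans (Nat.mul_le_mul_right _ hB)⟩

/-- choose an equation of least degree -/
theorem WS.mid (h : WS P t B f J Q w M) (hP : P.IsPrime) {g₀ : MvPolynomial σ ℂ} (h0 : g₀ ∈ P)
    (h1 : g₀ ∉ Q) (h2 : g₀.totalDegree ≤ t) {B' : ℕ}
    (hB : 2 * Fintype.card σ * B + B + (2 * Fintype.card σ + 2) ^ (2 * Fintype.card σ) ≤ B') :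
    ∃ M' g, WS P t B' f J Q w M' ∧ g ∈ P ∧ g ∉ Q ∧ g.totalDegree ≤ B' * (M' + 1) := by
  have hex : ∃ e, ∃ g ∈ P, g ∉ Q ∧ g.totalDegree ≤ e := ⟨t, g₀, h0, h1, h2⟩
  obtain ⟨g, a1, a2, a3⟩ := Nat.find_spec hex
  have a4 : Nat.find hex ≤ t := Nat.find_min' hex ⟨g₀, h0, h1, h2⟩
  have a5 : ∀ u, u < Nat.find hex → ∀ g ∈ P, g.totalDegree ≤ u → g ∈ Q := fun u hu g b1 b2 =>
    not_not.1 fun b3 => Nat.find_min hex hu ⟨g, b1, b3, b2⟩
  generalize Nat.find hex = e at a3 a4 a5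
  have hw := h.hw
  have hp : 0 < (2 * Fintype.card σ + 2) ^ (2 * Fintype.card σ) := by positivity
  by_cases hc : 2 * (c * (B * (M + 1))) < e
  · obtain ⟨u, rfl⟩ : ∃ u, e = u + 1 := ⟨e - 1, by omega⟩
    have b1 : u + 1 ≤ B' * (u + 1) := Nat.le_mul_of_pos_left _ (by omega)
    refine ⟨u, g, ⟨hw, h.mem, h.mn, fun i => (h.deg i).trans ?_, h.loc, a4,
      (h.big hP (by omega) (a5 u (by omega))).trans (Nat.mul_le_mul_right _ (by omega))⟩,
      a1, a2, a3.trans b1⟩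
    have b2 : B * (M + 1) ≤ c * (B * (M + 1)) := Nat.le_mul_of_pos_left _ i.pos
    omega
  · refine ⟨M, g, h.mono (by omega), a1, a2, a3.trans ((not_lt.1 hc).trans ?_)⟩
    calc 2 * (c * (B * (M + 1))) = 2 * c * B * (M + 1) := by ring
      _ ≤ 2 * Fintype.card σ * B * (M + 1) := by gcongr; omega
      _ ≤ _ := Nat.mul_le_mul_right _ (by omega)

/-- the order of vanishing is bounded -/
theorem WS.ord (h : WS P t B f J Q w M) (hP : P.IsPrime) (hB : 1 ≤ B) {g : MvPolynomial σ ℂ}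
    (h0 : g ∈ P) (h1 : g ∉ Q) (h2 : g.totalDegree ≤ B * (M + 1)) {ρ : ℕ}
    (hρ : B * B * (3 * Fintype.card σ + 3) ^ Fintype.card σ < ρ) :
    1 ≤ w ∧ ∃ i, i < Fintype.card σ * ρ ∧ ∃ lam, (Dl f J lam)^[i] g ∉ P := by
  obtain ⟨hQ, hle⟩ := h.var hP
  have hw := h.hw
  rcases Nat.eq_zero_or_pos w with rfl | hw1
  · obtain ⟨p, a1, -, -, -⟩ := h.pt hP h.mn
    exact absurd (a1 g h0) (eval_ne_zero_of_dim_zero hQ.prime (a := dg 0 Q)
      (fun M => by simpa using hQ.H_le M) h1 fun q hq => a1 q (hle hq))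
  refine ⟨hw1, ?_⟩
  by_contra hc
  push Not at hc
  obtain ⟨v, rfl⟩ : ∃ v, w = v + 1 := ⟨w - 1, by omega⟩
  obtain ⟨W, a1, a2⟩ := exists_fin_H hP h.mn M
  have a3 := mult_lemma (f := f) (J := J) (P := Q) W
    (fun p hp => ⟨⟨fun i => (a1 p hp).1 _ (h.mem i), (a1 p hp).2⟩, h.loc p (a1 p hp).1 (a1 p hp).2⟩)
    g (v := v + 1) (r := ρ) (by simpa using hw) hw1 (fun p hp lam i hi =>
      (a1 p hp).1 _ (hc i (hi.trans_le (Nat.mul_le_mul_right _ (by omega))) lam)) M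
  have a4 := H_sec hQ.prime hQ.H_le h1 h2 (Nat.mul_pos hB (Nat.succ_pos M))
    ((v + 1) * ρ * (M + 1))
  have hρ1 : 1 ≤ ρ := by omega
  have a5 : (v + 1) * ρ * (M + 1) + 1 ≤ (Fintype.card σ + 1) * (ρ * (M + 1)) := by
    have b1 : 1 ≤ ρ * (M + 1) := Nat.mul_pos hρ1 (Nat.succ_pos M)
    calc (v + 1) * ρ * (M + 1) + 1 ≤ (v + 1) * ρ * (M + 1) + ρ * (M + 1) := by omega
      _ = (v + 2) * (ρ * (M + 1)) := by ring
      _ ≤ _ := Nat.mul_le_mul_right _ (by omega)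
  have a6 : 3 ^ (v + 1) * (Fintype.card σ + 1) ^ v ≤ (3 * Fintype.card σ + 3) ^ Fintype.card σ :=
    calc 3 ^ (v + 1) * (Fintype.card σ + 1) ^ v
        ≤ 3 ^ Fintype.card σ * (Fintype.card σ + 1) ^ Fintype.card σ :=
          Nat.mul_le_mul (Nat.pow_le_pow_right (by omega) (by omega))
            (Nat.pow_le_pow_right (by omega) (by omega))
      _ = _ := by rw [← mul_pow]; ring
  have a7 : dg (v + 1) Q * (M + 1) ^ (v + 1) * ρ ^ v * ρ ≤ dg (v + 1) Q * (M + 1) ^ (v + 1) * ρ ^ v *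
      (B * B * (3 * Fintype.card σ + 3) ^ Fintype.card σ) :=
    calc dg (v + 1) Q * (M + 1) ^ (v + 1) * ρ ^ v * ρ
        = dg (v + 1) Q * (M + 1) ^ (v + 1) * ρ ^ (v + 1) := by ring
      _ ≤ B * H P M * ρ ^ (v + 1) := Nat.mul_le_mul_right _ h.low
      _ ≤ B * (H (vanI (W : Set (σ → ℂ))) M * ρ ^ (v + 1)) := by rw [mul_assoc]; gcongr
      _ ≤ B * (3 ^ (v + 1) * dg (v + 1) Q * (B * (M + 1)) *
            ((Fintype.card σ + 1) * (ρ * (M + 1))) ^ v) := by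
          refine Nat.mul_le_mul_left _ ((a3.trans a4).trans ?_)
          gcongr
      _ = dg (v + 1) Q * (M + 1) ^ (v + 1) * ρ ^ v *
            (B * B * (3 ^ (v + 1) * (Fintype.card σ + 1) ^ v)) := by
          rw [mul_pow, mul_pow]; ring
      _ ≤ _ := by gcongr
  have a8 : 0 < dg (v + 1) Q * (M + 1) ^ (v + 1) * ρ ^ v := by
    have := hQ.one_le_dg
    positivity
  exact absurd (Nat.le_of_mul_le_mul_left a7 a8) (not_le.2 hρ)

/-- a new level -/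
theorem WS.birth (h : WS P t B f J Q w M) (hP : P.IsPrime) (hB : 1 ≤ B) {g : MvPolynomial σ ℂ}
    (h0 : g ∈ P) (hw1 : 1 ≤ w) {R : ℕ} (h2 : g.totalDegree ≤ B * (M + 1))
    (hR : ∃ i, i < R ∧ ∃ lam, (Dl f J lam)^[i] g ∉ P) {B' : ℕ}
    (hB' : (3 * Fintype.card σ + 3) ^ (3 * Fintype.card σ + 3) *
      ((R * Fintype.card σ + 1) * B) * B ≤ B') :
    ∃ (f' : Fin (c + 1) → MvPolynomial σ ℂ) (J' : Fin (c + 1) → σ) (Q' : Ideal (MvPolynomial σ ℂ))
      (w' : ℕ), WS P t B' f' J' Q' w' M := by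
  obtain ⟨hQ, hle⟩ := h.var hP
  have hw := h.hw
  obtain ⟨v, rfl⟩ : ∃ v, w = v + 1 := ⟨w - 1, by omega⟩
  have hex : ∃ i, ∃ lam, (Dl f J lam)^[i] g ∉ P := hR.imp fun i hi => hi.2
  obtain ⟨lam, a1⟩ := Nat.find_spec hex
  have a2 : Nat.find hex < R := by
    obtain ⟨i, b1, b2⟩ := hR
    exact (Nat.find_min' hex b2).trans_lt b1
  have a3 : ∀ u, u < Nat.find hex → (Dl f J lam)^[u] g ∈ P := fun u hu =>
    not_not.1 fun b => Nat.find_min hex hu ⟨lam, b⟩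
  generalize Nat.find hex = a at a1 a2 a3
  obtain ⟨a, rfl⟩ : ∃ u, a = u + 1 := ⟨a - 1, by
    rcases a with _ | a
    · exact absurd h0 a1
    · rfl⟩
  have a4 := a3 a (Nat.lt_succ_self a)
  have a5 := totalDegree_Dl_iter_le h.deg J lam a g
  rw [Function.iterate_succ_apply'] at a1
  generalize (Dl f J lam)^[a] g = g' at a1 a4 a5
  obtain ⟨k, hk⟩ : ∃ k, Dk f J k g' ∉ P := by
    by_contra hc
    push Not at hc
    exact a1 (Ideal.sum_mem _ fun k _ => by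
      rw [smul_eq_C_mul]; exact Ideal.mul_mem_left _ _ (hc k))
  have a6 : g'.totalDegree ≤ (R * Fintype.card σ + 1) * B * (M + 1) := by
    refine a5.trans ?_
    rw [Fintype.card_fin]
    calc g.totalDegree + a * (c * (B * (M + 1)))
        ≤ B * (M + 1) + R * (Fintype.card σ * (B * (M + 1))) := by gcongr <;> omega
      _ = _ := by ring
  let f' : Fin (c + 1) → MvPolynomial σ ℂ := fun i => Option.elim (finSuccEquivLast i) g' f
  let J' : Fin (c + 1) → σ := fun i => Option.elim (finSuccEquivLast i) k J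
  have b1 : minor f' J' = Dk f J k g' :=
    minor_reindex finSuccEquivLast (fun o : Option (Fin c) => o.elim g' f) fun o => o.elim k J
  have b2 : ∀ (S : MvPolynomial σ ℂ → Prop), S g' → (∀ i, S (f i)) → ∀ i, S (f' i) := by
    intro S s1 s2 i
    show S (Option.elim (finSuccEquivLast i) g' f)
    rcases finSuccEquivLast i with _ | i
    · exact s1
    · exact s2 i
  have b3 : ∀ i, f' i ∈ P := b2 (· ∈ P) a4 h.mem
  have b4 : ∀ i, (f' i).totalDegree ≤ (R * Fintype.card σ + 1) * B * (M + 1) :=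
    b2 (fun q => q.totalDegree ≤ _) a6 fun i => (h.deg i).trans
      (Nat.mul_le_mul_right _ (Nat.le_mul_of_pos_left _ (Nat.succ_pos _)))
  obtain ⟨p, c1, c2, c3, c4⟩ := h.pt hP hk
  have c5 : Simple f' J' p := ⟨fun i => c1 _ (b3 i), by rw [b1]; exact c2⟩
  have hp : 0 < (3 * Fintype.card σ + 3) ^ (3 * Fintype.card σ + 3) := by positivity
  have hB2 : (R * Fintype.card σ + 1) * B ≤ B' :=
    ((Nat.le_mul_of_pos_left _ hp).trans (Nat.le_mul_of_pos_right _ hB)).trans hB'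
  refine ⟨f', J', locP f' p, v, by omega, b3, by rw [b1]; exact hk,
    fun i => (b4 i).trans (Nat.mul_le_mul_right _ hB2), fun q d1 d2 =>
      le_antisymm (wal_same hP b3 d1 c1 c5.2) (wal_same hP b3 c1 d1 d2), h.lt, ?_⟩
  have d1 := sum_dg_children (f := f') (J := J') (s := (R * Fintype.card σ + 1) * B * (M + 1))
    (Nat.mul_pos (Nat.mul_pos (Nat.succ_pos _) hB) (Nat.succ_pos _)) b4 {p}
    (fun q hq => Finset.mem_singleton.1 hq ▸ c5) (v := v) (by simp; omega) hQ.prime hQ.H_le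
    (Fin.last c) (by
      show Option.elim (finSuccEquivLast (Fin.last c)) g' f ∉ Q
      rw [finSuccEquivLast_last]
      exact fun h3 => hk (hle (c4 ▸ Dk_mem_locP f J p k (c4.symm ▸ h3)))) (fun q hq => by
      rw [Finset.mem_singleton.1 hq, ← c4]
      refine locP_le (locP_prime c5) (fun i => ?_) (on_locP c5.1)
      have e : f i = f' (Fin.castSucc i) := by
        show f i = Option.elim (finSuccEquivLast (Fin.castSucc i)) g' f
        rw [finSuccEquivLast_castSucc]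
        rfl
      rw [e]
      exact mem_locP f' p _)
  rw [Finset.image_singleton, Finset.sum_singleton] at d1
  calc dg v (locP f' p) * (M + 1) ^ v
      ≤ (3 * Fintype.card σ + 3) ^ (3 * Fintype.card σ + 3) * dg (v + 1) Q *
          ((R * Fintype.card σ + 1) * B * (M + 1)) * (M + 1) ^ v := by
        refine Nat.mul_le_mul_right _ (d1.trans ?_)
        refine Nat.mul_le_mul_right _ (Nat.mul_le_mul_right _ ?_)
        exact (Nat.pow_le_pow_left (by omega) _).trans (Nat.pow_le_pow_right (by omega) (by omega))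
    _ = (3 * Fintype.card σ + 3) ^ (3 * Fintype.card σ + 3) * ((R * Fintype.card σ + 1) * B) *
          (dg (v + 1) Q * (M + 1) ^ (v + 1)) := by ring
    _ ≤ (3 * Fintype.card σ + 3) ^ (3 * Fintype.card σ + 3) * ((R * Fintype.card σ + 1) * B) *
          (B * H P M) := Nat.mul_le_mul_left _ h.low
    _ ≤ _ := by rw [← mul_assoc]; exact Nat.mul_le_mul_right _ hB'

theorem wal_ind (n r : ℕ) : ∃ B : ℕ, 1 ≤ B ∧ ∀ (σ : Type) [Fintype σ], Fintype.card σ = n →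
    ∀ (P : Ideal (MvPolynomial σ ℂ)) (t : ℕ), P.IsPrime → 1 ≤ t →
    ∃ (c : ℕ) (f : Fin c → MvPolynomial σ ℂ) (J : Fin c → σ) (Q : Ideal (MvPolynomial σ ℂ))
      (w M : ℕ), WS P t B f J Q w M ∧ (r ≤ c ∨ ∀ g ∈ P, g.totalDegree ≤ t → g ∈ Q) := by
  induction r with
  | zero =>
    refine ⟨1, le_rfl, fun σ _ _ P t hP ht => ⟨0, Fin.elim0, Fin.elim0, ⊥, Fintype.card σ, 0,
      ⟨rfl, fun i => i.elim0, ?_, fun i => i.elim0, fun p _ _ => locP_empty _ p, ht, ?_⟩,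
      Or.inl le_rfl⟩⟩
    · rw [minor, Matrix.det_isEmpty]
      exact fun h => hP.ne_top ((Ideal.eq_top_iff_one _).2 h)
    · obtain ⟨p, hp, -⟩ := exists_on hP (q := 1) fun h => hP.ne_top ((Ideal.eq_top_iff_one _).2 h)
      simpa using dg_bot_le.trans (one_le_H hp 0)
  | succ r ih =>
    obtain ⟨B, hB, ih⟩ := ih
    obtain ⟨B₁, h1⟩ : ∃ B₁, 2 * n * B + B +
      (2 * n + 2) ^ (2 * n) ≤ B₁ := ⟨_, le_rfl⟩
    obtain ⟨ρ, h2⟩ : ∃ ρ, B₁ * B₁ * (3 * n + 3) ^ n < ρ :=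
      ⟨_, Nat.lt_succ_self _⟩
    obtain ⟨B₂, h3⟩ : ∃ B₂, (3 * n + 3) ^ (3 * n + 3) *
      ((n * ρ * n + 1) * B₁) * B₁ ≤ B₂ := ⟨_, le_rfl⟩
    refine ⟨B + B₂, by omega, fun σ _ hn P t hP ht => ?_⟩
    subst hn
    obtain ⟨c, f, J, Q, w, M, h, hor⟩ := ih σ rfl P t hP ht
    by_cases hs : ∀ g ∈ P, g.totalDegree ≤ t → g ∈ Q
    · exact ⟨c, f, J, Q, w, M, h.mono (by omega), Or.inr hs⟩
    have hr := hor.resolve_right hs
    push Not at hs
    obtain ⟨g₀, a1, a2, a3⟩ := hs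
    obtain ⟨M', g, b1, b2, b3, b4⟩ := h.mid hP a1 a3 a2 h1
    obtain ⟨c1, c2⟩ := b1.ord hP (by omega) b2 b3 b4 h2
    obtain ⟨f', J', Q', w', d⟩ := b1.birth hP (by omega) b2 c1 b4 c2 h3
    exact ⟨c + 1, f', J', Q', w', M', d.mono (by omega), Or.inl (by omega)⟩

/-- At every scale t a variety P lies on a parent Q that is cut out, simply along P, in degree B t,
contains all equations of P of degree at most t, and whose degree is small. -/
theorem walshN (n : ℕ) : ∃ B : ℕ, 1 ≤ B ∧ ∀ (σ : Type) [Fintype σ], Fintype.card σ = n →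
    ∀ (j : ℕ) (P : Ideal (MvPolynomial σ ℂ)) (t : ℕ), IsVar j P → 1 ≤ t →
    ∃ (w c : ℕ) (f : Fin c → MvPolynomial σ ℂ) (J : Fin c → σ) (Q : Ideal (MvPolynomial σ ℂ)),
      w + c = Fintype.card σ ∧ j ≤ w ∧ (∀ i, f i ∈ P) ∧ minor f J ∉ P ∧
      (∀ i, (f i).totalDegree ≤ B * t) ∧ IsVar w Q ∧ Q ≤ P ∧
      (∀ p, On p P → eval p (minor f J) ≠ 0 → locP f p = Q) ∧
      (∀ g ∈ P, g.totalDegree ≤ t → g ∈ Q) ∧ dg w Q * t ^ (w - j) ≤ B * dg j P := by
  obtain ⟨B, hB, h⟩ := wal_ind n (n + 1)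
  refine ⟨(2 * n * B + 1) ^ n * B + (2 * n + 2) ^ (2 * n), ?_, fun σ _ hn j P t hP ht => ?_⟩
  · exact Nat.add_pos_right _ (by positivity)
  subst hn
  obtain ⟨c, f, J, Q, w, M, h, hor⟩ := h σ rfl P t hP.prime ht
  have hw := h.hw
  have hs := hor.resolve_left (by omega)
  obtain ⟨hQ, hle⟩ := h.var hP.prime
  have hj := hQ.dim_le hP hle
  have hp : 0 < (2 * Fintype.card σ * B + 1) ^ Fintype.card σ := by positivity
  refine ⟨w, c, f, J, Q, hw, hj, h.mem, h.mn, fun i => (h.deg i).trans (Nat.mul_le_mul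
    ((Nat.le_mul_of_pos_left _ hp).trans (Nat.le_add_right _ _)) h.lt), hQ, hle, h.loc, hs, ?_⟩
  obtain ⟨a, rfl⟩ := Nat.exists_eq_add_of_le hj
  rw [Nat.add_sub_cancel_left]
  have key : ∀ u C, dg (j + a) Q * (u + 1) ^ (j + a) ≤ C * H P u →
      dg (j + a) Q * (u + 1) ^ a ≤ C * dg j P := fun u C hu => by
    refine Nat.le_of_mul_le_mul_right ?_ (Nat.pow_pos (n := j) (a := u + 1) (Nat.succ_pos u))
    calc dg (j + a) Q * (u + 1) ^ a * (u + 1) ^ j = dg (j + a) Q * (u + 1) ^ (j + a) := by ring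
      _ ≤ C * (dg j P * (u + 1) ^ j) := hu.trans (Nat.mul_le_mul_left _ (hP.H_le u))
      _ = _ := by ring
  by_cases hc : 2 * (c * (B * (M + 1))) ≤ t
  · refine le_trans ?_ ((key _ _ (h.big hP.prime hc hs)).trans
      (Nat.mul_le_mul_right _ (Nat.le_add_left _ _)))
    gcongr
    omega
  · have a1 : t ≤ (2 * Fintype.card σ * B + 1) * (M + 1) :=
      calc t ≤ 2 * c * B * (M + 1) := by
            rw [show 2 * c * B * (M + 1) = 2 * (c * (B * (M + 1))) by ring]; omega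
        _ ≤ _ := by gcongr; nlinarith
    calc dg (j + a) Q * t ^ a ≤ dg (j + a) Q * ((2 * Fintype.card σ * B + 1) * (M + 1)) ^ a := by
          gcongr
      _ = (2 * Fintype.card σ * B + 1) ^ a * (dg (j + a) Q * (M + 1) ^ a) := by rw [mul_pow]; ring
      _ ≤ (2 * Fintype.card σ * B + 1) ^ Fintype.card σ * (B * dg j P) :=
          Nat.mul_le_mul (Nat.pow_le_pow_right (by omega) (by omega)) (key _ _ h.low)
      _ ≤ _ := by rw [← mul_assoc]; exact Nat.mul_le_mul_right _ (Nat.le_add_right _ _)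

theorem walshC (σ : Type) [Fintype σ] : ∃ B : ℕ, 1 ≤ B ∧ ∀ (j : ℕ) (P : Ideal (MvPolynomial σ ℂ))
    (t : ℕ), IsVar j P → 1 ≤ t →
    ∃ (w c : ℕ) (f : Fin c → MvPolynomial σ ℂ) (J : Fin c → σ) (Q : Ideal (MvPolynomial σ ℂ)),
      w + c = Fintype.card σ ∧ j ≤ w ∧ (∀ i, f i ∈ P) ∧ minor f J ∉ P ∧
      (∀ i, (f i).totalDegree ≤ B * t) ∧ IsVar w Q ∧ Q ≤ P ∧
      (∀ p, On p P → eval p (minor f J) ≠ 0 → locP f p = Q) ∧
      (∀ g ∈ P, g.totalDegree ≤ t → g ∈ Q) ∧ dg w Q * t ^ (w - j) ≤ B * dg j P :=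
  (walshN (Fintype.card σ)).imp fun _ h => ⟨h.1, h.2 σ rfl⟩

end Vale.Agent.P054S
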