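import Vale.Agent.P054S.APD
import Vale.Agent.P054S.CBez
import Vale.Agent.P054S.CWal

/-!
Commutative algebra: Bezout, Walsh lemma, density and capture.
-/

namespace Vale.Agent.P054S

open MvPolynomial Vale.Agent.P054A Sum
open scoped Classical

variable {σ : Type} [Fintype σ]

/-- Principal ideal theorem. -/
theorem purity {j : ℕ} {P R : Ideal (MvPolynomial σ ℂ)} (hP : PD (j + 1) P)
    {g : MvPolynomial σ ℂ} (hg : g ∉ P) (hR : R.IsPrime) (hPR : P ≤ R) (hgR : g ∈ R) :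
    ∃ Q, PD j Q ∧ P ≤ Q ∧ g ∈ Q ∧ Q ≤ R := by
  obtain ⟨T, h1, -, h2, -⟩ := hP.var.children hg (m := g.totalDegree + 1) (by omega) (by omega)
  obtain ⟨Q, a1, a2⟩ := h2 R hR hPR hgR
  exact ⟨Q, (h1 Q a1).1.pd, (h1 Q a1).2.1, (h1 Q a1).2.2, a2⟩

/-- The degrees of the top dimensional primes above an ideal. -/
theorem sum_dg_of_H {j a : ℕ} {I : Ideal (MvPolynomial σ ℂ)}
    (ha : ∀ M, H I M ≤ a * (M + 1) ^ j) (𝒬 : Finset (Ideal (MvPolynomial σ ℂ)))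
    (h : ∀ Q ∈ 𝒬, PD j Q ∧ I ≤ Q) : ∑ Q ∈ 𝒬, dg j Q ≤ (2 * j + 2) ^ (3 * j) * a := by
  refine (sum_dg_asym 𝒬 (fun Q hQ => (h Q hQ).1.var) (fun Q hQ => (h Q hQ).2) ha).trans
    (Nat.mul_le_mul_right _ ?_)
  rcases Nat.eq_zero_or_pos j with rfl | hj
  · simp
  calc (4 * j + 4) ^ (2 * j) = (2 * j + 2) ^ (2 * j) * 4 ^ j := by
        rw [show 4 * j + 4 = (2 * j + 2) * 2 by ring, mul_pow, pow_mul 2 2 j]
        rfl
    _ ≤ (2 * j + 2) ^ (2 * j) * (2 * j + 2) ^ j := by gcongr; omega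
    _ = _ := by rw [← pow_add]; congr 1; ring

/-- Bezout for an arbitrary prime. -/
theorem bz {j m : ℕ} {P : Ideal (MvPolynomial σ ℂ)} (hP : PD (j + 1) P) {g : MvPolynomial σ ℂ}
    (hg : g ∉ P) (hm : g.totalDegree ≤ m) (h1 : 1 ≤ m) :
    ∃ 𝒬 : Finset (Ideal (MvPolynomial σ ℂ)), (∀ Q ∈ 𝒬, PD j Q ∧ P ≤ Q ∧ g ∈ Q) ∧
      (∀ R : Ideal (MvPolynomial σ ℂ), R.IsPrime → P ≤ R → g ∈ R → ∃ Q ∈ 𝒬, Q ≤ R) ∧
      (∀ p, On p P → eval p g = 0 → ∃ Q ∈ 𝒬, On p Q) ∧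
      ∑ Q ∈ 𝒬, dg j Q ≤ (6 * j + 6) ^ (3 * j + 1) * dg (j + 1) P * m := by
  obtain ⟨T, a1, -, a2, a3⟩ := hP.var.children hg hm h1
  refine ⟨T, fun Q hQ => ⟨(a1 Q hQ).1.pd, (a1 Q hQ).2⟩, a2, a3, ?_⟩
  refine (sum_dg_of_H (H_sec hP.prime hP.H_le hg hm h1) T fun Q hQ => ⟨(a1 Q hQ).1.pd,
    sup_le (a1 Q hQ).2.1 ((Ideal.span_singleton_le_iff_mem _).2 (a1 Q hQ).2.2)⟩).trans ?_
  rw [← mul_assoc, ← mul_assoc]
  refine Nat.mul_le_mul_right _ (Nat.mul_le_mul_right _ ?_)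
  rw [show 6 * j + 6 = (2 * j + 2) * 3 by ring, mul_pow]
  exact Nat.mul_le_mul (Nat.pow_le_pow_right (by omega) (by omega))
    (Nat.pow_le_pow_right (by omega) (by omega))

/-- An isolated component has a generically simple system of comparable degree. -/
theorem ss (n : ℕ) : ∃ c : ℕ, ∀ (σ : Type) [Fintype σ], Fintype.card σ = n →
    ∀ (j s : ℕ) (P : Ideal (MvPolynomial σ ℂ)), 1 ≤ s → PD j P → P ∈ (low P s).minimalPrimes →
      ∃ (f : Fin (n - j) → MvPolynomial σ ℂ) (J : Fin (n - j) → σ), Sys P (c * s) f J := by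
  obtain ⟨B, -, h⟩ := walshN n
  refine ⟨B, fun σ _ hn j s P hs hP hmin => ?_⟩
  obtain ⟨w, c, f, J, Q, a1, -, a3, a4, a5, a6, a7, -, a9, -⟩ := h σ hn j P s hP.var hs
  have b1 : P = Q := le_antisymm (hmin.2 ⟨a6.prime, Ideal.span_le.2 fun g hg => a9 g hg.1 hg.2⟩ a7) a7
  subst b1
  obtain rfl : c = n - j := by have := hP.unique a6.pd; omega
  exact ⟨f, J, fun i => ⟨a3 i, a5 i⟩, a4⟩

/-- Lower bound for the Hilbert function of an isolated component. -/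
theorem cp (n : ℕ) : ∃ c : ℕ, ∀ (σ : Type) [Fintype σ], Fintype.card σ = n →
    ∀ (j s : ℕ) (P : Ideal (MvPolynomial σ ℂ)), 1 ≤ s → PD j P → P ∈ (low P s).minimalPrimes →
      ∀ M, dg j P * (M + 1) ^ j ≤ (j + 1) ^ j * H P (j * M + c * s) := by
  obtain ⟨c, h⟩ := ss n
  refine ⟨n * c, fun σ _ hn j s P hs hP hmin M => ?_⟩
  obtain ⟨f, J, hf⟩ := h σ hn j s P hs hP hmin
  have hj := hP.1
  obtain ⟨p, h1, h2⟩ := exists_on_ne hP.prime hf.2
  obtain ⟨h3, h4⟩ := hP.locP_eq (f := f) (J := J) (by simp; omega) (fun i => (hf.1 i).1) h1 h2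
  have h5 := sum_dg_le (fun i => (hf.1 i).2) {p} (fun q hq => Finset.mem_singleton.1 hq ▸ h3)
    (v := j) (by simp; omega) (I := P) (fun q hq => Finset.mem_singleton.1 hq ▸ h4.ge) M
  rw [Finset.image_singleton, Finset.sum_singleton, h4] at h5
  refine h5.trans (Nat.mul_le_mul_left _ (H_mono _ (Nat.add_le_add_left ?_ _)))
  rw [Fintype.card_fin, mul_assoc]
  exact Nat.mul_le_mul_right _ (Nat.sub_le _ _)

/-- The variety seen by the equations of low degree. -/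
theorem walsh (n : ℕ) : ∃ c : ℕ, ∀ lam : ℕ, 1 ≤ lam → ∀ (σ : Type) [Fintype σ],
    Fintype.card σ = n → ∀ (P : Ideal (MvPolynomial σ ℂ)) (M : ℕ), P.IsPrime → 1 ≤ M →
      ∃ (s v : ℕ) (Q : Ideal (MvPolynomial σ ℂ)), M ≤ s ∧ s ≤ lam ^ (n + 1) * M ∧ PD v Q ∧ Q ≤ P ∧
        (∀ g ∈ P, g.totalDegree ≤ lam * s → g ∈ Q) ∧
        ∃ (f : Fin (n - v) → MvPolynomial σ ℂ) (J : Fin (n - v) → σ), Sys Q (c * s) f J := by
  obtain ⟨B, hB, h⟩ := walshN n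
  refine ⟨B * B, fun lam hl σ _ hn P M hP hM => ?_⟩
  obtain ⟨j, hj⟩ := exists_isVar hP
  have hpos : ∀ i, 1 ≤ lam ^ i * M := fun i => Nat.mul_pos (Nat.pow_pos hl) hM
  by_cases hlB : lam < B
  · obtain ⟨w, c, f, J, Q, a1, -, a3, a4, a5, a6, a7, a8, a9, -⟩ :=
      h σ hn j P (lam * M) hj (Nat.mul_pos hl hM)
    obtain rfl : c = n - w := by omega
    obtain ⟨p, b1, b2⟩ := exists_on hP a4
    refine ⟨M, w, Q, le_rfl, Nat.le_mul_of_pos_left _ (Nat.pow_pos hl), a6.pd, a7, a9, f, J,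
      fun i => ⟨a8 p b1 b2 ▸ mem_locP f p i, (a5 i).trans ?_⟩, fun h0 => a4 (a7 h0)⟩
    rw [mul_assoc]
    gcongr
  choose w c f J Q a1 a2 a3 a4 a5 a6 a7 a8 a9 a10 using
    fun i => h σ hn j P (lam ^ i * M) hj (hpos i)
  have hle : ∀ i, Q i ≤ Q (i + 1) := fun i => by
    obtain ⟨p, b1, b2⟩ := exists_on hP (a4 i)
    rw [← a8 i p b1 b2]
    refine locP_le (a6 _).prime (fun l => a9 _ _ (a3 i l) ((a5 i l).trans ?_))
      fun g hg => b1 g (a7 _ hg)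
    rw [pow_succ', mul_assoc]
    exact Nat.mul_le_mul_right _ (not_lt.1 hlB)
  obtain ⟨i, hi, he⟩ : ∃ i, i ≤ n ∧ w (i + 1) = w i := by
    by_contra hc
    push Not at hc
    have key : ∀ i, i ≤ n + 1 → w i + i ≤ n := fun i => by
      induction i with
      | zero => have := a1 0; omega
      | succ i ih =>
        intro hi
        have b1 := (a6 i).dim_le (a6 (i + 1)) (hle i)
        have b2 := hc i (by omega)
        have b3 := ih (by omega)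
        omega
    have := key (n + 1) le_rfl
    omega
  have hQ : Q i = Q (i + 1) := (a6 i).eq_of_le (he ▸ a6 (i + 1)) (hle i)
  have b1 := a1 i
  have b3 := a3 i
  have b4 := a4 i
  have b5 := a5 i
  have b8 := a8 i
  have b9 := a9 (i + 1)
  rw [← hQ, pow_succ', mul_assoc] at b9
  generalize J i = J' at b4 b8
  generalize f i = f' at b3 b4 b5 b8
  generalize c i = c' at b1 f' J' b3 b4 b5 b8
  obtain rfl : c' = n - w i := by omega
  obtain ⟨p, d1, d2⟩ := exists_on hP b4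
  refine ⟨lam ^ i * M, w i, Q i, Nat.le_mul_of_pos_left _ (Nat.pow_pos hl),
    Nat.mul_le_mul_right _ (Nat.pow_le_pow_right hl (by omega)), (a6 i).pd, a7 i, b9, f', J',
    fun l => ⟨b8 p d1 d2 ▸ mem_locP f' p l, (b5 l).trans ?_⟩, fun h0 => b4 (a7 i h0)⟩
  exact Nat.mul_le_mul_right _ (Nat.le_mul_of_pos_left _ hB)

theorem cap_dens (n : ℕ) : ∃ c : ℕ, ∀ (σ : Type) [Fintype σ], Fintype.card σ = n →
    ∀ (S : Finset (σ → ℂ)) (M j₀ : ℕ), 1 ≤ M → CapT S M j₀ → Dens S (c * M) j₀ := by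
  refine ⟨cB n, fun σ _ hn S M j₀ hM h j => ?_⟩
  subst hn
  induction j with
  | zero => exact fun _ P hP => by simpa using (hP.card_zs_le_one S).trans hP.one_le_dg
  | succ j ih =>
    intro hj P hP
    obtain ⟨g, a1, a2, a3⟩ := h (j + 1) (by omega) hj P hP
    have b1 := hP.var.card_sec a1 a2 hM S (a := (cB (Fintype.card σ) * M) ^ j) (b := 1)
      fun Q hQ _ _ => by
        rw [mul_one, mul_comm, ← zs_eq]
        exact ih (by omega) Q hQ.pd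
    rw [mul_one, Finset.filter_true_of_mem fun p hp => a3 p (mem_onT.1 hp).1 (mem_onT.1 hp).2,
      ← zs_eq] at b1
    refine b1.trans (le_of_eq ?_)
    ring

theorem dens_cap (n : ℕ) : ∃ c : ℕ, ∀ (σ : Type) [Fintype σ], Fintype.card σ = n →
    ∀ (S : Finset (σ → ℂ)) (M : ℕ), 1 ≤ M → Dens S M n → CapT S (c * M) n := by
  obtain ⟨c, h⟩ := walsh n
  obtain ⟨K, hK⟩ : ∃ K, K = (2 * n + 2) ^ (2 * n) := ⟨_, rfl⟩
  have hK1 : 1 ≤ K := hK ▸ Nat.pow_pos (by omega)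
  refine ⟨(2 * n * c + K) ^ (n + 2), fun σ _ hn S M hM hD j h1 _ P hP => ?_⟩
  obtain ⟨s, v, Q, a1, a2, a3, a4, a5, f, J, a6⟩ := h (2 * n * c + K) (by omega) σ hn P M hP.prime hM
  have b1 := a3.dim_le hP a4
  have b2 := a3.1
  have b3 := a3.dg_le_H (by omega) a6 (M := (2 * n * c + K) * s) (by
    calc 2 * ((n - v) * (c * s)) = 2 * (n - v) * c * s := by ring
      _ ≤ 2 * n * c * s := by gcongr; omega
      _ ≤ _ := Nat.mul_le_mul_right _ (by omega))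
  have b4 := hD v (by omega) Q a3
  have b5 := H_vanI_le_card (zs S Q) ((2 * n * c + K) * s)
  have b6 : (2 * v + 2) ^ (2 * v) ≤ K := hK ▸
    (Nat.pow_le_pow_left (by omega) _).trans (Nat.pow_le_pow_right (by omega) (by omega))
  have b7 : K * M ^ v < ((2 * n * c + K) * s + 1) ^ v :=
    calc K * M ^ v ≤ K ^ v * M ^ v := Nat.mul_le_mul_right _ (Nat.le_self_pow (by omega) _)
      _ = (K * M) ^ v := (mul_pow _ _ _).symm
      _ < _ := Nat.pow_lt_pow_left (Nat.lt_succ_of_le (Nat.mul_le_mul (by omega) a1)) (by omega)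
  have b8 : dg v Q * M ^ v < H Q ((2 * n * c + K) * s) := by
    refine Nat.lt_of_mul_lt_mul_left (a := K) ?_
    calc K * (dg v Q * M ^ v) = dg v Q * (K * M ^ v) := by ring
      _ < dg v Q * ((2 * n * c + K) * s + 1) ^ v := Nat.mul_lt_mul_of_pos_left b7 a3.one_le_dg
      _ ≤ _ := b3.trans (Nat.mul_le_mul_right _ b6)
  obtain ⟨g, d1, d2, d3⟩ := exists_notin_of_H_lt (I := Q)
    (J := vanI ((zs S Q : Finset (σ → ℂ)) : Set (σ → ℂ))) ((b5.trans b4).trans_lt b8)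
  refine ⟨g, fun h0 => d2 (a5 g h0 d3), d3.trans ?_, fun p e1 e2 =>
    d1 p (Finset.mem_coe.2 (mem_zs.2 ⟨e1, fun q hq => e2 q (a4 hq)⟩))⟩
  rw [pow_succ', mul_assoc _ _ M]
  exact Nat.mul_le_mul_left _ a2

end Vale.Agent.P054S
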