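import Vale.Agent.P054S.CCDef

/-!
Arithmetic of the scales.
-/

namespace Vale.Agent.P054S

open MvPolynomial Vale.Agent.P054A
open scoped Classical

variable {k d : ℕ}

theorem ar_s {N η s i j u d : ℕ} (h : N ≤ η * 2 ^ (s * (d - j))) (hj : j < u) (hu : u ≤ d)
    (hs : s ≤ i) : N ≤ η * (2 * 2 ^ i) ^ (u - j) * 2 ^ ((s - (i - s) / d) * (d - u)) := by
  obtain ⟨A, rfl⟩ := Nat.exists_eq_add_of_lt hj
  obtain ⟨B, rfl⟩ := Nat.exists_eq_add_of_le hu
  obtain ⟨t, rfl⟩ := Nat.exists_eq_add_of_le hs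
  rw [show j + A + 1 + B - j = A + 1 + B by omega] at h
  rw [show j + A + 1 - j = A + 1 by omega, Nat.add_sub_cancel_left, Nat.add_sub_cancel_left,
    ← pow_succ', ← pow_mul, mul_assoc, ← pow_add]
  refine h.trans (Nat.mul_le_mul_left _ (Nat.pow_le_pow_right two_pos ?_))
  have h1 := Nat.div_mul_le_self t (j + A + 1 + B)
  generalize t / (j + A + 1 + B) = a at h1 ⊢
  have h2 : s * B ≤ (s - a + a) * B := Nat.mul_le_mul_right _ (by omega)
  generalize s - a = c at h2 ⊢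
  nlinarith [Nat.zero_le (a * (j + A + 1)), Nat.zero_le (t * A)]

theorem ar_tau {N τ η s i j u d : ℕ} (hN : τ ^ d ≤ N ^ 2) (hη : τ ^ j ≤ η ^ 2)
    (h : N ≤ η * 2 ^ (s * (d - j))) (hj : j < u) (hu : u ≤ d) (hs : s ≤ i) :
    τ ^ u ≤ (η * (2 * 2 ^ i) ^ (u - j)) ^ 2 := by
  have h1 : 2 ^ s ≤ 2 * 2 ^ i := (Nat.pow_le_pow_right two_pos hs).trans (by omega)
  refine le_trans ?_ (Nat.pow_le_pow_left (Nat.mul_le_mul_left η (Nat.pow_le_pow_left h1 _)) 2)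
  obtain ⟨A, rfl⟩ := Nat.exists_eq_add_of_le hj.le
  obtain ⟨B, rfl⟩ := Nat.exists_eq_add_of_le hu
  rw [show j + A + B - j = A + B by omega, pow_mul] at h
  rw [Nat.add_sub_cancel_left]
  have h0 : 0 < 2 ^ s := by positivity
  generalize 2 ^ s = w at h h0 ⊢
  rcases le_total τ (w ^ 2) with hw | hw
  · calc τ ^ (j + A) = τ ^ j * τ ^ A := pow_add _ _ _
      _ ≤ η ^ 2 * (w ^ 2) ^ A := Nat.mul_le_mul hη (Nat.pow_le_pow_left hw _)
      _ = _ := by ring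
  · refine Nat.le_of_mul_le_mul_right (c := (w ^ 2) ^ B) ?_ (by positivity)
    calc τ ^ (j + A) * (w ^ 2) ^ B ≤ τ ^ (j + A) * τ ^ B :=
          Nat.mul_le_mul_left _ (Nat.pow_le_pow_left hw _)
      _ = τ ^ (j + A + B) := (pow_add _ _ _).symm
      _ ≤ (η * w ^ (A + B)) ^ 2 := hN.trans (Nat.pow_le_pow_left h 2)
      _ = _ := by ring

theorem ar_pow {η E j u : ℕ} (h : E ^ j ≤ η) (hj : j ≤ u) : E ^ u ≤ η * E ^ (u - j) := by
  obtain ⟨A, rfl⟩ := Nat.exists_eq_add_of_le hj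
  rw [Nat.add_sub_cancel_left, pow_add]
  exact Nat.mul_le_mul_right _ h

theorem ar_four (s a : ℕ) : (4 : ℝ) ^ (s - a) ≤ 4 ^ s * (1 / 2) ^ a + 1 := by
  rcases le_total a s with h | h
  · obtain ⟨t, rfl⟩ := Nat.exists_eq_add_of_le h
    have h1 : (1 : ℝ) ≤ (4 * (1 / 2)) ^ a := one_le_pow₀ (by norm_num)
    have h2 := mul_le_mul_of_nonneg_left h1 (show (0 : ℝ) ≤ 4 ^ t by positivity)
    rw [Nat.add_sub_cancel_left, pow_add]
    rw [mul_pow] at h2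
    linarith
  · rw [Nat.sub_eq_zero_of_le h, pow_zero]
    exact le_add_of_nonneg_left (by positivity)

theorem ar_mass {N η s i j k : ℕ} (h : N ≤ η * 2 ^ (s * (k + 1 - j))) (hs : s ≤ i)
    (hj : j + 2 ≤ k) : (N : ℝ) ≤ η * ((2 : ℝ) ^ i) ^ (k - (j + 1))
      * (4 ^ s * (1 / 2) ^ ((i - s) / (k + 1))) := by
  obtain ⟨B, rfl⟩ := Nat.exists_eq_add_of_le hj
  obtain ⟨t, rfl⟩ := Nat.exists_eq_add_of_le hs
  rw [show j + 2 + B + 1 - j = B + 3 by omega] at h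
  rw [show j + 2 + B - (j + 1) = B + 1 by omega, Nat.add_sub_cancel_left]
  have h1 : t / (j + 2 + B + 1) ≤ t := Nat.div_le_self _ _
  generalize t / (j + 2 + B + 1) = a at h1
  have h2 : N * 2 ^ a ≤ η * (2 ^ (s + t)) ^ (B + 1) * 4 ^ s := by
    refine (Nat.mul_le_mul_right _ h).trans ?_
    rw [show (4 : ℕ) = 2 ^ 2 by norm_num, ← pow_mul, ← pow_mul, mul_assoc, mul_assoc, ← pow_add,
      ← pow_add]
    refine Nat.mul_le_mul_left _ (Nat.pow_le_pow_right two_pos ?_)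
    nlinarith [Nat.zero_le (t * B)]
  have h3 : (N : ℝ) * 2 ^ a ≤ η * (2 ^ (s + t)) ^ (B + 1) * 4 ^ s := by exact_mod_cast h2
  rw [one_div, inv_pow, ← mul_assoc, ← div_eq_mul_inv, le_div_iff₀ (by positivity)]
  exact h3

theorem ar_phi {d : ℕ} (hd : 1 ≤ d) (n : ℕ) :
    ∑ m ∈ Finset.range n, (1 / 2 : ℝ) ^ (m / d) ≤ 2 * d := by
  have h1 : ∀ q : ℕ, ∑ m ∈ Finset.range (d * q), (1 / 2 : ℝ) ^ (m / d) =
      2 * d * (1 - (1 / 2) ^ q) := by
    intro q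
    induction q with
    | zero => simp
    | succ q ih =>
      rw [Nat.mul_succ, Finset.sum_range_add, ih, Finset.sum_congr rfl
        (g := fun _ => (1 / 2 : ℝ) ^ q) fun x hx => by
          rw [Nat.mul_add_div hd, Nat.div_eq_of_lt (Finset.mem_range.1 hx), add_zero],
        Finset.sum_const, Finset.card_range, nsmul_eq_mul]
      ring
  refine (Finset.sum_le_sum_of_subset_of_nonneg
    (Finset.range_subset_range.2 (Nat.le_mul_of_pos_left n hd)) fun _ _ _ => by positivity).trans ?_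
  rw [h1]
  exact mul_le_of_le_one_right (by positivity) (sub_le_self _ (by positivity))

theorem ar_lam (i n : ℕ) : ((i : ℝ) + 1) ^ (n + 1) + (i + 2) ^ n ≤ (i + 2) ^ (n + 1) := by
  have h0 : (0 : ℝ) ≤ (i : ℝ) + 1 := by positivity
  have h1 := mul_le_mul_of_nonneg_left
    (pow_le_pow_left₀ h0 (show (i : ℝ) + 1 ≤ i + 2 by linarith) n) h0
  rw [pow_succ', pow_succ']
  linarith

theorem ar_ext {N η s i n : ℕ} (h : N ≤ η * 2 ^ (s * n)) (hs : s ≤ i) : N ≤ η * (2 ^ i) ^ n := by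
  rw [← pow_mul]
  exact h.trans (Nat.mul_le_mul_left _
    (Nat.pow_le_pow_right two_pos (Nat.mul_le_mul_right _ hs)))

end Vale.Agent.P054S
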