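import Vale.Agent.P054S.APD

/-!
Cones, flats and vertices.
-/

namespace Vale.Agent.P054S

open MvPolynomial Vale.Agent.P054A
open scoped Classical

noncomputable section

variable {k d : ℕ} {σ : Type}

/-- The direction from a real point to a complex point. -/
def dirC (p : Pt (k + 1)) (x : Fin (k + 1) → ℂ) : Fin k → ℂ :=
  fun i => (x i.succ - p i.succ) / (x 0 - p 0)

theorem dirC_cx (p q : Pt (k + 1)) : dirC p (cx q) = dir p q := by
  funext i
  simp [dirC, dir, cx]

/-- `V` lies on the cone over `Y` with vertex `p`. -/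
def InCone (p : Pt (k + 1)) (V : Ideal (MvPolynomial (Fin (k + 1)) ℂ))
    (Y : Ideal (MvPolynomial (Fin k) ℂ)) : Prop :=
  ∀ x, On x V → x 0 ≠ p 0 → On (dirC p x) Y

/-- `V` is generated by affine forms. -/
def Flat [Fintype σ] (V : Ideal (MvPolynomial σ ℂ)) : Prop := V ≤ low V 1

/-- The points of `P` on `V`. -/
def ptsOn (P : Finset (Pt d)) (V : Ideal (MvPolynomial (Fin d) ℂ)) : Finset (Pt d) :=
  P.filter fun q => On (cx q) V

theorem mem_ptsOn {P : Finset (Pt d)} {V : Ideal (MvPolynomial (Fin d) ℂ)} {q : Pt d} :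
    q ∈ ptsOn P V ↔ q ∈ P ∧ On (cx q) V := Finset.mem_filter

/-- The points of `P` on `V` do not lie in a hyperplane section. -/
def Spans (P : Finset (Pt d)) (V : Ideal (MvPolynomial (Fin d) ℂ)) : Prop :=
  ∀ g, g ∉ V → g.totalDegree ≤ 1 → ∃ q ∈ P, On (cx q) V ∧ eval (cx q) g ≠ 0

/-- `U` is a cone with vertex `p`. -/
def Vert (p : Pt d) (U : Ideal (MvPolynomial (Fin d) ℂ)) : Prop :=
  On (cx p) U ∧ ∀ x, On x U → ∀ s : ℂ, On (cx p + s • (x - cx p)) U

/-- The point of the cone with height `s` and direction `y`. -/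
def conePt (p : Pt (k + 1)) (s : ℂ) (y : Fin k → ℂ) : Fin (k + 1) → ℂ :=
  cx p + s • Fin.cons 1 y

/-- The ideal of the cone over `Y` with vertex `p`. -/
def coneI (p : Pt (k + 1)) (Y : Ideal (MvPolynomial (Fin k) ℂ)) :
    Ideal (MvPolynomial (Fin (k + 1)) ℂ) :=
  vanI {x | ∃ s y, On y Y ∧ x = conePt p s y}

/-- The first coordinates are distinct. -/
def Sep0 (P : Finset (Pt (k + 1))) : Prop := ∀ p ∈ P, ∀ q ∈ P, p ≠ q → p 0 ≠ q 0

end

end Vale.Agent.P054S
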