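import Vale.Agent.P054S.Alg
import Vale.Agent.P054S.CFDef

/-!
Classes of points and their nodes.
-/

namespace Vale.Agent.P054S

open MvPolynomial Vale.Agent.P054A
open scoped Classical

noncomputable section

variable {k d : ℕ}

/-- Polynomial ideals in `d` variables. -/
abbrev Id (d : ℕ) : Type := Ideal (MvPolynomial (Fin d) ℂ)

/-- The standing hypotheses. -/
structure Std (P : Finset (Pt (k + 1))) (τ Z : ℕ) : Prop where
  nd : nd2 P ≤ τ
  big : τ ^ (k + 1) ≤ P.card ^ 2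
  sep : Sep0 P
  zpos : 1 ≤ Z
  zle : Z ^ 200 ≤ τ

/-- Every line holds at most `τ ^ (31 / 32)` points of `T`. -/
def Poor (T : Finset (Pt d)) (τ : ℕ) : Prop :=
  ∀ L : Id d, PD 1 L → Flat L → (ptsOn T L).card ^ 32 ≤ τ ^ 31

/-- Varieties of dimension `x ≥ j` hold at most `η E ^ (x - j)` points of `T` per degree. -/
def Cap (T : Finset (Pt d)) (j η E : ℕ) : Prop :=
  ∀ x, j ≤ x → ∀ X : Id d, PD x X → (ptsOn T X).card ≤ dg x X * (η * E ^ (x - j))

/-- The points with the same node as `q`. -/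
def fib (Q : Finset (Pt d)) (V : Pt d → Id d) (q : Pt d) : Finset (Pt d) :=
  Q.filter fun q' => V q' = V q

/-- Nodes of dimension `w` with `η` points per degree, cut out in degree `c t` and robust in
degrees below `t / c`. -/
structure Nodes (c : ℕ) (Q : Finset (Pt d)) (V : Pt d → Id d) (w η t : ℕ) : Prop where
  pd : ∀ q ∈ Q, PD w (V q)
  on : ∀ q ∈ Q, On (cx q) (V q)
  lo : ∀ q ∈ Q, dg w (V q) * η ≤ c * (fib Q V q).card
  hi : ∀ q ∈ Q, (fib Q V q).card ≤ dg w (V q) * η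
  sys : ∀ q ∈ Q, ∃ (f : Fin (d - w) → MvPolynomial (Fin d) ℂ) (J : Fin (d - w) → Fin d),
    Sys (V q) (c * t) f J
  rob : ∀ q ∈ Q, ∀ g, g ∉ V q → ∀ e, 1 ≤ e → g.totalDegree ≤ e →
    t * ((fib Q V q).filter fun q' => eval (cx q') g = 0).card ≤ c * e * (fib Q V q).card

/-- The multiplicity bound for one class of nodes, with the exceptional pairs `B`. -/
def MLB (P Q : Finset (Pt (k + 1))) (V : Pt (k + 1) → Id (k + 1)) (w η t τ Z K : ℕ)
    (B : Finset (Pt (k + 1) × Pt (k + 1))) : Prop :=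
  ∀ p ∈ P, ∀ Y : Id k, PD w Y →
    ((Q.filter fun q => (p, q) ∉ B ∧ q ≠ p ∧ InCone p (V q) Y).card : ℝ)
      ≤ K * dg w Y * η * (1 + τ * Q.card / (t * P.card) + τ / (t * Z))

/-- The total degree of a family. -/
def tdg (w : ℕ) (𝒴 : Finset (Id k)) : ℕ := ∑ Y ∈ 𝒴, dg w Y

/-- The partners of `p` in `T` outside `B` on the cones over the members of `𝒴`. -/
def cvr (p : Pt (k + 1)) (T : Finset (Pt (k + 1))) (B : Finset (Pt (k + 1) × Pt (k + 1)))
    (𝒴 : Finset (Id k)) : Finset (Pt (k + 1)) :=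
  T.filter fun q => (p, q) ∉ B ∧ q ≠ p ∧ ∃ Y ∈ 𝒴, On (dir p q) Y

/-- The covering claim for `T` in dimensions `j < w < k`. -/
def Cl (P T : Finset (Pt (k + 1))) (j : ℕ) (G : ℕ → ℝ) (β γ : ℝ) : Prop :=
  ∃ B : Finset (Pt (k + 1) × Pt (k + 1)), (B.card : ℝ) ≤ β * P.card * T.card + γ ∧
    ∀ p ∈ P, ∀ w, j < w → w < k → ∀ 𝒴 : Finset (Id k), (∀ Y ∈ 𝒴, PD w Y) →
      ((cvr p T B 𝒴).card : ℝ) ≤ G w * tdg w 𝒴 + β * T.card

end

end Vale.Agent.P054S
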