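import Vale.Agent.P054S.CFBr

/-!
Cones over varieties of directions.
-/

namespace Vale.Agent.P054S

open MvPolynomial Module Vale.Agent.P054A
open scoped Classical

noncomputable section

variable {k : ℕ} {p : Pt (k + 1)} {Y : Ideal (MvPolynomial (Fin k) ℂ)}
  {U V : Ideal (MvPolynomial (Fin (k + 1)) ℂ)} {i j w : ℕ}

theorem conePt_dirC {x : Fin (k + 1) → ℂ} (h : x 0 ≠ p 0) :
    conePt p (x 0 - p 0) (dirC p x) = x := by
  funext l
  have h0 := sub_ne_zero.2 h
  refine Fin.cases ?_ (fun l => ?_) l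
  · simp [conePt, cx]
  · simp only [conePt, cx, dirC, Pi.add_apply, Pi.smul_apply, Fin.cons_succ, smul_eq_mul]
    field_simp
    ring

theorem sub_eq_dirC {x : Fin (k + 1) → ℂ} (h : x 0 ≠ p 0) :
    x - cx p = (x 0 - p 0) • (Fin.cons 1 (dirC p x) : Fin (k + 1) → ℂ) := by
  conv_lhs => rw [← conePt_dirC h, conePt, add_sub_cancel_left]

theorem cone_slice (p : Pt (k + 1)) (g : MvPolynomial (Fin (k + 1)) ℂ) (s : ℂ) :
    ∃ G : MvPolynomial (Fin k) ℂ, G.totalDegree ≤ g.totalDegree ∧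
      G = aeval (fun l => C (cx p l) + C s * (Fin.cons 1 X : Fin (k + 1) → _) l) g ∧
      ∀ y, eval y G = eval (conePt p s y) g := by
  refine ⟨_, ?_, rfl, fun y => ?_⟩
  · refine (totalDegree_aeval_le (s := 1) _ (fun l => ?_) g).trans (by omega)
    refine (totalDegree_add _ _).trans (max_le (by simp) ((totalDegree_mul _ _).trans ?_))
    refine Fin.cases ?_ (fun l => ?_) l <;> simp
  · rw [cf_eval_aeval]
    congr 2
    funext l
    refine Fin.cases ?_ (fun l => ?_) l <;> simp [conePt]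

theorem cone_ray (p : Pt (k + 1)) (g : MvPolynomial (Fin (k + 1)) ℂ) (y : Fin k → ℂ) :
    ∃ G : Polynomial ℂ, G.natDegree ≤ g.totalDegree ∧
      ∀ s, G.eval s = eval (conePt p s y) g := by
  refine ⟨aeval (fun l => Polynomial.C ((Fin.cons 1 y : Fin (k + 1) → ℂ) l) * Polynomial.X
    + Polynomial.C (cx p l)) g, ?_, fun s => ?_⟩
  · simpa using aeval_natDegree_le g le_rfl _ fun l => Polynomial.natDegree_linear_le
  · induction g using MvPolynomial.induction_on with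
    | C a => simp
    | add p q hp hq => simp only [map_add, Polynomial.eval_add, hp, hq]
    | mul_X q l hq =>
      simp only [map_mul, Polynomial.eval_mul, hq, aeval_X, eval_X, Polynomial.eval_add,
        Polynomial.eval_C, Polynomial.eval_X]
      rw [conePt, Pi.add_apply, Pi.smul_apply, smul_eq_mul]
      ring

theorem mem_coneI {g : MvPolynomial (Fin (k + 1)) ℂ} :
    g ∈ coneI p Y ↔ ∀ s y, On y Y → eval (conePt p s y) g = 0 :=
  ⟨fun h s y hy => h _ ⟨s, y, hy, rfl⟩, fun h _ ⟨s, y, hy, e⟩ => e ▸ h s y hy⟩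

theorem coneI_prime (p : Pt (k + 1)) (hY : Y.IsPrime) : (coneI p Y).IsPrime := by
  refine ⟨fun e => ?_, fun {g h} hgh => ?_⟩
  · obtain ⟨y, hy⟩ := cf_exists_on hY
    simpa using mem_coneI.1 ((Ideal.eq_top_iff_one _).1 e) 0 y hy
  by_contra hc
  simp only [not_or, mem_coneI, not_forall] at hc
  obtain ⟨⟨s, y, hy, h1⟩, s', y', hy', h2⟩ := hc
  obtain ⟨G, -, -, hG⟩ := cone_slice p g s
  obtain ⟨G', -, -, hG'⟩ := cone_slice p h s'
  obtain ⟨u, hu, h3⟩ := exists_on_ne hY (g := G * G') fun e =>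
    (hY.mem_or_mem e).elim (fun e => h1 (hG y ▸ hy G e)) fun e => h2 (hG' y' ▸ hy' G' e)
  rw [map_mul, hG, hG'] at h3
  obtain ⟨A, -, hA⟩ := cone_ray p g u
  obtain ⟨A', -, hA'⟩ := cone_ray p h u
  have h4 : A * A' = 0 := Polynomial.funext fun t => by
    rw [Polynomial.eval_mul, hA, hA', ← map_mul, mem_coneI.1 hgh t u hu, Polynomial.eval_zero]
  rcases mul_eq_zero.1 h4 with e | e
  · exact left_ne_zero_of_mul h3 (by rw [← hA, e, Polynomial.eval_zero])
  · exact right_ne_zero_of_mul h3 (by rw [← hA', e, Polynomial.eval_zero])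

theorem H_coneI (p : Pt (k + 1)) (Y : Ideal (MvPolynomial (Fin k) ℂ)) (M : ℕ) :
    H (coneI p Y) M ≤ (M + 1) * H Y M := by
  let W := (restrictTotalDegree (Fin k) ℂ M).map (Ideal.Quotient.mkₐ ℂ Y).toLinearMap
  let φ : ℂ → MvPolynomial (Fin (k + 1)) ℂ →ₐ[ℂ] MvPolynomial (Fin k) ℂ := fun s =>
    aeval fun l => C (cx p l) + C s * (Fin.cons 1 X : Fin (k + 1) → _) l
  let f : restrictTotalDegree (Fin (k + 1)) ℂ M →ₗ[ℂ] (Fin (M + 1) → W) :=
    LinearMap.pi fun n => LinearMap.codRestrict W ((Ideal.Quotient.mkₐ ℂ Y).toLinearMap ∘ₗ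
      (φ (n : ℕ)).toLinearMap ∘ₗ (restrictTotalDegree (Fin (k + 1)) ℂ M).subtype) fun g => by
        obtain ⟨G, h1, h2, -⟩ := cone_slice p g.1 (n : ℕ)
        exact ⟨G, (mem_restrictTotalDegree _ _ _).2
          (h1.trans ((mem_restrictTotalDegree _ _ _).1 g.2)), by rw [h2]; rfl⟩
  refine (hilA_le f fun g hg => mem_coneI.2 fun s y hy => ?_).trans ?_
  · obtain ⟨A, h1, hA⟩ := cone_ray p g.1 y
    have h2 : A = 0 := Polynomial.eq_zero_of_natDegree_lt_card_of_eval_eq_zero A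
      (f := fun n : Fin (M + 1) => ((n : ℕ) : ℂ))
      (fun a b e => Fin.ext (Nat.cast_injective e)) (fun n => by
        obtain ⟨G, -, h2, h3⟩ := cone_slice p g.1 (n : ℕ)
        rw [hA, ← h3]
        refine hy G (Ideal.Quotient.eq_zero_iff_mem.1 ?_)
        rw [h2]
        exact congrArg Subtype.val (congrFun hg n))
      (by simpa using Nat.lt_succ_of_le (h1.trans ((mem_restrictTotalDegree _ _ _).1 g.2)))
    rw [← hA, h2, Polynomial.eval_zero]
  · rw [finrank_pi_fintype]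
    simp [H, W]

theorem H_coneI_le (p : Pt (k + 1)) (hY : PD i Y) (M : ℕ) :
    H (coneI p Y) M ≤ dg i Y * (M + 1) ^ (i + 1) := by
  refine (H_coneI p Y M).trans ((Nat.mul_le_mul_left _ (hY.H_le M)).trans_eq ?_)
  ring

theorem cf_mem_of_on_ne (hU : U.IsPrime) (h0 : X 0 - C (p 0 : ℂ) ∉ U)
    {g : MvPolynomial (Fin (k + 1)) ℂ} (h : ∀ x, On x U → x 0 ≠ p 0 → eval x g = 0) : g ∈ U := by
  refine (hU.mem_or_mem (cf_mem_of_on hU fun x hx => ?_)).resolve_left h0
  by_cases e : x 0 = p 0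
  · simp [e]
  · rw [map_mul, h x hx e, mul_zero]

theorem coneI_le (hU : U.IsPrime) (h0 : X 0 - C (p 0 : ℂ) ∉ U) (h : InCone p U Y) :
    coneI p Y ≤ U := fun _ hg => cf_mem_of_on_ne hU h0 fun x hx e =>
  conePt_dirC e ▸ mem_coneI.1 hg _ _ (h x hx e)

theorem vert_coneI (p : Pt (k + 1)) (hY : Y.IsPrime) : Vert p (coneI p Y) := by
  refine ⟨fun g hg => ?_, fun x hx s g hg => ?_⟩
  · obtain ⟨y, hy⟩ := cf_exists_on hY
    simpa [conePt] using mem_coneI.1 hg 0 y hy
  · have h1 : ∀ u, eval u (aeval (fun l => C (cx p l) + C s * (X l - C (cx p l))) g)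
        = eval (cx p + s • (u - cx p)) g := fun u => by
      rw [cf_eval_aeval]
      congr 2
      funext l
      simp
    rw [← h1]
    refine hx _ (mem_coneI.2 fun t y hy => ?_)
    rw [h1, conePt, add_sub_cancel_left, smul_smul]
    exact mem_coneI.1 hg _ y hy

theorem cone_dim (hU : PD j U) (hY : PD i Y) (h0 : X 0 - C (p 0 : ℂ) ∉ U) (h : InCone p U Y) :
    j ≤ i + 1 := hU.le_of_H (coneI_le hU.prime h0 h) (H_coneI_le p hY)

theorem cone_eq (hU : PD (i + 1) U) (hY : PD i Y) (h0 : X 0 - C (p 0 : ℂ) ∉ U)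
    (h : InCone p U Y) : coneI p Y = U := by
  obtain ⟨j, hj⟩ := exists_PD (coneI_prime p hY.prime)
  have h1 := coneI_le hU.prime h0 h
  rw [le_antisymm (hj.le_of_H le_rfl (H_coneI_le p hY)) (hj.dim_le hU h1)] at hj
  exact hj.eq_of_le hU h1

theorem cone_vert (hU : PD (i + 1) U) (hY : PD i Y) (h0 : X 0 - C (p 0 : ℂ) ∉ U)
    (h : InCone p U Y) : Vert p U := cone_eq hU hY h0 h ▸ vert_coneI p hY.prime

/-- The ideal of the directions from `p` to the points of `V`. -/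
def dirI (p : Pt (k + 1)) (V : Ideal (MvPolynomial (Fin (k + 1)) ℂ)) :
    Ideal (MvPolynomial (Fin k) ℂ) := vanI {y | ∃ x, On x V ∧ x 0 ≠ p 0 ∧ y = dirC p x}

theorem mem_dirI {g : MvPolynomial (Fin k) ℂ} :
    g ∈ dirI p V ↔ ∀ x, On x V → x 0 ≠ p 0 → eval (dirC p x) g = 0 :=
  ⟨fun h x h1 h2 => h _ ⟨x, h1, h2, rfl⟩, fun h _ ⟨x, h1, h2, e⟩ => e ▸ h x h1 h2⟩

theorem inCone_iff : InCone p V Y ↔ Y ≤ dirI p V :=
  ⟨fun h g hg => mem_dirI.2 fun x h1 h2 => h x h1 h2 g hg,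
    fun h x h1 h2 _ hg => mem_dirI.1 (h hg) x h1 h2⟩

theorem exists_lift (p : Pt (k + 1)) (g : MvPolynomial (Fin k) ℂ) :
    ∃ (G : MvPolynomial (Fin (k + 1)) ℂ) (n : ℕ), ∀ x : Fin (k + 1) → ℂ, x 0 ≠ p 0 →
      eval x G = (x 0 - p 0) ^ n * eval (dirC p x) g := by
  induction g using MvPolynomial.induction_on with
  | C a => exact ⟨C a, 0, fun x _ => by simp⟩
  | add g h hg hh =>
    obtain ⟨G, n, h1⟩ := hg
    obtain ⟨G', m, h2⟩ := hh
    refine ⟨(X 0 - C (p 0 : ℂ)) ^ m * G + (X 0 - C (p 0 : ℂ)) ^ n * G', n + m, fun x hx => ?_⟩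
    simp only [map_add, map_mul, map_pow, map_sub, eval_X, eval_C, h1 x hx, h2 x hx]
    ring
  | mul_X g l hg =>
    obtain ⟨G, n, h1⟩ := hg
    refine ⟨G * (X l.succ - C (p l.succ : ℂ)), n + 1, fun x hx => ?_⟩
    have h0 := sub_ne_zero.2 hx
    simp only [map_mul, map_sub, eval_X, eval_C, h1 x hx, dirC]
    field_simp
    ring

theorem dirI_prime (hV : V.IsPrime) (h0 : X 0 - C (p 0 : ℂ) ∉ V) : (dirI p V).IsPrime := by
  refine ⟨fun e => ?_, fun {g h} hgh => ?_⟩
  · obtain ⟨x, h1, h2⟩ := exists_on_ne hV h0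
    simpa using mem_dirI.1 ((Ideal.eq_top_iff_one _).1 e) x h1 (by simpa [sub_eq_zero] using h2)
  obtain ⟨G, n, h1⟩ := exists_lift p g
  obtain ⟨G', m, h2⟩ := exists_lift p h
  have h3 : G * G' ∈ V := cf_mem_of_on_ne hV h0 fun x hx e => by
    have := mem_dirI.1 hgh x hx e
    rw [map_mul] at this
    rw [map_mul, h1 x e, h2 x e, mul_mul_mul_comm, this, mul_zero]
  refine (hV.mem_or_mem h3).imp (fun e => mem_dirI.2 fun x hx h4 => ?_)
    fun e => mem_dirI.2 fun x hx h4 => ?_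
  · exact (mul_eq_zero.1 (h1 x h4 ▸ hx G e)).resolve_left (pow_ne_zero _ (sub_ne_zero.2 h4))
  · exact (mul_eq_zero.1 (h2 x h4 ▸ hx G' e)).resolve_left (pow_ne_zero _ (sub_ne_zero.2 h4))

/-- If `p` is not a vertex of `V` then `V` determines the base of the cone. -/
theorem eq_dirI (hV : PD w V) (hY : PD w Y) (h0 : X 0 - C (p 0 : ℂ) ∉ V) (h : InCone p V Y)
    (hp : ¬ Vert p V) : Y = dirI p V := by
  obtain ⟨j, hj⟩ := exists_PD (dirI_prime hV.prime h0)
  have h1 := inCone_iff.1 h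
  have h2 := hY.dim_le hj h1
  have h3 := cone_dim hV hj h0 (inCone_iff.2 le_rfl)
  by_cases e : w = j + 1
  · exact absurd (cone_vert (e ▸ hV) hj h0 (inCone_iff.2 le_rfl)) hp
  · exact hY.eq_of_le ((by omega : j = w) ▸ hj) h1

/-- The linear map `y ↦ (0, y)`. -/
def cons0 (k : ℕ) : (Fin k → ℂ) →ₗ[ℂ] (Fin (k + 1) → ℂ) where
  toFun y := Fin.cons 0 y
  map_add' a b := by
    funext l
    refine Fin.cases ?_ (fun l => ?_) l <;> simp
  map_smul' s a := by
    funext l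
    refine Fin.cases ?_ (fun l => ?_) l <;> simp

theorem cons0_sub (y y' : Fin k → ℂ) :
    cons0 k (y - y') = (Fin.cons 1 y : Fin (k + 1) → ℂ) - Fin.cons 1 y' := by
  funext l
  refine Fin.cases ?_ (fun l => ?_) l <;> simp [cons0]

/-- The base of a cone through a flat of the same dimension is flat. -/
theorem flat_base (hV : PD w V) (hf : Flat V) (hY : PD w Y) (h0 : X 0 - C (p 0 : ℂ) ∉ V)
    (h : InCone p V Y) (hp : ¬ On (cx p) V) : Flat Y := by
  obtain ⟨z, h1, h2⟩ := exists_on_ne hV.prime h0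
  have h3 : z 0 ≠ p 0 := by simpa [sub_eq_zero] using h2
  have h4 := eq_dirI hV hY h0 h fun e => hp e.1
  set W := spW V z ⊔ Submodule.span ℂ {z - cx p}
  have h5 : ∀ x, On x V → x 0 ≠ p 0 → (Fin.cons 1 (dirC p x) : Fin (k + 1) → ℂ) ∈ W :=
    fun x hx e => by
      rw [← W.smul_mem_iff (sub_ne_zero.2 e), ← sub_eq_dirC e, ← sub_add_sub_cancel x z]
      exact Submodule.add_mem_sup ((on_low_iff h1).1 (hf.on_iff.2 hx))
        (Submodule.mem_span_singleton_self _)
  have h6 : finrank ℂ W ≤ w + 1 := (Submodule.finrank_add_le_finrank_add_finrank _ _).trans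
    (add_le_add (hf.rank hV h1).le ((finrank_span_le_card _).trans (by simp)))
  have h7 : finrank ℂ (W.comap (cons0 k)) ≤ w := by
    have h8 : (W.comap (cons0 k)).map (cons0 k) < W := by
      refine lt_of_le_of_ne (Submodule.map_comap_le _ _) fun e => ?_
      obtain ⟨y, -, hy⟩ := e.ge (h5 z h1 h3)
      simpa [cons0] using congrFun hy 0
    have h9 := Submodule.finrank_lt_finrank_of_lt h8
    rw [← (Submodule.equivMapOfInjective (cons0 k) (fun a b e =>
      Fin.cons_right_injective (α := fun _ => ℂ) 0 e) _).finrank_eq] at h9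
    omega
  have h8 : flatI (dirC p z) (W.comap (cons0 k)) ≤ Y := fun g hg => h4 ▸ mem_dirI.2
    fun x hx e => hg _ (show cons0 k _ ∈ W by
      rw [cons0_sub]
      exact W.sub_mem (h5 x hx e) (h5 z h1 h3))
  have h9 := (flatI_pd (dirC p z) (W.comap (cons0 k))).1
  rw [le_antisymm h7 (h9.dim_le hY h8)] at h9
  exact h9.eq_of_le hY h8 ▸ flat_flatI _ _

/-- A variety in the cone over a flat of the same dimension is flat or spans the cone. -/
theorem flat_or_span (hV : PD w V) (hY : PD w Y) (hf : Flat Y) (h0 : X 0 - C (p 0 : ℂ) ∉ V)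
    (h : InCone p V Y) (hw : w + 1 ≤ k) : Flat V ∨ (low V 1 ≠ ⊥ ∧ On (cx p) (low V 1)) := by
  obtain ⟨z, hz⟩ := cf_exists_on hV.prime
  obtain ⟨y, hy⟩ := cf_exists_on hY.prime
  set W := (spW Y y).map (cons0 k) ⊔ Submodule.span ℂ {(Fin.cons 1 y : Fin (k + 1) → ℂ)}
  have h1 : finrank ℂ W ≤ w + 1 := (Submodule.finrank_add_le_finrank_add_finrank _ _).trans
    (add_le_add ((Submodule.finrank_map_le _ _).trans (hf.rank hY hy).le)
      ((finrank_span_le_card _).trans (by simp)))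
  have h2 : flatI (cx p) W ≤ V := fun g hg => cf_mem_of_on_ne hV.prime h0 fun x hx e => hg x (by
    show x - cx p ∈ W
    rw [sub_eq_dirC e, ← sub_add_cancel (Fin.cons 1 (dirC p x) : Fin (k + 1) → ℂ) (Fin.cons 1 y),
      ← cons0_sub]
    exact W.smul_mem _ (Submodule.add_mem_sup (Submodule.mem_map_of_mem
      ((on_low_iff hy).1 (hf.on_iff.2 (h x hx e)))) (Submodule.mem_span_singleton_self _)))
  have h3 : ∀ x, x - z ∈ spW V z → x - cx p ∈ W := fun x hx => by
    refine on_flatI.1 ((flat_flatI _ _).on_iff.1 (cf_on_low.2 fun g h4 h5 => ?_))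
    exact cf_on_low.1 ((on_low_iff hz).2 hx) g (h2 h4) h5
  have h4 := h3 z (by simp)
  have h5 : spW V z ≤ W := fun v hv => by
    simpa using W.sub_mem (h3 (z + v) (by simpa using hv)) h4
  by_cases h6 : finrank ℂ (spW V z) ≤ w
  · exact Or.inl (flat_of_rank hV hz h6)
  have h7 : spW V z = W := Submodule.eq_of_le_of_finrank_le h5 (by omega)
  refine Or.inr ⟨fun e => ?_, (on_low_iff hz).2 (by simpa [h7] using W.neg_mem h4)⟩
  have h8 : W = ⊤ := eq_top_iff.2 fun v _ => by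
    have := (on_low_iff hz (x := z + v)).1 fun g hg => by
      rw [e, Ideal.mem_bot] at hg
      rw [hg, map_zero]
    simpa [h7] using this
  rw [h8, finrank_top] at h1
  simp at h1
  omega

end

end Vale.Agent.P054S
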