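import Vale.Agent.P054S.CCDef
import Vale.Agent.P054S.CFCone

/-!
The calculus of covering claims.
-/

namespace Vale.Agent.P054S

open MvPolynomial Vale.Agent.P054A
open scoped Classical

variable {k d : ℕ}

theorem Cl.mono {P T : Finset (Pt (k + 1))} {j : ℕ} {G G' : ℕ → ℝ} {β β' γ γ' : ℝ}
    (h : Cl P T j G β γ) (hG : ∀ w, j < w → w < k → G w ≤ G' w) (hβ : β ≤ β') (hγ : γ ≤ γ') :
    Cl P T j G' β' γ' := by
  obtain ⟨B, hB, H⟩ := h
  refine ⟨B, hB.trans (by gcongr), fun p hp w h1 h2 𝒴 hY => (H p hp w h1 h2 𝒴 hY).trans ?_⟩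
  have := hG w h1 h2
  gcongr

theorem cl_triv {P T : Finset (Pt (k + 1))} {j : ℕ} {G : ℕ → ℝ} {β γ : ℝ} (hj : k ≤ j + 1)
    (hβ : 0 ≤ β) (hγ : 0 ≤ γ) : Cl P T j G β γ := by
  exact ⟨∅, by simp only [Finset.card_empty, Nat.cast_zero]; positivity,
    fun p _ w h1 h2 => absurd h2 (by omega)⟩

theorem cl_add {P T R : Finset (Pt (k + 1))} {Q : ℕ → Finset (Pt (k + 1))} {I : Finset ℕ} {j : ℕ}
    {G : ℕ → ℝ} {G' : ℕ → ℕ → ℝ} {β γ : ℝ} {γ' : ℕ → ℝ} (hT : T ⊆ R ∪ I.biUnion Q)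
    (hc : R.card + ∑ u ∈ I, (Q u).card ≤ T.card) (hβ : 0 ≤ β) (hR : Cl P R j G β γ)
    (hQ : ∀ u ∈ I, Cl P (Q u) j (G' u) β (γ' u)) :
    Cl P T j (fun w => G w + ∑ u ∈ I, G' u w) β (γ + ∑ u ∈ I, γ' u) := by
  obtain ⟨B, hB, H⟩ := hR
  have hQ' : ∀ u, ∃ B : Finset (Pt (k + 1) × Pt (k + 1)), u ∈ I →
      (B.card : ℝ) ≤ β * P.card * (Q u).card + γ' u ∧
      ∀ p ∈ P, ∀ w, j < w → w < k → ∀ 𝒴 : Finset (Id k), (∀ Y ∈ 𝒴, PD w Y) →
        ((cvr p (Q u) B 𝒴).card : ℝ) ≤ G' u w * tdg w 𝒴 + β * (Q u).card := fun u => by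
    by_cases hu : u ∈ I
    · exact (hQ u hu).imp fun _ h _ => h
    · exact ⟨∅, fun h => absurd h hu⟩
  choose C hC using hQ'
  have hc' : (R.card : ℝ) + ∑ u ∈ I, ((Q u).card : ℝ) ≤ T.card := by exact_mod_cast hc
  refine ⟨B ∪ I.biUnion C, ?_, fun p hp w h1 h2 𝒴 hY => ?_⟩
  · have a1 : ((B ∪ I.biUnion C).card : ℝ) ≤ B.card + ∑ u ∈ I, ((C u).card : ℝ) := by
      exact_mod_cast (Finset.card_union_le _ _).trans (Nat.add_le_add_left Finset.card_biUnion_le _)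
    have a2 := Finset.sum_le_sum fun u hu => (hC u hu).1
    rw [Finset.sum_add_distrib, ← Finset.mul_sum] at a2
    have a3 := mul_le_mul_of_nonneg_left hc' (mul_nonneg hβ (Nat.cast_nonneg P.card))
    linarith
  · have s : cvr p T (B ∪ I.biUnion C) 𝒴 ⊆
        cvr p R B 𝒴 ∪ I.biUnion fun u => cvr p (Q u) (C u) 𝒴 := fun q hq => by
      obtain ⟨h3, h4, h5⟩ := Finset.mem_filter.1 hq
      rcases Finset.mem_union.1 (hT h3) with h | h
      · exact Finset.mem_union_left _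
          (Finset.mem_filter.2 ⟨h, fun b => h4 (Finset.mem_union_left _ b), h5⟩)
      · obtain ⟨u, hu, h⟩ := Finset.mem_biUnion.1 h
        exact Finset.mem_union_right _ (Finset.mem_biUnion.2 ⟨u, hu, Finset.mem_filter.2 ⟨h,
          fun b => h4 (Finset.mem_union_right _ (Finset.mem_biUnion.2 ⟨u, hu, b⟩)), h5⟩⟩)
    have a1 : ((cvr p T (B ∪ I.biUnion C) 𝒴).card : ℝ) ≤
        (cvr p R B 𝒴).card + ∑ u ∈ I, ((cvr p (Q u) (C u) 𝒴).card : ℝ) := by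
      exact_mod_cast (Finset.card_le_card s).trans ((Finset.card_union_le _ _).trans
        (Nat.add_le_add_left Finset.card_biUnion_le _))
    have a2 := Finset.sum_le_sum fun u hu => (hC u hu).2 p hp w h1 h2 𝒴 hY
    rw [Finset.sum_add_distrib, ← Finset.mul_sum, ← Finset.sum_mul] at a2
    have a3 := mul_le_mul_of_nonneg_left hc' hβ
    have a4 := H p hp w h1 h2 𝒴 hY
    simp only [add_mul]
    linarith

end Vale.Agent.P054S
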