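import Vale.Agent.P054S.CJd

/-!
Separation of isolated zeros of a square system.
-/

namespace Vale.Agent.P054S

open MvPolynomial Vale.Agent.P054A Vale.Agent.P271
open scoped Classical

section Wiebe

variable {κ : Type} [Fintype κ] {Ω : Type} [Field Ω]

/-- The exponent with all entries `N`. -/
noncomputable def cjMu (κ : Type) [Fintype κ] (N : ℕ) : κ →₀ ℕ :=
  Finsupp.equivFunOnFinite.symm fun _ => N

omit [Fintype κ] in
theorem wb_zero {m : κ →₀ ℕ} {i : κ} {N : ℕ} (h : m i ≤ N) (c : MvPolynomial κ Ω) :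
    coeff m (c * X i ^ (N + 1)) = 0 := by
  rw [X_pow_eq_monomial, coeff_mul_monomial', if_neg]
  rw [Finsupp.single_le_iff]
  omega

theorem wb_adj (A : Matrix κ κ (MvPolynomial κ Ω)) (y : κ → MvPolynomial κ Ω) (k : κ) :
    A.det * y k = ∑ i, A.adjugate k i * A.mulVec y i := by
  have e := congrFun (Matrix.mulVec_mulVec y A.adjugate A) k
  rw [Matrix.adjugate_mul, Matrix.smul_mulVec, Matrix.one_mulVec] at e
  exact e.symm

theorem wb_swap {N : ℕ} (A : Matrix κ κ (MvPolynomial κ Ω)) (k : κ) (hk : A.mulVec X k = 0)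
    (a : κ → MvPolynomial κ Ω) (h : ∀ i, i ≠ k → A.mulVec X i = a i * X i ^ (N + 1))
    (u : MvPolynomial κ Ω) : coeff (cjMu κ N) (u * A.det) = 0 := by
  rw [← coeff_mul_X _ k, mul_assoc, wb_adj, Finset.mul_sum, coeff_sum]
  refine Finset.sum_eq_zero fun i _ => ?_
  by_cases e : i = k
  · rw [e, hk, mul_zero, mul_zero, coeff_zero]
  · rw [h i e, ← mul_assoc, ← mul_assoc]
    exact wb_zero (by simp [cjMu, Finsupp.single_eq_of_ne e]) _

theorem wb_ind {N : ℕ} (a : κ → MvPolynomial κ Ω) (u : MvPolynomial κ Ω) (S : Finset κ) :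
    ∀ A B : Matrix κ κ (MvPolynomial κ Ω), (∀ i, A.mulVec X i = a i * X i ^ (N + 1)) →
      (∀ i, B.mulVec X i = a i * X i ^ (N + 1)) → (∀ i, i ∉ S → A i = B i) →
      coeff (cjMu κ N) (u * A.det) = coeff (cjMu κ N) (u * B.det) := by
  induction S using Finset.induction_on with
  | empty => exact fun A B _ _ h => by rw [show A = B from funext fun i => h i (by simp)]
  | insert k S _ ih =>
    intro A B hA hB h
    have hr : ∀ (z : κ → MvPolynomial κ Ω) (i : κ), (A.updateRow k z).mulVec X i =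
        if i = k then z ⬝ᵥ X else A.mulVec X i := fun z i => by
      split_ifs with e
      · rw [e, Matrix.mulVec, Matrix.updateRow_self]
      · rw [Matrix.mulVec, Matrix.updateRow_ne e]
        rfl
    rw [← ih (A.updateRow k (B k)) B (fun i => ?_) hB fun i hi => ?_]
    · have e : A.det = (A.updateRow k (B k)).det + (A.updateRow k (A k - B k)).det := by
        rw [← Matrix.det_updateRow_add, add_sub_cancel, Matrix.updateRow_eq_self]
      rw [e, mul_add, coeff_add, wb_swap (A.updateRow k (A k - B k)) k ?_ a (fun i hi => ?_), add_zero]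
      · rw [hr, if_pos rfl, sub_dotProduct]
        exact sub_eq_zero.2 ((hA k).trans (hB k).symm)
      · rw [hr, if_neg hi, hA]
    · rw [hr]
      split_ifs with e
      · rw [e]
        exact hB k
      · exact hA i
    · by_cases e : i = k
      · rw [e, Matrix.updateRow_self]
      · rw [Matrix.updateRow_ne e]
        exact h i (by simp [e, hi])

theorem wb_det {N : ℕ} (a : κ → MvPolynomial κ Ω) (u : MvPolynomial κ Ω)
    (A : Matrix κ κ (MvPolynomial κ Ω)) (hA : ∀ i, A.mulVec X i = a i * X i ^ (N + 1)) :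
    coeff (cjMu κ N) (u * A.det) = eval 0 (u * ∏ i, a i) := by
  rw [wb_ind a u Finset.univ A (Matrix.diagonal fun i => a i * X i ^ N) hA
    (fun i => by rw [Matrix.mulVec_diagonal, pow_succ, mul_assoc]) (by simp), Matrix.det_diagonal,
    Finset.prod_mul_distrib, ← mul_assoc]
  have e : (∏ i, X i ^ N : MvPolynomial κ Ω) = monomial (cjMu κ N) 1 := by
    rw [monomial_eq, C_1, one_mul, Finsupp.prod_fintype _ _ fun _ => pow_zero _]
    rfl
  rw [e, coeff_mul_monomial', if_pos le_rfl, tsub_self, mul_one, eval_zero, constantCoeff_eq]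

theorem wb_origin (θ : Matrix κ κ (MvPolynomial κ Ω))
    (h : ∀ l, X l ∈ (locP (θ.mulVec X) (0 : κ → Ω)).radical) :
    θ.det ∉ locP (θ.mulVec X) (0 : κ → Ω) := by
  choose n a ha hn using h
  have h1 : ∀ i, ∃ c : κ → MvPolynomial κ Ω,
      ∑ j, c j * θ.mulVec X j = a i * X i ^ (Finset.univ.sup n + 1) := fun i => by
    refine Ideal.mem_span_range_iff_exists_fun.1 ?_
    obtain ⟨d, hd⟩ := Nat.exists_eq_add_of_le
      ((Finset.le_sup (f := n) (Finset.mem_univ i)).trans (Nat.le_succ _))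
    rw [Nat.succ_eq_add_one] at hd
    rw [hd, pow_add, ← mul_assoc]
    exact Ideal.mul_mem_right _ _ (hn i)
  choose ψ hψ using h1
  rintro ⟨u, hu, h2⟩
  obtain ⟨c, hc⟩ := Ideal.mem_span_range_iff_exists_fun.1 h2
  have h3 := wb_det a u (Matrix.of ψ * θ) fun i => by
    rw [← Matrix.mulVec_mulVec]
    exact hψ i
  rw [Matrix.det_mul, mul_left_comm, ← hc, Finset.mul_sum, coeff_sum, Finset.sum_eq_zero] at h3
  · rw [map_mul, map_prod] at h3
    exact mul_ne_zero hu (Finset.prod_ne_zero_iff.2 fun i _ => ha i) h3.symm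
  · intro j _
    rw [mul_left_comm, wb_adj, Finset.mul_sum, coeff_sum]
    refine Finset.sum_eq_zero fun i _ => ?_
    rw [show (Matrix.of ψ).mulVec (θ.mulVec X) i = _ from hψ i, ← mul_assoc, ← mul_assoc]
    exact wb_zero (by simp [cjMu]) _

/-- The determinant of a transition matrix survives in the local ring of an isolated zero. -/
theorem wiebe (F : κ → MvPolynomial κ Ω) (ξ : κ → Ω) (θ : Matrix κ κ (MvPolynomial κ Ω))
    (hθ : θ.mulVec (fun l => X l - C (ξ l)) = F)
    (h : ∀ l, X l - C (ξ l) ∈ (locP F ξ).radical) : θ.det ∉ locP F ξ := by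
  let T : MvPolynomial κ Ω →ₐ[Ω] MvPolynomial κ Ω := aeval fun l => X l + C (ξ l)
  have h0 : ∀ l, T (X l - C (ξ l)) = X l := fun l => by simp [T]
  have h1 : ∀ g, eval 0 (T g) = eval ξ g := fun g => by
    induction g using MvPolynomial.induction_on with
    | C a => simp [T]
    | add p q hp hq => rw [map_add, map_add, map_add, hp, hq]
    | mul_X p n hp => rw [map_mul, map_mul, map_mul, hp]; simp [T]
  have h2 : ∀ i, T (F i) = (T.mapMatrix θ).mulVec X i := fun i => by
    rw [← hθ, Matrix.mulVec, Matrix.mulVec, dotProduct, dotProduct, map_sum]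
    exact Finset.sum_congr rfl fun l _ => by rw [map_mul, h0]; rfl
  have h3 : ∀ g ∈ locP F ξ, T g ∈ locP ((T.mapMatrix θ).mulVec X) (0 : κ → Ω) := by
    rintro g ⟨q, hq, hg⟩
    obtain ⟨c, hc⟩ := Ideal.mem_span_range_iff_exists_fun.1 hg
    refine ⟨T q, by rwa [h1], Ideal.mem_span_range_iff_exists_fun.2 ⟨fun i => T (c i), ?_⟩⟩
    rw [← map_mul, ← hc, map_sum]
    exact Finset.sum_congr rfl fun i _ => by rw [map_mul, h2]
  intro hd
  refine wb_origin (T.mapMatrix θ) (fun l => ?_) (by rw [← AlgHom.map_det]; exact h3 _ hd)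
  obtain ⟨n, hn⟩ := h l
  exact ⟨n, by rw [← h0, ← map_pow]; exact h3 _ hn⟩

/-- Separators give a basis of monomials. -/
theorem cj_mon {α : Type} [Fintype α] (ξ : α → κ → Ω) {D : ℕ}
    (h : ∀ a₀, ∃ p : MvPolynomial κ Ω, p.totalDegree ≤ D ∧ eval (ξ a₀) p ≠ 0 ∧
      ∀ a, a ≠ a₀ → eval (ξ a) p = 0) :
    ∃ β : α → κ →₀ ℕ, (∀ a, ∑ l, β a l ≤ D) ∧
      ∀ c : α → Ω, (∀ a, ∑ a', c a' * ∏ l, ξ a l ^ β a' l = 0) → c = 0 := by
  set v : {m : κ →₀ ℕ // ∑ l, m l ≤ D} → α → Ω := fun m a => ∏ l, ξ a l ^ m.1 l with hv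
  have hp : ∀ p : MvPolynomial κ Ω, p.totalDegree ≤ D →
      (fun a => eval (ξ a) p) ∈ Submodule.span Ω (Set.range v) := fun p hp => by
    have e : (fun a => eval (ξ a) p) = ∑ m ∈ p.support, coeff m p • fun a => ∏ l, ξ a l ^ m l := by
      funext a
      rw [eval_eq', Finset.sum_apply]
      rfl
    rw [e]
    refine Submodule.sum_mem _ fun m hm => Submodule.smul_mem _ _ (Submodule.subset_span ?_)
    have h1 := le_totalDegree hm
    rw [Finsupp.sum_fintype _ _ fun _ => rfl] at h1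
    exact ⟨⟨m, h1.trans hp⟩, rfl⟩
  have htop : Submodule.span Ω (Set.range v) = ⊤ := by
    rw [eq_top_iff, ← (Pi.basisFun Ω α).span_eq, Submodule.span_le]
    rintro _ ⟨a₀, rfl⟩
    obtain ⟨p, h1, h2, h3⟩ := h a₀
    have e : Pi.basisFun Ω α a₀ = (eval (ξ a₀) p)⁻¹ • fun a => eval (ξ a) p := by
      funext a
      rw [Pi.basisFun_apply, Pi.smul_apply, smul_eq_mul]
      by_cases ha : a = a₀
      · subst ha
        rw [Pi.single_eq_same, inv_mul_cancel₀ h2]
      · rw [Pi.single_eq_of_ne ha, h3 a ha, mul_zero]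
    rw [e]
    exact Submodule.smul_mem _ _ (hp p h1)
  obtain ⟨ι, j, -, h1, h2⟩ := exists_linearIndependent' Ω v
  let b : Module.Basis ι Ω (α → Ω) := Module.Basis.mk h2 (by rw [h1, htop])
  let e : α ≃ ι := (Pi.basisFun Ω α).indexEquiv b
  refine ⟨fun a => (j (e a)).1, fun a => (j (e a)).2, fun c hc => ?_⟩
  have h3 := Fintype.linearIndependent_iff.1 (h2.comp e e.injective) c (by
    funext a
    rw [Finset.sum_apply]
    exact hc a)
  exact funext h3

end Wiebe

theorem cj_sep {κ : Type} [Fintype κ] {Ω : Type} [Field Ω] (f : κ → MvPolynomial κ Ω) (s : κ → ℕ)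
    (hs : ∀ i, (f i).totalDegree ≤ s i + 1) {α : Type} [Fintype α] (ξ : α → κ → Ω)
    (hξ : Function.Injective ξ) (h : ∀ a, Iso f (ξ a)) :
    ∃ β : α → κ →₀ ℕ, (∀ a, ∑ l, β a l ≤ ∑ i, s i) ∧
      ∀ c : α → Ω, (∀ a, ∑ a', c a' * ∏ l, ξ a l ^ β a' l = 0) → c = 0 := by
  choose θ h1 h2 using fun i => exists_divD (f i) (hs i)
  have hΔ : (Matrix.of θ).det.totalDegree ≤ ∑ i, s i := by
    rw [Matrix.det_apply]
    refine totalDegree_finsetSum_le fun σ _ => ?_
    refine (totalDegree_smul_le _ _).trans ((totalDegree_finsetProd _ _).trans ?_)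
    rw [← Equiv.sum_comp σ s]
    exact Finset.sum_le_sum fun i _ => h2 _ _
  let E : α → MvPolynomial κ (MvPolynomial κ Ω) →+* MvPolynomial κ Ω :=
    fun a => eval fun l => C (ξ a l)
  have hE : ∀ a, ((E a).mapMatrix (Matrix.of θ)).mulVec (fun l => X l - C (ξ a l)) = f := by
    intro a
    funext i
    have e := congrArg (E a) (h1 i).1
    have e1 : E a (MvPolynomial.map C (f i)) = C (eval (ξ a) (f i)) := (map_eval C (ξ a) (f i)).symm
    rw [map_sub, e1, (h a).1 i, map_zero, zero_sub, map_sum, show E a (C (f i)) = f i from eval_C _,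
      neg_eq_iff_eq_neg, ← Finset.sum_neg_distrib] at e
    rw [e, Matrix.mulVec, dotProduct]
    refine Finset.sum_congr rfl fun l _ => ?_
    rw [map_mul, map_sub, show E a (X l) = C (ξ a l) from eval_X _,
      show E a (C (X l)) = X l from eval_C _, ← mul_neg, neg_sub]
    rfl
  refine cj_mon ξ fun a₀ => ?_
  obtain ⟨φ, b1, b2⟩ := Submodule.exists_dual_map_eq_bot_of_notMem
    (p := (locP f (ξ a₀)).restrictScalars Ω) (wiebe f (ξ a₀) _ (hE a₀) (h a₀).2) inferInstance
  set Δ := (Matrix.of θ).det with hΔ'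
  have b3 : ∀ a, eval (ξ a) (∑ m ∈ Δ.support, monomial m (φ (coeff m Δ)))
      = φ ((E a).mapMatrix (Matrix.of θ)).det := fun a => by
    rw [← RingHom.map_det, ← hΔ', show E a Δ = _ from eval_eq' _ Δ, map_sum, map_sum]
    refine Finset.sum_congr rfl fun m _ => ?_
    rw [eval_monomial, Finsupp.prod_fintype _ _ fun _ => pow_zero _]
    simp only [← map_pow, ← map_prod]
    rw [mul_comm (coeff m Δ), C_mul', map_smul, smul_eq_mul, mul_comm]
  refine ⟨_, totalDegree_finsetSum_le fun m hm => (totalDegree_monomial_le _ _).trans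
    ((le_totalDegree hm).trans hΔ), by rwa [b3], fun a ha => ?_⟩
  rw [b3, ← Submodule.mem_bot Ω, ← b2]
  refine Submodule.mem_map_of_mem ?_
  obtain ⟨l, hl⟩ := Function.ne_iff.1 (hξ.ne ha)
  refine ⟨X l - C (ξ a l), by simpa [sub_eq_zero] using hl.symm, ?_⟩
  rw [mul_comm, wb_adj _ (fun l => X l - C (ξ a l)) l, hE]
  exact Ideal.mem_span_range_iff_exists_fun.2 ⟨_, rfl⟩

end Vale.Agent.P054S
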