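import Vale.Agent.P054S.CJd

/-!
Generic points of isolated components are isolated zeros of a square system.
-/

namespace Vale.Agent.P054S

open MvPolynomial Vale.Agent.P054A Vale.Agent.P271
open scoped Classical

theorem CJi_min {R : Type} [CommRing R] {I W : Ideal R} (hm : W ∈ I.minimalPrimes) {x : R}
    (hx : x ∈ W) : ∃ u ∉ W, ∃ N : ℕ, u * x ^ N ∈ I := by
  have := hm.1.1
  have h1 := IsLocalization.AtPrime.radical_map_of_mem_minimalPrimes
    (A := Localization.AtPrime W) W I hm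
  have h2 : algebraMap R (Localization.AtPrime W) x ∈
      (I.map (algebraMap R (Localization.AtPrime W))).radical := by
    rw [h1]; exact Ideal.mem_map_of_mem _ hx
  obtain ⟨n, hn⟩ := h2
  rw [IsLocalization.mem_map_algebraMap_iff (M := W.primeCompl)] at hn
  obtain ⟨⟨a, b⟩, hn⟩ := hn
  rw [← map_pow, ← map_mul, IsLocalization.eq_iff_exists W.primeCompl] at hn
  obtain ⟨t, ht⟩ := hn
  refine ⟨t * b, (t * b).2, n, ?_⟩
  have e : (t.1 * b.1) * x ^ n = t.1 * a.1 := by
    rw [← ht]; ring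
  rw [e]
  exact I.mul_mem_left _ a.2

theorem CJi_taylor {σ K : Type} [Fintype σ] [CommRing K] (ξ : σ → K) (G : MvPolynomial σ K) :
    ∃ θ : σ → MvPolynomial σ K, G - C (eval ξ G) = ∑ m, θ m * (X m - C (ξ m)) ∧
      ∀ m, eval ξ (θ m) = eval ξ (pderiv m G) := by
  induction G using MvPolynomial.induction_on with
  | C a => exact ⟨0, by simp, by simp⟩
  | add p q hp hq =>
    obtain ⟨θ, h1, h2⟩ := hp
    obtain ⟨η, h3, h4⟩ := hq
    refine ⟨θ + η, ?_, fun m => ?_⟩
    · simp only [Pi.add_apply, add_mul, Finset.sum_add_distrib, ← h1, ← h3, map_add]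
      ring
    · simp only [Pi.add_apply, map_add, h2, h4]
  | mul_X p k hp =>
    obtain ⟨θ, h1, h2⟩ := hp
    refine ⟨fun m => θ m * X k + if k = m then C (eval ξ p) else 0, ?_, fun m => ?_⟩
    · have e : ∑ m, θ m * X k * (X m - C (ξ m)) = (p - C (eval ξ p)) * X k := by
        rw [h1, Finset.sum_mul]
        exact Finset.sum_congr rfl fun m _ => by ring
      simp only [add_mul, Finset.sum_add_distrib, e, ite_mul, zero_mul, Finset.sum_ite_eq,
        Finset.mem_univ, if_true, map_mul, eval_X]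
      ring
    · by_cases h : k = m
      · subst h
        simp [h2]
        ring
      · simp [h2, h, pderiv_X_of_ne h]
        ring

theorem CJi_adj {σ ι K : Type} [Fintype σ] [Fintype ι] [DecidableEq ι] [Field K]
    (𝔟 : Ideal (MvPolynomial σ K)) (ξ : σ → K) (G : ι → MvPolynomial σ K) (ε : ι ≃ σ)
    (hG : ∀ i, G i - C (eval ξ (G i)) ∈ 𝔟) (hJ : eval ξ (minor G ε) ≠ 0) :
    ∃ d, eval ξ d ≠ 0 ∧ ∀ l, d * (X l - C (ξ l)) ∈ 𝔟 := by
  choose θ h1 h2 using fun i => CJi_taylor ξ (G i)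
  let Θ : Matrix ι ι (MvPolynomial σ K) := Matrix.of fun i k => θ i (ε k)
  let y : ι → MvPolynomial σ K := fun k => X (ε k) - C (ξ (ε k))
  have h3 : ∀ i, Θ.mulVec y i ∈ 𝔟 := by
    intro i
    have e : Θ.mulVec y i = ∑ m, θ i m * (X m - C (ξ m)) :=
      Equiv.sum_comp ε fun m => θ i m * (X m - C (ξ m))
    rw [e, ← h1]
    exact hG i
  refine ⟨Θ.det, ?_, fun l => ?_⟩
  · have e : eval ξ Θ.det = eval ξ (minor G ε) := by
      rw [minor, RingHom.map_det, RingHom.map_det]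
      congr 1
      ext i k
      exact h2 i (ε k)
    rwa [e]
  · have e : Θ.det * (X l - C (ξ l)) = Θ.adjugate.mulVec (Θ.mulVec y) (ε.symm l) := by
      rw [Matrix.mulVec_mulVec, Matrix.adjugate_mul, Matrix.smul_mulVec, Matrix.one_mulVec]
      simp [y]
    rw [e]
    exact Ideal.sum_mem _ fun i _ => 𝔟.mul_mem_left _ (h3 i)

theorem cj_iso {σ κ : Type} [Fintype σ] [Fintype κ] {v : ℕ} {f : κ → MvPolynomial σ ℂ}
    {W : Ideal (MvPolynomial σ ℂ)} (hW : PD v W)
    (hm : W ∈ (Ideal.span (Set.range f)).minimalPrimes) (t : Fin v → MvPolynomial σ ℂ)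
    {Ω : Type} [Field Ω] [Algebra ℂ Ω] (ξ : σ → Ω) (hk : ∀ G, aeval ξ G = 0 ↔ G ∈ W)
    (halg : ∀ l, IsAlgebraic (Algebra.adjoin ℂ (Set.range fun i => aeval ξ (t i))) (ξ l))
    (ε : κ ⊕ Fin v ≃ σ) :
    Iso (fun l => map (algebraMap ℂ Ω) (Sum.elim f t (ε.symm l))
      - C (aeval ξ (Sum.elim f t (ε.symm l)))) ξ := by
  have hev : ∀ g : MvPolynomial σ ℂ, eval ξ (map (algebraMap ℂ Ω) g) = aeval ξ g := fun g => by
    rw [eval_map, aeval_def]
  refine ⟨fun l => by rw [map_sub, hev, eval_C, sub_self], fun l => ?_⟩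
  set F : σ → MvPolynomial σ Ω := fun l => map (algebraMap ℂ Ω) (Sum.elim f t (ε.symm l))
      - C (aeval ξ (Sum.elim f t (ε.symm l))) with hF
  obtain ⟨hv, p, φ, J, hS, hL⟩ := hW
  have hc : Fintype.card (Fin (Fintype.card σ - v) ⊕ Fin v) = Fintype.card σ := by
    rw [Fintype.card_sum, Fintype.card_fin, Fintype.card_fin]; omega
  let ε' := Fintype.equivOfCardEq hc
  have hJ : aeval ξ (minor (Sum.elim φ t) ε') ≠ 0 :=
    jac_ne_zero (J := J) ξ (fun h0 => minor_notin_locP hS (hL ▸ (hk _).1 h0))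
      (fun G hG k => (hk _).2 (hL ▸ Dk_mem_locP φ J p k (hL ▸ (hk _).1 hG))) t halg ε'
  have hf : ∀ i, map (algebraMap ℂ Ω) (f i) ∈ Ideal.span (Set.range F) := by
    intro i
    refine Ideal.subset_span ⟨ε (Sum.inl i), ?_⟩
    have h0 : aeval ξ (f i) = 0 := (hk _).2 (hm.1.2 (Ideal.subset_span ⟨i, rfl⟩))
    simp only [hF, Equiv.symm_apply_apply, Sum.elim_inl, h0, map_zero, sub_zero]
  have hsp : ∀ g ∈ Ideal.span (Set.range f),
      map (algebraMap ℂ Ω) g ∈ Ideal.span (Set.range F) := by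
    intro g hg
    have h1 : Ideal.span (Set.range f) ≤
        (Ideal.span (Set.range F)).comap (map (algebraMap ℂ Ω)) :=
      Ideal.span_le.2 (Set.range_subset_iff.2 hf)
    exact h1 hg
  obtain ⟨d, hd, h1⟩ := CJi_adj (locP F ξ).radical ξ
    (fun i => map (algebraMap ℂ Ω) (Sum.elim φ t i)) ε' (fun i => by
      rw [hev]
      rcases i with i | i
      · have hi : φ i ∈ W := hL ▸ mem_locP φ p i
        obtain ⟨u, hu, N, hN⟩ := CJi_min hm hi
        rw [Sum.elim_inl, (hk _).2 hi, map_zero, sub_zero]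
        refine ⟨N, map (algebraMap ℂ Ω) u, ?_, ?_⟩
        · rw [hev]; exact fun h0 => hu ((hk _).1 h0)
        · rw [← map_pow, ← map_mul]; exact hsp _ hN
      · refine Ideal.le_radical ?_
        have h2 := mem_locP F ξ (ε (Sum.inr i))
        simp only [hF, Equiv.symm_apply_apply] at h2
        exact h2)
    (by rw [← map_minor, hev]; exact hJ)
  obtain ⟨N, q, hq, h2⟩ := h1 l
  refine ⟨N, q * d ^ N, ?_, ?_⟩
  · rw [map_mul, map_pow]; exact mul_ne_zero hq (pow_ne_zero _ hd)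
  · rw [mul_assoc, ← mul_pow]; exact h2

end Vale.Agent.P054S
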