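import Vale.Agent.P054S.CJd

/-!
Common normalisation of finitely many varieties.
-/

namespace Vale.Agent.P054S

open MvPolynomial Vale.Agent.P054A Vale.Agent.P271
open scoped Classical

theorem cjn_trdeg {σ : Type} [Fintype σ] {v : ℕ} {W : Ideal (MvPolynomial σ ℂ)} (h : PD v W)
    {L : Type} [Field L] [Algebra ℂ L] (ζ : σ → L) (hk : ∀ G, aeval ζ G = 0 ↔ G ∈ W)
    (hL : IntermediateField.adjoin ℂ (Set.range ζ) = ⊤) : Algebra.trdeg ℂ L = (v : Cardinal) := by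
  rw [← h.trdeg ζ hk, hL]
  exact IntermediateField.topEquiv.trdeg_eq.symm

theorem cj_fn {σ : Type} [Fintype σ] {v : ℕ} (𝒲 : Finset (Ideal (MvPolynomial σ ℂ)))
    (h : ∀ W ∈ 𝒲, PD v W) :
    ∃ t : Fin v → MvPolynomial σ ℂ, (∀ i, (t i).totalDegree ≤ 1) ∧ ∀ W ∈ 𝒲,
      ∀ (L : Type) [Field L] [Algebra ℂ L] (ζ : σ → L), (∀ G, aeval ζ G = 0 ↔ G ∈ W) →
        AlgebraicIndependent ℂ (fun i => aeval ζ (t i)) ∧
        ∀ l, FInt (lin fun i => aeval ζ (t i)) 1 (ζ l) := by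
  rcases 𝒲.eq_empty_or_nonempty with rfl | ⟨p₀, hp₀⟩
  · exact ⟨fun _ => 0, fun _ => by simp, fun p hp => absurd hp (Finset.notMem_empty p)⟩
  let I : Ideal (MvPolynomial σ ℂ) := 𝒲.inf id
  have hI : ∀ p ∈ 𝒲, I ≤ p := fun p hp => Finset.inf_le (f := id) hp
  have hnt : Nontrivial (MvPolynomial σ ℂ ⧸ I) :=
    Ideal.Quotient.nontrivial_iff.2 fun h0 =>
      (h p₀ hp₀).prime.ne_top (top_le_iff.1 (h0 ▸ hI p₀ hp₀))
  let e : Fin (Fintype.card σ) ≃ σ := (Fintype.equivFin σ).symm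
  obtain ⟨d, y, -, hy, hspan, hint⟩ := fn fun j => Ideal.Quotient.mkₐ ℂ I (X (e j))
  choose c hc using fun i => (Submodule.mem_span_range_iff_exists_fun ℂ).1 (hspan i)
  let t : Fin d → MvPolynomial σ ℂ := fun i => ∑ j, c i j • X (e j)
  have ht : ∀ i, Ideal.Quotient.mkₐ ℂ I (t i) = y i := by
    intro i
    rw [← hc i, map_sum]
    exact Finset.sum_congr rfl fun j _ => map_smul _ _ _
  have ht1 : ∀ i, (t i).totalDegree ≤ 1 := fun i =>
    totalDegree_finsetSum_le fun j _ => (totalDegree_smul_le _ _).trans (totalDegree_X _).le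
  have key : ∀ p ∈ 𝒲, ∀ (L : Type) [Field L] [Algebra ℂ L] (ζ : σ → L),
      (∀ G, aeval ζ G = 0 ↔ G ∈ p) → ∀ l, FInt (lin fun i => aeval ζ (t i)) 1 (ζ l) := by
    intro p hp L _ _ ζ hk l
    let φ : (MvPolynomial σ ℂ ⧸ I) →ₐ[ℂ] L :=
      Ideal.Quotient.liftₐ I (aeval ζ) fun a ha => (hk a).2 (hI p hp ha)
    have hφ : ∀ G, φ (Ideal.Quotient.mkₐ ℂ I G) = aeval ζ G := fun G => rfl
    have h1 := (hint _ (fn_mem _ (e.symm l))).map φ
    rw [lowa_map_lin, hφ, Equiv.apply_symm_apply, aeval_X] at h1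
    simpa only [← ht, hφ] using h1
  have hle : v ≤ d := by
    obtain ⟨L, _, _, ζ, hk, hL⟩ := lowa_generic (h p₀ hp₀).prime
    have h1 := lowa_alg ζ hL _ (key p₀ hp₀ L ζ hk)
    have h2 := (Algebra.IsAlgebraic.trdeg_le_cardinalMk ℂ
      (Set.range fun i => aeval ζ (t i))).trans Cardinal.mk_range_le
    rw [cjn_trdeg (h p₀ hp₀) ζ hk hL, Cardinal.mk_fin] at h2
    exact_mod_cast h2
  have hge : d ≤ v := by
    by_contra hlt
    have h1 : ∀ p ∈ 𝒲, ∃ F : MvPolynomial (Fin d) ℂ, F ≠ 0 ∧ aeval t F ∈ p := by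
      intro p hp
      obtain ⟨L, _, _, ζ, hk, hL⟩ := lowa_generic (h p hp).prime
      have h2 : ¬ AlgebraicIndependent ℂ fun i => aeval ζ (t i) := by
        intro h3
        have h4 := h3.cardinalMk_le_trdeg
        rw [cjn_trdeg (h p hp) ζ hk hL, Cardinal.mk_fin] at h4
        exact hlt (by exact_mod_cast h4)
      rw [algebraicIndependent_iff] at h2
      push Not at h2
      obtain ⟨F, hF, hF0⟩ := h2
      exact ⟨F, hF0, (hk _).1 (by rw [comp_aeval_apply, hF])⟩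
    choose! F hF0 hF using h1
    refine Finset.prod_ne_zero_iff.2 hF0 (algebraicIndependent_iff.1 hy _ ?_)
    have h5 : aeval t (∏ p ∈ 𝒲, F p) ∈ I := by
      refine Submodule.mem_finsetInf.2 fun p hp => ?_
      rw [map_prod]
      exact Ideal.mem_of_dvd _ (Finset.dvd_prod_of_mem (fun p => aeval t (F p)) hp) (hF p hp)
    have h6 := comp_aeval_apply t (Ideal.Quotient.mkₐ ℂ I) (∏ p ∈ 𝒲, F p)
    simp only [ht] at h6
    exact h6.symm.trans (Ideal.Quotient.eq_zero_iff_mem.2 h5)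
  obtain rfl : d = v := le_antisymm hge hle
  refine ⟨t, ht1, fun p hp L _ _ ζ hk => ⟨?_, key p hp L ζ hk⟩⟩
  obtain ⟨ζ', -, h1, h2⟩ := lowj_top ζ
  have hk' : ∀ G, aeval ζ' G = 0 ↔ G ∈ p := fun G => by
    rw [← hk, ← h1]
    exact ZeroMemClass.coe_eq_zero.symm
  have h3 := lowa_alg ζ' h2 _ (key p hp _ ζ' hk')
  have h4 := Algebra.IsAlgebraic.isTranscendenceBasis_of_le_trdeg_of_finite ℂ
    (fun i => aeval ζ' (t i)) (by rw [cjn_trdeg (h p hp) ζ' hk' h2, Cardinal.mk_fin])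
  have h5 := h4.1.map' (f := IntermediateField.val _) Subtype.val_injective
  have h6 : (fun i => aeval ζ (t i)) = IntermediateField.val _ ∘ fun i => aeval ζ' (t i) :=
    funext fun i => (h1 _).symm
  rw [h6]
  exact h5

end Vale.Agent.P054S
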