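import Vale.Agent.P054S.CJa
import Vale.Agent.P054S.CJn
import Vale.Agent.P054S.CJi
import Vale.Agent.P054S.CJb

/-!
Joint lower bound for the Hilbert function of isolated components.
-/

namespace Vale.Agent.P054S

open MvPolynomial Vale.Agent.P054A Vale.Agent.P271
open scoped Classical

/-- The lower bound from a family of isolated generic points. -/
theorem cj_lower {σ κ : Type} [Fintype σ] [Fintype κ] {f : κ → MvPolynomial σ ℂ} {s : ℕ}
    (hs : ∀ i, (f i).totalDegree ≤ s) {v : ℕ}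
    {t : Fin v → MvPolynomial σ ℂ} (ht : ∀ i, (t i).totalDegree ≤ 1)
    {Ω : Type} [Field Ω] [Algebra ℂ Ω] {τ : Fin v → Ω} (hτ : AlgebraicIndependent ℂ τ)
    (ε : κ ⊕ Fin v ≃ σ) {α : Type} [Fintype α] (ξ : α → σ → Ω) (hξ : Function.Injective ξ)
    (h0 : ∀ a i, aeval (ξ a) (f i) = 0) (h1 : ∀ a i, aeval (ξ a) (t i) = τ i)
    (h2 : ∀ a, Iso (fun l => map (algebraMap ℂ Ω) (Sum.elim f t (ε.symm l))
      - C (aeval (ξ a) (Sum.elim f t (ε.symm l)))) (ξ a)) {I : Ideal (MvPolynomial σ ℂ)}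
    (hI : ∀ a, ∀ G ∈ I, aeval (ξ a) G = 0) (M : ℕ) :
    Fintype.card α * (M + 1) ^ v ≤ H I (v * M + Fintype.card κ * s) := by
  let c₀ : κ ⊕ Fin v → Ω := Sum.elim (fun _ => 0) τ
  let G : κ ⊕ Fin v → MvPolynomial σ Ω :=
    fun i => map (algebraMap ℂ Ω) (Sum.elim f t i) - C (c₀ i)
  let s₀ : κ ⊕ Fin v → ℕ := Sum.elim (fun _ => s) fun _ => 0
  have hdeg : ∀ i, (G i).totalDegree ≤ s₀ i + 1 := by
    intro i
    refine (totalDegree_sub_C_le _ _).trans ((low_deg_map _ _).trans ?_)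
    rcases i with i | i
    · exact (hs i).trans (Nat.le_succ s)
    · exact ht i
  have hz : ∀ a i, aeval (ξ a) (Sum.elim f t i) = c₀ i := by
    rintro a (i | i)
    · exact h0 a i
    · exact h1 a i
  obtain ⟨β, hβ, hind⟩ := cj_sep (fun l => G (ε.symm l)) (fun l => s₀ (ε.symm l))
    (fun l => hdeg _) ξ hξ (fun a => by simpa only [hz] using h2 a)
  have hsum : ∑ l, s₀ (ε.symm l) = Fintype.card κ * s := by
    rw [Equiv.sum_comp ε.symm s₀, Fintype.sum_sum_type]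
    simp [s₀]
  rw [hsum] at hβ
  have hc := card_le_H_of_indep (I := I) (M := v * M + Fintype.card κ * s)
    (fun z : α × (Fin v → Fin (M + 1)) => (∏ i, t i ^ (z.2 i : ℕ)) * monomial (β z.1) (1 : ℂ))
    (fun z => by
      refine (totalDegree_mul _ _).trans (add_le_add ?_ ?_)
      · refine (totalDegree_finsetProd _ _).trans ?_
        calc ∑ i, (t i ^ (z.2 i : ℕ)).totalDegree ≤ ∑ _i : Fin v, M := by
              refine Finset.sum_le_sum fun i _ => (totalDegree_pow _ _).trans ?_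
              calc (z.2 i : ℕ) * (t i).totalDegree ≤ M * 1 :=
                    Nat.mul_le_mul (Nat.lt_succ_iff.1 (z.2 i).2) (ht i)
                _ = M := mul_one M
          _ = v * M := by simp
      · refine (totalDegree_monomial_le _ _).trans ?_
        rw [Finsupp.sum_fintype _ _ (fun _ => rfl)]
        exact hβ z.1)
    (fun c hc => by
      have h3 := hind (fun a => ∑ e : Fin v → Fin (M + 1),
        algebraMap ℂ Ω (c (a, e)) * ∏ i, τ i ^ (e i : ℕ)) (fun a => by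
          rw [← hI a _ hc, map_sum, Fintype.sum_prod_type]
          refine Finset.sum_congr rfl fun a' _ => ?_
          rw [Finset.sum_mul]
          refine Finset.sum_congr rfl fun e _ => ?_
          rw [map_smul, map_mul, map_prod, aeval_monomial, map_one, one_mul,
            Finsupp.prod_fintype _ _ (fun i => pow_zero _), Algebra.smul_def, mul_assoc]
          simp only [map_pow, h1])
      funext z
      exact congrFun (low_box hτ (fun e => c (z.1, e)) (congrFun h3 z.1)) z.2)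
  simpa using hc

/-- Isolated components of an ideal generated in degree `s` are independent in degree `n s`. -/
theorem jcp {σ : Type} [Fintype σ] {v s : ℕ} {I J : Ideal (MvPolynomial σ ℂ)}
    (𝒲 : Finset (Ideal (MvPolynomial σ ℂ)))
    (h : ∀ W ∈ 𝒲, PD v W ∧ W ∈ (low I s).minimalPrimes ∧ J ≤ W) (M : ℕ) :
    (∑ W ∈ 𝒲, dg v W) * (M + 1) ^ v ≤ (v + 1) ^ v * H J (v * M + Fintype.card σ * s) := by
  rcases 𝒲.eq_empty_or_nonempty with rfl | ⟨W₀, hW₀⟩
  · simp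
  have hv := (h W₀ hW₀).1.1
  obtain ⟨f, hs, hf⟩ := cj_sq 𝒲 fun W hW => ⟨(h W hW).1, (h W hW).2.1⟩
  obtain ⟨t, ht1, ht⟩ := cj_fn 𝒲 fun W hW => (h W hW).1
  let A := MvPolynomial (Fin v) ℂ
  let Ω := AlgebraicClosure (FractionRing A)
  let τ : Fin v → Ω := fun i => IsScalarTower.toAlgHom ℂ A Ω (X i)
  have hτ : AlgebraicIndependent ℂ τ :=
    (algebraicIndependent_X (Fin v) ℂ).map' (f := IsScalarTower.toAlgHom ℂ A Ω) (by
      intro a b hab
      have h1 : algebraMap A Ω a = algebraMap A Ω b := hab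
      rw [IsScalarTower.algebraMap_apply A (FractionRing A) Ω,
        IsScalarTower.algebraMap_apply A (FractionRing A) Ω b] at h1
      exact IsFractionRing.injective A _ ((algebraMap (FractionRing A) Ω).injective h1))
  let ε : Fin (Fintype.card σ - v) ⊕ Fin v ≃ σ := Fintype.equivOfCardEq (by
    rw [Fintype.card_sum, Fintype.card_fin, Fintype.card_fin, Nat.sub_add_cancel hv])
  have hex : ∀ P : Ideal (MvPolynomial σ ℂ), ∃ (δ : ℕ) (ξ : Fin δ → σ → Ω),
      P ∈ 𝒲 → dg v P ≤ (v + 1) ^ v * δ ∧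
        Function.Injective ξ ∧ ∀ a, (∀ G, aeval (ξ a) G = 0 ↔ G ∈ P) ∧
          ∀ i, aeval (ξ a) (t i) = τ i := by
    intro P
    by_cases hP : P ∈ 𝒲
    · obtain ⟨p, g, K, a1, a2⟩ := (h P hP).1.2
      obtain ⟨δ, ξ, b1, b2, b3⟩ := low_one a1 t (a2 ▸ ht P hP) τ hτ ε
      rw [a2] at b1 b3
      exact ⟨δ, ξ, fun _ => ⟨dg_le b1, b2, fun a => ⟨(b3 a).1, (b3 a).2.1⟩⟩⟩
    · exact ⟨0, Fin.elim0, fun h => absurd h hP⟩
  choose δ ξ hξ using hex
  have h1 := cj_lower hs ht1 hτ ε (α := Σ P : 𝒲, Fin (δ P.1))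
    (fun z => ξ z.1.1 z.2) (by
      rintro ⟨⟨P, hP⟩, a⟩ ⟨⟨Q, hQ⟩, b⟩ hab
      have hab' : ξ P a = ξ Q b := hab
      have hPQ : P = Q := by
        ext G
        rw [← ((hξ P hP).2.2 a).1, ← ((hξ Q hQ).2.2 b).1, hab']
      subst hPQ
      rw [(hξ P hP).2.1 hab'])
    (fun z i => (((hξ _ z.1.2).2.2 z.2).1 _).2
      ((hf _ z.1.2).1.2 (Ideal.subset_span ⟨i, rfl⟩)))
    (fun z => ((hξ _ z.1.2).2.2 z.2).2)
    (fun z => cj_iso (h _ z.1.2).1 (hf _ z.1.2) t _ ((hξ _ z.1.2).2.2 z.2).1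
      (fun l => ((ht _ z.1.2 Ω _ ((hξ _ z.1.2).2.2 z.2).1).2 l).isIntegral.isAlgebraic) ε) (I := J)
    (fun z G hG => (((hξ _ z.1.2).2.2 z.2).1 _).2 ((h _ z.1.2).2.2 hG)) M
  rw [Fintype.card_sigma] at h1
  simp only [Fintype.card_fin] at h1
  rw [Finset.sum_coe_sort 𝒲 δ] at h1
  calc (∑ W ∈ 𝒲, dg v W) * (M + 1) ^ v ≤ (∑ W ∈ 𝒲, (v + 1) ^ v * δ W) * (M + 1) ^ v :=
        Nat.mul_le_mul_right _ (Finset.sum_le_sum fun W hW => (hξ W hW).1)
    _ = (v + 1) ^ v * ((∑ W ∈ 𝒲, δ W) * (M + 1) ^ v) := by rw [← Finset.mul_sum, mul_assoc]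
    _ ≤ _ := Nat.mul_le_mul_left _ (h1.trans (H_mono _ (Nat.add_le_add_left
        (Nat.mul_le_mul_right _ (Nat.sub_le _ _)) _)))

end Vale.Agent.P054S
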