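import Vale.Agent.P054S.CCDef
import Vale.Agent.P054S.CJ

/-!
The cover of a family of primes at a given scale.
-/

namespace Vale.Agent.P054S

open MvPolynomial Vale.Agent.P054A
open scoped Classical

variable {k d : ℕ}

theorem H_inf_le (𝒴 : Finset (Id k)) (M : ℕ) : H (𝒴.inf id) M ≤ ∑ Y ∈ 𝒴, H Y M :=
  H_le_sum 𝒴 id (fun _ h => Submodule.mem_finsetInf.2 h) M

theorem ccov_mono (I : Id k) {s s' : ℕ} (h : s ≤ s') : low I s ≤ low I s' :=
  Ideal.span_mono fun _ hg => ⟨hg.1, hg.2.trans h⟩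

theorem ccov_sum {α β : Type} [DecidableEq β] (s : Finset α) (t : α → Finset β) (f : β → ℕ) :
    ∑ x ∈ s.biUnion t, f x ≤ ∑ c ∈ s, ∑ x ∈ t c, f x := by
  induction s using Finset.induction_on with
  | empty => simp
  | insert a s ha ih =>
    rw [Finset.biUnion_insert, Finset.sum_insert ha]
    exact (Nat.le_add_right _ _).trans (Finset.sum_union_inter.le.trans (Nat.add_le_add_left ih _))

theorem H_low (I : Id k) {s M : ℕ} (h : M ≤ s) : H (low I s) M = H I M := by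
  refine le_antisymm ?_ (H_anti (Ideal.span_le.2 fun _ hg => hg.1) M)
  rw [hilA_eq, hilA_eq]
  exact hilA_rank _ _ fun g hg => (hilA_ker _ M g).2 (Ideal.subset_span
    ⟨(hilA_ker I M g).1 hg, ((mem_restrictTotalDegree _ _ _).1 g.2).trans h⟩)

/-- A chain of minimal primes below `A` has two equal neighbours. -/
theorem cov_chain (I A : Id k) (hA : A.IsPrime) (E : ℕ → ℕ) (hE : Monotone E)
    (h : low I (E (k + 1)) ≤ A) :
    ∃ c ≤ k, ∃ W ∈ (low I (E c)).minimalPrimes, low I (E (c + 1)) ≤ W ∧ W ≤ A := by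
  have key : ∀ n a (A : Id k), PD a A → low I (E n) ≤ A → (∃ c < n,
      ∃ W ∈ (low I (E c)).minimalPrimes, low I (E (c + 1)) ≤ W ∧ W ≤ A) ∨ a + n ≤ k := by
    intro n
    induction n with
    | zero => exact fun a A h _ => Or.inr (by simpa using h.1)
    | succ n ih =>
      intro a A h1 h2
      have := h1.prime
      obtain ⟨W, h3, h4⟩ := Ideal.exists_minimalPrimes_le
        ((ccov_mono I (hE (Nat.le_succ n))).trans h2)
      by_cases e : low I (E (n + 1)) ≤ W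
      · exact Or.inl ⟨n, Nat.lt_succ_self n, W, h3, e, h4⟩
      obtain ⟨b, hb⟩ := exists_PD h3.1.1
      have h5 := hb.dim_lt h1 (lt_of_le_of_ne h4 fun e' => e (e' ▸ h2))
      rcases ih b W hb h3.1.2 with ⟨c, h6, W', h7, h8, h9⟩ | h6
      · exact Or.inl ⟨c, by omega, W', h7, h8, h9.trans h4⟩
      · exact Or.inr (by omega)
  obtain ⟨a, ha⟩ := exists_PD hA
  rcases key (k + 1) a A ha h with ⟨c, h1, h2⟩ | h1
  · exact ⟨c, by omega, h2⟩
  · omega

/-- The cover lemma. -/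
theorem cover (k : ℕ) : ∃ C : ℕ, 1 ≤ C ∧ ∀ (w e : ℕ) (𝒴 : Finset (Id k)), 1 ≤ e →
    (∀ Y ∈ 𝒴, PD w Y) → ∃ 𝒲 : ℕ → Finset (Id k), (∀ v, ∀ W ∈ 𝒲 v, PD v W) ∧
      (∀ v, tdg v (𝒲 v) * e ^ v ≤ C * tdg w 𝒴 * e ^ w) ∧
      ∀ A : Id k, A.IsPrime → (∀ g, (∀ Y ∈ 𝒴, g ∈ Y) → g.totalDegree ≤ C * e → g ∈ A) →
        ∃ v, ∃ W ∈ 𝒲 v, W ≤ A := by
  set L := (2 * k + 2) ^ (k + 1) with hL
  have L1 : 1 ≤ L := Nat.pow_pos (by omega)
  have K1 : 1 ≤ (k + 1) ^ (k + 1) := Nat.pow_pos (by omega)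
  refine ⟨(k + 1) ^ (k + 1) * L ^ (k + 1), Nat.mul_pos K1 (Nat.pow_pos L1), fun w e 𝒴 he hY => ?_⟩
  let E : ℕ → ℕ := fun c => (2 * k + 2) ^ c * e
  have hE : Monotone E := fun a b h =>
    Nat.mul_le_mul_right _ (Nat.pow_le_pow_right (by omega) h)
  let T : ℕ → ℕ → Finset (Id k) := fun v c =>
    (Ideal.finite_minimalPrimes_of_isNoetherianRing _ (low (𝒴.inf id) (E c))).toFinset.filter
      fun W => PD v W ∧ low (𝒴.inf id) (E (c + 1)) ≤ W
  have hT : ∀ v c W, W ∈ T v c ↔ W ∈ (low (𝒴.inf id) (E c)).minimalPrimes ∧ PD v W ∧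
      low (𝒴.inf id) (E (c + 1)) ≤ W := fun v c W => by
    simp only [T, Finset.mem_filter, Set.Finite.mem_toFinset]
  refine ⟨fun v => (Finset.range (k + 1)).biUnion (T v), fun v W hW => ?_, fun v => ?_,
    fun A hA h => ?_⟩
  · obtain ⟨c, -, hc⟩ := Finset.mem_biUnion.1 hW
    exact ((hT v c W).1 hc).2.1
  · refine (Nat.mul_le_mul_right _ (ccov_sum _ _ _)).trans ?_
    rw [Finset.sum_mul]
    refine (Finset.sum_le_card_nsmul _ _ ((k + 1) ^ k * L ^ (k + 1) * tdg w 𝒴 * e ^ w)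
      fun c hc => ?_).trans_eq (by rw [Finset.card_range, smul_eq_mul]; ring)
    rcases (T v c).eq_empty_or_nonempty with e0 | ⟨W, hW⟩
    · simp [e0]
    have hv : v ≤ k := by simpa using ((hT v c W).1 hW).2.1.1
    have h1 := jcp (T v c) (fun W hW => ⟨((hT v c W).1 hW).2.1, ((hT v c W).1 hW).1,
      ((hT v c W).1 hW).2.2⟩) (E c)
    have h0 : 1 ≤ E c := he.trans (by simpa [E] using hE (Nat.zero_le c))
    have h2 : v * E c + Fintype.card (Fin k) * E c + 1 ≤ E (c + 1) := by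
      rw [Fintype.card_fin, show E (c + 1) = (2 * k + 2) * E c by simp only [E]; ring]
      nlinarith
    rw [H_low _ (by omega)] at h1
    have h3 : H (𝒴.inf id) (v * E c + Fintype.card (Fin k) * E c)
        ≤ L ^ (k + 1) * tdg w 𝒴 * e ^ w := by
      refine (H_inf_le _ _).trans ?_
      rw [tdg, Finset.mul_sum, Finset.sum_mul]
      refine Finset.sum_le_sum fun Y hY' => ((hY Y hY').H_le _).trans ?_
      have hw : w ≤ k := by simpa using (hY Y hY').1
      calc _ ≤ dg w Y * (L * e) ^ w := Nat.mul_le_mul_left _ (Nat.pow_le_pow_left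
            (h2.trans (hE (Finset.mem_range.1 hc))) _)
        _ = L ^ w * dg w Y * e ^ w := by ring
        _ ≤ _ := by
            gcongr
            omega
    calc _ ≤ (∑ W ∈ T v c, dg v W) * (E c + 1) ^ v := by
          gcongr
          exact le_trans (by simpa [E] using hE (Nat.zero_le c)) (Nat.le_succ _)
      _ ≤ (v + 1) ^ v * (L ^ (k + 1) * tdg w 𝒴 * e ^ w) := h1.trans (Nat.mul_le_mul_left _ h3)
      _ ≤ (k + 1) ^ k * (L ^ (k + 1) * tdg w 𝒴 * e ^ w) := Nat.mul_le_mul_right _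
          ((Nat.pow_le_pow_left (by omega) _).trans (Nat.pow_le_pow_right (by omega) hv))
      _ = _ := by ring
  · obtain ⟨c, h1, W, h2, h3, h4⟩ := cov_chain (𝒴.inf id) A hA E hE (Ideal.span_le.2 fun g hg =>
      h g (fun Y hY' => (Finset.inf_le (f := id) hY' : 𝒴.inf id ≤ Y) hg.1) (hg.2.trans
        (Nat.mul_le_mul_right _ ((Nat.le_self_pow (by omega) L).trans
          (Nat.le_mul_of_pos_left _ K1)))))
    obtain ⟨v, hv⟩ := exists_PD h2.1.1
    exact ⟨v, W, Finset.mem_biUnion.2 ⟨c, Finset.mem_range.2 (by omega), (hT v c W).2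
      ⟨h2, hv, h3⟩⟩, h4⟩

end Vale.Agent.P054S
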