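import Vale.Agent.P054A.Cmp

/-!
Varieties: primes of the polynomial ring with their dimension.
-/

namespace Vale.Agent.P054S

open MvPolynomial Vale.Agent.P054A

/-- `P` is a prime of dimension `v`. -/
def IsVar {σ : Type} [Fintype σ] (v : ℕ) (P : Ideal (MvPolynomial σ ℂ)) : Prop :=
  ∃ c p, v + c = Fintype.card σ ∧ IsComp c p P

open Classical in
/-- The points of `T` on `P`. -/
noncomputable def onT {σ : Type} (T : Finset (σ → ℂ)) (P : Ideal (MvPolynomial σ ℂ)) :
    Finset (σ → ℂ) := T.filter fun p => On p P

end Vale.Agent.P054S
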