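import Vale.Agent.P054S.CExtB

/-!
One step of the extraction.
-/

namespace Vale.Agent.P054S

open MvPolynomial Vale.Agent.P054A
open scoped Classical

variable {k d : ℕ}

theorem extract (d : ℕ) : ∃ c : ℕ, ∀ (T : Finset (Pt d)) (j η t : ℕ), 1 ≤ t →
    Cap T j η (2 * t) → T.card ≤ η * t ^ (d - j) →
    ∃ R ⊆ T, ∃ (Q : ℕ → Finset (Pt d)) (V : Pt d → Id d), Cap R j η t ∧
      T ⊆ R ∪ (Finset.Ioo j d).biUnion Q ∧
      R.card + ∑ u ∈ Finset.Ioo j d, (Q u).card ≤ T.card ∧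
      ∀ u ∈ Finset.Ioo j d, Q u ⊆ T ∧ Nodes c (Q u) V u (η * (2 * t) ^ (u - j)) t := by
  obtain ⟨c₁, -, h₁⟩ := node_sys d
  obtain ⟨c₂, -, h₂⟩ := node_rob d
  refine ⟨2 ^ d + c₁ + c₂, fun T j η t ht hT hc => ?_⟩
  obtain ⟨R, hR, V, u, hu, hV⟩ := greedy_nodes T j η t
  have hsub : ∀ q ∈ T \ R, fib (T \ R) V q ⊆ ptsOn T (V q) := fun q _ q' hq' => by
    obtain ⟨k1, k2⟩ := Finset.mem_filter.1 hq'
    exact mem_ptsOn.2 ⟨(Finset.mem_sdiff.1 k1).1, k2 ▸ (hV q' k1).2.2.1⟩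
  have hm : ∀ q ∈ T \ R, u q ∈ Finset.Ioo j d := fun q hq => by
    obtain ⟨k1, k2, -, k4⟩ := hV q hq
    have k5 : u q ≤ d := by simpa using k2.1
    refine Finset.mem_Ioo.2 ⟨k1, lt_of_le_of_ne k5 fun e => ?_⟩
    have k6 : (fib (T \ R) V q).card ≤ T.card :=
      Finset.card_le_card ((Finset.filter_subset _ _).trans Finset.sdiff_subset)
    have k7 := Nat.mul_le_mul_right (η * t ^ (u q - j)) k2.one_le_dg
    have k8 : η * t ^ (u q - j) = η * t ^ (d - j) := by rw [e]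
    omega
  refine ⟨R, hR, fun x => (T \ R).filter fun q => u q = x, V, fun x hx X hX => ?_,
    fun q hq => ?_, ?_, fun x hx => ?_⟩
  · rcases hx.eq_or_lt with rfl | hx
    · have k := hT j le_rfl X hX
      rw [Nat.sub_self, pow_zero] at k ⊢
      exact (Finset.card_le_card (Finset.filter_subset_filter _ hR)).trans k
    · exact hu x hx X hX
  · by_cases h : q ∈ R
    · exact Finset.mem_union_left _ h
    · have k := Finset.mem_sdiff.2 ⟨hq, h⟩
      exact Finset.mem_union_right _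
        (Finset.mem_biUnion.2 ⟨u q, hm q k, Finset.mem_filter.2 ⟨k, rfl⟩⟩)
  · rw [← Finset.card_eq_sum_card_fiberwise fun q hq => hm q hq, add_comm,
      Finset.card_sdiff_add_card_eq_card hR]
  obtain ⟨hx1, hx2⟩ := Finset.mem_Ioo.1 hx
  have key : ∀ q ∈ (T \ R).filter fun q => u q = x, PD x (V q) ∧ On (cx q) (V q) ∧
      dg x (V q) * (η * t ^ (x - j)) < (fib ((T \ R).filter fun q => u q = x) V q).card ∧
      fib ((T \ R).filter fun q => u q = x) V q ⊆ ptsOn T (V q) := fun q hq => by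
    obtain ⟨k1, rfl⟩ := Finset.mem_filter.1 hq
    obtain ⟨-, k2, k3, k4⟩ := hV q k1
    have e : fib ((T \ R).filter fun q' => u q' = u q) V q = fib (T \ R) V q := by
      refine Finset.Subset.antisymm (Finset.filter_subset_filter _ (Finset.filter_subset _ _))
        fun q' hq' => ?_
      obtain ⟨k5, k6⟩ := Finset.mem_filter.1 hq'
      exact Finset.mem_filter.2
        ⟨Finset.mem_filter.2 ⟨k5, (hV q' k5).2.1.unique (k6 ▸ k2)⟩, k6⟩
    rw [e]
    exact ⟨k2, k3, k4, hsub q k1⟩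
  refine ⟨(Finset.filter_subset _ _).trans Finset.sdiff_subset, fun q hq => (key q hq).1,
    fun q hq => (key q hq).2.1, fun q hq => ?_, fun q hq => ?_, fun q hq => ?_,
    fun q hq g hg e he hd => ?_⟩
  · have k1 : 2 ^ (x - j) ≤ 2 ^ d + c₁ + c₂ :=
      (Nat.pow_le_pow_right two_pos ((Nat.sub_le _ _).trans hx2.le)).trans
        ((Nat.le_add_right _ c₁).trans (Nat.le_add_right _ c₂))
    refine le_trans (le_of_eq ?_) (Nat.mul_le_mul k1 (key q hq).2.2.1.le)
    rw [mul_pow]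
    ring
  · exact (Finset.card_le_card (key q hq).2.2.2).trans (hT x hx1.le _ (key q hq).1)
  · obtain ⟨f, J, k1, k2⟩ := h₁ T j η t x _ ht hT hx1.le (key q hq).1
      ((key q hq).2.2.1.trans_le (Finset.card_le_card (key q hq).2.2.2))
    exact ⟨f, J, fun i => ⟨(k1 i).1, (k1 i).2.trans (Nat.mul_le_mul_right _
      ((Nat.le_add_left c₁ _).trans (Nat.le_add_right _ c₂)))⟩, k2⟩
  · exact (h₂ T _ j η t x _ hT hx1 (key q hq).1 (key q hq).2.2.2 (key q hq).2.2.1 g hg e he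
      hd).trans (Nat.mul_le_mul_right _ (Nat.mul_le_mul_right _ (Nat.le_add_left _ _)))

end Vale.Agent.P054S
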