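import Vale.Agent.P054S.CCDef

/-!
Greedy extraction of heavy varieties.
-/

namespace Vale.Agent.P054S

open MvPolynomial Vale.Agent.P054A
open scoped Classical

variable {k d : ℕ}

theorem cexta_mono {T Q : Finset (Pt d)} (hQ : Q ⊆ T) (X : Id d) :
    (ptsOn Q X).card ≤ (ptsOn T X).card :=
  Finset.card_le_card fun _ hq => mem_ptsOn.2 ⟨hQ (mem_ptsOn.1 hq).1, (mem_ptsOn.1 hq).2⟩

theorem Cap.mono {T Q : Finset (Pt d)} {j η E : ℕ} (h : Cap T j η E) (hQ : Q ⊆ T) :
    Cap Q j η E := fun x hx X hX => (cexta_mono hQ X).trans (h x hx X hX)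

theorem Cap.sub {T Q : Finset (Pt d)} {j η E u : ℕ} (h : Cap T j η E) (hQ : Q ⊆ T) (hu : j ≤ u) :
    Cap Q u (η * E ^ (u - j)) E := by
  intro x hx X hX
  rw [mul_assoc η, ← pow_add, show u - j + (x - u) = x - j by omega]
  exact h.mono hQ x (hu.trans hx) X hX

theorem Poor.mono {T Q : Finset (Pt d)} {τ : ℕ} (h : Poor T τ) (hQ : Q ⊆ T) : Poor Q τ :=
  fun L h1 h2 => (Nat.pow_le_pow_left (cexta_mono hQ L) _).trans (h L h1 h2)

theorem card_ptsOn (T : Finset (Pt d)) (X : Id d) :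
    (ptsOn T X).card = (onT (T.image cx) X).card := by
  have h : Function.Injective (cx : Pt d → Fin d → ℂ) := fun x y h =>
    funext fun l => Complex.ofReal_injective (congrFun h l)
  rw [onT, Finset.filter_image, Finset.card_image_of_injective _ h]
  rfl

theorem greedy_nodes (T : Finset (Pt d)) (j η t : ℕ) :
    ∃ R ⊆ T, ∃ (V : Pt d → Id d) (u : Pt d → ℕ),
      (∀ x, j < x → ∀ X : Id d, PD x X → (ptsOn R X).card ≤ dg x X * (η * t ^ (x - j))) ∧
      ∀ q ∈ T \ R, j < u q ∧ PD (u q) (V q) ∧ On (cx q) (V q) ∧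
        dg (u q) (V q) * (η * t ^ (u q - j)) < (fib (T \ R) V q).card := by
  induction T using Finset.strongInduction with
  | H T ih =>
    by_cases h : ∀ x, j < x → ∀ X : Id d, PD x X →
        (ptsOn T X).card ≤ dg x X * (η * t ^ (x - j))
    · exact ⟨T, subset_rfl, fun _ => ⊥, fun _ => 0, h, fun q hq => by simp at hq⟩
    push Not at h
    obtain ⟨x, hx, X, hX, hc⟩ := h
    have hsub : ptsOn T X ⊆ T := Finset.filter_subset _ _
    have hne : (ptsOn T X).Nonempty := Finset.card_pos.1 (by omega)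
    obtain ⟨R, hR, V, u, h1, h2⟩ := ih _ (Finset.sdiff_ssubset hsub hne)
    have hT : ∀ q, q ∈ T \ ptsOn T X ↔ q ∈ T ∧ ¬ On (cx q) X := fun q => by
      rw [Finset.mem_sdiff, mem_ptsOn]
      exact and_congr_right fun hq => not_congr (and_iff_right hq)
    refine ⟨R, hR.trans Finset.sdiff_subset, fun q => if On (cx q) X then X else V q,
      fun q => if On (cx q) X then x else u q, h1, fun q hq => ?_⟩
    obtain ⟨hq1, hq2⟩ := Finset.mem_sdiff.1 hq
    by_cases e : On (cx q) X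
    · simp only [if_pos e]
      refine ⟨hx, hX, e, hc.trans_le (Finset.card_le_card fun y hy => ?_)⟩
      obtain ⟨hy1, hy2⟩ := mem_ptsOn.1 hy
      refine Finset.mem_filter.2 ⟨Finset.mem_sdiff.2 ⟨hy1, fun hy3 => ((hT y).1 (hR hy3)).2 hy2⟩, ?_⟩
      simp only [if_pos e, if_pos hy2]
    · simp only [if_neg e]
      obtain ⟨h3, h4, h5, h6⟩ := h2 q (Finset.mem_sdiff.2 ⟨(hT q).2 ⟨hq1, e⟩, hq2⟩)
      refine ⟨h3, h4, h5, h6.trans_le (Finset.card_le_card fun y hy => ?_)⟩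
      obtain ⟨hy1, hy2⟩ := Finset.mem_filter.1 hy
      obtain ⟨hy3, hy4⟩ := Finset.mem_sdiff.1 hy1
      refine Finset.mem_filter.2 ⟨Finset.mem_sdiff.2 ⟨((hT y).1 hy3).1, hy4⟩, ?_⟩
      simp only [if_neg e, if_neg ((hT y).1 hy3).2, hy2]

end Vale.Agent.P054S
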