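import Vale.Agent.P054S.CExtA

/-!
Heavy varieties are simply cut and robust.
-/

namespace Vale.Agent.P054S

open MvPolynomial Vale.Agent.P054A
open scoped Classical

variable {k d : ℕ}

theorem node_sys (d : ℕ) : ∃ c : ℕ, 1 ≤ c ∧ ∀ (T : Finset (Pt d)) (j η t x : ℕ) (X : Id d),
    1 ≤ t → Cap T j η (2 * t) → j ≤ x → PD x X →
      dg x X * (η * t ^ (x - j)) < (ptsOn T X).card →
      ∃ (f : Fin (d - x) → MvPolynomial (Fin d) ℂ) (J : Fin (d - x) → Fin d),
        Sys X (c * t) f J := by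
  obtain ⟨B, hB, h⟩ := walshN d
  have h2 : 1 ≤ 2 ^ d := Nat.one_le_two_pow
  have hl : 1 ≤ B * 2 ^ d := Nat.mul_pos hB h2
  refine ⟨B * (B * 2 ^ d), Nat.mul_pos hB hl, fun T j η t x X ht hc hj hX hv => ?_⟩
  obtain ⟨w, c, f, J, Q, hw, hxw, hf, hm, hdeg, hQ, hle, -, -, hdg⟩ :=
    h (Fin d) (Fintype.card_fin d) x X (B * 2 ^ d * t) hX.var (Nat.mul_pos hl ht)
  rw [Fintype.card_fin] at hw
  have hwx : w = x := by
    by_contra hne
    obtain ⟨a, rfl⟩ : ∃ a, w = x + (a + 1) := ⟨w - x - 1, by omega⟩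
    obtain ⟨b, rfl⟩ : ∃ b, x = j + b := ⟨x - j, by omega⟩
    have e1 : j + b + (a + 1) - (j + b) = a + 1 := by omega
    have e2 : j + b - j = b := by omega
    have e3 : j + b + (a + 1) - j = b + (a + 1) := by omega
    have g1 : (ptsOn T X).card ≤ (ptsOn T Q).card := Finset.card_le_card fun q hq =>
      mem_ptsOn.2 ⟨(mem_ptsOn.1 hq).1, fun g hg => (mem_ptsOn.1 hq).2 g (hle hg)⟩
    have g2 := hc _ (by omega) Q hQ.pd
    rw [e1] at hdg
    rw [e2] at hv
    rw [e3] at g2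
    have g3 : B * 2 ^ d ≤ (B * 2 ^ d) ^ (a + 1) := Nat.le_self_pow (Nat.succ_ne_zero a) _
    have g4 : B * (dg (j + b + (a + 1)) Q * (2 ^ d * t ^ (a + 1))) ≤ B * dg (j + b) X := by
      refine le_trans ?_ hdg
      rw [mul_pow]
      calc _ = dg (j + b + (a + 1)) Q * (B * 2 ^ d * t ^ (a + 1)) := by ring
        _ ≤ _ := Nat.mul_le_mul_left _ (Nat.mul_le_mul_right _ g3)
    have g5 := Nat.le_of_mul_le_mul_left g4 hB
    have g6 : 2 ^ (b + (a + 1)) ≤ 2 ^ d := Nat.pow_le_pow_right (by norm_num) (by omega)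
    have g7 : dg (j + b + (a + 1)) Q * (η * (2 * t) ^ (b + (a + 1))) ≤
        dg (j + b) X * (η * t ^ b) := by
      calc _ = dg (j + b + (a + 1)) Q * (2 ^ (b + (a + 1)) * t ^ (a + 1)) * (η * t ^ b) := by
            rw [mul_pow, pow_add t]
            ring
        _ ≤ dg (j + b + (a + 1)) Q * (2 ^ d * t ^ (a + 1)) * (η * t ^ b) :=
            Nat.mul_le_mul_right _ (Nat.mul_le_mul_left _ (Nat.mul_le_mul_right _ g6))
        _ ≤ _ := Nat.mul_le_mul_right _ g5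
    omega
  obtain rfl : c = d - x := by omega
  exact ⟨f, J, fun i => ⟨hf i, by rw [mul_assoc]; exact hdeg i⟩, hm⟩

theorem node_rob (d : ℕ) : ∃ c : ℕ, 1 ≤ c ∧ ∀ (T A : Finset (Pt d)) (j η t x : ℕ) (X : Id d),
    Cap T j η (2 * t) → j < x → PD x X → A ⊆ ptsOn T X →
      dg x X * (η * t ^ (x - j)) < A.card → ∀ g, g ∉ X → ∀ e, 1 ≤ e → g.totalDegree ≤ e →
      t * (A.filter fun q => eval (cx q) g = 0).card ≤ c * e * A.card := by
  have h2 : 1 ≤ 2 ^ d := Nat.one_le_two_pow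
  refine ⟨cB d * 2 ^ d, Nat.mul_pos (one_le_cB d) h2,
    fun T A j η t x X hc hj hX hA hv g hg e he hdeg => ?_⟩
  have hxd : x ≤ d := by simpa using hX.1
  obtain ⟨b, rfl⟩ : ∃ b, x = j + b + 1 := ⟨x - j - 1, by omega⟩
  have e1 : j + b + 1 - j = b + 1 := by omega
  have e2 : j + b - j = b := by omega
  rw [e1] at hv
  have g1 := IsVar.card_sec hX.var hg hdeg he (T.image cx) (a := η * (2 * t) ^ b) (b := 1)
    fun Q hQ _ _ => by
      have g := hc _ (Nat.le_add_right j b) Q hQ.pd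
      rw [e2, card_ptsOn] at g
      rw [mul_one, mul_comm]
      exact g
  rw [mul_one, Fintype.card_fin] at g1
  have g2 : (A.filter fun q => eval (cx q) g = 0).card ≤
      ((onT (T.image cx) X).filter fun p => eval p g = 0).card := by
    refine Finset.card_le_card_of_injOn cx (fun q hq => ?_) cx_injective.injOn
    have hq' := Finset.mem_filter.1 (Finset.mem_coe.1 hq)
    have hq2 := mem_ptsOn.1 (hA hq'.1)
    exact Finset.mem_coe.2 (Finset.mem_filter.2
      ⟨mem_onT.2 ⟨Finset.mem_image_of_mem _ hq2.1, hq2.2⟩, hq'.2⟩)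
  have g3 : 2 ^ b ≤ 2 ^ d := Nat.pow_le_pow_right (by norm_num) (by omega)
  calc _ ≤ t * (η * (2 * t) ^ b * (cB d * dg (j + b + 1) X * e)) :=
        Nat.mul_le_mul_left _ (g2.trans g1)
    _ = cB d * 2 ^ b * e * (dg (j + b + 1) X * (η * t ^ (b + 1))) := by
        rw [mul_pow]
        ring
    _ ≤ _ := Nat.mul_le_mul (Nat.mul_le_mul_right _ (Nat.mul_le_mul_left _ g3)) hv.le

end Vale.Agent.P054S
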