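import Vale.Agent.P054S.CFDef

/-!
Flats as ideals.
-/

namespace Vale.Agent.P054S

open MvPolynomial Module Vale.Agent.P054A
open scoped Classical

noncomputable section

variable {σ : Type} [Fintype σ]

/-- The affine form `c + L x`. -/
def aff (c : ℂ) (L : (σ → ℂ) →ₗ[ℂ] ℂ) : MvPolynomial σ ℂ :=
  C c + ∑ l, C (L fun j => if l = j then 1 else 0) * X l

theorem eval_aff (c : ℂ) (L : (σ → ℂ) →ₗ[ℂ] ℂ) (x : σ → ℂ) : eval x (aff c L) = c + L x := by
  rw [L.pi_apply_eq_sum_univ x]
  simp [aff, mul_comm]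

theorem deg_aff (c : ℂ) (L : (σ → ℂ) →ₗ[ℂ] ℂ) : (aff c L).totalDegree ≤ 1 := by
  refine (totalDegree_add _ _).trans (max_le (by simp) ?_)
  refine totalDegree_finsetSum_le fun l _ => (totalDegree_mul _ _).trans ?_
  simp

omit [Fintype σ] in
theorem exists_aff {g : MvPolynomial σ ℂ} (hg : g.totalDegree ≤ 1) :
    ∃ (c : ℂ) (L : (σ → ℂ) →ₗ[ℂ] ℂ), ∀ x, eval x g = c + L x := by
  have h : ∀ m ∈ g.support, ∃ z : ℂ × ((σ → ℂ) →ₗ[ℂ] ℂ), ∀ x,
      eval x (monomial m (coeff m g)) = z.1 + z.2 x := fun m hm => by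
    have h1 := (le_totalDegree hm).trans hg
    by_cases h0 : m = 0
    · exact ⟨(coeff m g, 0), fun x => by simp [h0]⟩
    · have h2 : (m.sum fun _ e => e) ≠ 0 := fun e => h0 (by
        ext l
        by_contra hl
        exact hl (Finset.sum_eq_zero_iff.1 e l (Finsupp.mem_support_iff.2 hl)))
      obtain ⟨a, rfl⟩ := (Finsupp.sum_eq_one_iff m).1 (by omega)
      exact ⟨(0, coeff (Finsupp.single a 1) g • LinearMap.proj a), fun x => by
        simp [eval_monomial]⟩
  choose! z hz using h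
  refine ⟨∑ m ∈ g.support, (z m).1, ∑ m ∈ g.support, (z m).2, fun x => ?_⟩
  conv_lhs => rw [g.as_sum]
  rw [map_sum, LinearMap.sum_apply, ← Finset.sum_add_distrib]
  exact Finset.sum_congr rfl fun m hm => hz m hm x

omit [Fintype σ] in
theorem cf_eval_aeval {τ : Type} (φ : σ → MvPolynomial τ ℂ) (x : τ → ℂ) (g : MvPolynomial σ ℂ) :
    eval x (aeval φ g) = eval (fun l => eval x (φ l)) g := by
  induction g using MvPolynomial.induction_on with
  | C a => simp
  | add p q hp hq => simp only [map_add, hp, hq]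
  | mul_X p i hp => simp only [map_mul, hp, aeval_X, eval_X]

theorem cf_mem_of_on {V : Ideal (MvPolynomial σ ℂ)} (hV : V.IsPrime) {g : MvPolynomial σ ℂ}
    (h : ∀ x, On x V → eval x g = 0) : g ∈ V := by
  by_contra hg
  obtain ⟨x, h1, h2⟩ := exists_on_ne hV hg
  exact h2 (h x h1)

theorem cf_on_low {V : Ideal (MvPolynomial σ ℂ)} {x : σ → ℂ} {s : ℕ} :
    On x (low V s) ↔ ∀ g ∈ V, g.totalDegree ≤ s → eval x g = 0 := by
  refine ⟨fun h g h1 h2 => h g (Ideal.subset_span ⟨h1, h2⟩), fun h g hg => ?_⟩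
  have : low V s ≤ RingHom.ker (eval x) := Ideal.span_le.2 fun g hg => h g hg.1 hg.2
  exact this hg

theorem cf_low_le (V : Ideal (MvPolynomial σ ℂ)) (s : ℕ) : low V s ≤ V :=
  Ideal.span_le.2 fun _ hg => hg.1

theorem Flat.on_iff {V : Ideal (MvPolynomial σ ℂ)} (h : Flat V) {x : σ → ℂ} :
    On x (low V 1) ↔ On x V :=
  ⟨fun h1 g hg => h1 g (h hg), fun h1 g hg => h1 g (cf_low_le V 1 hg)⟩

/-- The ideal of the flat `z + W`. -/
def flatI (z : σ → ℂ) (W : Submodule ℂ (σ → ℂ)) : Ideal (MvPolynomial σ ℂ) :=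
  vanI {x | x - z ∈ W}

theorem on_flatI {z x : σ → ℂ} {W : Submodule ℂ (σ → ℂ)} : On x (flatI z W) ↔ x - z ∈ W := by
  refine ⟨fun h => ?_, fun h g hg => hg x h⟩
  by_contra hx
  obtain ⟨L, h1, h2⟩ := Submodule.exists_le_ker_of_notMem hx
  refine h1 ?_
  have := h (aff (-L z) L) fun y hy => by
    have h3 : L (y - z) = 0 := h2 hy
    rw [eval_aff, neg_add_eq_sub, ← map_sub, h3]
  rwa [eval_aff, neg_add_eq_sub, ← map_sub] at this

theorem flat_flatI (z : σ → ℂ) (W : Submodule ℂ (σ → ℂ)) : Flat (flatI z W) := by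
  obtain ⟨r, hr⟩ := W.subtype.exists_leftInverse_of_injective W.ker_subtype
  let T : (σ → ℂ) →ₗ[ℂ] (σ → ℂ) := W.subtype ∘ₗ r
  let φ : σ → MvPolynomial σ ℂ := fun l => aff (z l - T z l) (LinearMap.proj l ∘ₗ T)
  have h1 : ∀ x, (fun l => eval x (φ l)) = z + T (x - z) := fun x => by
    funext l
    simp only [φ, eval_aff, map_sub, LinearMap.comp_apply, LinearMap.proj_apply, Pi.add_apply,
      Pi.sub_apply]
    ring
  have h2 : ∀ g, g - aeval φ g ∈ low (flatI z W) 1 := fun g => by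
    induction g using MvPolynomial.induction_on with
    | C a => simp
    | add p q hp hq =>
      rw [map_add, add_sub_add_comm]
      exact Ideal.add_mem _ hp hq
    | mul_X p i hp =>
      rw [map_mul, aeval_X, show p * X i - aeval φ p * φ i
        = (p - aeval φ p) * φ i + p * (X i - φ i) by ring]
      refine Ideal.add_mem _ (Ideal.mul_mem_right _ _ hp) (Ideal.mul_mem_left _ _
        (Ideal.subset_span ⟨fun x hx => ?_, (totalDegree_sub _ _).trans
          (max_le (by simp) (deg_aff _ _))⟩))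
      have h3 : T (x - z) = x - z := congrArg Subtype.val (LinearMap.congr_fun hr ⟨x - z, hx⟩)
      rw [map_sub, eval_X, congrFun (h1 x) i, h3]
      simp
  intro g hg
  have h3 : aeval φ g = 0 := MvPolynomial.funext fun x => by
    rw [cf_eval_aeval, h1, map_zero]
    exact hg _ (show z + T (x - z) - z ∈ W by rw [add_sub_cancel_left]; exact (r (x - z)).2)
  have h4 := h2 g
  rwa [h3, sub_zero] at h4

theorem flatI_pd (z : σ → ℂ) (W : Submodule ℂ (σ → ℂ)) : PD (finrank ℂ W) (flatI z W) ∧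
    ∀ M, H (flatI z W) M ≤ 1 * (M + 1) ^ finrank ℂ W := by
  set e := finrank ℂ W
  let b : W ≃ₗ[ℂ] (Fin e → ℂ) := (finBasis ℂ W).equivFun
  obtain ⟨r, hr⟩ := W.subtype.exists_leftInverse_of_injective W.ker_subtype
  let B : (Fin e → ℂ) →ₗ[ℂ] (σ → ℂ) := W.subtype ∘ₗ b.symm.toLinearMap
  let A : (σ → ℂ) →ₗ[ℂ] (Fin e → ℂ) := b.toLinearMap ∘ₗ r
  let ψ : σ → MvPolynomial (Fin e) ℂ := fun l => aff (z l) (LinearMap.proj l ∘ₗ B)
  let θ : Fin e → MvPolynomial σ ℂ := fun j => aff (-A z j) (LinearMap.proj j ∘ₗ A)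
  have h1 : ∀ u, (fun l => eval u (ψ l)) = z + B u := fun u => by
    funext l
    simp [ψ, eval_aff]
  have hB : ∀ u, z + B u - z ∈ W := fun u => by
    rw [add_sub_cancel_left]
    exact (b.symm u).2
  have h2 : flatI z W = Ideal.comap (aeval ψ : _ →ₐ[ℂ] _) ⊥ := by
    ext g
    rw [Ideal.mem_comap, Ideal.mem_bot]
    refine ⟨fun hg => MvPolynomial.funext fun u => ?_, fun hg x hx => ?_⟩
    · rw [cf_eval_aeval, h1, map_zero]
      exact hg _ (hB u)
    · have := cf_eval_aeval ψ (b ⟨x - z, hx⟩) g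
      rw [hg, map_zero, h1] at this
      simpa [B] using this.symm
  have h3 : ∀ M, H (flatI z W) M ≤ 1 * (M + 1) ^ e := fun M => by
    rw [h2]
    refine (H_comap_le _ (s := 1) (fun l => by rw [aeval_X]; exact deg_aff _ _) _ M).trans ?_
    simpa using H_le_pow (⊥ : Ideal (MvPolynomial (Fin e) ℂ)) M
  have h4 : (flatI z W).IsPrime := h2 ▸ Ideal.comap_isPrime _ _
  obtain ⟨j, hj⟩ := exists_PD h4
  have h5 : j ≤ e := hj.le_of_H le_rfl h3
  have h6 : Ideal.comap (aeval θ : _ →ₐ[ℂ] _) (flatI z W) ≤ ⊥ := fun g hg =>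
    Ideal.mem_bot.2 (MvPolynomial.funext fun u => by
      have h7 := hg (z + B u) (hB u)
      have h8 : A (B u) = u := by
        have : r (W.subtype (b.symm u)) = b.symm u := LinearMap.congr_fun hr _
        simp only [A, B, LinearMap.comp_apply, LinearEquiv.coe_coe, this,
          LinearEquiv.apply_symm_apply]
      have h9 : (fun j => eval (z + B u) (θ j)) = u := by
        funext j
        simp [θ, eval_aff, h8]
      rwa [cf_eval_aeval, h9] at h7)
  have h7 := (PD_bot (σ := Fin e)).le_of_H h6 (v := j) (a := dg j (flatI z W)) fun M =>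
    (H_comap_le _ (s := 1) (fun l => by rw [aeval_X]; exact deg_aff _ _) _ M).trans
      (by rw [one_mul]; exact hj.H_le M)
  rw [Fintype.card_fin] at h7
  exact ⟨le_antisymm h5 h7 ▸ hj, h3⟩

/-- The direction space of the affine span of `V`. -/
def spW (V : Ideal (MvPolynomial σ ℂ)) (z : σ → ℂ) : Submodule ℂ (σ → ℂ) where
  carrier := {v | ∀ g ∈ V, g.totalDegree ≤ 1 → eval (z + v) g = eval z g}
  add_mem' := fun {a b} ha hb g h1 h2 => by
    obtain ⟨c, L, h⟩ := exists_aff h2
    have h3 := ha g h1 h2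
    have h4 := hb g h1 h2
    simp only [h, map_add] at h3 h4 ⊢
    linear_combination h3 + h4
  zero_mem' := fun g _ _ => by rw [add_zero]
  smul_mem' := fun s a ha g h1 h2 => by
    obtain ⟨c, L, h⟩ := exists_aff h2
    have h3 := ha g h1 h2
    simp only [h, map_add, map_smul, smul_eq_mul] at h3 ⊢
    linear_combination s * h3

variable {V : Ideal (MvPolynomial σ ℂ)} {z : σ → ℂ} {w : ℕ}

theorem on_low_iff (hz : On z V) {x : σ → ℂ} : On x (low V 1) ↔ x - z ∈ spW V z := by
  rw [cf_on_low]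
  refine forall_congr' fun g => forall_congr' fun h1 => forall_congr' fun _ => ?_
  rw [add_sub_cancel, hz g h1]

theorem flatI_spW_le (hV : V.IsPrime) (hz : On z V) : flatI z (spW V z) ≤ V := fun _ hg =>
  cf_mem_of_on hV fun x hx => hg x ((on_low_iff hz).1 fun g hg => hx g (cf_low_le V 1 hg))

theorem Flat.eq_flatI (h : Flat V) (hV : V.IsPrime) (hz : On z V) : V = flatI z (spW V z) :=
  le_antisymm (fun g hg _ hx => (on_low_iff hz).2 hx g (h hg)) (flatI_spW_le hV hz)

theorem Flat.rank (h : Flat V) (hV : PD w V) (hz : On z V) : finrank ℂ (spW V z) = w :=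
  (flatI_pd z (spW V z)).1.unique (h.eq_flatI hV.prime hz ▸ hV)

theorem cf_exists_on (hV : V.IsPrime) : ∃ z, On z V :=
  (exists_on_ne hV ((Ideal.ne_top_iff_one V).1 hV.ne_top)).imp fun _ h => h.1

theorem Flat.H_le (h : Flat V) (hV : PD w V) (M : ℕ) : H V M ≤ 1 * (M + 1) ^ w := by
  obtain ⟨z, hz⟩ := cf_exists_on hV.prime
  have := (flatI_pd z (spW V z)).2 M
  rwa [h.rank hV hz, ← h.eq_flatI hV.prime hz] at this

theorem Flat.dg_eq (h : Flat V) (hV : PD w V) : dg w V = 1 :=
  le_antisymm (dg_le (h.H_le hV)) hV.one_le_dg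

/-- A variety whose span has at most its dimension is flat. -/
theorem flat_of_rank (hV : PD w V) (hz : On z V) (h : finrank ℂ (spW V z) ≤ w) : Flat V := by
  have h1 := (flatI_pd z (spW V z)).1
  have h2 := flatI_spW_le hV.prime hz
  rw [le_antisymm h (h1.dim_le hV h2)] at h1
  exact h1.eq_of_le hV h2 ▸ flat_flatI z _

/-- The real vectors in a complex subspace. -/
def reW (W : Submodule ℂ (σ → ℂ)) : Submodule ℝ (σ → ℝ) where
  carrier := {v | cx v ∈ W}
  add_mem' := fun {a b} ha hb => by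
    have : cx (a + b) = cx a + cx b := by funext l; simp [cx]
    exact show cx _ ∈ W from this ▸ W.add_mem ha hb
  zero_mem' := by
    have : cx (0 : σ → ℝ) = 0 := by funext l; simp [cx]
    exact show cx _ ∈ W from this ▸ W.zero_mem
  smul_mem' := fun s a ha => by
    have : cx (s • a) = (s : ℂ) • cx a := by funext l; simp [cx]
    exact show cx _ ∈ W from this ▸ W.smul_mem _ ha

theorem cx_sub {τ : Type} (a b : τ → ℝ) : cx (a - b) = cx a - cx b := by
  funext l
  simp [cx]

theorem rank_reW (W : Submodule ℂ (σ → ℂ)) : finrank ℝ (reW W) ≤ finrank ℂ W := by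
  let b := finBasis ℝ (reW W)
  have h : LinearIndependent ℂ fun i => (⟨cx (b i).1, (b i).2⟩ : W) := by
    refine Fintype.linearIndependent_iff.2 fun g hg i => ?_
    have h1 : ∀ l, ∑ i, g i * ((b i).1 l : ℂ) = 0 := fun l => by
      simpa [cx] using congrFun (congrArg Subtype.val hg) l
    have h2 := Fintype.linearIndependent_iff.1 b.linearIndependent
    refine Complex.ext (h2 (fun i => (g i).re) (Subtype.ext (funext fun l => ?_)) i)
      (h2 (fun i => (g i).im) (Subtype.ext (funext fun l => ?_)) i)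
    · simpa using congrArg Complex.re (h1 l)
    · simpa using congrArg Complex.im (h1 l)
  simpa using h.fintype_card_le_finrank

theorem exists_cx_span (D : Submodule ℝ (σ → ℝ)) :
    ∃ W : Submodule ℂ (σ → ℂ), finrank ℂ W ≤ finrank ℝ D ∧ D ≤ reW W := by
  let b := finBasis ℝ D
  refine ⟨Submodule.span ℂ (Set.range fun i => cx (b i).1),
    (finrank_range_le_card _).trans (by simp), fun v hv => ?_⟩
  have h : v = ∑ i, b.repr ⟨v, hv⟩ i • (b i).1 := by
    have := congrArg D.subtype (b.sum_repr ⟨v, hv⟩)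
    rw [map_sum] at this
    exact this.symm
  rw [h]
  exact Submodule.sum_mem _ fun i _ => Submodule.smul_mem _ _ (Submodule.subset_span ⟨i, rfl⟩)

end

end Vale.Agent.P054S
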