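import Vale.Agent.P054S.CFHom

/-!
Flat nodes of dimension at least two.
-/

namespace Vale.Agent.P054S

open MvPolynomial Module Vale.Agent.P054A
open scoped Classical

theorem cf_le_of_pow {x τ : ℕ} {u : ℝ} {m a : ℕ} (hm : m ≠ 0) (h0 : 0 ≤ u) (hu : u ^ m = τ)
    (h : x ^ m ≤ τ ^ a) : (x : ℝ) ≤ u ^ a := by
  refine le_of_pow_le_pow_left₀ hm (by positivity) ?_
  rw [← pow_mul, mul_comm, pow_mul, hu]
  exact_mod_cast h

theorem flat_arith {u t R n M N Z C B r : ℝ} {a b c : ℕ} (hu : 1 ≤ u) (hC : 0 ≤ C)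
    (hu' : 10 ^ 10 * (C + 1) ^ 2 ≤ u) (ht : 0 < t) (hR : 0 < R) (hn : 0 ≤ n) (hZ : 0 ≤ Z)
    (hr : 0 ≤ r) (h1 : n ≤ C * t ^ a) (h2 : M * n ≤ C * N) (h3 : r * t ^ (a + 2) * Z ≤ u ^ b)
    (h4 : u ^ (b + 1) ≤ (R * t) ^ 2 * N) (h5 : r * Z ≤ u ^ c) (h6 : u ^ (c + 1) ≤ N)
    (hB : B ≤ N * r + r * M * (10 ^ 9 * (n ^ 2 / R ^ 2 + n))) : B * Z ≤ N ^ 2 := by
  have u0 : 0 < u := by linarith
  have N0 : 0 ≤ N := le_trans (by positivity) h6
  have e1 : r * Z ≤ N / u := by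
    rw [le_div_iff₀ u0]
    exact (mul_le_mul_of_nonneg_right h5 u0.le).trans (by rwa [← pow_succ])
  have e2 : r * Z * (n / R ^ 2) ≤ C * (N / u) := by
    calc r * Z * (n / R ^ 2) ≤ r * Z * (C * t ^ a / R ^ 2) := by gcongr
      _ = C * (r * t ^ (a + 2) * Z / (R * t) ^ 2) := by
          field_simp
          ring
      _ ≤ C * (u ^ b / (R * t) ^ 2) := by gcongr
      _ ≤ C * (N / u) := by
          gcongr C * ?_
          rw [div_le_div_iff₀ (by positivity) u0, ← pow_succ, mul_comm]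
          exact h4
  have e3 : 0 ≤ N / u := by positivity
  calc B * Z ≤ (N * r + r * M * (10 ^ 9 * (n ^ 2 / R ^ 2 + n))) * Z := by gcongr
    _ = N * (r * Z) + 10 ^ 9 * (M * n) * (r * Z * (n / R ^ 2) + r * Z) := by ring
    _ ≤ N * (N / u) + 10 ^ 9 * (C * N) * (C * (N / u) + N / u) := by gcongr
    _ = N ^ 2 * ((1 + 10 ^ 9 * (C * (C + 1))) / u) := by ring
    _ ≤ N ^ 2 * 1 := by
        gcongr
        rw [div_le_one u0]
        nlinarith
    _ = _ := mul_one _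

/-- Few flat nodes of one class lie in a cone, outside a small set of pairs. -/
theorem flat_nodes (k C₁ : ℕ) : ∃ τ₀ : ℕ, ∀ τ ≥ τ₀, ∀ P : Finset (Pt (k + 1)), nd2 P ≤ τ →
    τ ^ (k + 1) ≤ P.card ^ 2 → Sep0 P → ∀ w t M R Z : ℕ, 2 ≤ w → w + 1 ≤ k → Z ^ 5 ≤ τ →
      τ ^ 9 ≤ (R * t) ^ 10 → ∀ Q ⊆ P, ∀ V : Pt (k + 1) → Ideal (MvPolynomial (Fin (k + 1)) ℂ),
        (∀ q ∈ Q, PD w (V q) ∧ Flat (V q) ∧ On (cx q) (V q) ∧ Spans P (V q) ∧
          t ^ w ≤ (ptsOn P (V q)).card) → (Q.image V).card ≤ C₁ * t ^ (k + 1 - w) →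
        (∀ q ∈ Q, (Q.filter fun q' => V q' = V q).card ≤ M) →
        M * (Q.image V).card ≤ C₁ * P.card →
        ∃ B ⊆ P ×ˢ Q, B.card * Z ≤ P.card ^ 2 ∧ ∀ p ∈ P, ∀ Y, PD w Y →
          ((Q.filter fun q => (p, q) ∉ B ∧ InCone p (V q) Y).image V).card ≤ R := by
  set e := k + 4 with he
  choose f hf using fun a => pts_real (a + 2) (10 * e) (by omega)
  obtain ⟨τ₁, h₁⟩ := cf_root (2 * (10 * e)) (by omega) (10 ^ 10 * ((C₁ : ℝ) + 1) ^ 2)
  refine ⟨∑ a ∈ Finset.range k, f a + τ₁, fun τ hτ P hP hN hS w t M R Z hw hk hZ hR Q hQ V hV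
    hn hM hMn => ?_⟩
  rcases Q.eq_empty_or_nonempty with rfl | ⟨q₀, hq₀⟩
  · exact ⟨∅, by simp, by simp, by simp⟩
  obtain ⟨u, u1, u2, hu⟩ := h₁ τ (by omega)
  have u0 : 0 < u := by linarith
  have m0 : 2 * (10 * e) ≠ 0 := by omega
  have hc : ∀ a, 2 ≤ a → a ≤ k → ∀ U : Submodule ℝ (ℝ × Pt (k + 1)), finrank ℝ U ≤ a + 1 →
      ((P.filter fun x => hm x ∈ U).card : ℝ) ≤ u ^ (a * (10 * e) + 1) := fun a h1 h2 U hU => by
    obtain ⟨a, rfl⟩ := Nat.exists_eq_add_of_le' h1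
    obtain ⟨p, D, h3, h4⟩ := hom_sub P hU
    have h5 : f a ≤ ∑ a ∈ Finset.range k, f a :=
      Finset.single_le_sum (fun _ _ => Nat.zero_le _) (Finset.mem_range.2 (by omega))
    exact (Nat.cast_le.2 (Finset.card_le_card h4)).trans
      (cf_le_of_pow m0 u0.le hu (hf a τ (by omega) _ P hP p D h3))
  let F : Pt (k + 1) → Submodule ℝ (ℝ × Pt (k + 1)) := fun q => hF P (V q)
  have hrk : ∀ q ∈ Q, finrank ℝ (F q) = w + 1 := fun q hq =>
    hF_rank (hV q hq).1 (hV q hq).2.1 (hQ hq) (hV q hq).2.2.1 (hV q hq).2.2.2.1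
  have hinj : ∀ q ∈ Q, ∀ q' ∈ Q, F q = F q' → V q = V q' := fun q hq q' hq' =>
    hF_inj (hV q hq).2.1 (hV q' hq').2.1 (hV q hq).2.2.2.1 (hV q' hq').2.2.2.1
  have ht : (t : ℝ) ≤ u ^ (10 * e + 1) := by
    refine le_of_pow_le_pow_left₀ (n := w) (by omega) (by positivity) ?_
    have h1 : (t : ℝ) ^ w ≤ (P.filter fun x => hm x ∈ F q₀).card := by
      exact_mod_cast (hV q₀ hq₀).2.2.2.2.trans (Finset.card_le_card fun x hx => Finset.mem_filter.2
        ⟨(mem_ptsOn.1 hx).1, hm_mem (mem_ptsOn.1 hx).1 (mem_ptsOn.1 hx).2⟩)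
    refine (h1.trans (hc w hw (by omega) _ (hrk q₀ hq₀).le)).trans ?_
    rw [← pow_mul]
    exact pow_le_pow_right₀ u2 (by nlinarith)
  have hRt : u ^ (18 * e) ≤ (R : ℝ) * t := by
    refine le_of_pow_le_pow_left₀ (n := 10) (by omega) (by positivity) ?_
    rw [← pow_mul, show 18 * e * 10 = 2 * (10 * e) * 9 by ring, pow_mul, hu]
    exact_mod_cast hR
  have hZ' : (Z : ℝ) ≤ u ^ (4 * e) := by
    refine le_of_pow_le_pow_left₀ (n := 5) (by omega) (by positivity) ?_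
    rw [← pow_mul, show 4 * e * 5 = 2 * (10 * e) by ring, hu]
    exact_mod_cast hZ
  have hN' : u ^ ((k + 1) * (10 * e)) ≤ (P.card : ℝ) := by
    refine le_of_pow_le_pow_left₀ (n := 2) (by omega) (by positivity) ?_
    rw [← pow_mul, show (k + 1) * (10 * e) * 2 = 2 * (10 * e) * (k + 1) by ring, pow_mul, hu]
    exact_mod_cast hN
  have t0 : (0 : ℝ) < t := by
    by_contra h
    have : (t : ℝ) = 0 := le_antisymm (not_lt.1 h) (Nat.cast_nonneg _)
    rw [this, mul_zero] at hRt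
    exact absurd hRt (not_le.2 (by positivity))
  have hR' : (1000 : ℝ) ≤ R := by
    have h1 : u * u ^ (10 * e + 1) ≤ R * u ^ (10 * e + 1) := by
      refine le_trans ?_ (hRt.trans (by gcongr))
      rw [← pow_succ']
      exact pow_le_pow_right₀ u2 (by omega)
    have h2 := le_of_mul_le_mul_right h1 (by positivity)
    have h3 : (0 : ℝ) ≤ C₁ := Nat.cast_nonneg _
    nlinarith
  let good : Submodule ℝ (ℝ × Pt (k + 1)) → Prop := fun U =>
    finrank ℝ U = w + 2 ∧ (R : ℝ) ≤ P054.inpl (Q.image F) U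
  have h1 := cf_pairs w P Q hm F hrk good hR' (r := u ^ ((w + 1) * (10 * e) + 1)) (M := M)
    (by positivity) (Nat.cast_nonneg _) (fun U hU => hc (w + 1) (by omega) hk U hU.1.le)
    (fun U hU => hU.2) fun q hq => Nat.cast_le.2 (le_trans (Finset.card_le_card fun x hx =>
      Finset.mem_filter.2 ⟨(Finset.mem_filter.1 hx).1, hinj x (Finset.mem_filter.1 hx).1 q hq
        (Finset.mem_filter.1 hx).2⟩) (hM q hq))
  have h2 := pairs_on P Q (fun p q => hm p ∈ F q) fun q hq =>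
    hc (w + 1) (by omega) hk (F q) (by rw [hrk q hq]; omega)
  have h3 : (Q.image F).card ≤ (Q.image V).card := by
    refine le_trans (Finset.card_le_card fun U hU => ?_) (Finset.card_image_le (f := hF P))
    obtain ⟨q, hq, rfl⟩ := Finset.mem_image.1 hU
    exact Finset.mem_image_of_mem (hF P) (Finset.mem_image_of_mem V hq)
  refine ⟨((P ×ˢ Q).filter fun z => hm z.1 ∈ F z.2) ∪ (P ×ˢ Q).filter fun z =>
    hm z.1 ∉ F z.2 ∧ good (F z.2 ⊔ Submodule.span ℝ {hm z.1}),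
    Finset.union_subset (Finset.filter_subset _ _) (Finset.filter_subset _ _), ?_,
    fun p hp Y hY => ?_⟩
  · obtain ⟨a, ha⟩ : ∃ a, k + 1 = w + a := ⟨k + 1 - w, by omega⟩
    rw [show k + 1 - w = a by omega] at hn
    have h4 : ((Q.card : ℕ) : ℝ) ≤ P.card := Nat.cast_le.2 (Finset.card_le_card hQ)
    rw [← Nat.cast_le (α := ℝ), Nat.cast_mul, Nat.cast_pow]
    exact flat_arith (u := u) (t := t) (R := R) (n := (Q.image F).card) (M := M) (N := P.card)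
      (Z := Z) (C := C₁) (r := u ^ ((w + 1) * (10 * e) + 1)) (a := a)
      (b := (w + 1) * (10 * e) + 1 + (10 * e + 1) * (a + 2) + 4 * e)
      (c := (w + 1) * (10 * e) + 1 + 4 * e) u2 (Nat.cast_nonneg _) u1 t0 (by linarith)
      (Nat.cast_nonneg _) (Nat.cast_nonneg _) (by positivity) (by exact_mod_cast h3.trans hn)
      (by exact_mod_cast (Nat.mul_le_mul_left M h3).trans hMn)
      (by rw [pow_add u _ (4 * e), pow_add u _ (_ * (a + 2)), pow_mul u _ (a + 2)]; gcongr)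
      (le_trans (pow_le_pow_right₀ u2 (by rw [ha]; nlinarith))
        ((pow_add u (18 * e * 2) ((k + 1) * (10 * e))).trans_le
          (by rw [pow_mul u (18 * e)]; gcongr)))
      (by rw [pow_add u _ (4 * e)]; gcongr)
      (le_trans (pow_le_pow_right₀ u2 (by nlinarith)) hN')
      ((Nat.cast_le.2 (Finset.card_union_le _ _)).trans (by
        rw [Nat.cast_add]
        exact add_le_add (h2.trans (by gcongr)) (le_trans (Nat.cast_le.2 (Finset.card_le_card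
          fun z hz => by simpa only [Finset.mem_filter] using hz)) h1)))
  · set S := Q.filter fun q => (p, q) ∉ ((P ×ˢ Q).filter fun z => hm z.1 ∈ F z.2) ∪
      ((P ×ˢ Q).filter fun z => hm z.1 ∉ F z.2 ∧ good (F z.2 ⊔ Submodule.span ℝ {hm z.1})) ∧
      InCone p (V q) Y
    have h4 : ∀ q ∈ S, q ∈ Q ∧ hm p ∉ F q ∧ ¬ good (F q ⊔ Submodule.span ℝ {hm p}) ∧
        InCone p (V q) Y := fun q hq => by
      obtain ⟨b1, b2, b3⟩ := Finset.mem_filter.1 hq
      have b4 := Finset.mem_product.2 (show (p, q).1 ∈ P ∧ (p, q).2 ∈ Q from ⟨hp, b1⟩)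
      have b5 : hm p ∉ F q := fun e => b2 (Finset.mem_union_left _ (Finset.mem_filter.2 ⟨b4, e⟩))
      exact ⟨b1, b5, fun e => b2 (Finset.mem_union_right _ (Finset.mem_filter.2 ⟨b4, b5, e⟩)), b3⟩
    rcases S.eq_empty_or_nonempty with e | ⟨q, hq⟩
    · simp [e]
    obtain ⟨b1, b2, b3, b4⟩ := h4 q hq
    have h5 : ¬ (R : ℝ) ≤ P054.inpl (Q.image F) (F q ⊔ Submodule.span ℝ {hm p}) := fun e =>
      b3 ⟨by rw [Submodule.finrank_sup_span_singleton b2, hrk q b1], e⟩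
    refine le_trans (Finset.card_le_card_of_injOn (hF P) (fun W hW => ?_) fun W hW W' hW' e => ?_)
      (Nat.cast_le.1 (not_le.1 h5).le)
    · obtain ⟨x, hx, rfl⟩ := Finset.mem_image.1 (Finset.mem_coe.1 hW)
      obtain ⟨c1, c2, -, c4⟩ := h4 x hx
      exact Finset.mem_coe.2 (Finset.mem_filter.2 ⟨Finset.mem_image_of_mem F c1,
        cone_pl hS hp (hQ b1) (hV q b1).1 hY (hV q b1).2.2.1 (hV q b1).2.2.2.1 b2 c2 b4 c4⟩)
    · obtain ⟨x, hx, rfl⟩ := Finset.mem_image.1 (Finset.mem_coe.1 hW)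
      obtain ⟨y, hy, rfl⟩ := Finset.mem_image.1 (Finset.mem_coe.1 hW')
      exact hinj x (h4 x hx).1 y (h4 y hy).1 e

end Vale.Agent.P054S
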