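import Vale.Agent.P054S.CFPt

/-!
From the covering form to the cone lemma.
-/

namespace Vale.Agent.P054S

open MvPolynomial Vale.Agent.P054A
open scoped Classical

/-- Greedy removal of heavy varieties. -/
theorem greedy {σ : Type} [Fintype σ] (J : ℕ → Prop) (T : ℕ) (S : Finset (σ → ℂ)) :
    ∃ S' ⊆ S, ∃ 𝒴 : ℕ → Finset (Ideal (MvPolynomial σ ℂ)),
      (∀ j, J j → ∀ Y, PD j Y → (zs S' Y).card ≤ dg j Y * T ^ j) ∧
      (∀ j, (∀ Y ∈ 𝒴 j, PD j Y) ∧ (∑ Y ∈ 𝒴 j, dg j Y) * T ^ j + S'.card ≤ S.card) ∧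
      ∀ x ∈ S, x ∉ S' → ∃ j, J j ∧ ∃ Y ∈ 𝒴 j, On x Y := by
  induction S using Finset.strongInduction with
  | H S ih =>
    by_cases h : ∀ j, J j → ∀ Y, PD j Y → (zs S Y).card ≤ dg j Y * T ^ j
    · exact ⟨S, subset_rfl, fun _ => ∅, h, fun j => by simp, fun x h1 h2 => absurd h1 h2⟩
    simp only [not_forall, not_le] at h
    obtain ⟨i, hi, Y, hY, hlt⟩ := h
    obtain ⟨x, hx⟩ := Finset.card_pos.1 (lt_of_le_of_lt (Nat.zero_le _) hlt)
    have h0 : zs S Y ⊆ S := Finset.filter_subset _ _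
    obtain ⟨S', h1, 𝒴, h2, h3, h4⟩ := ih (S \ zs S Y) (Finset.sdiff_ssubset h0 ⟨x, hx⟩)
    have h5 := Finset.card_sdiff_add_card_eq_card h0
    refine ⟨S', h1.trans Finset.sdiff_subset, fun j => if j = i then insert Y (𝒴 j) else 𝒴 j, h2,
      fun j => ?_, fun y hy hy' => ?_⟩
    · obtain ⟨h6, h7⟩ := h3 j
      by_cases e : j = i
      · subst e
        simp only [if_true]
        refine ⟨fun W hW => (Finset.mem_insert.1 hW).elim (fun e => e ▸ hY) (h6 W), ?_⟩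
        have h8 : ∑ W ∈ insert Y (𝒴 j), dg j W ≤ dg j Y + ∑ W ∈ 𝒴 j, dg j W := by
          by_cases e : Y ∈ 𝒴 j
          · rw [Finset.insert_eq_of_mem e]
            omega
          · rw [Finset.sum_insert e]
        have h9 := Nat.mul_le_mul_right (T ^ j) h8
        rw [add_mul] at h9
        omega
      · simp only [e, if_false]
        exact ⟨h6, by omega⟩
    · by_cases e : y ∈ zs S Y
      · exact ⟨i, hi, Y, by simp, (mem_zs.1 e).2⟩
      · obtain ⟨j, h6, W, h7, h8⟩ := h4 y (Finset.mem_sdiff.2 ⟨hy, e⟩) hy'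
        refine ⟨j, h6, W, ?_, h8⟩
        by_cases e : j = i
        · simp only [e, if_true]
          exact Finset.mem_insert_of_mem (e ▸ h7)
        · simpa only [e, if_false] using h7

/-- The pairs whose direction lies on a member of the family of the first point. -/
noncomputable def cov {k : ℕ} (P : Finset (Pt (k + 1)))
    (𝒴 : Pt (k + 1) → Finset (Ideal (MvPolynomial (Fin k) ℂ))) :
    Finset (Pt (k + 1) × Pt (k + 1)) :=
  (P ×ˢ P).filter fun z => z.1 ≠ z.2 ∧ ∃ Y ∈ 𝒴 z.1, On (dir z.1 z.2) Y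

/-- The covering form in base dimension `j`: cones of small total degree cover few pairs. -/
def Cover (k j A : ℕ) : Prop :=
  ∃ c κ₀ : ℕ, ∀ κ ≥ κ₀, ∃ τ₀ : ℕ, ∀ τ ≥ τ₀, ∀ P : Finset (Pt (k + 1)), Win P κ τ → Sep0 P →
    ∀ 𝒴 : Pt (k + 1) → Finset (Ideal (MvPolynomial (Fin k) ℂ)),
      (∀ p ∈ P, (∀ Y ∈ 𝒴 p, PD j Y) ∧
        (∑ Y ∈ 𝒴 p, dg j Y) * (c * κ ^ 4 * τ) ^ j ≤ P.card) →
      A * (cov P 𝒴).card ≤ P.card ^ 2

theorem cone_of_cover (k : ℕ) (hk : 2 ≤ k)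
    (h : ∀ j, 1 ≤ j → j + 1 ≤ k → Cover k j (4 * 10 ^ 12 * k)) :
    ∃ c κ₀ : ℕ, ∀ κ ≥ κ₀, ∃ τ₀ : ℕ, ∀ τ ≥ τ₀,
      ∀ P : Finset (Pt (k + 1)), Win P κ τ → (∀ p ∈ P, ∀ q ∈ P, p ≠ q → p 0 ≠ q 0) →
        ∃ S₀ ⊆ P ×ˢ P, (∀ z ∈ S₀, z.1 ≠ z.2) ∧ P.card ^ 2 ≤ κ * S₀.card ∧
          ConeOK S₀ (c * κ ^ 4 * τ) := by
  choose! c κ₀ h using h
  refine ⟨∑ j ∈ Finset.range k, c j + 4, ∑ j ∈ Finset.range k, κ₀ j + 4 * 10 ^ 12, fun κ hκ => ?_⟩
  have hs : ∀ f : ℕ → ℕ, ∀ j, j + 1 ≤ k → f j ≤ ∑ j ∈ Finset.range k, f j := fun f j hj =>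
    Finset.single_le_sum (fun _ _ => Nat.zero_le _) (Finset.mem_range.2 hj)
  choose! τ₀ h using fun j h1 h2 => h j h1 h2 κ (le_trans (hs κ₀ j h2) (by omega))
  refine ⟨∑ j ∈ Finset.range k, τ₀ j + 4 * 10 ^ 24, fun τ hτ P hW hS => ?_⟩
  set T := (∑ j ∈ Finset.range k, c j + 4) * κ ^ 4 * τ with hT
  have κ1 : 1 ≤ κ := by omega
  have hN : 10 ^ 12 * (τ + 1) ≤ P.card := by
    refine (Nat.pow_le_pow_iff_left (n := 2) (by omega)).1 (le_trans ?_ hW.2.1)
    calc (10 ^ 12 * (τ + 1)) ^ 2 ≤ (10 ^ 12 * (2 * τ)) ^ 2 := by gcongr; omega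
      _ = τ ^ 2 * (4 * 10 ^ 24) := by ring
      _ ≤ τ ^ 2 * τ := Nat.mul_le_mul_left _ (by omega)
      _ ≤ τ ^ (k + 1) := by
          rw [← pow_succ]
          exact Nat.pow_le_pow_right (by omega) (by omega)
      _ ≤ _ := Nat.le_mul_of_pos_left _ (by positivity)
  have hNT : P.card ≤ T ^ k := by
    refine (Nat.pow_le_pow_iff_left (n := 2) (by omega)).1 (hW.2.2.trans ?_)
    calc 16 * (κ ^ (4 * (k + 1)) * τ ^ (k + 1)) ≤ 4 ^ (k * 2) * (κ ^ (4 * (k * 2)) * τ ^ (k * 2)) :=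
          Nat.mul_le_mul (Nat.pow_le_pow_right (n := 4) (i := 2) (by omega) (by omega))
            (Nat.mul_le_mul (Nat.pow_le_pow_right κ1 (by omega))
              (Nat.pow_le_pow_right (by omega) (by omega)))
      _ = (4 * κ ^ 4 * τ) ^ (k * 2) := by rw [mul_pow, mul_pow, ← pow_mul, mul_assoc]
      _ ≤ T ^ (k * 2) := by
          rw [hT]
          gcongr
          omega
      _ = _ := pow_mul _ _ _
  let G : Pt (k + 1) → Finset (Pt (k + 1)) := fun p =>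
    P.filter fun q => p ≠ q ∧ (P054.ln P p q).card ≤ 10 ^ 12
  choose! G' h1 h2 h3 using fun p (hp : p ∈ P) => thin (K := 10 ^ 12) (G := G p) (p := p)
    (Finset.filter_subset _ _) (fun q hq => hS q (Finset.mem_filter.1 hq).1 p hp
      (Finset.mem_filter.1 hq).2.1.symm) fun q hq => (Finset.mem_filter.1 hq).2.2
  choose S' h4 𝒴 h5 h6 h7 using fun p => greedy (fun j => 1 ≤ j ∧ j + 1 ≤ k) T
    ((G' p).image (dir p))
  have h8 : ∀ p ∈ P, G' p ⊆ P := fun p hp => (h1 p hp).trans (Finset.filter_subset _ _)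
  set S₀ := (P ×ˢ P).filter fun z => z.2 ∈ G' z.1 ∧ dir z.1 z.2 ∈ S' z.1
  have h9 : ∀ p q, q ∈ nbr S₀ p → p ∈ P ∧ q ∈ G' p ∧ dir p q ∈ S' p := fun p q hq => by
    obtain ⟨z, hz, rfl⟩ := Finset.mem_image.1 hq
    obtain ⟨b1, rfl⟩ := Finset.mem_filter.1 hz
    exact ⟨(Finset.mem_product.1 (Finset.mem_filter.1 b1).1).1, (Finset.mem_filter.1 b1).2⟩
  refine ⟨S₀, Finset.filter_subset _ _, fun z hz => (Finset.mem_filter.1 (h1 _
    (Finset.mem_product.1 (Finset.mem_filter.1 hz).1).1 (Finset.mem_filter.1 hz).2.1)).2.1, ?_,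
    fun p => ⟨fun q hq q' hq' => h3 p (h9 p q hq).1 (h9 p q hq).2.1 (h9 p q' hq').2.1,
      fun j hj Y hY => ?_⟩⟩
  · have b1 := modQ_poor P hW.1 hN
    have b2 : (P.offDiag.filter fun z => (P054.ln P z.1 z.2).card ≤ 10 ^ 12).card
        ≤ 10 ^ 12 * ((P ×ˢ P).filter fun z => z.2 ∈ G' z.1).card := by
      rw [Finset.card_eq_sum_card_fiberwise (f := Prod.fst) (t := P) fun z hz =>
        (Finset.mem_offDiag.1 (Finset.mem_filter.1 (Finset.mem_coe.1 hz)).1).1,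
        Finset.card_filter, Finset.sum_product, Finset.mul_sum]
      refine Finset.sum_le_sum fun p hp => le_trans (Finset.card_le_card_of_injOn Prod.snd
        (fun z hz => ?_) fun z hz w hw e => ?_) ((h2 p hp).trans ?_)
      · obtain ⟨b3, rfl⟩ := Finset.mem_filter.1 (Finset.mem_coe.1 hz)
        obtain ⟨b4, b5⟩ := Finset.mem_filter.1 b3
        exact Finset.mem_coe.2 (Finset.mem_filter.2 ⟨(Finset.mem_offDiag.1 b4).2.1,
          (Finset.mem_offDiag.1 b4).2.2, b5⟩)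
      · exact Prod.ext ((Finset.mem_filter.1 (Finset.mem_coe.1 hz)).2.trans
          (Finset.mem_filter.1 (Finset.mem_coe.1 hw)).2.symm) e
      · rw [← Finset.card_filter]
        exact Nat.mul_le_mul_left _ (Finset.card_le_card fun q hq =>
          Finset.mem_filter.2 ⟨h8 p hp hq, hq⟩)
    have b3 : ((P ×ˢ P).filter fun z => z.2 ∈ G' z.1) ⊆
        S₀ ∪ (Finset.Ico 1 k).biUnion fun j => cov P fun p => 𝒴 p j := fun z hz => by
      obtain ⟨b4, b5⟩ := Finset.mem_filter.1 hz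
      by_cases e : dir z.1 z.2 ∈ S' z.1
      · exact Finset.mem_union_left _ (Finset.mem_filter.2 ⟨b4, b5, e⟩)
      · obtain ⟨j, b6, b7⟩ := h7 z.1 _ (Finset.mem_image_of_mem _ b5) e
        exact Finset.mem_union_right _ (Finset.mem_biUnion.2 ⟨j, Finset.mem_Ico.2 b6,
          Finset.mem_filter.2 ⟨b4, (Finset.mem_filter.1
            (h1 _ (Finset.mem_product.1 b4).1 b5)).2.1, b7⟩⟩)
    have b4 := (Finset.card_le_card b3).trans ((Finset.card_union_le _ _).trans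
      (Nat.add_le_add_left Finset.card_biUnion_le _))
    have b5 : 4 * 10 ^ 12 * k * ∑ j ∈ Finset.Ico 1 k, (cov P fun p => 𝒴 p j).card
        ≤ k * P.card ^ 2 := by
      rw [Finset.mul_sum]
      refine (Finset.sum_le_card_nsmul _ _ (P.card ^ 2) fun j hj => ?_).trans
        (Nat.mul_le_mul_right _ (by simp))
      obtain ⟨j1, j2⟩ := Finset.mem_Ico.1 hj
      refine h j j1 j2 τ (le_trans (hs τ₀ j j2) (by omega)) P hW hS _ fun p hp =>
        ⟨(h6 p j).1, le_trans ?_ ((Nat.le_add_right _ _).trans ((h6 p j).2.trans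
          (Finset.card_image_le.trans (Finset.card_le_card (h8 p hp)))))⟩
      rw [hT]
      gcongr
      exact (hs c j j2).trans (Nat.le_add_right _ _)
    rw [mul_comm _ k, mul_assoc] at b5
    have b6 := Nat.le_of_mul_le_mul_left b5 (by omega)
    have b7 := b1.trans (Nat.mul_le_mul_left 2 b2)
    exact le_trans (show _ ≤ 4 * 10 ^ 12 * S₀.card by omega) (Nat.mul_le_mul_right _ (by omega))
  · have b1 : (nbr S₀ p).image (dir p) ⊆ S' p := fun y hy => by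
      obtain ⟨q, hq, rfl⟩ := Finset.mem_image.1 hy
      exact (h9 p q hq).2.2
    have b2 := hY.one_le_dg
    by_cases e : j = 0
    · subst e
      exact (hY.card_zs_le_one _).trans (by simpa using b2)
    by_cases e' : j = k
    · refine le_trans ?_ (Nat.le_mul_of_pos_left _ b2)
      rw [e']
      refine le_trans ((Finset.card_filter_le _ _).trans (Finset.card_image_le.trans
        (Finset.card_le_card fun q hq => ?_))) hNT
      exact h8 p (h9 p q hq).1 (h9 p q hq).2.1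
    · exact le_trans (Finset.card_le_card (Finset.filter_subset_filter _ b1))
        (h5 p j ⟨by omega, by omega⟩ Y hY)

end Vale.Agent.P054S
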