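import Vale.Agent.P054S.CFDef

/-!
Incidence bounds for flats.
-/

namespace Vale.Agent.P054S

open Finset Module Vale.Agent.P054A
open scoped Classical

section Gen

variable {F : Type} [AddCommGroup F] [Module ℝ F] [FiniteDimensional ℝ F]

theorem cf_slice (U : Finset (Submodule ℝ F)) :
    ∃ H : Submodule ℝ F, ∀ u ∈ U, u ≠ ⊥ → ¬ u ≤ H ∧ finrank ℝ ↥(u ⊓ H) + 1 = finrank ℝ u := by
  have : Finite {u // u ∈ U.filter (· ≠ ⊥)} := (U.filter (· ≠ ⊥)).finite_toSet.to_subtype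
  obtain ⟨ψ, hψ⟩ := Submodule.exists_forall_notMem_of_forall_ne_top
    (fun u : {u // u ∈ U.filter (· ≠ ⊥)} => u.1.dualAnnihilator) (fun u h =>
      (mem_filter.1 u.2).2 (Submodule.dualAnnihilator_eq_top_iff.1 h))
  refine ⟨LinearMap.ker ψ, fun u hu h0 => ?_⟩
  have h1 : ¬ u ≤ LinearMap.ker ψ := fun e => hψ ⟨u, mem_filter.2 ⟨hu, h0⟩⟩
    ((Submodule.mem_dualAnnihilator _).2 fun w hw => e hw)
  refine ⟨h1, ?_⟩
  have h2 := Submodule.finrank_lt_finrank_of_lt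
    (lt_of_le_of_ne (inf_le_left : u ⊓ LinearMap.ker ψ ≤ u) fun e => h1 (inf_eq_left.1 e))
  have h3 := Submodule.finrank_sup_add_finrank_inf_eq u (LinearMap.ker ψ)
  have h4 := LinearMap.finrank_range_add_finrank_ker ψ
  have h5 : finrank ℝ (LinearMap.range ψ) ≤ 1 :=
    (Submodule.finrank_le _).trans (finrank_self ℝ).le
  have h6 := Submodule.finrank_le (u ⊔ LinearMap.ker ψ)
  omega

theorem cf_inj {a : ℕ} {P : Finset (Submodule ℝ F)} (hP : P054.Dim (a + 2) P) {H : Submodule ℝ F}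
    (h : ∀ x ∈ P, ∀ y ∈ P, x ⊓ y ≠ ⊥ →
      ¬ x ⊓ y ≤ H ∧ finrank ℝ ↥(x ⊓ y ⊓ H) + 1 = finrank ℝ ↥(x ⊓ y)) :
    P054.Dim (a + 1) (P.image (· ⊓ H)) ∧ Set.InjOn (· ⊓ H) (P : Set (Submodule ℝ F)) := by
  have h1 : ∀ x ∈ P, finrank ℝ ↥(x ⊓ H) = a + 1 := fun x hx => by
    have h2 := hP x hx
    have h3 := (h x hx x hx (by
      rw [inf_idem]
      rintro rfl
      rw [finrank_bot] at h2
      omega)).2
    rw [inf_idem] at h3
    omega
  refine ⟨fun u hu => ?_, fun x hx y hy e => ?_⟩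
  · obtain ⟨x, hx, rfl⟩ := mem_image.1 hu
    exact h1 x hx
  · by_contra hne
    have e' : x ⊓ H = y ⊓ H := e
    have h2 : x ⊓ H ≤ x ⊓ y := le_inf inf_le_left (e'.le.trans inf_le_left)
    have h3 := P054.lin_lt_sup (hP x hx) (hP y hy) hne
    have h4 := Submodule.finrank_sup_add_finrank_inf_eq x y
    have h5 := hP x hx
    have h6 := hP y hy
    have h7 := h1 x hx
    have h8 : x ⊓ H = x ⊓ y := Submodule.eq_of_le_of_finrank_le h2 (by omega)
    refine (h x hx y hy ?_).1 (h8.ge.trans inf_le_right)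
    intro e0
    rw [h8, e0, finrank_bot] at h7
    omega

theorem cf_st (a : ℕ) (P L : Finset (Submodule ℝ F)) (hP : P054.Dim (a + 1) P)
    (hL : P054.Dim (a + 2) L) :
    (P054.inc P L : ℝ) ^ 3 ≤ 10 ^ 8 * ((P.card : ℝ) ^ 2 * (L.card : ℝ) ^ 2 + (P.card : ℝ) ^ 3
      + (L.card : ℝ) ^ 3) := by
  induction a generalizing P L with
  | zero => exact P054.st P L hP hL
  | succ a ih =>
    obtain ⟨H, hH⟩ := cf_slice (((P ∪ L) ×ˢ (P ∪ L)).image fun z => z.1 ⊓ z.2)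
    have k : ∀ x ∈ P ∪ L, ∀ y ∈ P ∪ L, x ⊓ y ≠ ⊥ →
        ¬ x ⊓ y ≤ H ∧ finrank ℝ ↥(x ⊓ y ⊓ H) + 1 = finrank ℝ ↥(x ⊓ y) := fun x hx y hy =>
      hH _ (mem_image.2 ⟨(x, y), mem_product.2 ⟨hx, hy⟩, rfl⟩)
    obtain ⟨h1, h2⟩ := cf_inj hP fun x hx y hy => k x (mem_union_left _ hx) y (mem_union_left _ hy)
    obtain ⟨h3, h4⟩ := cf_inj (a := a + 1) hL fun x hx y hy =>
      k x (mem_union_right _ hx) y (mem_union_right _ hy)
    have h5 := ih _ _ h1 h3
    rw [card_image_of_injOn h2, card_image_of_injOn h4] at h5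
    refine le_trans (pow_le_pow_left₀ (Nat.cast_nonneg _) (Nat.cast_le.2 ?_) 3) h5
    refine card_le_card_of_injOn (fun z => (z.1 ⊓ H, z.2 ⊓ H)) (fun z hz => ?_) fun z hz w hw e => ?_
    · obtain ⟨b1, b2⟩ := mem_filter.1 (mem_coe.1 hz)
      obtain ⟨b3, b4⟩ := mem_product.1 b1
      exact mem_coe.2 (mem_filter.2 ⟨mem_product.2 ⟨mem_image_of_mem _ b3, mem_image_of_mem _ b4⟩,
        inf_le_inf_right _ b2⟩)
    · obtain ⟨b3, b4⟩ := mem_product.1 (mem_filter.1 (mem_coe.1 hz)).1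
      obtain ⟨b5, b6⟩ := mem_product.1 (mem_filter.1 (mem_coe.1 hw)).1
      exact Prod.ext (h2 b3 b5 (congrArg Prod.fst e)) (h4 b4 b6 (congrArg Prod.snd e))

theorem cf_rich (a : ℕ) (P L : Finset (Submodule ℝ F)) (hP : P054.Dim (a + 1) P)
    (hL : P054.Dim (a + 2) L) {R : ℝ} (hR : 1000 ≤ R) (h : ∀ l ∈ L, R ≤ P054.inpl P l) :
    (P054.inc P L : ℝ) ≤ 10 ^ 9 * ((P.card : ℝ) ^ 2 / R ^ 2 + P.card) := by
  have h1 := cf_st a P L hP hL
  have h2 : (L.card : ℝ) * R ≤ P054.inc P L := by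
    rw [P054.inc_eq_sum_inpl, Nat.cast_sum, ← nsmul_eq_mul]
    exact card_nsmul_le_sum L _ R h
  have m0 : (0 : ℝ) ≤ P.card := Nat.cast_nonneg _
  have n0 : (0 : ℝ) ≤ L.card := Nat.cast_nonneg _
  generalize (P.card : ℝ) = m at *
  generalize (L.card : ℝ) = n at *
  generalize (P054.inc P L : ℝ) = I at *
  by_contra hc
  have r0 : 0 < R := by linarith
  have h3 : 10 ^ 9 * (m ^ 2 / R ^ 2) < I := by
    refine lt_of_le_of_lt ?_ (not_le.1 hc)
    gcongr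
    linarith
  have h4 : 10 ^ 9 * m < I := by
    refine lt_of_le_of_lt ?_ (not_le.1 hc)
    gcongr
    exact le_add_of_nonneg_left (by positivity)
  have I0 : 0 < I := lt_of_le_of_lt (by positivity) h4
  have h5 : n ≤ I / R := by rwa [le_div_iff₀ r0]
  have h6 : m ^ 2 * n ^ 2 ≤ I ^ 3 / 10 ^ 9 := by
    calc m ^ 2 * n ^ 2 ≤ m ^ 2 * (I / R) ^ 2 := by gcongr
      _ = (m ^ 2 / R ^ 2) * I ^ 2 := by ring
      _ ≤ (I / 10 ^ 9) * I ^ 2 := mul_le_mul_of_nonneg_right (by linarith) (by positivity)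
      _ = I ^ 3 / 10 ^ 9 := by ring
  have h7 : m ^ 3 ≤ (I / 1000) ^ 3 := by gcongr; linarith
  have h8 : n ^ 3 ≤ (I / 1000) ^ 3 := by
    gcongr
    exact h5.trans (by gcongr)
  have h9 : 0 < I ^ 3 := by positivity
  have h10 : (I / 1000) ^ 3 = I ^ 3 / 10 ^ 9 := by ring
  rw [h10] at h7 h8
  linarith

/-- Pairs of a point and a node whose join lies in a family of rich flats. -/
theorem cf_pairs {α : Type} (a : ℕ) (P Q : Finset α) (h : α → F) (V : α → Submodule ℝ F)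
    (hV : ∀ q ∈ Q, finrank ℝ (V q) = a + 1) (good : Submodule ℝ F → Prop) {R r M : ℝ}
    (hR : 1000 ≤ R) (hr0 : 0 ≤ r) (hM0 : 0 ≤ M)
    (hr : ∀ U, good U → ((P.filter fun p => h p ∈ U).card : ℝ) ≤ r)
    (hg : ∀ U, good U → R ≤ P054.inpl (Q.image V) U)
    (hM : ∀ q ∈ Q, ((Q.filter fun q' => V q' = V q).card : ℝ) ≤ M) :
    (((P ×ˢ Q).filter fun z => h z.1 ∉ V z.2 ∧ good (V z.2 ⊔ Submodule.span ℝ {h z.1})).card : ℝ)
      ≤ r * M * (10 ^ 9 * (((Q.image V).card : ℝ) ^ 2 / R ^ 2 + (Q.image V).card)) := by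
  set B := (P ×ˢ Q).filter fun z => h z.1 ∉ V z.2 ∧ good (V z.2 ⊔ Submodule.span ℝ {h z.1})
  set L := B.image fun z => V z.2 ⊔ Submodule.span ℝ {h z.1}
  have hL : ∀ U ∈ L, good U ∧ finrank ℝ U = a + 2 := fun U hU => by
    obtain ⟨z, hz, rfl⟩ := mem_image.1 hU
    obtain ⟨b1, b2, b3⟩ := mem_filter.1 hz
    rw [Submodule.finrank_sup_span_singleton b2, hV _ (mem_product.1 b1).2]
    exact ⟨b3, rfl⟩
  have h1 := P054.card_le_sum_classes B (fun z => V z.2 ⊔ Submodule.span ℝ {h z.1}) L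
    (fun U => P.filter fun p => h p ∈ U) (fun U => Q.filter fun q => V q ≤ U) fun z hz => by
      obtain ⟨b1, b2⟩ := mem_product.1 (mem_filter.1 hz).1
      exact ⟨mem_image_of_mem _ hz, mem_filter.2 ⟨b1, Submodule.mem_sup_right
        (Submodule.mem_span_singleton_self _)⟩, mem_filter.2 ⟨b2, le_sup_left⟩⟩
  have h2 : ∀ U, ((Q.filter fun q => V q ≤ U).card : ℝ) ≤ M * P054.inpl (Q.image V) U := by
    intro U
    rw [card_eq_sum_card_fiberwise (f := V) (t := (Q.image V).filter fun l => l ≤ U)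
      fun q hq => mem_coe.2 (mem_filter.2 ⟨mem_image_of_mem _ (mem_filter.1 (mem_coe.1 hq)).1,
        (mem_filter.1 (mem_coe.1 hq)).2⟩), Nat.cast_sum, mul_comm, ← nsmul_eq_mul]
    refine sum_le_card_nsmul _ _ _ fun l hl => ?_
    obtain ⟨q, hq, rfl⟩ := mem_image.1 (mem_filter.1 hl).1
    refine le_trans (Nat.cast_le.2 (card_le_card fun x hx => ?_)) (hM q hq)
    exact mem_filter.2 ⟨(mem_filter.1 (mem_filter.1 hx).1).1, (mem_filter.1 hx).2⟩
  have h3 := cf_rich a (Q.image V) L (fun u hu => by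
    obtain ⟨q, hq, rfl⟩ := mem_image.1 hu
    exact hV q hq) (fun U hU => (hL U hU).2) hR fun U hU => hg U (hL U hU).1
  calc (B.card : ℝ) ≤ ∑ U ∈ L, ((P.filter fun p => h p ∈ U).card : ℝ) *
        ((Q.filter fun q => V q ≤ U).card : ℝ) := by exact_mod_cast h1
    _ ≤ ∑ U ∈ L, r * (M * P054.inpl (Q.image V) U) :=
        sum_le_sum fun U hU => mul_le_mul (hr U (hL U hU).1) (h2 U) (Nat.cast_nonneg _) hr0
    _ = r * M * P054.inc (Q.image V) L := by
        rw [P054.inc_eq_sum_inpl, Nat.cast_sum, mul_sum]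
        exact sum_congr rfl fun _ _ => by ring
    _ ≤ _ := by gcongr

end Gen

variable {d : ℕ}

theorem cf_d2 (p a v : Pt d) (s : ℝ) : d2 p (a + s • v) =
    d2 p a - 2 * s * ∑ i, (p i - a i) * v i + s ^ 2 * ∑ i, v i ^ 2 := by
  simp only [d2, mul_sum, ← sum_sub_distrib, ← sum_add_distrib, Pi.add_apply, Pi.smul_apply,
    smul_eq_mul]
  exact sum_congr rfl fun i _ => by ring

theorem cf_two (T : Finset (Pt d)) {a v : Pt d} {D : Submodule ℝ (Pt d)} (hD : finrank ℝ D ≤ 2)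
    (hv : v ∈ D) (h0 : v ≠ 0) (hT : ∀ p ∈ T, p - a ∈ D)
    (h : ∀ p ∈ T, ∀ q ∈ T, d2 a p = d2 a q ∧ ∑ i, (p i - a i) * v i = ∑ i, (q i - a i) * v i) :
    T.card ≤ 2 := by
  rcases T.eq_empty_or_nonempty with rfl | ⟨p, hp⟩
  · simp
  let φ : Pt d →ₗ[ℝ] ℝ :=
    { toFun := fun u => ∑ i, u i * v i
      map_add' := fun x y => by simp [add_mul, sum_add_distrib]
      map_smul' := fun c x => by simp [mul_sum, mul_assoc] }
  have h1 : finrank ℝ ↥(D ⊓ LinearMap.ker φ) ≤ 1 := by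
    have := Submodule.finrank_lt_finrank_of_lt (lt_of_le_of_ne
      (inf_le_left : D ⊓ LinearMap.ker φ ≤ D) fun e => h0 (modQ_zero (by
        have h2 : φ v = 0 := (inf_eq_left.1 e) hv
        simpa [d2, φ, sq] using h2)))
    omega
  obtain ⟨e, he⟩ := finrank_le_one_iff.1 h1
  refine le_trans (card_le_card (t := {p, p + (2 * (∑ i, (a i - p i) * e.1 i) / ∑ i, e.1 i ^ 2) • e.1})
    fun q hq => ?_) card_le_two
  obtain ⟨c, hc⟩ := he ⟨q - p, by simpa using D.sub_mem (hT q hq) (hT p hp), by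
    have := (h q hq p hp).2
    simp only [φ, SetLike.mem_coe, LinearMap.mem_ker, LinearMap.coe_mk, AddHom.coe_mk, Pi.sub_apply]
    rw [← sub_eq_zero, ← sum_sub_distrib] at this
    rw [← this]
    exact sum_congr rfl fun i _ => by ring⟩
  have h2 : q = p + c • e.1 := by
    have : c • e.1 = q - p := congrArg Subtype.val hc
    rw [this, add_sub_cancel]
  have h3 := (h q hq p hp).1
  rw [h2, cf_d2] at h3
  rw [mem_insert, mem_singleton, h2]
  by_cases h4 : ∑ i, e.1 i ^ 2 = 0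
  · left
    have : e.1 = 0 := modQ_zero (by simpa [d2] using h4)
    simp [this]
  · by_cases h5 : c = 0
    · left
      simp [h5]
    · right
      congr 2
      rw [eq_div_iff h4]
      refine mul_left_cancel₀ h5 ?_
      linarith

/-- A plane through a rich line holds few points. -/
theorem cf_plane (P : Finset (Pt d)) {τ : ℕ} (hτ : nd2 P ≤ τ) {a v : Pt d}
    {D : Submodule ℝ (Pt d)} (hD : finrank ℝ D ≤ 2) (hv : v ∈ D) (h0 : v ≠ 0) {S T : Finset (Pt d)}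
    (hS : S ⊆ P) (hT : T ⊆ P) (hS' : ∀ x ∈ S, ∃ s : ℝ, x = a + s • v) (h2 : 2 ≤ S.card)
    (hT' : ∀ p ∈ T, p - a ∈ D) : (T.card : ℝ) * S.card ≤ 3 * 10 ^ 9 * (τ : ℝ) ^ 2 := by
  choose! s hs using hS'
  set Δ := P.offDiag.image fun z => d2 z.1 z.2
  set n := ∑ i, v i ^ 2
  let pt : ℝ × ℝ → Submodule ℝ (ℝ × ℝ × ℝ) := fun y => Submodule.span ℝ {((1 : ℝ), y)}
  let β : Pt d → ℝ := fun p => ∑ i, (p i - a i) * v i
  let ln : Pt d → Submodule ℝ (ℝ × ℝ × ℝ) := fun p =>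
    Submodule.span ℝ {((1 : ℝ), ((0 : ℝ), d2 p a)), ((1 : ℝ), ((1 : ℝ), d2 p a - 2 * β p))}
  have hm : ∀ p x y, ((1 : ℝ), (x, y)) ∈ ln p ↔ y = d2 p a - 2 * x * β p := fun p x y => by
    refine P054.beck_mem.trans (Submodule.mem_span_singleton.trans ⟨?_, fun e => ⟨x, ?_⟩⟩)
    · rintro ⟨c, hc⟩
      simp only [Prod.mk_sub_mk, Prod.smul_mk, smul_eq_mul, Prod.mk.injEq] at hc
      have : c = x := by linarith [hc.1]
      rw [← this]
      linarith [hc.2]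
    · simp only [Prod.mk_sub_mk, Prod.smul_mk, smul_eq_mul, Prod.mk.injEq, e]
      constructor <;> ring
  set G := (S ×ˢ Δ).image fun z => pt (s z.1, z.2 - s z.1 ^ 2 * n)
  set L := (T \ S).image ln
  have h3 := P054.richK (⊥ : Submodule ℝ (ℝ × ℝ × ℝ)) (a := 0) (finrank_bot _ _) G L
    (fun u hu => by
      obtain ⟨z, -, rfl⟩ := mem_image.1 hu
      exact P054.beck_one _)
    (fun u hu => by
      obtain ⟨z, -, rfl⟩ := mem_image.1 hu
      exact P054.beck_two (by simp)) (fun _ _ => bot_le) (fun _ _ => bot_le) h2 fun u hu => by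
      obtain ⟨p, hp, rfl⟩ := mem_image.1 hu
      obtain ⟨b1, b2⟩ := mem_sdiff.1 hp
      refine card_le_card_of_injOn (fun x => pt (s x, d2 p x - s x ^ 2 * n)) (fun x hx => ?_)
        fun x hx y hy e => ?_
      · refine mem_coe.2 (mem_filter.2 ⟨mem_image.2 ⟨(x, d2 p x), mem_product.2 ⟨hx,
          mem_image.2 ⟨(p, x), mem_offDiag.2 ⟨hT b1, hS hx, fun e => b2 ((show p = x from e) ▸ hx)⟩, rfl⟩⟩,
          rfl⟩, ?_⟩)
        refine (Submodule.span_singleton_le_iff_mem _ _).2 ((hm _ _ _).2 ?_)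
        conv_lhs => rw [hs x hx, cf_d2, ← hs x hx]
        ring
      · rw [hs x hx, hs y hy, show s x = s y from congrArg Prod.fst (P054.beck_inj e)]
  have h4 : (T \ S).card ≤ 2 * L.card := by
    refine card_le_mul_card_image _ 2 fun u _ => cf_two _ hD hv h0 (a := a)
      (fun p hp => hT' p (mem_sdiff.1 (mem_filter.1 hp).1).1) fun p hp q hq => ?_
    have e : ln p = ln q := (mem_filter.1 hp).2.trans (mem_filter.1 hq).2.symm
    have b1 := (hm q 0 (d2 p a)).1 (e ▸ (hm p 0 _).2 (by ring))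
    have b2 := (hm q 1 (d2 p a - 2 * β p)).1 (e ▸ (hm p 1 _).2 (by ring))
    have b3 : ∀ x, d2 a x = d2 x a := fun x => sum_congr rfl fun i _ => by ring
    rw [b3, b3]
    exact ⟨by linarith, show β p = β q by linarith⟩
  have h5 : G.card ≤ S.card * τ :=
    card_image_le.trans (by rw [card_product]; exact Nat.mul_le_mul_left _ hτ)
  have h6 : S.card ≤ 2 * τ + 2 := modQ_col P hτ hS ⟨a, v, fun q hq => ⟨_, hs q hq⟩⟩
  have h7 : 1 ≤ τ := by
    obtain ⟨x, hx, y, hy, hxy⟩ := one_lt_card.1 h2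
    exact le_trans (card_pos.2 ⟨_, mem_image.2 ⟨(x, y), mem_offDiag.2 ⟨hS hx, hS hy, hxy⟩, rfl⟩⟩) hτ
  have h8 : T.card ≤ 2 * L.card + S.card :=
    (card_le_card_sdiff_add_card (s := T) (t := S)).trans (by omega)
  have r5 : (G.card : ℝ) ≤ S.card * τ := by exact_mod_cast h5
  have r6 : (S.card : ℝ) ≤ 4 * τ := by exact_mod_cast (by omega : S.card ≤ 4 * τ)
  have r8 : (T.card : ℝ) ≤ 2 * L.card + S.card := by exact_mod_cast h8
  have r0 : (0 : ℝ) < S.card := Nat.cast_pos.2 (by omega)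
  have r1 : (0 : ℝ) ≤ τ := Nat.cast_nonneg _
  have r9 : (L.card : ℝ) * S.card ≤ 10 ^ 9 * (τ : ℝ) ^ 2 + 10 ^ 3 * (τ * S.card) := by
    calc (L.card : ℝ) * S.card ≤ (10 ^ 9 * (S.card * τ : ℝ) ^ 2 / (S.card : ℝ) ^ 3
          + 10 ^ 3 * (S.card * τ : ℝ) / S.card) * S.card := by
          gcongr
          exact h3.trans (by gcongr)
      _ = _ := by field_simp
  nlinarith [mul_le_mul_of_nonneg_right r8 r0.le, mul_le_mul_of_nonneg_left r6 r1,
    mul_le_mul r6 r6 r0.le (by positivity)]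

end Vale.Agent.P054S
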