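import Vale.Agent.P054S.CFPt
import Vale.Agent.P054S.CFST

/-!
Real homogeneous spans of flat nodes.
-/

namespace Vale.Agent.P054S

open MvPolynomial Module Vale.Agent.P054A
open scoped Classical

noncomputable section

variable {d k w : ℕ}

/-- Homogeneous coordinates. -/
def hm (x : Pt d) : ℝ × Pt d := (1, x)

/-- The homogeneous span of the points on `V`. -/
def hF (P : Finset (Pt d)) (V : Ideal (MvPolynomial (Fin d) ℂ)) : Submodule ℝ (ℝ × Pt d) :=
  Submodule.span ℝ (hm '' (ptsOn P V : Set (Pt d)))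

/-- Complexification of vectors. -/
def cxL (σ : Type) : (σ → ℝ) →ₗ[ℝ] (σ → ℂ) where
  toFun := cx
  map_add' a b := by
    funext l
    simp [cx]
  map_smul' s a := by
    funext l
    simp [cx]

variable {P : Finset (Pt d)} {V V' : Ideal (MvPolynomial (Fin d) ℂ)} {p q : Pt d}

theorem hm_mem (hp : p ∈ P) (h : On (cx p) V) : hm p ∈ hF P V :=
  Submodule.subset_span ⟨p, Finset.mem_coe.2 (mem_ptsOn.2 ⟨hp, h⟩), rfl⟩

theorem hF_on (hf : Flat V) (h : hm p ∈ hF P V) : On (cx p) V := by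
  refine hf.on_iff.1 (cf_on_low.2 fun g h1 h2 => ?_)
  obtain ⟨c, L, hL⟩ := exists_aff h2
  let φ : (ℝ × Pt d) →ₗ[ℝ] ℂ :=
    (LinearMap.toSpanSingleton ℝ ℂ c).coprod (L.restrictScalars ℝ ∘ₗ cxL _)
  have h3 : ∀ x, φ (hm x) = eval (cx x) g := fun x => by simp [φ, hm, hL, cxL]
  have h4 : hF P V ≤ LinearMap.ker φ := Submodule.span_le.2 (by
    rintro _ ⟨x, hx, rfl⟩
    exact (h3 x).trans ((mem_ptsOn.1 (Finset.mem_coe.1 hx)).2 g h1))
  exact (h3 p).symm.trans (h4 h)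

theorem hm_sub (x a : Pt d) : LinearMap.inr ℝ ℝ (Pt d) (x - a) = hm x - hm a := by simp [hm]

theorem hom_mem {U : Submodule ℝ (ℝ × Pt d)} {a x : Pt d} (ha : hm a ∈ U) (hx : hm x ∈ U) :
    x - a ∈ U.comap (LinearMap.inr ℝ ℝ (Pt d)) := by
  rw [Submodule.mem_comap, hm_sub]
  exact U.sub_mem hx ha

theorem hom_drop {U : Submodule ℝ (ℝ × Pt d)} {a : Pt d} (ha : hm a ∈ U) :
    finrank ℝ (U.comap (LinearMap.inr ℝ ℝ (Pt d))) + 1 ≤ finrank ℝ U := by
  have h8 : (U.comap (LinearMap.inr ℝ ℝ (Pt d))).map (LinearMap.inr ℝ ℝ (Pt d)) < U := by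
    refine lt_of_le_of_ne (Submodule.map_comap_le _ _) fun e => ?_
    obtain ⟨y, -, hy⟩ := e.ge ha
    simpa [hm] using congrArg Prod.fst hy
  have h9 := Submodule.finrank_lt_finrank_of_lt h8
  rwa [← (Submodule.equivMapOfInjective _ LinearMap.inr_injective _).finrank_eq] at h9

theorem Spans.mem (h : Spans P V) {g : MvPolynomial (Fin d) ℂ} (hg : g.totalDegree ≤ 1)
    (h0 : ∀ x ∈ P, On (cx x) V → eval (cx x) g = 0) : g ∈ V := by
  by_contra e
  obtain ⟨x, h1, h2, h3⟩ := h g e hg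
  exact h3 (h0 x h1 h2)

theorem hF_rank (hV : PD w V) (hf : Flat V) (hq : q ∈ P) (h : On (cx q) V) (hs : Spans P V) :
    finrank ℝ (hF P V) = w + 1 := by
  have h0 := hf.rank hV h
  refine le_antisymm ?_ (le_trans ?_ (hom_drop (hm_mem hq h)))
  · have h1 : hF P V ≤ (reW (spW V (cx q))).map (LinearMap.inr ℝ ℝ (Pt d))
        ⊔ Submodule.span ℝ {hm q} := Submodule.span_le.2 (by
      rintro _ ⟨x, hx, rfl⟩
      rw [← sub_add_cancel (hm x) (hm q), ← hm_sub]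
      refine Submodule.add_mem_sup (Submodule.mem_map_of_mem (show cx (x - q) ∈ spW V (cx q) from ?_))
        (Submodule.mem_span_singleton_self _)
      rw [cx_sub]
      exact (on_low_iff h).1 (hf.on_iff.2 (mem_ptsOn.1 (Finset.mem_coe.1 hx)).2))
    exact (Submodule.finrank_mono h1).trans
      ((Submodule.finrank_add_le_finrank_add_finrank _ _).trans
        (add_le_add ((Submodule.finrank_map_le _ _).trans ((rank_reW _).trans h0.le))
          ((finrank_span_le_card _).trans (by simp))))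
  · obtain ⟨W, h1, h2⟩ := exists_cx_span ((hF P V).comap (LinearMap.inr ℝ ℝ (Pt d)))
    have h3 : spW V (cx q) ≤ W := fun v hv => by
      by_contra e
      obtain ⟨L, h4, h5⟩ := Submodule.exists_le_ker_of_notMem e
      have h6 := hv _ (hs.mem (deg_aff (-L (cx q)) L) fun x hx h6 => by
        have h7 : L (cx (x - q)) = 0 := h5 (h2 (hom_mem (hm_mem hq h) (hm_mem hx h6)))
        rw [eval_aff, neg_add_eq_sub, ← map_sub, ← cx_sub, h7]) (deg_aff _ _)
      simp only [eval_aff, map_add] at h6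
      exact h4 (by linear_combination h6)
    exact Nat.succ_le_succ (h0.ge.trans ((Submodule.finrank_mono h3).trans h1))

theorem hF_inj (hf : Flat V) (hf' : Flat V') (hs : Spans P V) (hs' : Spans P V')
    (h : hF P V = hF P V') : V = V' :=
  le_antisymm (hf.trans (Ideal.span_le.2 fun g hg => hs'.mem hg.2 fun _ hx e =>
      hF_on hf (h ▸ hm_mem hx e) g hg.1))
    (hf'.trans (Ideal.span_le.2 fun g hg => hs.mem hg.2 fun _ hx e =>
      hF_on hf' (h ▸ hm_mem hx e) g hg.1))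

theorem hF_cone {P : Finset (Pt (k + 1))} {V : Ideal (MvPolynomial (Fin (k + 1)) ℂ)}
    {Y : Ideal (MvPolynomial (Fin k) ℂ)} {p x : Pt (k + 1)} (hs : Spans P V)
    (hY : Y = dirI p V) (h0 : x 0 ≠ p 0) (hx : On (dirC p (cx x)) Y) :
    hm x ∈ hF P V ⊔ Submodule.span ℝ {hm p} := by
  by_contra e
  obtain ⟨φ, h1, h2⟩ := Submodule.exists_le_ker_of_notMem e
  let L : (Fin (k + 1) → ℂ) →ₗ[ℂ] ℂ :=
    ∑ l, (φ (0, fun j => if l = j then 1 else 0) : ℂ) • LinearMap.proj l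
  have h3 : φ (hm p) = 0 := h2 (Submodule.mem_sup_right (Submodule.mem_span_singleton_self _))
  have h4 : ∀ y, L (cx y - cx p) = φ (hm y) := fun y => by
    have := (φ ∘ₗ LinearMap.inr ℝ ℝ _).pi_apply_eq_sum_univ (y - p)
    rw [LinearMap.comp_apply, hm_sub, map_sub, h3, sub_zero] at this
    rw [this, ← cx_sub]
    simp [L, cx, mul_comm]
  have h5 : aff (-L (cx p)) L ∈ V := hs.mem (deg_aff _ _) fun y hy h5 => by
    have h6 : φ (hm y) = 0 := h2 (Submodule.mem_sup_left (hm_mem hy h5))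
    rw [eval_aff, neg_add_eq_sub, ← map_sub, h4, h6, Complex.ofReal_zero]
  have h6 : ∀ y : Fin (k + 1) → ℂ, y 0 ≠ p 0 → L (y - cx p) = (y 0 - p 0) * eval (dirC p y)
      (aeval (Fin.cons 1 X : Fin (k + 1) → MvPolynomial (Fin k) ℂ) (aff 0 L)) := fun y hy => by
    rw [cf_eval_aeval, eval_aff, zero_add, ← smul_eq_mul, ← map_smul]
    conv_lhs => rw [sub_eq_dirC hy]
    congr 2
    funext l
    refine Fin.cases ?_ (fun l => ?_) l <;> simp
  have h7 := hx _ (hY ▸ mem_dirI.2 fun y hy h7 => by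
    have h8 := hy _ h5
    rw [eval_aff, neg_add_eq_sub, ← map_sub, h6 y h7] at h8
    exact (mul_eq_zero.1 h8).resolve_left (sub_ne_zero.2 h7))
  have h8 := h6 (cx x) fun e => h0 (Complex.ofReal_injective e)
  rw [h7, mul_zero, h4] at h8
  exact h1 (Complex.ofReal_eq_zero.1 h8)

/-- Flat nodes in one cone lie in one flat of the next dimension. -/
theorem cone_pl {P : Finset (Pt (k + 1))} (hP : Sep0 P)
    {V V' : Ideal (MvPolynomial (Fin (k + 1)) ℂ)} {Y : Ideal (MvPolynomial (Fin k) ℂ)}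
    {p q : Pt (k + 1)} (hp : p ∈ P) (hq : q ∈ P) (hV : PD w V) (hY : PD w Y) (h : On (cx q) V)
    (hs : Spans P V) (h1 : hm p ∉ hF P V) (h2 : hm p ∉ hF P V') (h3 : InCone p V Y)
    (h4 : InCone p V' Y) : hF P V' ≤ hF P V ⊔ Submodule.span ℝ {hm p} := by
  have h5 : ¬ On (cx p) V := fun e => h1 (hm_mem hp e)
  have h6 := eq_dirI hV hY (fun e => hP q hq p hp (fun e => h5 (e ▸ h)) (by
    simpa [cx, sub_eq_zero] using h _ e)) h3 fun e => h5 e.1
  refine Submodule.span_le.2 ?_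
  rintro _ ⟨x, hx, rfl⟩
  obtain ⟨h7, h8⟩ := mem_ptsOn.1 (Finset.mem_coe.1 hx)
  have h9 := hP x h7 p hp fun e => h2 (hm_mem hp (e ▸ h8))
  exact hF_cone hs h6 h9 (h4 _ h8 fun e => h9 (Complex.ofReal_injective e))

theorem hom_sub (P : Finset (Pt d)) {U : Submodule ℝ (ℝ × Pt d)} {a : ℕ}
    (hU : finrank ℝ U ≤ a + 1) : ∃ (p : Pt d) (D : Submodule ℝ (Pt d)), finrank ℝ D ≤ a ∧
      (P.filter fun x => hm x ∈ U) ⊆ P.filter fun x => x - p ∈ D := by
  rcases (P.filter fun x => hm x ∈ U).eq_empty_or_nonempty with e | ⟨p, hp⟩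
  · exact ⟨0, ⊥, by simp, by simp [e]⟩
  have h1 := (Finset.mem_filter.1 hp).2
  exact ⟨p, _, by have := hom_drop h1; omega, fun x hx => Finset.mem_filter.2
    ⟨(Finset.mem_filter.1 hx).1, hom_mem h1 (Finset.mem_filter.1 hx).2⟩⟩

theorem pts_hom (k : ℕ) (hk : 2 ≤ k) : ∃ τ₀ : ℕ, ∀ τ ≥ τ₀, ∀ P : Finset (Pt (k + 1)),
    nd2 P ≤ τ → τ ^ (k + 1) ≤ P.card ^ 2 → ∀ Z : ℕ, Z ^ 5 ≤ τ ^ 2 →
      ∀ U : Submodule ℝ (ℝ × Pt (k + 1)), finrank ℝ U ≤ k + 1 →
        (P.filter fun x => hm x ∈ U).card * Z ≤ P.card := by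
  obtain ⟨τ₀, h⟩ := pts_proper k hk
  refine ⟨τ₀, fun τ hτ P hP hN Z hZ U hU => ?_⟩
  obtain ⟨p, D, h1, h2⟩ := hom_sub P hU
  obtain ⟨W, h3, h4⟩ := exists_cx_span D
  refine le_trans (Nat.mul_le_mul_right _ (Finset.card_le_card fun x hx => ?_))
    (h τ hτ P hP hN Z hZ (cx p) W fun e => ?_)
  · obtain ⟨h5, h6⟩ := Finset.mem_filter.1 (h2 hx)
    exact Finset.mem_filter.2 ⟨h5, cx_sub x p ▸ h4 h6⟩
  · rw [e, finrank_top, finrank_fintype_fun_eq_card, Fintype.card_fin] at h3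
    exact Nat.not_succ_le_self k (h3.trans h1)

theorem pairs_on {α β : Type} (P : Finset α) (Q : Finset β) (r : α → β → Prop) {c : ℝ}
    (h : ∀ q ∈ Q, ((P.filter fun p => r p q).card : ℝ) ≤ c) :
    (((P ×ˢ Q).filter fun z => r z.1 z.2).card : ℝ) ≤ Q.card * c := by
  rw [Finset.card_filter, Finset.sum_product_right, Nat.cast_sum, ← nsmul_eq_mul]
  refine Finset.sum_le_card_nsmul _ _ _ fun q hq => ?_
  rw [← Finset.card_filter]
  exact h q hq

theorem cf_root (m : ℕ) (hm : m ≠ 0) (c : ℝ) :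
    ∃ τ₀ : ℕ, ∀ τ ≥ τ₀, ∃ u : ℝ, c ≤ u ∧ 1 ≤ u ∧ u ^ m = (τ : ℝ) := by
  obtain ⟨n, hn⟩ := exists_nat_ge (max c 1 ^ m)
  refine ⟨n, fun τ hτ => ?_⟩
  have h1 := Real.rpow_inv_natCast_pow (Nat.cast_nonneg (α := ℝ) τ) hm
  have h2 : max c 1 ≤ (τ : ℝ) ^ ((m : ℝ)⁻¹) := by
    refine le_of_pow_le_pow_left₀ hm (by positivity) ?_
    rw [h1]
    exact hn.trans (Nat.cast_le.2 hτ)
  exact ⟨_, (le_max_left _ _).trans h2, (le_max_right _ _).trans h2, h1⟩

end

end Vale.Agent.P054S
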