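import Vale.Agent.P054S.CFHom

/-!
Line nodes.
-/

namespace Vale.Agent.P054S

open MvPolynomial Module Vale.Agent.P054A
open scoped Classical

theorem cf_geom {x : ℝ} (h0 : 0 ≤ x) (h1 : x < 1) (J : Finset ℕ) (f : ℕ → ℕ)
    (hf : Set.InjOn f J) : ∑ j ∈ J, x ^ f j ≤ (1 - x)⁻¹ := by
  rw [← Finset.sum_image (f := fun n => x ^ n) hf, ← tsum_geometric_of_lt_one h0 h1]
  exact (summable_geometric_of_lt_one h0 h1).sum_le_tsum _ fun _ _ => by positivity

theorem line_arith {a b x y τ K n N r r₀ : ℝ} (ha : 0 < a) (hb : 0 < b) (hx : 0 < x)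
    (hy : y * (b * x ^ 2) = 1) (hτ : 0 < τ) (hK : 0 < K) (hn : 0 ≤ n) (h1 : a * n ≤ N)
    (hr : 0 ≤ r) (h2 : r ≤ r₀) (h3 : r ≤ 3 * 10 ^ 9 * τ ^ 2 / (a * b)) :
    r * (2 * a) * (10 ^ 9 * (n ^ 2 / (K * τ * x / (5 * (2 * a))) ^ 2 + n))
      ≤ 6 * 10 ^ 20 / K ^ 2 * N ^ 2 * y + 2 * 10 ^ 9 * r₀ * N := by
  have e : y = 1 / (b * x ^ 2) := by rw [eq_div_iff (by positivity), hy]
  have e1 : r * (2 * a) * (10 ^ 9 * (n ^ 2 / (K * τ * x / (5 * (2 * a))) ^ 2))
      ≤ 6 * 10 ^ 20 / K ^ 2 * N ^ 2 * y := by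
    calc _ ≤ 3 * 10 ^ 9 * τ ^ 2 / (a * b) * (2 * a)
          * (10 ^ 9 * (n ^ 2 / (K * τ * x / (5 * (2 * a))) ^ 2)) := by gcongr
      _ = 6 * 10 ^ 20 / K ^ 2 * (a * n) ^ 2 * y := by
          rw [e]
          field_simp
          ring
      _ ≤ _ := by
          rw [e]
          gcongr
  have e2 : r * (a * n) ≤ r₀ * N := mul_le_mul h2 h1 (by positivity) (hr.trans h2)
  nlinarith

theorem line_plane {d τ : ℕ} {P : Finset (Pt d)} (hP : nd2 P ≤ τ)
    {V : Ideal (MvPolynomial (Fin d) ℂ)} {q : Pt d} (hq : q ∈ P) (h : On (cx q) V)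
    (h2 : finrank ℝ (hF P V) = 2) {U : Submodule ℝ (ℝ × Pt d)} (hU : finrank ℝ U = 3)
    (hle : hF P V ≤ U) : ((P.filter fun x => hm x ∈ U).card : ℝ) * (ptsOn P V).card
      ≤ 3 * 10 ^ 9 * (τ : ℝ) ^ 2 := by
  have h1 := hm_mem hq h
  have h3 := hom_drop h1
  have h4 := hom_drop (hle h1)
  obtain ⟨v, hv⟩ := finrank_le_one_iff.1
    (show finrank ℝ ((hF P V).comap (LinearMap.inr ℝ ℝ (Pt d))) ≤ 1 by omega)
  have h5 : ∀ x ∈ ptsOn P V, ∃ s : ℝ, x = q + s • v.1 := fun x hx => by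
    obtain ⟨c, hc⟩ := hv ⟨x - q, hom_mem h1 (hm_mem (mem_ptsOn.1 hx).1 (mem_ptsOn.1 hx).2)⟩
    have : c • v.1 = x - q := congrArg Subtype.val hc
    exact ⟨c, by rw [this, add_sub_cancel]⟩
  have h6 : ∃ x ∈ ptsOn P V, x ≠ q := by
    by_contra e
    have h7 : hF P V ≤ Submodule.span ℝ {hm q} := Submodule.span_mono (by
      rintro _ ⟨x, hx, rfl⟩
      rw [show x = q from not_not.1 fun e' => e ⟨x, hx, e'⟩]
      rfl)
    have h8 := (Submodule.finrank_mono h7).trans (finrank_span_le_card _)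
    simp [h2] at h8
  obtain ⟨x, hx, hxq⟩ := h6
  refine cf_plane P hP (a := q) (v := v.1) (D := U.comap (LinearMap.inr ℝ ℝ (Pt d))) (by omega)
    (hle v.2) (fun e => ?_) (Finset.filter_subset _ _) (Finset.filter_subset _ _) h5
    (Finset.one_lt_card.2 ⟨x, hx, q, mem_ptsOn.2 ⟨hq, h⟩, hxq⟩)
    fun y hy => hom_mem (hle h1) (Finset.mem_filter.1 hy).2
  obtain ⟨s, hs⟩ := h5 x hx
  exact hxq (by simpa [e] using hs)

/-- Few line nodes lie in the cone over a curve, outside a small set of pairs. -/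
theorem line_nodes (k : ℕ) (hk : 2 ≤ k) : ∃ C K₀ : ℕ, ∀ K ≥ K₀, ∃ τ₀ : ℕ, ∀ τ ≥ τ₀,
    ∀ P : Finset (Pt (k + 1)), nd2 P ≤ τ → τ ^ (k + 1) ≤ P.card ^ 2 → Sep0 P → ∀ Q ⊆ P,
      ∀ V : Pt (k + 1) → Ideal (MvPolynomial (Fin (k + 1)) ℂ),
        (∀ q ∈ Q, PD 1 (V q) ∧ Flat (V q) ∧ On (cx q) (V q) ∧ Spans P (V q)) →
        ∃ B ⊆ P ×ˢ Q, B.card * K ^ 2 ≤ C * P.card ^ 2 ∧ ∀ p ∈ P, ∀ Y, PD 1 Y →
          (Q.filter fun q => (p, q) ∉ B ∧ InCone p (V q) Y).card ≤ K * τ := by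
  refine ⟨10 ^ 22, 40000, fun K hK => ?_⟩
  obtain ⟨τ₁, h₁⟩ := pts_hom k hk
  obtain ⟨τ₂, h₂⟩ := log_small (3 * K ^ 2) 5
  refine ⟨τ₁ + τ₂ + 1, fun τ hτ P hP hN hS Q hQ V hV => ?_⟩
  set L := Nat.log 2 τ + 3 with hL
  have K0 : (40000 : ℝ) ≤ K := by exact_mod_cast hK
  have τ0 : (1 : ℝ) ≤ τ := by exact_mod_cast (by omega : 1 ≤ τ)
  have L0 : (1 : ℝ) ≤ L := by exact_mod_cast (by omega : 1 ≤ L)
  have hc : ∀ U : Submodule ℝ (ℝ × Pt (k + 1)), finrank ℝ U ≤ 3 →
      ((P.filter fun x => hm x ∈ U).card : ℝ) ≤ P.card / (K ^ 2 * L) := fun U hU => by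
    rw [le_div_iff₀ (by positivity)]
    exact_mod_cast h₁ τ (by omega) P hP hN (K ^ 2 * L) (cf_sq (le_trans (Nat.pow_le_pow_left
      (by rw [mul_comm 3, mul_assoc]; exact Nat.mul_le_mul_left _ (by omega)) 5)
      (h₂ τ (by omega)))) U (by omega)
  let F : Pt (k + 1) → Submodule ℝ (ℝ × Pt (k + 1)) := fun q => hF P (V q)
  have hrk : ∀ q ∈ Q, finrank ℝ (F q) = 1 + 1 := fun q hq =>
    hF_rank (hV q hq).1 (hV q hq).2.1 (hQ hq) (hV q hq).2.2.1 (hV q hq).2.2.2
  let μ : Submodule ℝ (ℝ × Pt (k + 1)) → ℕ := fun U => (Q.filter fun q => F q = U).card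
  let c : Pt (k + 1) → ℕ := fun q => Nat.log 2 (μ (F q))
  have hμ : ∀ q ∈ Q, 2 ^ c q ≤ μ (F q) ∧ μ (F q) ≤ (ptsOn P (V q)).card ∧ 2 ^ c q ≤ 4 * τ ∧
      c q < L := fun q hq => by
    have h1 : 2 ^ c q ≤ μ (F q) := Nat.pow_log_le_self 2
      (Finset.card_ne_zero.2 ⟨q, Finset.mem_filter.2 ⟨hq, rfl⟩⟩)
    have h2 : μ (F q) ≤ (ptsOn P (V q)).card := Finset.card_le_card fun x hx => by
      obtain ⟨b1, b2⟩ := Finset.mem_filter.1 hx
      exact mem_ptsOn.2 ⟨hQ b1, hF_on (hV q hq).2.1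
        (show hm x ∈ F q from b2 ▸ hm_mem (hQ b1) (hV x b1).2.2.1)⟩
    have h3 := pts_line hP (hV q hq).1 (hV q hq).2.1 le_rfl
    have h4 := Nat.lt_pow_succ_log_self (b := 2) (by omega) τ
    refine ⟨h1, h2, by omega, (Nat.pow_lt_pow_iff_right (a := 2) (by omega)).1 ?_⟩
    rw [hL, pow_succ, pow_succ]
    omega
  let Qc : ℕ → Finset (Pt (k + 1)) := fun i => Q.filter fun q => c q = i
  let R : ℕ → ℕ → ℝ := fun i j => K * τ * (4 / 5) ^ (j - i) / (5 * (2 * 2 ^ i))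
  let good : ℕ → ℕ → Submodule ℝ (ℝ × Pt (k + 1)) → Prop := fun i j U =>
    finrank ℝ U = 3 ∧ (∃ q ∈ Q, F q ≤ U ∧ c q = j) ∧ R i j ≤ P054.inpl ((Qc i).image F) U
  let B : ℕ → ℕ → Finset (Pt (k + 1) × Pt (k + 1)) := fun i j => (P ×ˢ Qc i).filter fun z =>
    hm z.1 ∉ F z.2 ∧ good i j (F z.2 ⊔ Submodule.span ℝ {hm z.1})
  have hM : ∀ i, ∀ q ∈ Qc i, ((Qc i).filter fun q' => F q' = F q).card ≤ 2 * 2 ^ i :=
    fun i q hq => by
      have h1 := Nat.lt_pow_succ_log_self (b := 2) (by omega) (μ (F q))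
      have h2 : ((Qc i).filter fun q' => F q' = F q).card ≤ μ (F q) := Finset.card_le_card
        (Finset.filter_subset_filter _ (Finset.filter_subset _ _))
      rw [Nat.succ_eq_add_one, pow_succ,
        show Nat.log 2 (μ (F q)) = i from (Finset.mem_filter.1 hq).2] at h1
      exact h2.trans (h1.le.trans_eq (mul_comm _ _))
  have hB : ∀ i j, i ≤ j → ((B i j).card : ℝ) ≤ 6 * 10 ^ 20 / K ^ 2 * ((Qc i).card : ℝ) ^ 2
      * (25 / 32) ^ (j - i) + 2 * 10 ^ 9 * (P.card / (K ^ 2 * L)) * (Qc i).card := fun i j hij => by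
    rcases (B i j).eq_empty_or_nonempty with e | ⟨z, hz⟩
    · rw [e, Finset.card_empty, Nat.cast_zero]
      positivity
    obtain ⟨q, hq, -, rfl⟩ := (Finset.mem_filter.1 hz).2.2.2.1
    obtain ⟨s, hs⟩ := Nat.exists_eq_add_of_le hij
    have h1 : (2 : ℝ) ^ i * 2 ^ s ≤ 4 * τ := by
      rw [← pow_add, ← hs]
      exact_mod_cast (hμ q hq).2.2.1
    have h2 : 1000 ≤ R i (c q) := by
      simp only [R, hs, Nat.add_sub_cancel_left]
      rw [le_div_iff₀ (by positivity)]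
      have h3 : (1 : ℝ) ≤ 2 ^ s * (4 / 5) ^ s := by
        rw [← mul_pow]
        exact one_le_pow₀ (by norm_num)
      calc (1000 : ℝ) * (5 * (2 * 2 ^ i)) = 10000 * (2 ^ i * 1) := by ring
        _ ≤ 10000 * (2 ^ i * (2 ^ s * (4 / 5) ^ s)) := by gcongr
        _ = 10000 * (2 ^ i * 2 ^ s) * (4 / 5) ^ s := by ring
        _ ≤ 10000 * (4 * τ) * (4 / 5) ^ s := by gcongr
        _ = 40000 * τ * (4 / 5) ^ s := by ring
        _ ≤ _ := by gcongr
    have h3 := cf_pairs 1 P (Qc i) hm F (fun x hx => hrk x (Finset.mem_filter.1 hx).1)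
      (good i (c q)) h2 (r := min (P.card / (K ^ 2 * L)) (3 * 10 ^ 9 * τ ^ 2 / (2 ^ i * 2 ^ s)))
      (M := 2 * 2 ^ i) (by positivity) (by positivity) (fun U hU => le_min (hc U hU.1.le) (by
        obtain ⟨x, hx, b1, b2⟩ := hU.2.1
        rw [le_div_iff₀ (by positivity), ← pow_add, ← hs, ← b2]
        refine le_trans ?_ (line_plane hP (hQ hx) (hV x hx).2.2.1 (hrk x hx) hU.1 b1)
        gcongr
        exact_mod_cast (hμ x hx).1.trans (hμ x hx).2.1)) (fun U hU => hU.2.2)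
      fun x hx => by exact_mod_cast hM i x hx
    have h4 : 2 ^ i * ((Qc i).image F).card ≤ (Qc i).card :=
      Finset.mul_card_image_le_card _ _ fun U hU => by
        obtain ⟨x, hx, rfl⟩ := Finset.mem_image.1 hU
        obtain ⟨b1, b2⟩ := Finset.mem_filter.1 hx
        refine le_trans (b2 ▸ (hμ x b1).1) (Finset.card_le_card fun y hy => ?_)
        obtain ⟨b3, b4⟩ := Finset.mem_filter.1 hy
        exact Finset.mem_filter.2 ⟨Finset.mem_filter.2 ⟨b3, by simp only [c, b4]; exact b2⟩, b4⟩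
    refine (le_trans (Nat.cast_le.2 (Finset.card_le_card fun z hz => by
      simpa only [B, Finset.mem_filter] using hz)) h3).trans ?_
    simp only [R, hs, Nat.add_sub_cancel_left]
    exact line_arith (b := 2 ^ s) (by positivity) (by positivity) (by positivity)
      (by rw [← pow_mul, mul_comm s, pow_mul, ← mul_pow, ← mul_pow]; norm_num) (by linarith)
      (by linarith) (Nat.cast_nonneg _) (by exact_mod_cast h4) (by positivity) (min_le_left _ _)
      (min_le_right _ _)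
  have hQc : ∑ i ∈ Finset.range L, ((Qc i).card : ℝ) ≤ P.card := by
    exact_mod_cast (Finset.card_eq_sum_card_fiberwise (f := c) fun q hq => Finset.mem_coe.2
      (Finset.mem_range.2 (hμ q (Finset.mem_coe.1 hq)).2.2.2)).ge.trans (Finset.card_le_card hQ)
  let B₀ := (P ×ˢ Q).filter fun z => hm z.1 ∈ F z.2
  refine ⟨B₀ ∪ (Finset.range L).biUnion fun i => (Finset.Ico i L).biUnion fun j => B i j,
    Finset.union_subset (Finset.filter_subset _ _) (Finset.biUnion_subset.2 fun i _ =>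
      Finset.biUnion_subset.2 fun j _ => (Finset.filter_subset _ _).trans
        (Finset.product_subset_product_right (Finset.filter_subset _ _))), ?_,
    fun p hp Y hY => ?_⟩
  · have h1 : (B₀.card : ℝ) ≤ P.card * (P.card / K ^ 2) :=
      (pairs_on P Q (fun p q => hm p ∈ F q) fun q hq => hc (F q) (by rw [hrk q hq]; omega)).trans
        (mul_le_mul (Nat.cast_le.2 (Finset.card_le_card hQ)) (by
          gcongr
          exact le_mul_of_one_le_right (by positivity) L0) (by positivity) (by positivity))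
    have h2 : ∀ i, (((Finset.Ico i L).biUnion fun j => B i j).card : ℝ)
        ≤ (3 * 10 ^ 21 + 2 * 10 ^ 9) * (P.card / K ^ 2) * (Qc i).card := fun i => by
      refine le_trans (Nat.cast_le.2 Finset.card_biUnion_le) ?_
      rw [Nat.cast_sum]
      refine (Finset.sum_le_sum fun j hj => hB i j (Finset.mem_Ico.1 hj).1).trans ?_
      rw [Finset.sum_add_distrib, ← Finset.mul_sum, Finset.sum_const, nsmul_eq_mul]
      have h3 := cf_geom (x := 25 / 32) (by norm_num) (by norm_num) (Finset.Ico i L) (· - i)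
        fun a ha b hb e => by
          have := (Finset.mem_Ico.1 (Finset.mem_coe.1 ha)).1
          have := (Finset.mem_Ico.1 (Finset.mem_coe.1 hb)).1
          have : a - i = b - i := e
          omega
      have h4 : ((Finset.Ico i L).card : ℝ) ≤ L := by simp
      have h5 : ((Qc i).card : ℝ) ≤ P.card :=
        Nat.cast_le.2 (Finset.card_le_card ((Finset.filter_subset _ _).trans hQ))
      calc _ ≤ (6 * 10 ^ 20 / K ^ 2 * (P.card * (Qc i).card) * 5 : ℝ)
            + L * (2 * 10 ^ 9 * (P.card / (K ^ 2 * L)) * (Qc i).card) := by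
            rw [sq ((Qc i).card : ℝ)]
            gcongr
            exact h3.trans (by norm_num)
        _ = _ := by
            field_simp
            ring
    rw [← Nat.cast_le (α := ℝ), Nat.cast_mul, Nat.cast_mul, Nat.cast_pow K, Nat.cast_pow P.card,
      ← le_div_iff₀ (by positivity)]
    refine le_trans (Nat.cast_le.2 ((Finset.card_union_le _ _).trans
      (Nat.add_le_add_left Finset.card_biUnion_le _))) ?_
    rw [Nat.cast_add, Nat.cast_sum]
    refine (add_le_add h1 (Finset.sum_le_sum fun i _ => h2 i)).trans ?_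
    rw [← Finset.mul_sum]
    calc _ ≤ P.card * (P.card / K ^ 2)
          + (3 * 10 ^ 21 + 2 * 10 ^ 9) * (P.card / K ^ 2) * (P.card : ℝ) := by gcongr
      _ = (1 + 3 * 10 ^ 21 + 2 * 10 ^ 9) * (P.card : ℝ) ^ 2 / K ^ 2 := by ring
      _ ≤ _ := by
          gcongr
          norm_num
  · set S := Q.filter fun q => (p, q) ∉ B₀ ∪ ((Finset.range L).biUnion fun i =>
      (Finset.Ico i L).biUnion fun j => B i j) ∧ InCone p (V q) Y
    have h4 : ∀ q ∈ S, q ∈ Q ∧ hm p ∉ F q ∧ (∀ j, c q ≤ j → j < L →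
        ¬ good (c q) j (F q ⊔ Submodule.span ℝ {hm p})) ∧ InCone p (V q) Y := fun q hq => by
      obtain ⟨b1, b2, b3⟩ := Finset.mem_filter.1 hq
      have b5 : hm p ∉ F q := fun e => b2 (Finset.mem_union_left _ (Finset.mem_filter.2
        ⟨Finset.mem_product.2 ⟨hp, b1⟩, e⟩))
      exact ⟨b1, b5, fun j j1 j2 e => b2 (Finset.mem_union_right _ (Finset.mem_biUnion.2
        ⟨c q, Finset.mem_range.2 (hμ q b1).2.2.2, Finset.mem_biUnion.2 ⟨j, Finset.mem_Ico.2
          ⟨j1, j2⟩, Finset.mem_filter.2 ⟨Finset.mem_product.2 ⟨hp, Finset.mem_filter.2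
            ⟨b1, rfl⟩⟩, b5, e⟩⟩⟩)), b3⟩
    rcases S.eq_empty_or_nonempty with e | ⟨q, hq⟩
    · simp [e]
    obtain ⟨b1, b2, -, b4⟩ := h4 q hq
    set U := F q ⊔ Submodule.span ℝ {hm p}
    have h5 : ∀ x ∈ S, finrank ℝ ↥(F x ⊔ Submodule.span ℝ {hm p}) = 3 := fun x hx => by
      rw [Submodule.finrank_sup_span_singleton (h4 x hx).2.1, hrk x (h4 x hx).1]
    have h6 : ∀ x ∈ S, F x ⊔ Submodule.span ℝ {hm p} = U := fun x hx =>
      Submodule.eq_of_le_of_finrank_eq (sup_le (cone_pl hS hp (hQ b1) (hV q b1).1 hY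
        (hV q b1).2.2.1 (hV q b1).2.2.2 b2 (h4 x hx).2.1 b4 (h4 x hx).2.2.2) le_sup_right)
        ((h5 x hx).trans (h5 q hq).symm)
    obtain ⟨y, hy, hmax⟩ := Finset.exists_max_image S c ⟨q, hq⟩
    have h7 : ∀ i ∈ Finset.range (c y + 1), ((S.filter fun x => c x = i).card : ℝ)
        ≤ K * τ / 5 * (4 / 5) ^ (c y - i) := fun i _ => by
      rcases (S.filter fun x => c x = i).eq_empty_or_nonempty with e | ⟨x, hx⟩
      · rw [e, Finset.card_empty, Nat.cast_zero]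
        positivity
      obtain ⟨c1, rfl⟩ := Finset.mem_filter.1 hx
      have h8 := (h4 x c1).2.2.1 (c y) (hmax x c1) (hμ y (h4 y hy).1).2.2.2
      rw [h6 x c1] at h8
      have h9 : (P054.inpl ((Qc (c x)).image F) U : ℝ) ≤ R (c x) (c y) := (not_le.1 fun e =>
        h8 ⟨h5 q hq, ⟨y, (h4 y hy).1, le_sup_left.trans (h6 y hy).le, rfl⟩, e⟩).le
      have h10 : (S.filter fun z => c z = c x).card
          ≤ 2 * 2 ^ c x * P054.inpl ((Qc (c x)).image F) U := by
        refine Finset.card_le_mul_card_image_of_maps_to (f := F) (fun z hz => ?_) _ fun W hW => ?_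
        · obtain ⟨d1, d2⟩ := Finset.mem_filter.1 hz
          exact Finset.mem_filter.2 ⟨Finset.mem_image_of_mem F (Finset.mem_filter.2
            ⟨(h4 z d1).1, d2⟩), le_sup_left.trans (h6 z d1).le⟩
        · obtain ⟨z, hz, rfl⟩ := Finset.mem_image.1 (Finset.mem_filter.1 hW).1
          refine le_trans (Finset.card_le_card fun a ha => ?_) (hM _ z hz)
          obtain ⟨d1, d2⟩ := Finset.mem_filter.1 ha
          exact Finset.mem_filter.2 ⟨Finset.mem_filter.2 ⟨(h4 a (Finset.mem_filter.1 d1).1).1,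
            (Finset.mem_filter.1 d1).2⟩, d2⟩
      calc ((S.filter fun z => c z = c x).card : ℝ)
          ≤ 2 * 2 ^ c x * P054.inpl ((Qc (c x)).image F) U := by exact_mod_cast h10
        _ ≤ 2 * 2 ^ c x * R (c x) (c y) := by gcongr
        _ = _ := by
            simp only [R]
            field_simp
    have h8 := cf_geom (x := 4 / 5) (by norm_num) (by norm_num) (Finset.range (c y + 1))
      (c y - ·) fun a ha b hb e => by
        have := Finset.mem_range.1 (Finset.mem_coe.1 ha)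
        have := Finset.mem_range.1 (Finset.mem_coe.1 hb)
        have : c y - a = c y - b := e
        omega
    rw [← Nat.cast_le (α := ℝ), Finset.card_eq_sum_card_fiberwise (f := c) fun x hx =>
      Finset.mem_coe.2 (Finset.mem_range.2 (Nat.lt_succ_of_le (hmax x (Finset.mem_coe.1 hx)))),
      Nat.cast_sum, Nat.cast_mul]
    refine (Finset.sum_le_sum h7).trans ?_
    rw [← Finset.mul_sum]
    calc _ ≤ (K : ℝ) * τ / 5 * (1 - 4 / 5)⁻¹ := by gcongr
      _ = _ := by ring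

end Vale.Agent.P054S
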