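import Vale.Agent.P054S.CFCone

/-!
Points on flats, rich lines.
-/

namespace Vale.Agent.P054S

open MvPolynomial Module Vale.Agent.P054A
open scoped Classical

theorem cf_le_one {d τ : ℕ} {P : Finset (Pt d)} (h : nd2 P ≤ τ) (p : Pt d)
    {U : Submodule ℝ (Pt d)} (hU : finrank ℝ U ≤ 1) :
    (P.filter fun q => q - p ∈ U).card ≤ 2 * τ + 2 := by
  obtain ⟨v, hv⟩ := finrank_le_one_iff.1 hU
  refine modQ_col P h (Finset.filter_subset _ _) ⟨p, v.1, fun q hq => ?_⟩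
  obtain ⟨c, hc⟩ := hv ⟨q - p, (Finset.mem_filter.1 hq).2⟩
  have : c • v.1 = q - p := congrArg Subtype.val hc
  exact ⟨c, by rw [this, add_sub_cancel]⟩

theorem cf_eq (b m : ℕ) : ∃ τ₀ : ℕ, 2 ≤ b → ∀ τ ≥ τ₀, ∀ (d : ℕ) (P : Finset (Pt d)),
    nd2 P ≤ τ → ∀ (p : Pt d) (U : Submodule ℝ (Pt d)), finrank ℝ U = b →
      (P.filter fun q => q - p ∈ U).card ^ (2 * m) ≤ τ ^ (b * m + 1) := by
  by_cases hb : 2 ≤ b
  swap
  · exact ⟨0, fun h => absurd h hb⟩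
  have b0 : (0 : ℝ) < b := Nat.cast_pos.2 (by omega)
  obtain ⟨n₀, h⟩ := flat_bound (thm_all b hb) (ε := 2 / (b * (b * m + 1))) (by positivity)
  refine ⟨n₀ ^ (2 * m) + 1, fun _ τ hτ d P hP p U hU => ?_⟩
  by_cases h1 : n₀ ≤ (P.filter fun q => q - p ∈ U).card
  · have h2 := (h d P p U hU h1).trans (Nat.cast_le.2 hP)
    have h3 := pow_le_pow_left₀ (Real.rpow_nonneg (Nat.cast_nonneg _) _) h2 (b * m + 1)
    rw [← Real.rpow_natCast, ← Real.rpow_mul (Nat.cast_nonneg _), show (2 / (b : ℝ)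
      - 2 / (b * (b * m + 1))) * ((b * m + 1 : ℕ) : ℝ) = ((2 * m : ℕ) : ℝ) by
        push_cast
        field_simp
        ring, Real.rpow_natCast] at h3
    exact_mod_cast h3
  · exact (Nat.pow_le_pow_left (not_le.1 h1).le _).trans
      (le_trans (by omega) (Nat.le_self_pow (by omega) τ))

/-- Points on a real flat of dimension at most `a`. -/
theorem pts_real (a m : ℕ) (ha : 2 ≤ a) : ∃ τ₀ : ℕ, ∀ τ ≥ τ₀, ∀ (d : ℕ) (P : Finset (Pt d)),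
    nd2 P ≤ τ → ∀ (p : Pt d) (U : Submodule ℝ (Pt d)), finrank ℝ U ≤ a →
      (P.filter fun q => q - p ∈ U).card ^ (2 * m) ≤ τ ^ (a * m + 1) := by
  choose f hf using fun b => cf_eq b m
  refine ⟨∑ b ∈ Finset.range (a + 1), f b + 4 ^ (2 * m), fun τ hτ d P hP p U hU => ?_⟩
  have h1 : 1 ≤ 4 ^ (2 * m) := Nat.one_le_pow _ _ (by omega)
  by_cases h : 2 ≤ finrank ℝ U
  · have h2 : f (finrank ℝ U) ≤ ∑ b ∈ Finset.range (a + 1), f b :=
      Finset.single_le_sum (fun _ _ => Nat.zero_le _) (Finset.mem_range.2 (by omega))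
    exact (hf _ h τ (by omega) d P hP p U rfl).trans
      (Nat.pow_le_pow_right (by omega) (by gcongr))
  · calc _ ≤ (4 * τ) ^ (2 * m) :=
          Nat.pow_le_pow_left ((cf_le_one hP p (by omega)).trans (by omega)) _
      _ = τ ^ (2 * m) * 4 ^ (2 * m) := by rw [mul_pow, mul_comm]
      _ ≤ τ ^ (2 * m) * τ := Nat.mul_le_mul_left _ (by omega)
      _ ≤ τ ^ (a * m + 1) := by
          rw [← pow_succ]
          exact Nat.pow_le_pow_right (by omega) (by gcongr)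

theorem cf_cx_sub {d : ℕ} (P : Finset (Pt d)) (z : Fin d → ℂ) (W : Submodule ℂ (Fin d → ℂ)) :
    ∃ p : Pt d, (P.filter fun q => cx q - z ∈ W) ⊆ P.filter fun q => q - p ∈ reW W := by
  rcases (P.filter fun q => cx q - z ∈ W).eq_empty_or_nonempty with e | ⟨p, hp⟩
  · exact ⟨0, by simp [e]⟩
  refine ⟨p, fun q hq => Finset.mem_filter.2 ⟨(Finset.mem_filter.1 hq).1, show cx _ ∈ W from ?_⟩⟩
  simpa [cx_sub] using W.sub_mem (Finset.mem_filter.1 hq).2 (Finset.mem_filter.1 hp).2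

/-- Points on a complex flat of dimension at most `a`. -/
theorem pts_cx (a m : ℕ) (ha : 2 ≤ a) : ∃ τ₀ : ℕ, ∀ τ ≥ τ₀, ∀ (d : ℕ) (P : Finset (Pt d)),
    nd2 P ≤ τ → ∀ (z : Fin d → ℂ) (W : Submodule ℂ (Fin d → ℂ)), finrank ℂ W ≤ a →
      (P.filter fun q => cx q - z ∈ W).card ^ (2 * m) ≤ τ ^ (a * m + 1) := by
  obtain ⟨τ₀, h⟩ := pts_real a m ha
  refine ⟨τ₀, fun τ hτ d P hP z W hW => ?_⟩
  obtain ⟨p, hp⟩ := cf_cx_sub P z W
  exact (Nat.pow_le_pow_left (Finset.card_le_card hp) _).trans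
    (h τ hτ d P hP p _ ((rank_reW W).trans hW))

theorem ptsOn_low {d : ℕ} (P : Finset (Pt d)) {V : Ideal (MvPolynomial (Fin d) ℂ)}
    {z : Fin d → ℂ} (hz : On z V) :
    ptsOn P (low V 1) = P.filter fun q => cx q - z ∈ spW V z :=
  Finset.filter_congr fun _ _ => on_low_iff hz

theorem Flat.ptsOn_eq {d : ℕ} (P : Finset (Pt d)) {V : Ideal (MvPolynomial (Fin d) ℂ)}
    (hf : Flat V) {z : Fin d → ℂ} (hz : On z V) :
    ptsOn P V = P.filter fun q => cx q - z ∈ spW V z :=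
  Finset.filter_congr fun _ _ => hf.on_iff.symm.trans (on_low_iff hz)

/-- Points on a flat variety. -/
theorem pts_flat (a m : ℕ) (ha : 2 ≤ a) : ∃ τ₀ : ℕ, ∀ τ ≥ τ₀, ∀ (d : ℕ) (P : Finset (Pt d)),
    nd2 P ≤ τ → ∀ (l : ℕ) (V : Ideal (MvPolynomial (Fin d) ℂ)), PD l V → Flat V → l ≤ a →
      (ptsOn P V).card ^ (2 * m) ≤ τ ^ (a * m + 1) := by
  obtain ⟨τ₀, h⟩ := pts_cx a m ha
  refine ⟨τ₀, fun τ hτ d P hP l V hV hf hl => ?_⟩
  obtain ⟨z, hz⟩ := cf_exists_on hV.prime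
  rw [hf.ptsOn_eq P hz]
  exact h τ hτ d P hP z _ ((hf.rank hV hz).trans_le hl)

theorem pts_line {d τ l : ℕ} {P : Finset (Pt d)} (hP : nd2 P ≤ τ)
    {V : Ideal (MvPolynomial (Fin d) ℂ)} (hV : PD l V) (hf : Flat V) (hl : l ≤ 1) :
    (ptsOn P V).card ≤ 2 * τ + 2 := by
  obtain ⟨z, hz⟩ := cf_exists_on hV.prime
  obtain ⟨p, hp⟩ := cf_cx_sub P z (spW V z)
  rw [hf.ptsOn_eq P hz]
  exact (Finset.card_le_card hp).trans
    (cf_le_one hP p ((rank_reW _).trans ((hf.rank hV hz).trans_le hl)))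

/-- A proper flat holds a small part of the points. -/
theorem pts_proper (k : ℕ) (hk : 2 ≤ k) : ∃ τ₀ : ℕ, ∀ τ ≥ τ₀, ∀ P : Finset (Pt (k + 1)),
    nd2 P ≤ τ → τ ^ (k + 1) ≤ P.card ^ 2 → ∀ Z : ℕ, Z ^ 5 ≤ τ ^ 2 →
      ∀ (z : Fin (k + 1) → ℂ) (W : Submodule ℂ (Fin (k + 1) → ℂ)), W ≠ ⊤ →
        (P.filter fun q => cx q - z ∈ W).card * Z ≤ P.card := by
  obtain ⟨τ₀, h⟩ := pts_cx k 5 hk
  refine ⟨τ₀, fun τ hτ P hP hN Z hZ z W hW => ?_⟩
  have h1 := Submodule.finrank_lt hW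
  rw [finrank_fintype_fun_eq_card, Fintype.card_fin] at h1
  have h2 := h τ hτ _ P hP z W (by omega)
  refine (Nat.pow_le_pow_iff_left (n := 10) (by omega)).1 ?_
  calc _ = (P.filter fun q => cx q - z ∈ W).card ^ (2 * 5) * (Z ^ 5) ^ 2 := by ring
    _ ≤ τ ^ (k * 5 + 1) * (τ ^ 2) ^ 2 := by gcongr
    _ = (τ ^ (k + 1)) ^ 5 := by ring
    _ ≤ (P.card ^ 2) ^ 5 := by gcongr
    _ = _ := by ring

theorem cf_sq {Z τ : ℕ} (h : Z ^ 5 ≤ τ) : Z ^ 5 ≤ τ ^ 2 := h.trans (Nat.le_self_pow (by omega) τ)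

/-- Points in the span of a degenerate variety. -/
theorem pts_span (k : ℕ) (hk : 2 ≤ k) : ∃ τ₀ : ℕ, ∀ τ ≥ τ₀, ∀ P : Finset (Pt (k + 1)),
    nd2 P ≤ τ → τ ^ (k + 1) ≤ P.card ^ 2 → ∀ Z : ℕ, Z ^ 5 ≤ τ →
      ∀ V : Ideal (MvPolynomial (Fin (k + 1)) ℂ), low V 1 ≠ ⊥ →
        (ptsOn P (low V 1)).card * Z ≤ P.card := by
  obtain ⟨τ₀, h⟩ := pts_proper k hk
  refine ⟨τ₀, fun τ hτ P hP hN Z hZ V hV => ?_⟩
  rcases (ptsOn P (low V 1)).eq_empty_or_nonempty with e | ⟨p, hp⟩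
  · simp [e]
  have h1 := (mem_ptsOn.1 hp).2
  have h2 : ptsOn P (low V 1) ⊆ ptsOn P (low (low V 1) 1) := fun q hq =>
    mem_ptsOn.2 ⟨(mem_ptsOn.1 hq).1, fun g hg => (mem_ptsOn.1 hq).2 g (cf_low_le _ 1 hg)⟩
  refine (Nat.mul_le_mul_right _ (Finset.card_le_card h2)).trans ?_
  rw [ptsOn_low P h1]
  refine h τ hτ P hP hN Z (cf_sq hZ) _ _ fun e => hV (eq_bot_iff.2 (Ideal.span_le.2 fun g hg => ?_))
  refine Ideal.mem_bot.2 (MvPolynomial.funext fun x => ?_)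
  exact (on_low_iff h1).2 (e ▸ Submodule.mem_top) g
    (Ideal.subset_span ⟨Ideal.subset_span hg, hg.2⟩)

/-- Points on a hyperplane. -/
theorem pts_hyp (k : ℕ) (hk : 2 ≤ k) : ∃ τ₀ : ℕ, ∀ τ ≥ τ₀, ∀ P : Finset (Pt (k + 1)),
    nd2 P ≤ τ → τ ^ (k + 1) ≤ P.card ^ 2 → ∀ Z : ℕ, Z ^ 5 ≤ τ →
      ∀ g : MvPolynomial (Fin (k + 1)) ℂ, g ≠ 0 → g.totalDegree ≤ 1 →
        (P.filter fun q => eval (cx q) g = 0).card * Z ≤ P.card := by
  obtain ⟨τ₀, h⟩ := pts_span k hk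
  refine ⟨τ₀, fun τ hτ P hP hN Z hZ g h0 hg => le_trans (Nat.mul_le_mul_right _
    (Finset.card_le_card fun q hq => ?_)) (h τ hτ P hP hN Z hZ (Ideal.span {g}) fun e => h0 ?_)⟩
  · refine mem_ptsOn.2 ⟨(Finset.mem_filter.1 hq).1, cf_on_low.2 fun u hu _ => ?_⟩
    obtain ⟨c, rfl⟩ := Ideal.mem_span_singleton'.1 hu
    rw [map_mul, (Finset.mem_filter.1 hq).2, mul_zero]
  · exact Ideal.mem_bot.1 (e ▸ Ideal.subset_span ⟨Ideal.mem_span_singleton_self g, hg⟩)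

/-- The translations preserving the zero set. -/
def trW {σ : Type} (U : Ideal (MvPolynomial σ ℂ)) : Submodule ℂ (σ → ℂ) where
  carrier := {v | ∀ x, On x U → ∀ s : ℂ, On (x + s • v) U}
  add_mem' := fun {a b} ha hb x hx s => by
    rw [smul_add, ← add_assoc]
    exact hb _ (ha x hx s) s
  zero_mem' := fun x hx s => by simpa using hx
  smul_mem' := fun c a ha x hx s => by
    rw [smul_smul]
    exact ha x hx _

theorem vert_sub {d : ℕ} {U : Ideal (MvPolynomial (Fin d) ℂ)} {p q : Pt d} (hp : Vert p U)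
    (hq : Vert q U) : cx q - cx p ∈ trW U := by
  have h : ∀ x, On x U → ∀ s : ℂ, s ≠ 1 → On (x + s • (cx q - cx p)) U := fun x hx s hs => by
    have h1 := hq.2 _ (hp.2 x hx (1 - s)⁻¹) (1 - s)
    have h2 : 1 - s ≠ 0 := sub_ne_zero.2 hs.symm
    rwa [show cx q + (1 - s) • (cx p + (1 - s)⁻¹ • (x - cx p) - cx q) = x + s • (cx q - cx p) by
      funext l
      simp only [Pi.add_apply, Pi.smul_apply, Pi.sub_apply, smul_eq_mul]
      field_simp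
      ring] at h1
  intro x hx s
  by_cases e : s = 1
  · have := h _ (h x hx 2 (by norm_num)) (-1) (by norm_num)
    rwa [add_assoc, ← add_smul, show (2 : ℂ) + -1 = s by rw [e]; norm_num] at this
  · exact h x hx s e

/-- A proper variety has few vertices. -/
theorem pts_vert (k : ℕ) (hk : 2 ≤ k) : ∃ τ₀ : ℕ, ∀ τ ≥ τ₀, ∀ P : Finset (Pt (k + 1)),
    nd2 P ≤ τ → τ ^ (k + 1) ≤ P.card ^ 2 → ∀ Z : ℕ, Z ^ 5 ≤ τ →
      ∀ U : Ideal (MvPolynomial (Fin (k + 1)) ℂ), U ≠ ⊥ →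
        (P.filter fun p => Vert p U).card * Z ≤ P.card := by
  obtain ⟨τ₀, h⟩ := pts_proper k hk
  refine ⟨τ₀, fun τ hτ P hP hN Z hZ U hU => ?_⟩
  rcases (P.filter fun p => Vert p U).eq_empty_or_nonempty with e | ⟨p, hp⟩
  · simp [e]
  have h1 := (Finset.mem_filter.1 hp).2
  refine le_trans (Nat.mul_le_mul_right _ (Finset.card_le_card fun q hq => Finset.mem_filter.2
    ⟨(Finset.mem_filter.1 hq).1, vert_sub h1 (Finset.mem_filter.1 hq).2⟩))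
    (h τ hτ P hP hN Z (cf_sq hZ) (cx p) (trW U) fun e => hU (eq_bot_iff.2 fun g hg => ?_))
  refine Ideal.mem_bot.2 (MvPolynomial.funext fun x => ?_)
  have h2 : x - cx p ∈ trW U := e ▸ Submodule.mem_top
  simpa using h2 _ h1.1 1 g hg

/-- Pairs on rich lines. -/
theorem beck_cnt {d τ : ℕ} {P : Finset (Pt d)} (h : nd2 P ≤ τ) {K : ℝ} (hK : 2 ≤ K) :
    ((P.offDiag.filter fun z => K ≤ ((P054.ln P z.1 z.2).card : ℝ)).card : ℝ)
      ≤ 10 ^ 10 * ((P.card : ℝ) ^ 2 / K + P.card * (2 * τ + 2)) := by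
  have h1 := P054.richSqA P (κ := K) (M := 2 * τ + 2) hK (by positivity)
    (fun T hT hc => by exact_mod_cast modQ_col P h hT hc)
  have h2 := P054.beck_pairs P K
  have h3 : (P.offDiag.filter fun z => K ≤ ((P054.ln P z.1 z.2).card : ℝ)).card ≤
      ∑ p ∈ P, ((P.erase p).filter fun q => K ≤ ((P054.ln P p q).card : ℝ)).card := by
    rw [← Finset.card_sigma]
    refine Finset.card_le_card_of_injOn (fun z => ⟨z.1, z.2⟩) (fun z hz => ?_) ?_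
    · obtain ⟨a1, a2⟩ := Finset.mem_filter.1 (Finset.mem_coe.1 hz)
      obtain ⟨a3, a4, a5⟩ := Finset.mem_offDiag.1 a1
      exact Finset.mem_coe.2 (Finset.mem_sigma.2 ⟨a3, Finset.mem_filter.2
        ⟨Finset.mem_erase.2 ⟨a5.symm, a4⟩, a2⟩⟩)
    · intro z _ w _ e
      simp only [Sigma.mk.injEq, heq_eq_eq] at e
      exact Prod.ext e.1 e.2
  refine le_trans ?_ h1
  simp only [sq]
  exact_mod_cast h3.trans h2

theorem mem_ln_of_dir {k : ℕ} {P : Finset (Pt (k + 1))} {p q x : Pt (k + 1)} (hx : x ∈ P)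
    (hq : q 0 ≠ p 0) (h0 : x 0 ≠ p 0) (h : dir p x = dir p q) : x ∈ P054.ln P p q := by
  refine P054.mem_ln.2 ⟨hx, Submodule.mem_span_singleton.2 ⟨(x 0 - p 0) / (q 0 - p 0), ?_⟩⟩
  have h1 := sub_ne_zero.2 hq
  have h2 := sub_ne_zero.2 h0
  funext l
  refine Fin.cases ?_ (fun l => ?_) l
  · simp [h1]
  · have h3 : (x l.succ - p l.succ) / (x 0 - p 0) = (q l.succ - p l.succ) / (q 0 - p 0) :=
      Complex.ofReal_injective (congrFun h l)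
    simp only [Pi.smul_apply, Pi.sub_apply, smul_eq_mul]
    field_simp at h3 ⊢
    linarith

/-- Thinning to distinct directions. -/
theorem thin {k K : ℕ} {P G : Finset (Pt (k + 1))} {p : Pt (k + 1)} (hG : G ⊆ P)
    (h0 : ∀ q ∈ G, q 0 ≠ p 0) (hK : ∀ q ∈ G, (P054.ln P p q).card ≤ K) :
    ∃ G' ⊆ G, G.card ≤ K * G'.card ∧ Set.InjOn (dir p) (G' : Set (Pt (k + 1))) := by
  obtain ⟨G', h1, h2, h3⟩ := Finset.exists_subset_injOn_image_eq_of_surjOn (f := dir p)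
    (G : Set (Pt (k + 1))) (G.image (dir p)) (by simp [Set.SurjOn])
  refine ⟨G', h1, ?_, h2⟩
  rw [← Finset.card_image_of_injOn h2, h3]
  refine Finset.card_le_mul_card_image _ K fun y hy => ?_
  obtain ⟨q, hq, rfl⟩ := Finset.mem_image.1 hy
  exact le_trans (Finset.card_le_card fun x hx => mem_ln_of_dir (hG (Finset.mem_filter.1 hx).1)
    (h0 q hq) (h0 x (Finset.mem_filter.1 hx).1) (Finset.mem_filter.1 hx).2) (hK q hq)

/-- Powers of the logarithm are small. -/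
theorem log_small (c e : ℕ) : ∃ τ₀ : ℕ, ∀ τ ≥ τ₀, (c * (Nat.log 2 τ + 1)) ^ e ≤ τ := by
  have h1 : ∀ᶠ n : ℕ in Filter.atTop, ((c : ℝ) ^ e + 1) * ((n : ℝ) ^ e / 2 ^ n) ≤ 1 / 2 := by
    have := (tendsto_pow_const_div_const_pow_of_one_lt e (one_lt_two (α := ℝ))).const_mul
      ((c : ℝ) ^ e + 1)
    rw [mul_zero] at this
    exact this.eventually (ge_mem_nhds (by norm_num))
  obtain ⟨n₀, h⟩ := Filter.eventually_atTop.1 h1
  refine ⟨2 ^ n₀, fun τ hτ => ?_⟩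
  have h0 : τ ≠ 0 := (lt_of_lt_of_le (by positivity) hτ).ne'
  have h2 := h (Nat.log 2 τ + 1) (Nat.le_succ_of_le (Nat.le_log_of_pow_le (by omega) hτ))
  have h3 : (2 : ℝ) ^ Nat.log 2 τ ≤ τ := by exact_mod_cast Nat.pow_log_le_self 2 h0
  rw [← mul_div_assoc, div_le_iff₀ (by positivity), pow_succ] at h2
  have h4 : (0 : ℝ) ≤ ((Nat.log 2 τ + 1 : ℕ) : ℝ) ^ e := by positivity
  have h5 : (c : ℝ) ^ e * ((Nat.log 2 τ + 1 : ℕ) : ℝ) ^ e ≤ τ := by nlinarith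
  rw [mul_pow]
  exact_mod_cast h5

end Vale.Agent.P054S
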