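import Vale.Agent.P054S.CCDef
import Vale.Agent.P054S.CFLine

/-!
Very rich lines are few.
-/

namespace Vale.Agent.P054S

open MvPolynomial Vale.Agent.P054A Finset
open scoped Classical

variable {d : ℕ}

/-- Foot on the line and squared distance to its base point. -/
noncomputable def frφ (a v p : Pt d) : ℝ × ℝ := (∑ i, (p i - a i) * v i, d2 p a)

/-- The equation of a parabola or of a vertical line. -/
def frE (c : ℝ × ℝ × ℝ × ℝ) (z : ℝ × ℝ) : ℝ := c.1 * z.2 - (c.2.1 * z.1 ^ 2 + c.2.2.1 * z.1 + c.2.2.2)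

/-- Normal form. -/
def frN (c : ℝ × ℝ × ℝ × ℝ) : Prop := c.1 = 1 ∨ (c.1 = 0 ∧ c.2.1 = 0 ∧ c.2.2.1 = 1)

theorem fr_img (P : Finset (Pt d)) {τ : ℕ} (hτ : nd2 P ≤ τ) {a v : Pt d} {S : Finset (Pt d)}
    (hS : S ⊆ P) (hS' : ∀ x ∈ S, ∃ s : ℝ, x = a + s • v) (h2 : 2 ≤ S.card) :
    ((P.image (frφ a v)).card : ℝ) * S.card ≤ 3 * 10 ^ 9 * (τ : ℝ) ^ 2 := by
  choose! s hs using hS'
  set Δ := P.offDiag.image fun z => d2 z.1 z.2
  set n := ∑ i, v i ^ 2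
  let pt : ℝ × ℝ → Submodule ℝ (ℝ × ℝ × ℝ) := fun y => Submodule.span ℝ {((1 : ℝ), y)}
  let ln : ℝ × ℝ → Submodule ℝ (ℝ × ℝ × ℝ) := fun z =>
    Submodule.span ℝ {((1 : ℝ), ((0 : ℝ), z.2)), ((1 : ℝ), ((1 : ℝ), z.2 - 2 * z.1))}
  have hm : ∀ z x y, ((1 : ℝ), (x, y)) ∈ ln z ↔ y = z.2 - 2 * x * z.1 := fun p x y => by
    refine P054.beck_mem.trans (Submodule.mem_span_singleton.trans ⟨?_, fun e => ⟨x, ?_⟩⟩)
    · rintro ⟨c, hc⟩
      simp only [Prod.mk_sub_mk, Prod.smul_mk, smul_eq_mul, Prod.mk.injEq] at hc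
      have : c = x := by linarith [hc.1]
      rw [← this]
      linarith [hc.2]
    · simp only [Prod.mk_sub_mk, Prod.smul_mk, smul_eq_mul, Prod.mk.injEq, e]
      constructor <;> ring
  set G := (S ×ˢ Δ).image fun z => pt (s z.1, z.2 - s z.1 ^ 2 * n)
  set L := ((P \ S).image (frφ a v)).image ln
  have h3 := P054.richK (⊥ : Submodule ℝ (ℝ × ℝ × ℝ)) (a := 0) (finrank_bot _ _) G L
    (fun u hu => by
      obtain ⟨z, -, rfl⟩ := mem_image.1 hu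
      exact P054.beck_one _)
    (fun u hu => by
      obtain ⟨z, -, rfl⟩ := mem_image.1 hu
      exact P054.beck_two (by simp)) (fun _ _ => bot_le) (fun _ _ => bot_le) h2 fun u hu => by
      obtain ⟨z, hz, rfl⟩ := mem_image.1 hu
      obtain ⟨p, hp, rfl⟩ := mem_image.1 hz
      obtain ⟨b1, b2⟩ := mem_sdiff.1 hp
      refine card_le_card_of_injOn (fun x => pt (s x, d2 p x - s x ^ 2 * n)) (fun x hx => ?_)
        fun x hx y hy e => ?_
      · refine mem_coe.2 (mem_filter.2 ⟨mem_image.2 ⟨(x, d2 p x), mem_product.2 ⟨hx,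
          mem_image.2 ⟨(p, x), mem_offDiag.2 ⟨b1, hS hx, fun e => b2 ((show p = x from e) ▸ hx)⟩, rfl⟩⟩,
          rfl⟩, ?_⟩)
        refine (Submodule.span_singleton_le_iff_mem _ _).2 ((hm _ _ _).2 ?_)
        conv_lhs => rw [hs x hx, cf_d2, ← hs x hx]
        simp only [frφ]
        ring
      · rw [hs x hx, hs y hy, show s x = s y from congrArg Prod.fst (P054.beck_inj e)]
  have h4 : L.card = ((P \ S).image (frφ a v)).card := by
    refine card_image_of_injective _ fun p q e => ?_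
    have b1 := (hm q 0 p.2).1 (e ▸ (hm p 0 _).2 (by ring))
    have b2 := (hm q 1 (p.2 - 2 * p.1)).1 (e ▸ (hm p 1 _).2 (by ring))
    exact Prod.ext (by linarith) (by linarith)
  have h5 : G.card ≤ S.card * τ :=
    card_image_le.trans (by rw [card_product]; exact Nat.mul_le_mul_left _ hτ)
  have h6 : S.card ≤ 2 * τ + 2 := modQ_col P hτ hS ⟨a, v, fun q hq => ⟨_, hs q hq⟩⟩
  have h7 : 1 ≤ τ := by
    obtain ⟨x, hx, y, hy, hxy⟩ := one_lt_card.1 h2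
    exact le_trans (card_pos.2 ⟨_, mem_image.2 ⟨(x, y), mem_offDiag.2 ⟨hS hx, hS hy, hxy⟩, rfl⟩⟩) hτ
  have h8 : (P.image (frφ a v)).card ≤ L.card + S.card := by
    rw [h4]
    conv_lhs => rw [← sdiff_union_of_subset hS, image_union]
    exact (card_union_le _ _).trans (Nat.add_le_add_left card_image_le _)
  have r5 : (G.card : ℝ) ≤ S.card * τ := by exact_mod_cast h5
  have r6 : (S.card : ℝ) ≤ 4 * τ := by exact_mod_cast (by omega : S.card ≤ 4 * τ)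
  have r8 : ((P.image (frφ a v)).card : ℝ) ≤ L.card + S.card := by exact_mod_cast h8
  have r0 : (0 : ℝ) < S.card := Nat.cast_pos.2 (by omega)
  have r1 : (0 : ℝ) ≤ τ := Nat.cast_nonneg _
  have r9 : (L.card : ℝ) * S.card ≤ 10 ^ 9 * (τ : ℝ) ^ 2 + 10 ^ 3 * (τ * S.card) := by
    calc (L.card : ℝ) * S.card ≤ (10 ^ 9 * (S.card * τ : ℝ) ^ 2 / (S.card : ℝ) ^ 3
          + 10 ^ 3 * (S.card * τ : ℝ) / S.card) * S.card := by
          gcongr
          exact h3.trans (by gcongr)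
      _ = _ := by field_simp
  nlinarith [mul_le_mul_of_nonneg_right r8 r0.le, mul_le_mul_of_nonneg_left r6 r1,
    mul_le_mul r6 r6 r0.le (by positivity), sq_nonneg (τ : ℝ)]

theorem fr_quad {α β γ x y z : ℝ} (h1 : x ≠ y) (h2 : x ≠ z) (h3 : y ≠ z)
    (e1 : α * x ^ 2 + β * x + γ = 0) (e2 : α * y ^ 2 + β * y + γ = 0)
    (e3 : α * z ^ 2 + β * z + γ = 0) : α = 0 ∧ β = 0 ∧ γ = 0 := by
  have a1 : α * (x + y) + β = 0 := mul_left_cancel₀ (sub_ne_zero.2 h1) (by linarith)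
  have a2 : α * (x + z) + β = 0 := mul_left_cancel₀ (sub_ne_zero.2 h2) (by linarith)
  have a3 : α = 0 := mul_left_cancel₀ (sub_ne_zero.2 h3) (by linarith)
  subst a3
  have a4 : β = 0 := by linarith
  subst a4
  exact ⟨rfl, rfl, by linarith⟩

theorem fr_two {c c' : ℝ × ℝ × ℝ × ℝ} (h : frN c) (h' : frN c') (hne : c ≠ c')
    {T : Finset (ℝ × ℝ)} (hT : ∀ z ∈ T, frE c z = 0 ∧ frE c' z = 0) : T.card ≤ 2 := by
  by_contra hc
  obtain ⟨x, y, z, hx, hy, hz, h1, h2, h3⟩ := two_lt_card_iff.1 (not_le.1 hc)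
  obtain ⟨c0, c1, c2, c3⟩ := c
  obtain ⟨b0, b1, b2, b3⟩ := c'
  have k : c0 = 1 ∨ b0 = 1 → ∀ x ∈ T, ∀ y ∈ T, x ≠ y → x.1 ≠ y.1 := fun e x hx y hy hxy e1 => by
    have u1 := hT x hx
    have u2 := hT y hy
    simp only [frE, e1] at u1 u2
    refine hxy (Prod.ext e1 ?_)
    rcases e with rfl | rfl <;> linarith [u1.1, u1.2, u2.1, u2.2]
  have ex := hT x hx
  have ey := hT y hy
  have ez := hT z hz
  simp only [frE, frN] at ex ey ez h h'
  rcases h with rfl | ⟨rfl, rfl, rfl⟩ <;> rcases h' with rfl | ⟨rfl, rfl, rfl⟩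
  · have k' := k (Or.inl rfl)
    obtain ⟨a1, a2, a3⟩ := fr_quad (α := c1 - b1) (β := c2 - b2) (γ := c3 - b3) (k' x hx y hy h1)
      (k' x hx z hz h2) (k' y hy z hz h3) (by linarith [ex.1, ex.2]) (by linarith [ey.1, ey.2])
      (by linarith [ez.1, ez.2])
    exact hne (by rw [sub_eq_zero.1 a1, sub_eq_zero.1 a2, sub_eq_zero.1 a3])
  · exact k (Or.inl rfl) x hx y hy h1 (by linarith [ex.2, ey.2])
  · exact k (Or.inr rfl) x hx y hy h1 (by linarith [ex.1, ey.1])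
  · exact hne (by rw [show c3 = b3 by linarith [ex.1, ex.2]])

theorem fr_curve (a v b u : Pt d) : ∃ c, frN c ∧ ∀ t : ℝ, frE c (frφ a v (b + t • u)) = 0 := by
  have e : ∀ t : ℝ, frφ a v (b + t • u) = (∑ i, (b i - a i) * v i + t * ∑ i, u i * v i,
      d2 a b - 2 * t * ∑ i, (a i - b i) * u i + t ^ 2 * ∑ i, u i ^ 2) := fun t => by
    refine Prod.ext ?_ ?_
    · simp only [frφ, mul_sum, ← sum_add_distrib, Pi.add_apply, Pi.smul_apply, smul_eq_mul]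
      exact sum_congr rfl fun _ _ => by ring
    · rw [← cf_d2]
      exact show d2 _ _ = d2 _ _ from sum_congr rfl fun _ _ => by ring
  simp only [e]
  generalize ∑ i, (b i - a i) * v i = x
  generalize ∑ i, u i * v i = w
  generalize ∑ i, (a i - b i) * u i = y
  generalize ∑ i, u i ^ 2 = n
  generalize d2 a b = z
  by_cases h : w = 0
  · exact ⟨(0, 0, 1, -x), Or.inr ⟨rfl, rfl, rfl⟩, fun t => by simp [frE, h]⟩
  · refine ⟨(1, n / w ^ 2, -2 * y / w - 2 * n * x / w ^ 2, z + 2 * y * x / w + n * x ^ 2 / w ^ 2),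
      Or.inl rfl, fun t => ?_⟩
    simp only [frE]
    field_simp
    ring

theorem fr_own {a v : Pt d} (hv : v ≠ 0) (p : Pt d) :
    frE (1, 1 / ∑ i, v i ^ 2, 0, 0) (frφ a v p) = 0 ↔ p - a ∈ Submodule.span ℝ {v} := by
  have h0 : ∑ i, v i ^ 2 ≠ 0 := fun h => hv (modQ_zero (by simpa [d2] using h))
  have e := cf_d2 p a v ((∑ i, (p i - a i) * v i) / ∑ i, v i ^ 2)
  rw [Submodule.mem_span_singleton]
  constructor
  · intro h
    refine ⟨(∑ i, (p i - a i) * v i) / ∑ i, v i ^ 2, ?_⟩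
    rw [eq_sub_iff_add_eq', eq_comm]
    refine modQ_zero ?_
    rw [e, ← h]
    simp only [frE, frφ]
    field_simp
    ring
  · rintro ⟨s, hs⟩
    have h1 : ∀ i, p i - a i = s * v i := fun i => (congrFun hs i).symm
    have h2 : ∑ i, s * v i * v i = s * ∑ i, v i ^ 2 := by
      rw [mul_sum]
      exact sum_congr rfl fun _ _ => by ring
    have h3 : ∑ i, (s * v i) ^ 2 = s ^ 2 * ∑ i, v i ^ 2 := by
      rw [mul_sum]
      exact sum_congr rfl fun _ _ => by ring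
    simp only [frE, frφ, d2, h1, h2, h3]
    field_simp
    ring

theorem fr_half (a v : Pt d) {T : Finset (Pt d)} (hT : P054.Col T) :
    T.card ≤ 2 * (T.image (frφ a v)).card := by
  obtain ⟨b, u, h⟩ := hT
  refine card_le_mul_card_image _ 2 fun z _ => ?_
  by_contra hc
  obtain ⟨x, y, w, hx, hy, hw, h1, h2, h3⟩ := two_lt_card_iff.1 (not_le.1 hc)
  have k : ∀ x ∈ T.filter fun p => frφ a v p = z, ∃ r : ℝ, x = b + r • u ∧
      (∑ i, u i ^ 2) * r ^ 2 + (-2 * ∑ i, (a i - b i) * u i) * r + (d2 a b - z.2) = 0 := by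
    intro x hx
    obtain ⟨r, rfl⟩ := h x (mem_filter.1 hx).1
    have e1 : d2 (b + r • u) a = z.2 := congrArg Prod.snd (mem_filter.1 hx).2
    have e2 : d2 (b + r • u) a = d2 a (b + r • u) := sum_congr rfl fun _ _ => by ring
    rw [e2, cf_d2] at e1
    exact ⟨r, rfl, by linarith⟩
  obtain ⟨r1, rfl, e1⟩ := k x hx
  obtain ⟨r2, rfl, e2⟩ := k y hy
  obtain ⟨r3, rfl, e3⟩ := k w hw
  have h0 := (fr_quad (fun e => h1 (by rw [e])) (fun e => h2 (by rw [e])) (fun e => h3 (by rw [e]))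
    e1 e2 e3).1
  have : u = 0 := modQ_zero (by simpa [d2] using h0)
  exact h1 (by simp [this])

theorem fr_pack {α β : Type} [DecidableEq β] (C : Finset α) (T : α → Finset β) {ρ : ℕ}
    (h1 : ∀ c ∈ C, ρ ≤ 2 * (T c).card) (h2 : ∀ c ∈ C, ∀ c' ∈ C, c ≠ c' → (T c ∩ T c').card ≤ 2) :
    C.card * ρ ≤ 2 * (C.biUnion T).card + 2 * C.card ^ 2 := by
  induction C using Finset.induction_on with
  | empty => simp
  | insert c C hc ih =>
    have a1 := ih (fun x hx => h1 x (mem_insert_of_mem hx))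
      fun x hx y hy => h2 x (mem_insert_of_mem hx) y (mem_insert_of_mem hy)
    have a2 := h1 c (mem_insert_self _ _)
    have a3 : (T c ∩ C.biUnion T).card ≤ C.card * 2 := by
      rw [inter_biUnion]
      exact card_biUnion_le_card_mul _ _ _ fun x hx => h2 c (mem_insert_self _ _) x
        (mem_insert_of_mem hx) fun e => hc (e ▸ hx)
    have a4 := card_union_add_card_inter (T c) (C.biUnion T)
    rw [biUnion_insert, card_insert_of_notMem hc]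
    nlinarith

theorem fr_poly (a v : Pt d) (c : ℝ × ℝ × ℝ × ℝ) : ∃ g : MvPolynomial (Fin d) ℂ,
    g.totalDegree ≤ 2 ∧ ∀ p, eval (cx p) g = (frE c (frφ a v p) : ℝ) := by
  have h1 : (∑ i, (X i - C (a i : ℂ)) * C (v i : ℂ) : MvPolynomial (Fin d) ℂ).totalDegree ≤ 1 :=
    totalDegree_finsetSum_le fun i _ => (totalDegree_mul _ _).trans (by
      have := totalDegree_sub_C_le (X i : MvPolynomial (Fin d) ℂ) (a i : ℂ)
      rw [totalDegree_X] at this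
      rw [totalDegree_C]
      omega)
  have h2 : ∀ (r : ℝ) (g : MvPolynomial (Fin d) ℂ), g.totalDegree ≤ 2 →
      (C (r : ℂ) * g).totalDegree ≤ 2 := fun r g h =>
    (totalDegree_mul _ _).trans (by rw [totalDegree_C]; omega)
  refine ⟨C (c.1 : ℂ) * (∑ i, (X i - C (a i : ℂ)) ^ 2 - C ((0 : ℝ) : ℂ)) -
    (C (c.2.1 : ℂ) * (∑ i, (X i - C (a i : ℂ)) * C (v i : ℂ)) ^ 2 +
      C (c.2.2.1 : ℂ) * (∑ i, (X i - C (a i : ℂ)) * C (v i : ℂ)) + C (c.2.2.2 : ℂ)), ?_, fun p => ?_⟩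
  · refine (totalDegree_sub _ _).trans (max_le (h2 _ _ (modQ_deg a 0)) ?_)
    refine (totalDegree_add _ _).trans (max_le ((totalDegree_add _ _).trans (max_le
      (h2 _ _ ((totalDegree_pow _ _).trans (by omega))) (h2 _ _ (by omega)))) ?_)
    rw [totalDegree_C]
    omega
  · simp [frE, frφ, d2, cx]

theorem fr_sep {P : Finset (Pt d)} {τ ρ m : ℕ} (hτ : nd2 P ≤ τ)
    (h1 : 12 * 10 ^ 9 * τ ^ 2 < (m + 1) * ρ ^ 2) (h2 : 4 * (m + 1) ≤ ρ) {L : Finset (Pt d)}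
    (hL : L ∈ P054.rich P ρ) : ∃ z ∈ L, ∃ g : MvPolynomial (Fin d) ℂ, g.totalDegree ≤ 2 * m ∧
      eval (cx z) g ≠ 0 ∧ ∀ L' ∈ P054.rich P ρ, L' ≠ L → ∀ p ∈ L', eval (cx p) g = 0 := by
  obtain ⟨⟨a, ha, q, hq, haq, rfl⟩, hρ⟩ := P054.mem_rich.1 hL
  have hρ' : ρ ≤ (P054.ln P a q).card := by exact_mod_cast hρ
  have hv : q - a ≠ 0 := sub_ne_zero.2 haq.symm
  have hc : ∀ L' ∈ P054.rich P ρ, ∃ c, frN c ∧ ∀ p ∈ L', frE c (frφ a (q - a) p) = 0 := by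
    intro L' h
    obtain ⟨⟨b, -, b', -, -, rfl⟩, -⟩ := P054.mem_rich.1 h
    obtain ⟨u, w, h3⟩ := P054.col_ln P b b'
    obtain ⟨c, c1, c2⟩ := fr_curve a (q - a) u w
    refine ⟨c, c1, fun p hp => ?_⟩
    obtain ⟨r, rfl⟩ := h3 p hp
    exact c2 r
  choose! c c1 c2 using hc
  set I := P.image (frφ a (q - a))
  set 𝒞 := ((P054.rich P ρ).erase (P054.ln P a q)).image c
  have hI := fr_img P hτ (a := a) (v := q - a) (P054.ln_subset P a q) (fun x hx => by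
    obtain ⟨s, hs⟩ := Submodule.mem_span_singleton.1 (P054.mem_ln.1 hx).2
    exact ⟨s, by rw [hs, add_sub_cancel]⟩) (by omega)
  have hI' : I.card * ρ ≤ 3 * 10 ^ 9 * τ ^ 2 :=
    (Nat.mul_le_mul_left _ hρ').trans (by exact_mod_cast hI)
  have hN : ∀ x ∈ 𝒞, frN x ∧ x ≠ (1, 1 / ∑ i, (q - a) i ^ 2, 0, 0) ∧
      ρ ≤ 2 * (I.filter fun z => frE x z = 0).card := by
    intro x hx
    obtain ⟨L', h3, rfl⟩ := mem_image.1 hx
    obtain ⟨h4, h5⟩ := mem_erase.1 h3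
    obtain ⟨⟨b, -, b', -, -, e⟩, h6⟩ := P054.mem_rich.1 h5
    have h7 : ρ ≤ L'.card := by exact_mod_cast h6
    have h8 : L' ⊆ P := e ▸ P054.ln_subset P b b'
    refine ⟨c1 _ h5, fun e' => ?_, h7.trans ((fr_half a (q - a) (e ▸ P054.col_ln P b b')).trans
      (Nat.mul_le_mul_left _ (card_le_card fun z hz => ?_)))⟩
    · have h9 := P054.rich_inter h5 hL h4
      rw [inter_eq_left.2 fun p hp => P054.mem_ln.2 ⟨h8 hp, (fr_own hv p).1 (e' ▸ c2 _ h5 p hp)⟩] at h9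
      omega
    · obtain ⟨p, hp, rfl⟩ := mem_image.1 hz
      exact mem_filter.2 ⟨mem_image_of_mem _ (h8 hp), c2 _ h5 p hp⟩
  have hm : 𝒞.card ≤ m := by
    by_contra hc
    obtain ⟨C, s1, s2⟩ := exists_subset_card_eq (show m + 1 ≤ 𝒞.card by omega)
    have a1 := fr_pack C (fun x => I.filter fun z => frE x z = 0) (fun x hx => (hN x (s1 hx)).2.2)
      fun x hx y hy hne => fr_two (hN x (s1 hx)).1 (hN y (s1 hy)).1 hne fun z hz =>
        ⟨(mem_filter.1 (mem_inter.1 hz).1).2, (mem_filter.1 (mem_inter.1 hz).2).2⟩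
    have a2 : (C.biUnion fun x => I.filter fun z => frE x z = 0).card ≤ I.card :=
      card_le_card (biUnion_subset.2 fun _ _ => filter_subset _ _)
    rw [s2] at a1
    have a3 : (m + 1) * ρ ≤ 4 * I.card := by nlinarith
    nlinarith [Nat.mul_le_mul_right ρ a3]
  have hb : ∀ x ∈ 𝒞, ((P054.ln P a q).filter fun p => frE x (frφ a (q - a) p) = 0).card ≤ 4 := by
    intro x hx
    refine (fr_half a (q - a) ((P054.col_ln P a q).mono (filter_subset _ _))).trans ?_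
    refine Nat.mul_le_mul_left 2 (fr_two (hN x hx).1 (Or.inl rfl) (hN x hx).2.1 fun z hz => ?_)
    obtain ⟨p, hp, rfl⟩ := mem_image.1 hz
    exact ⟨(mem_filter.1 hp).2, (fr_own hv p).2 (P054.mem_ln.1 (mem_filter.1 hp).1).2⟩
  have h3 := card_biUnion_le_card_mul _ _ _ hb
  obtain ⟨z, z1, z2⟩ := exists_mem_notMem_of_card_lt_card (h3.trans_lt
    (show 𝒞.card * 4 < (P054.ln P a q).card by omega))
  choose g g1 g2 using fr_poly a (q - a)
  refine ⟨z, z1, ∏ x ∈ 𝒞, g x, (totalDegree_finsetProd _ _).trans ?_, ?_, fun L' h4 h5 p hp => ?_⟩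
  · exact (sum_le_card_nsmul _ _ 2 fun x _ => g1 x).trans (by rw [smul_eq_mul]; omega)
  · rw [map_prod]
    refine prod_ne_zero_iff.2 fun x hx => ?_
    rw [g2]
    exact Complex.ofReal_ne_zero.2 fun e => z2 (mem_biUnion.2 ⟨x, hx, mem_filter.2 ⟨z1, e⟩⟩)
  · rw [map_prod]
    refine prod_eq_zero (mem_image_of_mem c (mem_erase.2 ⟨h5, h4⟩)) ?_
    rw [g2, c2 _ h4 p hp, Complex.ofReal_zero]

theorem fr_cnt {P : Finset (Pt d)} {τ ρ m : ℕ} (hτ : nd2 P ≤ τ)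
    (h1 : 12 * 10 ^ 9 * τ ^ 2 < (m + 1) * ρ ^ 2) (h2 : 4 * (m + 1) ≤ ρ) :
    (P054.rich P ρ).card ≤ (2 * m + 1) ^ d := by
  choose! z z1 g g1 g2 g3 using fun L (hL : L ∈ P054.rich P ρ) => fr_sep hτ h1 h2 hL
  have a1 : Set.InjOn (fun L => cx (z L)) (P054.rich P ρ) := fun L hL L' hL' e => by
    by_contra hne
    exact g2 L' hL' ((show cx (z L) = cx (z L') from e) ▸ g3 L' hL' L hL hne _ (z1 L hL))
  have a2 := apd_sep (S := (P054.rich P ρ).image fun L => cx (z L)) (M := 2 * m) (fun p hp => by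
    obtain ⟨L, hL, rfl⟩ := mem_image.1 hp
    refine ⟨g L, g1 L hL, g2 L hL, fun q hq hne => ?_⟩
    obtain ⟨L', hL', rfl⟩ := mem_image.1 hq
    exact g3 L hL L' hL' (fun e => hne (by rw [e])) _ (z1 L' hL')) ⊥
  have a3 := H_le_pow (⊥ : Ideal (MvPolynomial (Fin d) ℂ)) (2 * m)
  rw [Fintype.card_fin] at a3
  rw [zs, filter_true_of_mem fun p _ g hg => by rw [Ideal.mem_bot.1 hg, map_zero],
    card_image_of_injOn a1] at a2
  exact a2.trans a3

theorem fr_col (T : Finset (Pt d)) {V : Ideal (MvPolynomial (Fin d) ℂ)} (hV : PD 1 V)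
    (hf : Flat V) : P054.Col (ptsOn T V) := by
  obtain ⟨z, hz⟩ := cf_exists_on hV.prime
  obtain ⟨p, hp⟩ := cf_cx_sub T z (spW V z)
  rw [hf.ptsOn_eq T hz]
  obtain ⟨v, hv⟩ := finrank_le_one_iff.1 ((rank_reW _).trans (hf.rank hV hz).le)
  refine ⟨p, v.1, fun q hq => ?_⟩
  obtain ⟨c, hc⟩ := hv ⟨q - p, (mem_filter.1 (hp hq)).2⟩
  have : c • v.1 = q - p := congrArg Subtype.val hc
  exact ⟨c, by rw [this, add_sub_cancel]⟩

/-- Removing the points on very rich lines. -/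
theorem exists_poor (k A : ℕ) (hk : 2 ≤ k) : ∃ τ₀ : ℕ, ∀ τ Z : ℕ, τ₀ ≤ τ →
    ∀ P : Finset (Pt (k + 1)), Std P τ Z → ∃ T ⊆ P, (P \ T).card * A ≤ P.card ∧ Poor T τ := by
  refine ⟨(12 * 10 ^ 9) ^ 16 + 4 ^ 32 * 256 ^ 4 + (2 ^ 16 * 256 ^ 2) ^ (k + 1) * (4 * A) ^ 16,
    fun τ Z hτ P hP => ?_⟩
  have t1 : (12 * 10 ^ 9) ^ 16 ≤ τ := le_trans (by omega) hτ
  have t2 : 4 ^ 32 * 256 ^ 4 ≤ τ := le_trans (by omega) hτ
  have t3 : (2 ^ 16 * 256 ^ 2) ^ (k + 1) * (4 * A) ^ 16 ≤ τ := le_trans (by omega) hτ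
  have t0 : 2 ≤ τ := le_trans (by norm_num) t2
  clear hτ
  have e1 : ∃ ρ : ℕ, τ ^ 31 < ρ ^ 32 := ⟨τ, Nat.pow_lt_pow_right t0 (by omega)⟩
  obtain ⟨ρ, r1, r2⟩ : ∃ ρ : ℕ, τ ^ 31 < ρ ^ 32 ∧ ∀ n, τ ^ 31 < n ^ 32 → ρ ≤ n :=
    ⟨Nat.find e1, Nat.find_spec e1, fun n hn => Nat.find_min' e1 hn⟩
  have e2 : ∃ m : ℕ, τ ≤ (m + 1) ^ 8 := ⟨τ, (Nat.le_succ τ).trans (Nat.le_self_pow (by omega) _)⟩
  obtain ⟨m, m1, m2⟩ : ∃ m : ℕ, τ ≤ (m + 1) ^ 8 ∧ (m + 1) ^ 8 ≤ 256 * τ := by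
    refine ⟨Nat.find e2, Nat.find_spec e2, ?_⟩
    rcases Nat.eq_zero_or_pos (Nat.find e2) with h | h
    · rw [h]
      omega
    · have h1 := not_le.1 (Nat.find_min e2 (Nat.sub_lt h one_pos))
      rw [show Nat.find e2 - 1 + 1 = Nat.find e2 by omega] at h1
      calc _ ≤ (2 * Nat.find e2) ^ 8 := Nat.pow_le_pow_left (by omega) _
        _ = 256 * Nat.find e2 ^ 8 := by ring
        _ ≤ _ := Nat.mul_le_mul_left _ h1.le
  have h1 : 12 * 10 ^ 9 * τ ^ 2 < (m + 1) * ρ ^ 2 := by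
    refine lt_of_pow_lt_pow_left₀ 16 (Nat.zero_le _) ?_
    generalize 12 * 10 ^ 9 = c at t1
    calc (c * τ ^ 2) ^ 16 = c ^ 16 * τ ^ 32 := by ring
      _ ≤ τ * τ ^ 32 := Nat.mul_le_mul_right _ t1
      _ = τ ^ 2 * τ ^ 31 := by ring
      _ < τ ^ 2 * ρ ^ 32 := Nat.mul_lt_mul_of_pos_left r1 (by positivity)
      _ ≤ ((m + 1) ^ 8) ^ 2 * ρ ^ 32 := by gcongr
      _ = _ := by rw [mul_pow, ← pow_mul, ← pow_mul]
  have h2 : 4 * (m + 1) ≤ ρ := by
    refine (lt_of_pow_lt_pow_left₀ 32 (Nat.zero_le _) (lt_of_le_of_lt ?_ r1)).le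
    calc (4 * (m + 1)) ^ 32 = 4 ^ 32 * ((m + 1) ^ 8) ^ 4 := by rw [mul_pow, ← pow_mul]
      _ ≤ 4 ^ 32 * (256 * τ) ^ 4 := by gcongr
      _ = 4 ^ 32 * 256 ^ 4 * τ ^ 4 := by rw [mul_pow, mul_assoc]
      _ ≤ τ * τ ^ 4 := Nat.mul_le_mul_right _ t2
      _ ≤ τ ^ 31 := by
          rw [← pow_succ']
          exact Nat.pow_le_pow_right (by omega) (by omega)
  have h3 := fr_cnt hP.nd h1 h2
  have h4 : ((P054.rich P ρ).biUnion id).card ≤ (P054.rich P ρ).card * (2 * τ + 2) :=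
    card_biUnion_le_card_mul _ _ _ fun L hL => by
      obtain ⟨⟨b, -, b', -, -, rfl⟩, -⟩ := P054.mem_rich.1 hL
      exact modQ_col P hP.nd (P054.ln_subset P b b') (P054.col_ln P b b')
  refine ⟨P \ (P054.rich P ρ).biUnion id, sdiff_subset, ?_, fun L hL hf => ?_⟩
  · have h5 : (P \ (P \ (P054.rich P ρ).biUnion id)).card ≤ (2 * (m + 1)) ^ (k + 1) * (4 * τ) := by
      refine (card_le_card fun p hp => ?_).trans (h4.trans (Nat.mul_le_mul
        (h3.trans (Nat.pow_le_pow_left (by omega) _)) (by omega)))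
      by_contra hc
      exact (mem_sdiff.1 hp).2 (mem_sdiff.2 ⟨(mem_sdiff.1 hp).1, hc⟩)
    refine (Nat.mul_le_mul_right _ h5).trans ((Nat.pow_le_pow_iff_left (n := 16) (by omega)).1 ?_)
    generalize m + 1 = y at m2
    calc ((2 * y) ^ (k + 1) * (4 * τ) * A) ^ 16
        = (2 ^ 16 * (y ^ 8) ^ 2) ^ (k + 1) * (4 * A) ^ 16 * τ ^ 16 := by
          rw [← pow_mul y, ← mul_pow 2 y, pow_right_comm (2 * y)]
          generalize (2 * y) ^ (k + 1) = u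
          ring
      _ ≤ (2 ^ 16 * (256 * τ) ^ 2) ^ (k + 1) * (4 * A) ^ 16 * τ ^ 16 := by gcongr
      _ = (2 ^ 16 * 256 ^ 2) ^ (k + 1) * (4 * A) ^ 16 * τ ^ (2 * (k + 1) + 16) := by
          rw [mul_pow 256, ← mul_assoc, mul_pow _ (τ ^ 2), ← pow_mul, pow_add τ (2 * (k + 1))]
          ring
      _ ≤ τ * τ ^ (2 * (k + 1) + 16) := Nat.mul_le_mul_right _ t3
      _ ≤ (τ ^ (k + 1)) ^ 8 := by
          rw [← pow_succ', ← pow_mul]
          exact Nat.pow_le_pow_right (by omega) (by omega)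
      _ ≤ (P.card ^ 2) ^ 8 := Nat.pow_le_pow_left hP.big _
      _ = _ := by rw [← pow_mul]
  · by_contra hc
    have a1 := r2 _ (not_le.1 hc)
    obtain ⟨p, hp, q, hq, hne⟩ := one_lt_card.1 (lt_of_lt_of_le (show 1 < ρ by omega) a1)
    have a2 : ptsOn (P \ (P054.rich P ρ).biUnion id) L ⊆ P :=
      (filter_subset _ _).trans sdiff_subset
    have a3 := (fr_col _ hL hf).subset_ln a2 hp hq hne
    refine (mem_sdiff.1 (mem_ptsOn.1 hp).1).2 (mem_biUnion.2 ⟨P054.ln P p q,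
      P054.mem_rich.2 ⟨⟨p, a2 hp, q, a2 hq, hne, rfl⟩, ?_⟩, a3 hp⟩)
    exact_mod_cast a1.trans (card_le_card a3)

end Vale.Agent.P054S
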