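import Vale.Agent.P054S.CJd

/-!
A square system through isolated components.
-/

namespace Vale.Agent.P054S

open MvPolynomial Vale.Agent.P054A Vale.Agent.P271
open scoped Classical

theorem cja_avoid {σ : Type} {s : ℕ} {I : Ideal (MvPolynomial σ ℂ)}
    (𝒬 : Finset (Ideal (MvPolynomial σ ℂ))) (h : ∀ Q ∈ 𝒬, ¬ low I s ≤ Q) :
    ∃ g ∈ I, g.totalDegree ≤ s ∧ ∀ Q ∈ 𝒬, g ∉ Q := by
  let U : Submodule ℂ (MvPolynomial σ ℂ) := I.restrictScalars ℂ ⊓ restrictTotalDegree σ ℂ s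
  obtain ⟨g, hg⟩ := Submodule.exists_forall_notMem_of_forall_ne_top
    (fun Q : 𝒬 => (Q.1.restrictScalars ℂ).comap U.subtype) fun Q e => h Q.1 Q.2 <|
      Ideal.span_le.2 fun g hg => by
        have : (⟨g, hg.1, (mem_restrictTotalDegree _ _ _).2 hg.2⟩ : U) ∈
          (Q.1.restrictScalars ℂ).comap U.subtype := e ▸ Submodule.mem_top
        exact this
  exact ⟨g.1, g.2.1, (mem_restrictTotalDegree _ _ _).1 g.2.2, fun Q hQ => hg ⟨Q, hQ⟩⟩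

theorem cja_ind {σ : Type} [Fintype σ] {v s : ℕ} {I : Ideal (MvPolynomial σ ℂ)}
    (𝒲 : Finset (Ideal (MvPolynomial σ ℂ)))
    (h : ∀ W ∈ 𝒲, PD v W ∧ W ∈ (low I s).minimalPrimes) (i : ℕ) (hi : i ≤ Fintype.card σ - v) :
    ∃ f : Fin i → MvPolynomial σ ℂ, (∀ j, f j ∈ I ∧ (f j).totalDegree ≤ s) ∧
      ∃ 𝒬 : Finset (Ideal (MvPolynomial σ ℂ)), (∀ Q ∈ 𝒬, PD (Fintype.card σ - i) Q) ∧
        ∀ R : Ideal (MvPolynomial σ ℂ), R.IsPrime → (∀ j, f j ∈ R) → (∃ W ∈ 𝒲, R ≤ W) →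
          ∃ Q ∈ 𝒬, Q ≤ R := by
  induction i with
  | zero =>
    refine ⟨fun _ => 0, fun j => j.elim0, {⊥}, fun Q hQ => ?_,
      fun R _ _ _ => ⟨⊥, Finset.mem_singleton_self _, bot_le⟩⟩
    rw [Finset.mem_singleton.1 hQ]
    exact PD_bot
  | succ i ih =>
    obtain ⟨f, hf, 𝒬, h1, h2⟩ := ih (by omega)
    obtain ⟨g, hgI, hgs, hg⟩ := cja_avoid (I := I) (s := s)
      (𝒬.filter fun Q => ∃ W ∈ 𝒲, Q ≤ W) fun Q hQ hle => by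
        obtain ⟨hQ, W, hW, hQW⟩ := Finset.mem_filter.1 hQ
        have := (h W hW).1.dim_le (h1 Q hQ) ((h W hW).2.2 ⟨(h1 Q hQ).prime, hle⟩ hQW)
        omega
    have e : Fintype.card σ - i = Fintype.card σ - (i + 1) + 1 := by omega
    have key : ∀ Q : Ideal (MvPolynomial σ ℂ), ∃ 𝒯 : Finset (Ideal (MvPolynomial σ ℂ)),
        (∀ T ∈ 𝒯, PD (Fintype.card σ - (i + 1)) T) ∧ (Q ∈ 𝒬 → g ∉ Q →
          ∀ R : Ideal (MvPolynomial σ ℂ), R.IsPrime → Q ≤ R → g ∈ R → ∃ T ∈ 𝒯, T ≤ R) := by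
      intro Q
      by_cases hQ : Q ∈ 𝒬 ∧ g ∉ Q
      · obtain ⟨𝒯, a1, a2, -⟩ := bz (m := s + 1) (e ▸ h1 Q hQ.1) hQ.2 (by omega) (by omega)
        exact ⟨𝒯, fun T hT => (a1 T hT).1, fun _ _ => a2⟩
      · exact ⟨∅, by simp, fun a b => absurd ⟨a, b⟩ hQ⟩
    choose 𝒯 t1 t2 using key
    refine ⟨Fin.cons g f, fun j => Fin.cases ⟨hgI, hgs⟩ hf j, 𝒬.biUnion 𝒯, fun T hT => ?_,
      fun R hR hfR hW => ?_⟩
    · obtain ⟨Q, -, hT⟩ := Finset.mem_biUnion.1 hT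
      exact t1 Q T hT
    · obtain ⟨Q, hQ, hQR⟩ := h2 R hR (fun j => hfR j.succ) hW
      obtain ⟨W, hW, hRW⟩ := hW
      obtain ⟨T, hT, hTR⟩ := t2 Q hQ (hg Q (Finset.mem_filter.2 ⟨hQ, W, hW, hQR.trans hRW⟩)) R hR
        hQR (hfR 0)
      exact ⟨T, Finset.mem_biUnion.2 ⟨Q, hQ, hT⟩, hTR⟩

theorem cj_sq {σ : Type} [Fintype σ] {v s : ℕ} {I : Ideal (MvPolynomial σ ℂ)}
    (𝒲 : Finset (Ideal (MvPolynomial σ ℂ)))
    (h : ∀ W ∈ 𝒲, PD v W ∧ W ∈ (low I s).minimalPrimes) :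
    ∃ f : Fin (Fintype.card σ - v) → MvPolynomial σ ℂ, (∀ i, (f i).totalDegree ≤ s) ∧
      ∀ W ∈ 𝒲, W ∈ (Ideal.span (Set.range f)).minimalPrimes := by
  obtain ⟨f, hf, 𝒬, h1, h2⟩ := cja_ind 𝒲 h _ le_rfl
  refine ⟨f, fun i => (hf i).2, fun W hW => ⟨⟨(h W hW).1.prime, Ideal.span_le.2 ?_⟩,
    fun R hR hRW => ?_⟩⟩
  · rintro _ ⟨i, rfl⟩
    exact (h W hW).2.1.2 (Ideal.subset_span (hf i))
  · obtain ⟨Q, hQ, hQR⟩ := h2 R hR.1 (fun j => hR.2 (Ideal.subset_span ⟨j, rfl⟩)) ⟨W, hW, hRW⟩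
    have hv : v ≤ Fintype.card σ := (h W hW).1.1
    have h3 := h1 Q hQ
    rw [show Fintype.card σ - (Fintype.card σ - v) = v by omega] at h3
    rw [← h3.eq_of_le (h W hW).1 (hQR.trans hRW)]
    exact hQR

end Vale.Agent.P054S
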