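import Vale.Agent.P054S.Alg

/-!
Isolated zeros.
-/

namespace Vale.Agent.P054S

open MvPolynomial Vale.Agent.P054A Vale.Agent.P271
open scoped Classical

/-- `ξ` is an isolated zero of the system `F`. -/
def Iso {σ κ K : Type} [Field K] (F : κ → MvPolynomial σ K) (ξ : σ → K) : Prop :=
  (∀ i, eval ξ (F i) = 0) ∧ ∀ l, X l - C (ξ l) ∈ (locP F ξ).radical

end Vale.Agent.P054S
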