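import Vale.Agent.P054S.CVar

/-!
Krull.  R = quotient by P, a domain; P271.fn (see exists_common_fn in P054A/LowA.lean) gives linear
forms t i with images y i independent and R integral over A = MvPolynomial (Fin d); d = v + 1 is not
even needed in full: only v + 1 ≤ d (IsVar.le_of_H or trdeg).  Q' = image of Q has height ≤ 1
(Ideal.map_height_le_one_of_mem_minimalPrimes), q = Q' ∩ A is not bot (integral, Q' ≠ bot), contains a
prime element π; going down (Mathlib/RingTheory/IntegralClosure/GoingDown.lean) gives a prime below Q' over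
span {π}, it is not bot, so equals Q'.  π has positive degree in some variable i0, so no nonzero polynomial
in the other variables is divisible by π: the d - 1 forms t i, i ≠ i0, are independent modulo Q, hence
(M+1)^(d-1) ≤ H Q ((d-1) M) (pow_le_H_of_free for the comap along aeval t, H_comap_le), le_of_growth.  The upper bound for
the dimension is H_sec and IsVar.le_of_H.
-/

namespace Vale.Agent.P054S

open MvPolynomial Vale.Agent.P054A
open scoped Classical

variable {σ : Type} [Fintype σ] {P Q : Ideal (MvPolynomial σ ℂ)} {v w : ℕ}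

theorem ckr_gd {A R : Type} [CommRing A] [CommRing R] [IsDomain A] [IsDomain R]
    [UniqueFactorizationMonoid A] [Algebra A R] [FaithfulSMul A R] [Algebra.IsIntegral A R]
    [IsNoetherianRing R] {Q : Ideal R} [Q.IsPrime] (h0 : Q ≠ ⊥) (h1 : Q.height ≤ 1) :
    ∃ π : A, Prime π ∧ ∀ a, algebraMap A R a ∈ Q → π ∣ a := by
  have h2 : Q.under A ≠ ⊥ := fun h => h0 (Ideal.eq_bot_of_comap_eq_bot h)
  obtain ⟨π, hπ, hp⟩ := Ideal.IsPrime.exists_mem_prime_of_ne_bot inferInstance h2
  have h3 : (Ideal.span {π}).IsPrime := (Ideal.span_singleton_prime hp.ne_zero).2 hp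
  obtain ⟨P, hPQ, hP, hl⟩ := Q.exists_ideal_le_liesOver_of_le (p := Ideal.span {π})
    (q := Q.under A) ((Ideal.span_singleton_le_iff_mem _).2 hπ)
  have h4 : ⊥ < P := bot_lt_iff_ne_bot.2 fun h => by
    have h5 : π ∈ P.under A := hl.over ▸ Ideal.mem_span_singleton_self π
    rw [h, Ideal.under_def, Ideal.mem_comap, Ideal.mem_bot,
      FaithfulSMul.algebraMap_eq_zero_iff] at h5
    exact hp.ne_zero h5
  have h5 : P = Q := by
    by_contra hne
    have h6 := (Ideal.height_strict_mono_of_isPrime_of_isPrime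
      (lt_of_le_of_ne hPQ hne)).trans_le h1
    rw [Order.lt_one_iff] at h6
    have h7 := Ideal.height_strict_mono_of_isPrime_of_isPrime h4
    rw [h6] at h7
    exact not_lt_bot h7
  refine ⟨π, hp, fun a ha => Ideal.mem_span_singleton.1 ?_⟩
  rw [hl.over, h5]
  exact ha

theorem ckr_free {d : ℕ} {π : MvPolynomial (Fin d) ℂ} (hp : Prime π)
    {I : Ideal (MvPolynomial (Fin d) ℂ)} (h : ∀ G ∈ I, π ∣ G) (M : ℕ) :
    (M + 1) ^ (d - 1) ≤ H I ((d - 1) * M) := by
  obtain ⟨i, hi⟩ : π.vars.Nonempty := by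
    refine Finset.nonempty_iff_ne_empty.2 fun h0 => ?_
    have h1 := vars_eq_empty_iff_eq_C.1 h0
    by_cases h2 : π.coeff 0 = 0
    · exact hp.ne_zero (by rw [h1, h2, map_zero])
    · exact hp.not_unit (by rw [h1]; exact (IsUnit.mk0 _ h2).map C)
  have h1 := pow_le_H_of_free (I := I) (Finset.univ.erase i) (fun G hG hv => by
    obtain ⟨k, rfl⟩ := h G hG
    by_contra h0
    have h2 := degreeOf_mul_eq (n := i) hp.ne_zero (right_ne_zero_of_mul h0)
    have h3 := mem_vars_iff_degreeOf_ne_zero.1 hi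
    exact Finset.notMem_erase i _ (hv i (mem_vars_iff_degreeOf_ne_zero.2 (by omega)))) M
  rwa [Finset.card_erase_of_mem (Finset.mem_univ i), Finset.card_fin] at h1

open Vale.Agent.P271 in
theorem ckr_fn (h : IsVar v P) : ∃ (d : ℕ) (t : Fin d → MvPolynomial σ ℂ), v ≤ d ∧
    (∀ i, (t i).totalDegree ≤ 1) ∧
    AlgebraicIndependent ℂ (fun i => Ideal.Quotient.mkₐ ℂ P (t i)) ∧
    Algebra.IsIntegral (Algebra.adjoin ℂ (Set.range fun i => Ideal.Quotient.mkₐ ℂ P (t i)))
      (MvPolynomial σ ℂ ⧸ P) := by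
  have hP := h.prime
  let e : Fin (Fintype.card σ) ≃ σ := (Fintype.equivFin σ).symm
  obtain ⟨d, y, -, hy, hspan, hint⟩ := fn fun j => Ideal.Quotient.mkₐ ℂ P (X (e j))
  choose c hc using fun i => (Submodule.mem_span_range_iff_exists_fun ℂ).1 (hspan i)
  let t : Fin d → MvPolynomial σ ℂ := fun i => ∑ j, c i j • X (e j)
  have ht : (fun i => Ideal.Quotient.mkₐ ℂ P (t i)) = y := by
    funext i
    rw [← hc i, map_sum]
    exact Finset.sum_congr rfl fun j _ => map_smul _ _ _
  have hX : ∀ l, FInt (lin y) 1 (Ideal.Quotient.mkₐ ℂ P (X l)) := fun l => by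
    have h1 := hint _ (fn_mem _ (e.symm l))
    rwa [Equiv.apply_symm_apply] at h1
  refine ⟨d, t, ?_, fun i => totalDegree_finsetSum_le fun j _ =>
    (totalDegree_smul_le _ _).trans (totalDegree_X _).le, ht ▸ hy, ?_⟩
  · obtain ⟨L, _, _, ζ, hk, hL⟩ := lowa_generic hP
    let φ : (MvPolynomial σ ℂ ⧸ P) →ₐ[ℂ] L :=
      Ideal.Quotient.liftₐ P (aeval ζ) fun a ha => (hk a).2 ha
    have hφ : ∀ G, φ (Ideal.Quotient.mkₐ ℂ P G) = aeval ζ G := fun G => rfl
    have h1 := lowa_alg ζ hL (fun i => φ (y i)) fun l => by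
      have h1 := (hX l).map φ
      rwa [lowa_map_lin, hφ, aeval_X] at h1
    have h2 := (Algebra.IsAlgebraic.trdeg_le_cardinalMk ℂ
      (Set.range fun i => φ (y i))).trans Cardinal.mk_range_le
    rw [h.trdeg ζ hk hL, Cardinal.mk_fin] at h2
    exact_mod_cast h2
  · rw [ht]
    refine ⟨fun x => ?_⟩
    obtain ⟨G, rfl⟩ := Ideal.Quotient.mkₐ_surjective ℂ P x
    induction G using MvPolynomial.induction_on with
    | C a =>
      rw [← algebraMap_eq, AlgHom.commutes,
        IsScalarTower.algebraMap_apply ℂ (Algebra.adjoin ℂ (Set.range y))]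
      exact isIntegral_algebraMap
    | add p q hp hq =>
      rw [map_add]
      exact hp.add hq
    | mul_X p l hp =>
      rw [map_mul]
      exact hp.mul (hX l).isIntegral

theorem IsVar.krull (h : IsVar (v + 1) P) {g : MvPolynomial σ ℂ} (hg : g ∉ P)
    (hQ : Q ∈ (P ⊔ Ideal.span {g}).minimalPrimes) : IsVar v Q := by
  have hP := h.prime
  have hQp : Q.IsPrime := hQ.isPrime
  have hle : P ⊔ Ideal.span {g} ≤ Q := hQ.le
  obtain ⟨w, hw⟩ := exists_isVar hQp
  have h1 : w ≤ v := hw.le_of_H fun M => (H_anti hle M).trans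
    (H_sec hP h.H_le hg (Nat.le_succ _) (Nat.le_add_left 1 _) M)
  obtain ⟨d, t, hd, ht, hy, hint⟩ := ckr_fn h
  have hk : RingHom.ker (Ideal.Quotient.mk P) ≤ Q := P.mk_ker.trans_le (le_sup_left.trans hle)
  have h2 := Ideal.map_isPrime_of_surjective Ideal.Quotient.mk_surjective hk
  have h3 : Q.map (Ideal.Quotient.mk P) ≠ ⊥ := fun h0 => by
    have h4 := Ideal.mem_map_of_mem (Ideal.Quotient.mk P)
      (hle (Ideal.mem_sup_right (Ideal.mem_span_singleton_self g)))
    rw [h0, Ideal.mem_bot, Ideal.Quotient.eq_zero_iff_mem] at h4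
    exact hg h4
  have h4 := hy.aevalEquiv.toMulEquiv.uniqueFactorizationMonoid inferInstance
  obtain ⟨π, hπ, hdvd⟩ := ckr_gd
    (A := Algebra.adjoin ℂ (Set.range fun i => Ideal.Quotient.mkₐ ℂ P (t i))) h3
    (Ideal.map_height_le_one_of_mem_minimalPrimes hQ)
  have h5 : d - 1 ≤ w := by
    refine le_of_growth (a := dg w Q) (C := 1) (s := 0) (t := d - 1) fun M => ?_
    have h6 := ckr_free (π := hy.aevalEquiv.symm π) ((MulEquiv.prime_iff _).2 hπ)
      (I := Q.comap (aeval t : MvPolynomial (Fin d) ℂ →ₐ[ℂ] MvPolynomial σ ℂ)) (fun G hG => by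
        have h7 := map_dvd hy.aevalEquiv.symm (hdvd (hy.aevalEquiv G) (by
          rw [hy.algebraMap_aevalEquiv, ← comp_aeval_apply]
          exact Ideal.mem_map_of_mem _ hG))
        rwa [AlgEquiv.symm_apply_apply] at h7) M
    have h7 := H_comap_le (aeval t : MvPolynomial (Fin d) ℂ →ₐ[ℂ] MvPolynomial σ ℂ) (s := 1)
      (fun i => by rw [aeval_X]; exact ht i) Q ((d - 1) * M)
    rw [one_mul] at h7 ⊢
    exact h6.trans (h7.trans (hw.H_le _))
  rwa [show v = w by omega]

end Vale.Agent.P054S
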