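import Vale.Agent.P054S.CBez
import Vale.Agent.P054S.CWal

/-!
The maximiser.  See skeleton/P054S/CA.md.
-/

namespace Vale.Agent.P054S

open MvPolynomial Vale.Agent.P054A
open scoped Classical

variable {σ : Type} [Fintype σ] {P Q : Ideal (MvPolynomial σ ℂ)} {v w : ℕ}

theorem cnode_beta (K n : ℕ) (hK : 1 ≤ K) : ∃ (b : ℕ → ℕ) (C : ℕ), (∀ j, 1 ≤ b j ∧ b j ≤ C) ∧
    ∀ v, v < n → K * b (v + 1) ^ 2 ≤ b v := by
  refine ⟨fun j => K ^ 3 ^ (n - j), K ^ 3 ^ n, fun j => ⟨Nat.one_le_pow _ _ hK,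
    Nat.pow_le_pow_right hK (Nat.pow_le_pow_right (by norm_num) (Nat.sub_le _ _))⟩, fun v hv => ?_⟩
  have e : n - v = n - (v + 1) + 1 := by omega
  have h1 : 1 ≤ 3 ^ (n - (v + 1)) := Nat.one_le_pow _ _ (by norm_num)
  simp only
  rw [e, pow_succ 3, ← pow_mul, ← pow_succ']
  exact Nat.pow_le_pow_right hK (by omega)

theorem cnode_mono (T : Finset (σ → ℂ)) (h : Q ≤ P) : (onT T P).card ≤ (onT T Q).card :=
  Finset.card_le_card fun _ hp =>
    mem_onT.2 ⟨(mem_onT.1 hp).1, fun g hg => (mem_onT.1 hp).2 g (h hg)⟩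

theorem cnode_sub (T : Finset (σ → ℂ)) (P : Ideal (MvPolynomial σ ℂ)) : onT T P ⊆ T :=
  fun _ hp => (mem_onT.1 hp).1

theorem cnode_par {N NQ bw bj R M dQ dZ A B j d : ℕ} (hN : 0 < N) (hM : 1 ≤ M) (hA : 1 ≤ A)
    (hB : 1 ≤ B) (hw : 1 ≤ bw) (hj : 1 ≤ bj) (h1 : N ≤ NQ) (h2 : NQ * bw ≤ R * M ^ (j + d + 1) * dQ)
    (h3 : dQ * (2 * A * B * bj * M) ^ (d + 1) ≤ B * dZ) (h4 : R * M ^ j * dZ ≤ A * (N * bj)) :
    False := by
  have hτ : 1 ≤ 2 * A * B * bj := Nat.succ_le_of_lt (by positivity)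
  have a1 : 2 * A * B * bj * M ^ (d + 1) ≤ (2 * A * B * bj * M) ^ (d + 1) := by
    rw [mul_pow]
    exact Nat.mul_le_mul_right _ (Nat.le_self_pow (by omega) _)
  have a2 : N ≤ R * M ^ (j + d + 1) * dQ := (h1.trans (Nat.le_mul_of_pos_right _ hw)).trans h2
  have a3 : N * (2 * A * B * bj * M ^ (d + 1)) ≤ M ^ (d + 1) * B * (A * (N * bj)) :=
    calc N * (2 * A * B * bj * M ^ (d + 1))
        ≤ R * M ^ (j + d + 1) * dQ * (2 * A * B * bj * M) ^ (d + 1) := Nat.mul_le_mul a2 a1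
      _ = R * M ^ (j + d + 1) * (dQ * (2 * A * B * bj * M) ^ (d + 1)) := by ring
      _ ≤ R * M ^ (j + d + 1) * (B * dZ) := Nat.mul_le_mul_left _ h3
      _ = M ^ (d + 1) * B * (R * M ^ j * dZ) := by ring
      _ ≤ _ := Nat.mul_le_mul_left _ h4
  have a4 : 0 < M ^ (d + 1) * B * (A * (N * bj)) := by positivity
  have a5 : N * (2 * A * B * bj * M ^ (d + 1)) = 2 * (M ^ (d + 1) * B * (A * (N * bj))) := by ring
  omega

/-- A variety that nearly maximises the normalised number of points is simply cut and robust. -/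
theorem cnode_core (σ : Type) [Fintype σ] (A E D : ℕ) (hA : 1 ≤ A) (hE : 1 ≤ E) :
    ∃ (b : ℕ → ℕ) (C : ℕ), (∀ j, 1 ≤ b j ∧ b j ≤ C) ∧ ∀ (T : Finset (σ → ℂ)) (R M j : ℕ)
      (Z : Ideal (MvPolynomial σ ℂ)), 1 ≤ M → 1 ≤ j → IsVar j Z →
      (∀ i Q, j ≤ i + 1 → IsVar i Q → (∀ g ∈ Z, g.totalDegree ≤ M → g ∈ Q) →
        (onT T Q).card * b i ≤ R * M ^ i * dg i Q) →
      R * M ^ j * dg j Z ≤ A * ((onT T Z).card * b j) → 0 < (onT T Z).card →
      ∃ (c : ℕ) (f : Fin c → MvPolynomial σ ℂ) (J : Fin c → σ) (s : ℕ), j + c = Fintype.card σ ∧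
        (∀ i, f i ∈ Z) ∧ minor f J ∉ Z ∧ (∀ i, (f i).totalDegree ≤ s) ∧ M ≤ s ∧ s ≤ C * M ∧
        (∀ p, On p Z → eval p (minor f J) ≠ 0 → locP f p = Z) ∧
        ∀ g, g ∉ Z → g.totalDegree ≤ E * s →
          D * ((onT T Z).filter fun p => eval p g = 0).card ≤ (onT T Z).card := by
  obtain ⟨B, hB, hW⟩ := walshC σ
  have hcb := one_le_cB (Fintype.card σ)
  set cb := cB (Fintype.card σ) with hcbdef
  set K0 := 2 * A ^ 2 * B ^ 2 * cb * E with hK0
  have hK0' : 0 < K0 := by positivity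
  obtain ⟨b, C, hb, hrec⟩ := cnode_beta ((D + 1) * K0) (Fintype.card σ)
    (Nat.succ_le_of_lt (by positivity))
  have hAB : 1 ≤ 2 * A * B * B := Nat.succ_le_of_lt (by positivity)
  refine ⟨b, 2 * A * B * B * C, fun j => ⟨(hb j).1, (hb j).2.trans (Nat.le_mul_of_pos_left _ hAB)⟩,
    fun T R M j Z hM hj hZ hU hL hN => ?_⟩
  have hbj := (hb j).1
  have hτ : 1 ≤ 2 * A * B * b j := Nat.succ_le_of_lt (by positivity)
  have hMt : M ≤ 2 * A * B * b j * M := Nat.le_mul_of_pos_left _ hτ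
  obtain ⟨w, c, f, J, Q, h1, h2, h3, h4, h5, h6, h7, h8, h9, h10⟩ :=
    hW j Z (2 * A * B * b j * M) hZ (hM.trans hMt)
  have hwj : w = j := by
    by_contra hne
    obtain ⟨d, rfl⟩ : ∃ d, w = j + d + 1 := ⟨w - j - 1, by omega⟩
    have e : j + d + 1 - j = d + 1 := by omega
    rw [e] at h10
    exact cnode_par hN hM hA hB (hb _).1 hbj (cnode_mono T h7)
      (hU _ Q (by omega) h6 fun g hg hd => h9 g hg (hd.trans hMt)) h10 hL
  subst hwj
  have hQZ : Q = Z := h6.eq_of_le hZ h7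
  subst hQZ
  have hs : M ≤ B * (2 * A * B * b w * M) := hMt.trans (Nat.le_mul_of_pos_left _ hB)
  refine ⟨c, f, J, B * (2 * A * B * b w * M), h1, h3, h4, h5, hs, ?_, h8, fun g hg hd => ?_⟩
  · calc B * (2 * A * B * b w * M) = 2 * A * B * B * b w * M := by ring
      _ ≤ 2 * A * B * B * C * M := by
        have := (hb w).2
        gcongr
  · obtain ⟨v, rfl⟩ : ∃ v, w = v + 1 := ⟨w - 1, by omega⟩
    have k1 := hZ.card_sec hg hd (Nat.succ_le_of_lt (by positivity)) T (a := R * M ^ v) (b := b v)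
      fun Q' hQ' hle _ => hU v Q' le_rfl hQ' fun g hg _ => hle hg
    have k2 := hrec v (by omega)
    set z := ((onT T Q).filter fun p => eval p g = 0).card
    have k3 : (D + 1) * z * (K0 * b (v + 1) ^ 2) ≤ (onT T Q).card * (K0 * b (v + 1) ^ 2) :=
      calc (D + 1) * z * (K0 * b (v + 1) ^ 2) = z * ((D + 1) * K0 * b (v + 1) ^ 2) := by ring
        _ ≤ z * b v := Nat.mul_le_mul_left _ k2
        _ ≤ R * M ^ v * (cb * dg (v + 1) Q * (E * (B * (2 * A * B * b (v + 1) * M)))) := k1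
        _ = R * M ^ (v + 1) * dg (v + 1) Q * (cb * E * B * (2 * A * B * b (v + 1))) := by ring
        _ ≤ A * ((onT T Q).card * b (v + 1)) * (cb * E * B * (2 * A * B * b (v + 1))) :=
          Nat.mul_le_mul_right _ hL
        _ = (onT T Q).card * (K0 * b (v + 1) ^ 2) := by rw [hK0]; ring
    have k4 := Nat.le_of_mul_le_mul_right k3 (by positivity)
    exact (Nat.mul_le_mul_right z (Nat.le_succ D)).trans k4

/-- If a hypersurface of degree m ≤ M holds many points of T then there is a rich, robust, simply cut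
variety. -/
theorem node (σ : Type) [Fintype σ] (D : ℕ) : ∃ C : ℕ, 1 ≤ C ∧ ∀ (T : Finset (σ → ℂ))
    (G : MvPolynomial σ ℂ) (m M ρ : ℕ), G ≠ 0 → G.totalDegree ≤ m → 1 ≤ m → m ≤ M → 1 ≤ ρ →
    (∀ p ∈ T, eval p G = 0) → C * ρ * m * M ^ (Fintype.card σ - 1) < T.card →
    ∃ (j c : ℕ) (f : Fin c → MvPolynomial σ ℂ) (J : Fin c → σ) (Z : Ideal (MvPolynomial σ ℂ))
      (T' : Finset (σ → ℂ)) (s : ℕ), j + c = Fintype.card σ ∧ 1 ≤ j ∧ 1 ≤ c ∧ IsVar j Z ∧ T' ⊆ T ∧
      (∀ p ∈ T', Simple f J p ∧ locP f p = Z) ∧ (∀ i, (f i).totalDegree ≤ s) ∧ M ≤ s ∧ s ≤ C * M ∧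
      ρ * dg j Z * M ^ j ≤ T'.card ∧
      ∀ g, g ∉ Z → g.totalDegree ≤ D * s → D * (T'.filter fun p => eval p g = 0).card ≤ T'.card := by
  obtain ⟨b, C₀, hb, hcore⟩ := cnode_core σ 2 (D + Fintype.card σ + 1) (2 * (D + 1)) (by norm_num)
    (by omega)
  have hcb := one_le_cB (Fintype.card σ)
  set cb := cB (Fintype.card σ) with hcbdef
  have hC₀ : 1 ≤ C₀ := (hb 0).1.trans (hb 0).2
  refine ⟨cb * (2 * C₀ + 2), Nat.succ_le_of_lt (by positivity),
    fun T G m M ρ hG hGm hm hmM hρ hT hlt => ?_⟩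
  have hM : 1 ≤ M := hm.trans hmM
  have hbot : onT T (⊥ : Ideal (MvPolynomial σ ℂ)) = T := by
    refine Finset.Subset.antisymm (cnode_sub T _) fun p hp => mem_onT.2 ⟨hp, fun g hg => ?_⟩
    rw [Ideal.mem_bot.1 hg, map_zero]
  have hvb : IsVar (Fintype.card σ) (⊥ : Ideal (MvPolynomial σ ℂ)) := isVar_bot
  obtain ⟨v, hv⟩ : ∃ v, Fintype.card σ = v + 1 := by
    refine Nat.exists_eq_succ_of_ne_zero fun h0 => ?_
    rw [h0] at hvb
    have h1 := hvb.card_le_one T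
    have h2 : 0 < cb * (2 * C₀ + 2) * ρ * m * M ^ (Fintype.card σ - 1) := by positivity
    rw [hbot] at h1
    omega
  let Pr : ℕ → Prop := fun r => ∃ j Z, IsVar j Z ∧ (∃ g ∈ Z, g ≠ 0 ∧ g.totalDegree ≤ m) ∧
    r * M ^ j * dg j Z ≤ (onT T Z).card * b j
  set r := Nat.findGreatest Pr (T.card * C₀) with hr
  have hU : ∀ j Z, IsVar j Z → (∃ g ∈ Z, g ≠ 0 ∧ g.totalDegree ≤ m) →
      (onT T Z).card * b j ≤ (r + 1) * M ^ j * dg j Z := by
    intro j Z hZ hF
    by_contra hc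
    have h1 := (not_le.1 hc).le
    refine Nat.findGreatest_is_greatest (P := Pr) (Nat.lt_succ_self r) ?_ ⟨j, Z, hZ, hF, h1⟩
    have h2 := hZ.one_le_dg
    have h3 : r + 1 ≤ (r + 1) * M ^ j * dg j Z := by
      rw [mul_assoc]
      exact Nat.le_mul_of_pos_right _ (by positivity)
    exact (h3.trans h1).trans (Nat.mul_le_mul (Finset.card_le_card (cnode_sub T Z)) (hb j).2)
  have hr2 : (2 * C₀ + 2) * ρ ≤ r := by
    have hvb' : IsVar (v + 1) (⊥ : Ideal (MvPolynomial σ ℂ)) := hv ▸ hvb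
    have k1 := hvb'.card_sec (g := G) (by simpa using hG) hGm hm T (a := (r + 1) * M ^ v) (b := b v)
      fun Q hQ _ hg => hU v Q hQ ⟨G, hg, hG, hGm⟩
    rw [hbot, Finset.filter_true_of_mem hT, ← hcbdef] at k1
    have k2 : dg (v + 1) (⊥ : Ideal (MvPolynomial σ ℂ)) ≤ 1 := hv ▸ dg_bot_le
    have e : Fintype.card σ - 1 = v := by omega
    rw [e] at hlt
    have k3 : (2 * C₀ + 2) * ρ * (cb * m * M ^ v) < (r + 1) * (cb * m * M ^ v) :=
      calc (2 * C₀ + 2) * ρ * (cb * m * M ^ v) = cb * (2 * C₀ + 2) * ρ * m * M ^ v := by ring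
        _ < T.card := hlt
        _ ≤ T.card * b v := Nat.le_mul_of_pos_right _ (hb v).1
        _ ≤ _ := k1
        _ ≤ (r + 1) * M ^ v * (cb * 1 * m) := by gcongr
        _ = (r + 1) * (cb * m * M ^ v) := by ring
    exact Nat.lt_succ_iff.1 (Nat.lt_of_mul_lt_mul_right k3)
  have hr3 : 2 * C₀ + 2 ≤ r := (Nat.le_mul_of_pos_right _ hρ).trans hr2
  obtain ⟨j, Z, hZ, hF, hL⟩ : Pr r := Nat.findGreatest_of_ne_zero hr.symm (by omega)
  have hdg := hZ.one_le_dg
  have hrle : r ≤ r * M ^ j * dg j Z := by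
    rw [mul_assoc]
    exact Nat.le_mul_of_pos_right _ (by positivity)
  have hj : 1 ≤ j := by
    by_contra h0
    have h1 : j = 0 := by omega
    subst h1
    have h2 := Nat.mul_le_mul (hZ.card_le_one T) (hb 0).2
    omega
  have hN : 0 < (onT T Z).card := by
    refine Nat.pos_of_ne_zero fun h0 => ?_
    rw [h0, zero_mul] at hL
    omega
  obtain ⟨c, f, J, s, h1, h2, h3, h4, h5, h6, h7, h8⟩ := hcore T (r + 1) M j Z hM hj hZ
    (fun i Q _ hQ hg => hU i Q hQ (by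
      obtain ⟨g, g1, g2, g3⟩ := hF
      exact ⟨g, hg g g1 (g3.trans hmM), g2, g3⟩))
    (calc (r + 1) * M ^ j * dg j Z ≤ (2 * r) * M ^ j * dg j Z := by gcongr; omega
      _ = 2 * (r * M ^ j * dg j Z) := by ring
      _ ≤ _ := Nat.mul_le_mul_left _ hL) hN
  have hc : 1 ≤ c := by
    by_contra h0
    have e : j = Fintype.card σ := by omega
    obtain ⟨g, g1, g2, -⟩ := hF
    rw [← (e ▸ hvb : IsVar j ⊥).eq_of_le hZ bot_le] at g1
    exact g2 (Ideal.mem_bot.1 g1)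
  set T' := (onT T Z).filter fun p => ¬ eval p (minor f J) = 0 with hT'
  have hhalf : (onT T Z).card ≤ 2 * T'.card := by
    have k1 := h8 _ h3 ((totalDegree_minor_le h4 J).trans (Nat.mul_le_mul_right _ (by
      rw [Fintype.card_fin]
      omega)))
    have k2 := Finset.card_filter_add_card_filter_not (s := onT T Z)
      fun p => eval p (minor f J) = 0
    rw [← hT'] at k2
    nlinarith
  refine ⟨j, c, f, J, Z, T', s, h1, hj, hc, hZ, (Finset.filter_subset _ _).trans (cnode_sub T Z),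
    fun p hp => ?_, h4, h5, h6.trans (Nat.mul_le_mul_right _ (by nlinarith)), ?_,
    fun g hg hd => ?_⟩
  · obtain ⟨p1, p2⟩ := Finset.mem_filter.1 hp
    have p3 := (mem_onT.1 p1).2
    exact ⟨⟨fun i => p3 _ (h2 i), p2⟩, h7 p p3 p2⟩
  · have k1 : ρ * dg j Z * M ^ j * (2 * C₀) ≤ T'.card * (2 * C₀) :=
      calc ρ * dg j Z * M ^ j * (2 * C₀) = (2 * C₀ * ρ) * M ^ j * dg j Z := by ring
        _ ≤ r * M ^ j * dg j Z := by
          gcongr
          exact (Nat.mul_le_mul_right _ (by omega)).trans hr2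
        _ ≤ _ := hL
        _ ≤ 2 * T'.card * C₀ := Nat.mul_le_mul hhalf (hb j).2
        _ = T'.card * (2 * C₀) := by ring
    exact Nat.le_of_mul_le_mul_right k1 (by omega)
  · have k1 := h8 g hg (hd.trans (Nat.mul_le_mul_right _ (by omega)))
    have k2 : (T'.filter fun p => eval p g = 0).card ≤
        ((onT T Z).filter fun p => eval p g = 0).card :=
      Finset.card_le_card (Finset.filter_subset_filter _ (Finset.filter_subset _ _))
    nlinarith

/-- If curves hold few points then all varieties do. -/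
theorem count_of_curves (σ : Type) [Fintype σ] : ∃ C : ℕ, 1 ≤ C ∧ ∀ (T : Finset (σ → ℂ)) (δ : ℕ),
    1 ≤ δ → (∀ Q, IsVar 1 Q → (onT T Q).card ≤ δ * dg 1 Q) →
    ∀ j Q, IsVar j Q → (onT T Q).card ≤ (C * δ) ^ j * dg j Q := by
  set n := Fintype.card σ with hn
  set lam := (2 * n + 2) ^ (2 * n) with hlam
  have hlam1 : 1 ≤ lam := Nat.one_le_pow _ _ (by omega)
  obtain ⟨b, C₀, hb, hcore⟩ := cnode_core σ (2 ^ n) (2 * n + lam) 2 Nat.one_le_two_pow (by omega)
  have hC₀ : 1 ≤ C₀ := (hb 0).1.trans (hb 0).2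
  refine ⟨2 * C₀, by omega, fun T δ hδ h1 => ?_⟩
  have hex : ∃ M, ∀ j Z, 1 ≤ j → IsVar j Z → (onT T Z).card * b j ≤ 1 * M ^ j * dg j Z := by
    refine ⟨T.card * C₀, fun j Z hj hZ => ?_⟩
    rw [one_mul]
    exact ((Nat.mul_le_mul (Finset.card_le_card (cnode_sub T Z)) (hb j).2).trans
      (Nat.le_self_pow (by omega) _)).trans (Nat.le_mul_of_pos_right _ hZ.one_le_dg)
  have hU := Nat.find_spec hex
  set M := Nat.find hex with hMdef
  have hδC : 1 ≤ C₀ * δ := Nat.succ_le_of_lt (by positivity)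
  have hM : M ≤ C₀ * δ + 1 := by
    by_contra hlt
    obtain ⟨M', hM'⟩ : ∃ M', M = M' + 1 := ⟨M - 1, by omega⟩
    have hmin := Nat.find_min hex (m := M') (by omega)
    push Not at hmin
    obtain ⟨j, Z, hj, hZ, hL⟩ := hmin
    have hdg := hZ.one_le_dg
    have hj2 : 2 ≤ j := by
      by_contra h0
      have e : j = 1 := by omega
      subst e
      have k1 : (onT T Z).card * b 1 ≤ 1 * M' ^ 1 * dg 1 Z :=
        calc (onT T Z).card * b 1 ≤ δ * dg 1 Z * C₀ := Nat.mul_le_mul (h1 Z hZ) (hb 1).2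
          _ = C₀ * δ * dg 1 Z := by ring
          _ ≤ 1 * M' ^ 1 * dg 1 Z := by
            rw [one_mul, pow_one]
            exact Nat.mul_le_mul_right _ (by omega)
      omega
    have hN : 0 < (onT T Z).card := by
      refine Nat.pos_of_ne_zero fun h0 => ?_
      rw [h0, zero_mul] at hL
      omega
    have hjn : j ≤ n := hZ.le_card
    obtain ⟨c, f, J, s, k1, k2, k3, k4, k5, -, k7, k8⟩ := hcore T 1 M j Z (by omega) hj hZ
      (fun i Q hi hQ _ => hU i Q (by omega) hQ)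
      (calc 1 * M ^ j * dg j Z ≤ 1 * (2 * M') ^ j * dg j Z := by gcongr; omega
        _ = 2 ^ j * (1 * M' ^ j * dg j Z) := by ring
        _ ≤ _ := Nat.mul_le_mul (Nat.pow_le_pow_right (by norm_num) hjn) hL.le) hN
    obtain ⟨p, p1, p2⟩ := exists_on hZ.prime k3
    have hH := dg_le_H (f := f) (J := J) (p := p) ⟨fun i => p1 _ (k2 i), p2⟩ k4 (v := j)
      (by rw [Fintype.card_fin]; exact k1) (M := (2 * n + lam) * s) (by
        rw [Fintype.card_fin, ← mul_assoc]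
        exact Nat.mul_le_mul_right _ (by omega))
    rw [k7 p p1 p2] at hH
    have hlt2 : H (vanI ((onT T Z : Finset (σ → ℂ)) : Set (σ → ℂ))) ((2 * n + lam) * s) <
        H Z ((2 * n + lam) * s) := by
      by_contra hge
      have a1 : H Z ((2 * n + lam) * s) ≤ M ^ j * dg j Z :=
        calc H Z ((2 * n + lam) * s) ≤ (onT T Z).card :=
            (not_lt.1 hge).trans (H_vanI_le_card _ _)
          _ ≤ (onT T Z).card * b j := Nat.le_mul_of_pos_right _ (hb j).1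
          _ ≤ 1 * M ^ j * dg j Z := hU j Z hj hZ
          _ = _ := by rw [one_mul]
      have a2 : (2 * j + 2) ^ (2 * j) ≤ lam ^ j :=
        calc (2 * j + 2) ^ (2 * j) ≤ (2 * n + 2) ^ (2 * j) := Nat.pow_le_pow_left (by omega) _
          _ ≤ lam := Nat.pow_le_pow_right (by omega) (by omega)
          _ ≤ lam ^ j := Nat.le_self_pow (by omega) _
      have a3 : (lam * M) ^ j < ((2 * n + lam) * s + 1) ^ j :=
        Nat.pow_lt_pow_left (Nat.lt_succ_of_le (Nat.mul_le_mul (by omega) k5)) (by omega)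
      have a4 : dg j Z * ((2 * n + lam) * s + 1) ^ j ≤ dg j Z * (lam * M) ^ j :=
        calc _ ≤ _ := hH
          _ ≤ lam ^ j * (M ^ j * dg j Z) := Nat.mul_le_mul a2 a1
          _ = dg j Z * (lam * M) ^ j := by ring
      exact absurd (Nat.le_of_mul_le_mul_left a4 hdg) (not_le.2 a3)
    obtain ⟨g, g1, g2, g3⟩ := exists_notin_of_H_lt hlt2
    have a5 := k8 g g2 g3
    rw [Finset.filter_true_of_mem fun q hq => g1 q hq] at a5
    omega
  intro j Q hQ
  rcases Nat.eq_zero_or_pos j with rfl | hj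
  · rw [pow_zero, one_mul]
    exact (hQ.card_le_one T).trans hQ.one_le_dg
  · calc (onT T Q).card ≤ (onT T Q).card * b j := Nat.le_mul_of_pos_right _ (hb j).1
      _ ≤ 1 * M ^ j * dg j Q := hU j Q hj hQ
      _ ≤ (2 * C₀ * δ) ^ j * dg j Q := by
        rw [one_mul]
        exact Nat.mul_le_mul_right _ (Nat.pow_le_pow_left (by nlinarith) _)

end Vale.Agent.P054S
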