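import Vale.Agent.P054S.CMZar
import Vale.Agent.P054S.CNode

namespace Vale.Agent.P054S

open MvPolynomial Module Vale.Agent.P054A
open scoped Classical

/-- Either all varieties hold few points or there is a robust simply cut variety. -/
theorem cm_node (σ : Type) [Fintype σ] (E : ℕ) : ∃ c : ℕ, ∀ (B : Finset (σ → ℂ)) (M : ℕ), 1 ≤ M →
    (∀ j Z, PD j Z → (zs B Z).card ≤ c * dg j Z * M ^ j) ∨
    ∃ (j c' s : ℕ) (Z : Ideal (MvPolynomial σ ℂ)) (g : Fin c' → MvPolynomial σ ℂ)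
      (J : Fin c' → σ), PD j Z ∧ 1 ≤ j ∧ j + c' = Fintype.card σ ∧ M ≤ s ∧ (∀ i, g i ∈ Z) ∧
      (∀ i, (g i).totalDegree ≤ s) ∧ (∃ b ∈ B, On b Z ∧ eval b (minor g J) ≠ 0) ∧
      ∀ G : MvPolynomial σ ℂ, G.totalDegree ≤ E * s → (∀ b ∈ B, On b Z → eval b G = 0) →
        G ∈ Z := by
  obtain ⟨b, C₀, hb, hcore⟩ := cnode_core σ 2 (E + Fintype.card σ + 1) 2 (by norm_num) (by omega)
  refine ⟨C₀ + 1, fun T M hM => ?_⟩
  let Pr : ℕ → Prop := fun r => ∃ j Z, IsVar j Z ∧ r * M ^ j * dg j Z ≤ (onT T Z).card * b j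
  set r := Nat.findGreatest Pr (T.card * C₀) with hr
  have hU : ∀ j Z, IsVar j Z → (onT T Z).card * b j ≤ (r + 1) * M ^ j * dg j Z := by
    intro j Z hZ
    by_contra hc
    have h1 := (not_le.1 hc).le
    refine Nat.findGreatest_is_greatest (P := Pr) (Nat.lt_succ_self r) ?_ ⟨j, Z, hZ, h1⟩
    have h2 := hZ.one_le_dg
    have h3 : r + 1 ≤ (r + 1) * M ^ j * dg j Z := by
      rw [mul_assoc]
      exact Nat.le_mul_of_pos_right _ (by positivity)
    exact (h3.trans h1).trans (Nat.mul_le_mul (Finset.card_le_card (cnode_sub T Z)) (hb j).2)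
  by_cases hr2 : r ≤ C₀
  · refine Or.inl fun j Z hZ => ?_
    rw [zs_eq]
    calc (onT T Z).card ≤ (onT T Z).card * b j := Nat.le_mul_of_pos_right _ (hb j).1
      _ ≤ (r + 1) * M ^ j * dg j Z := hU j Z hZ.var
      _ ≤ (C₀ + 1) * M ^ j * dg j Z := by gcongr
      _ = _ := by ring
  right
  obtain ⟨j, Z, hZ, hL⟩ : Pr r := Nat.findGreatest_of_ne_zero hr.symm (by omega)
  have hdg := hZ.one_le_dg
  have hrle : r ≤ r * M ^ j * dg j Z := by
    rw [mul_assoc]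
    exact Nat.le_mul_of_pos_right _ (by positivity)
  have hj : 1 ≤ j := by
    by_contra h0
    have h1 : j = 0 := by omega
    subst h1
    have h2 := Nat.mul_le_mul (hZ.card_le_one T) (hb 0).2
    omega
  have hN : 0 < (onT T Z).card := by
    refine Nat.pos_of_ne_zero fun h0 => ?_
    rw [h0, zero_mul] at hL
    omega
  obtain ⟨c, f, J, s, h1, h2, h3, h4, h5, -, -, h8⟩ := hcore T (r + 1) M j Z hM hj hZ
    (fun i Q _ hQ _ => hU i Q hQ)
    (calc (r + 1) * M ^ j * dg j Z ≤ (2 * r) * M ^ j * dg j Z := by gcongr; omega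
      _ = 2 * (r * M ^ j * dg j Z) := by ring
      _ ≤ _ := Nat.mul_le_mul_left _ hL) hN
  have key : ∀ G : MvPolynomial σ ℂ, G.totalDegree ≤ (E + Fintype.card σ + 1) * s →
      (∀ p ∈ T, On p Z → eval p G = 0) → G ∈ Z := fun G hG h0 => by
    by_contra hc
    have k1 := h8 G hc hG
    rw [Finset.filter_true_of_mem fun p hp => h0 p (mem_onT.1 hp).1 (mem_onT.1 hp).2] at k1
    omega
  refine ⟨j, c, s, Z, f, J, hZ.pd, hj, h1, h5, h2, h4, ?_,
    fun G hG => key G (hG.trans (Nat.mul_le_mul_right _ (by omega)))⟩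
  by_contra hc
  refine h3 (key _ ((totalDegree_minor_le h4 J).trans (Nat.mul_le_mul_right _ ?_)) fun p hp hp' => ?_)
  · rw [Fintype.card_fin]
    omega
  · by_contra h0
    exact hc ⟨p, hp, hp', h0⟩

theorem cmnode_sum {α β : Type} (T : Finset α) (F : α → Finset β) (g : β → ℕ) :
    ∑ y ∈ T.biUnion F, g y ≤ ∑ x ∈ T, ∑ y ∈ F x, g y := by
  induction T using Finset.induction_on with
  | empty => simp
  | insert x T hx ih =>
    rw [Finset.biUnion_insert, Finset.sum_insert hx]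
    have := Finset.sum_union_inter (s₁ := F x) (s₂ := T.biUnion F) (f := g)
    omega

theorem cmnode_rank {σ : Type} [Fintype σ] {lam : ℕ} (u : Fin lam → σ → ℂ)
    (W : Submodule ℂ (σ → ℂ)) :
    finrank ℂ W ≤ finrank ℂ (W ⊓ kerU u : Submodule ℂ (σ → ℂ)) + lam := by
  let L : (σ → ℂ) →ₗ[ℂ] Fin lam → ℂ := Matrix.mulVecLin (Matrix.of u)
  have h1 := LinearMap.finrank_range_add_finrank_ker (L.domRestrict W)
  have h2 : finrank ℂ (LinearMap.range (L.domRestrict W)) ≤ lam :=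
    (Submodule.finrank_le _).trans (by simp)
  have h3 : (LinearMap.ker (L.domRestrict W)).map W.subtype ≤ W ⊓ kerU u := by
    rintro _ ⟨v, hv, rfl⟩
    exact ⟨v.2, fun k => congrFun (LinearMap.mem_ker.1 hv) k⟩
  have h4 := Submodule.finrank_mono h3
  rw [Submodule.finrank_map_subtype_eq] at h4
  omega

theorem cmnode_form {σ : Type} [Fintype σ] (u a : σ → ℂ) : ∃ g : MvPolynomial σ ℂ,
    g.totalDegree ≤ 1 ∧ (∀ b, eval b g = u ⬝ᵥ (b - a)) ∧ ∀ b v, dd g b v = u ⬝ᵥ v := by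
  refine ⟨∑ l, C (u l) * X l - C (u ⬝ᵥ a), ?_, fun b => ?_, fun b v => ?_⟩
  · refine (totalDegree_sub _ _).trans (max_le ?_ (by simp))
    refine totalDegree_finsetSum_le fun l _ => (totalDegree_mul _ _).trans ?_
    simp
  · rw [dotProduct_sub]
    simp [dotProduct]
  · refine Finset.sum_congr rfl fun l _ => ?_
    congr 1
    simp [Pi.single_apply]

theorem cmnode_cut {σ : Type} [Fintype σ] (a : σ → ℂ) (lam : ℕ) : ∀ (v : ℕ)
    (V : Ideal (MvPolynomial σ ℂ)) (u : Fin lam → σ → ℂ) (B : Finset (σ → ℂ)), PD (v + lam) V →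
    (∀ b ∈ B, On b V ∧ b - a ∈ kerU u ∧
      finrank ℂ (tI V b ⊓ kerU u : Submodule ℂ (σ → ℂ)) ≤ v) →
    ∃ 𝒬 : Finset (Ideal (MvPolynomial σ ℂ)), (∀ Q ∈ 𝒬, PD v Q) ∧
      ∑ Q ∈ 𝒬, dg v Q ≤ cB (Fintype.card σ) ^ lam * dg (v + lam) V ∧ ∀ b ∈ B, ∃ Q ∈ 𝒬, On b Q := by
  induction lam with
  | zero =>
    intro v V u B hV hB
    exact ⟨{V}, fun Q hQ => Finset.mem_singleton.1 hQ ▸ hV, by simp,
      fun b hb => ⟨V, Finset.mem_singleton_self _, (hB b hb).1⟩⟩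
  | succ lam ih =>
    intro v V u B hV hB
    rcases B.eq_empty_or_nonempty with rfl | ⟨b₀, hb₀⟩
    · exact ⟨∅, by simp, by simp, by simp⟩
    obtain ⟨g, g1, g2, g3⟩ := cmnode_form (u 0) a
    have key : ∀ Q, V ≤ Q → g ∈ Q → ∀ b ∈ B,
        finrank ℂ (tI Q b ⊓ kerU (fun k => u (Fin.succ k)) : Submodule ℂ (σ → ℂ)) ≤ v :=
      fun Q h1 h2 b hb => by
        refine le_trans (Submodule.finrank_mono fun y hy => ?_) (hB b hb).2.2
        exact ⟨tI_anti h1 b hy.1, fun k => Fin.cases ((g3 b y).symm.trans (hy.1 g h2)) hy.2 k⟩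
    have hg : g ∉ V := fun h => by
      have h1 := key V le_rfl h b₀ hb₀
      have h2 := cmnode_rank (fun k => u (Fin.succ k)) (tI V b₀)
      have h3 := le_finrank_tI hV (hB b₀ hb₀).1
      omega
    obtain ⟨T, t1, t2, -, t3⟩ := IsVar.children (v := v + lam) hV.var hg g1 le_rfl
    choose! F f1 f2 f3 using fun Q (hQ : Q ∈ T) => ih v Q (fun k => u (Fin.succ k))
      (B.filter fun b => On b Q) (t1 Q hQ).1.pd fun b hb =>
        ⟨(Finset.mem_filter.1 hb).2, fun k => (hB b (Finset.mem_filter.1 hb).1).2.1 _,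
          key Q (t1 Q hQ).2.1 (t1 Q hQ).2.2 b (Finset.mem_filter.1 hb).1⟩
    refine ⟨T.biUnion F, fun Q hQ => ?_, ?_, fun b hb => ?_⟩
    · obtain ⟨P, h1, h2⟩ := Finset.mem_biUnion.1 hQ
      exact f1 P h1 Q h2
    · refine (cmnode_sum T F _).trans ((Finset.sum_le_sum f2).trans ?_)
      rw [← Finset.mul_sum, pow_succ, mul_assoc]
      exact Nat.mul_le_mul_left _ (by rwa [mul_one] at t2)
    · obtain ⟨P, h1, h2⟩ := t3 b (hB b hb).1 ((g2 b).trans ((hB b hb).2.1 0))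
      obtain ⟨Q, h3, h4⟩ := f3 P h1 b (Finset.mem_filter.2 ⟨hb, h2⟩)
      exact ⟨Q, Finset.mem_biUnion.2 ⟨P, h1, h3⟩, h4⟩

/-- Transversal linear sections. -/
theorem cm_cut (σ : Type) [Fintype σ] : ∃ c : ℕ, ∀ (w lam : ℕ) (V : Ideal (MvPolynomial σ ℂ))
    (u : Fin lam → σ → ℂ) (a : σ → ℂ) (B : Finset (σ → ℂ)), PD w V →
    (∀ b ∈ B, On b V ∧ b - a ∈ kerU u ∧
      finrank ℂ (tI V b ⊓ kerU u : Submodule ℂ (σ → ℂ)) + lam ≤ w) →
    ∃ 𝒬 : Finset (Ideal (MvPolynomial σ ℂ)), (∀ Q ∈ 𝒬, PD (w - lam) Q) ∧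
      ∑ Q ∈ 𝒬, dg (w - lam) Q ≤ c * dg w V ∧ ∀ b ∈ B, ∃ Q ∈ 𝒬, On b Q := by
  refine ⟨cB (Fintype.card σ) ^ Fintype.card σ, fun w lam V u a B hV hB => ?_⟩
  rcases B.eq_empty_or_nonempty with rfl | ⟨b₀, hb₀⟩
  · exact ⟨∅, by simp, by simp, by simp⟩
  have h1 := (hB b₀ hb₀).2.2
  have h2 := hV.1
  obtain ⟨v, rfl⟩ : ∃ v, w = v + lam := ⟨w - lam, by omega⟩
  obtain ⟨𝒬, k1, k2, k3⟩ := cmnode_cut a lam v V u B hV fun b hb =>
    ⟨(hB b hb).1, (hB b hb).2.1, Nat.le_of_add_le_add_right (hB b hb).2.2⟩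
  rw [Nat.add_sub_cancel]
  exact ⟨𝒬, k1, k2.trans (Nat.mul_le_mul_right _
    (Nat.pow_le_pow_right (one_le_cB _) (by omega))), k3⟩

end Vale.Agent.P054S
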