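import Vale.Agent.P054S.CMD

namespace Vale.Agent.P054S

open MvPolynomial Module Vale.Agent.P054A
open scoped Classical

variable {σ : Type} {T : Set ℂ}

theorem cmech_gen {M ι : Type} [AddCommGroup M] [Module ℂ M] (co : ι → M →ₗ[ℂ] ℂ)
    (sp : M → Finset ι) (hsp : ∀ G a, a ∈ sp G ↔ co a G ≠ 0) (h0 : ∀ G, (∀ a, co a G = 0) → G = 0)
    (δ : Dr → M → M) (hδ : ∀ D G a, co a (δ D G) = D (co a G)) (W : Submodule ℂ M)
    (h : ∀ D ∈ KD T, ∀ G ∈ W, δ D G ∈ W) :
    W ≤ Submodule.span ℂ {G | G ∈ W ∧ ∀ D ∈ KD T, δ D G = 0} := by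
  suffices ∀ n, ∀ G ∈ W, (sp G).card = n →
      G ∈ Submodule.span ℂ {G | G ∈ W ∧ ∀ D ∈ KD T, δ D G = 0} from fun G hG => this _ G hG rfl
  intro n
  induction n using Nat.strong_induction_on with
  | _ n ih =>
  intro G hG hn
  by_cases hG0 : G = 0
  · rw [hG0]
    exact Submodule.zero_mem _
  have ex : ∃ m, ∃ F ∈ W, F ≠ 0 ∧ sp F ⊆ sp G ∧ (sp F).card = m :=
    ⟨_, G, hG, hG0, subset_rfl, rfl⟩
  obtain ⟨F, hF, hF0, hFG, hm⟩ := Nat.find_spec ex
  obtain ⟨a, ha⟩ : ∃ a, co a F ≠ 0 := not_forall.1 fun e => hF0 (h0 F e)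
  have h1 : co a ((co a F)⁻¹ • F) = 1 := by rw [map_smul, smul_eq_mul, inv_mul_cancel₀ ha]
  have h2 : (co a F)⁻¹ • F ∈ W := W.smul_mem _ hF
  have h3 : ∀ b, co b ((co a F)⁻¹ • F) ≠ 0 → b ∈ sp F := fun b hb => by
    rw [map_smul, smul_eq_mul] at hb
    exact (hsp _ _).2 (right_ne_zero_of_mul hb)
  generalize (co a F)⁻¹ • F = F' at h1 h2 h3
  have h4 : ∀ D ∈ KD T, δ D F' = 0 := by
    intro D hD
    by_contra h4
    have h5 : sp (δ D F') ⊆ sp F := fun b hb => h3 b fun e => by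
      rw [hsp, hδ, e, map_zero] at hb
      exact hb rfl
    have h6 := Nat.find_min' ex ⟨_, h D hD _ h2, h4, h5.trans hFG, rfl⟩
    rw [← hm] at h6
    refine absurd h6 (not_le.2 (Finset.card_lt_card ⟨h5, fun hs => ?_⟩))
    refine (hsp _ _).1 (hs ((hsp _ _).2 ha)) ?_
    rw [hδ, h1, Derivation.map_one_eq_zero]
  have h5 : (sp (G - co a G • F')).card < n := by
    rw [← hn]
    refine Finset.card_lt_card ⟨fun b hb => ?_, fun hs => ?_⟩
    · by_contra hb'
      have e1 : co b G = 0 := not_not.1 fun e => hb' ((hsp _ _).2 e)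
      have e2 : co b F' = 0 := not_not.1 fun e => hb' (hFG (h3 b e))
      rw [hsp, map_sub, map_smul, e1, e2, smul_zero, sub_zero] at hb
      exact hb rfl
    · refine (hsp _ _).1 (hs (hFG ((hsp _ _).2 ha))) ?_
      rw [map_sub, map_smul, h1, smul_eq_mul, mul_one, sub_self]
  have h6 := ih _ h5 _ (W.sub_mem hG (W.smul_mem _ h2)) rfl
  rw [← sub_add_cancel G (co a G • F')]
  exact Submodule.add_mem _ h6 (Submodule.smul_mem _ _ (Submodule.subset_span ⟨h2, h4⟩))

/-- A stable space of polynomials is spanned by its constant members. -/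
theorem ech_poly (W : Submodule ℂ (MvPolynomial σ ℂ)) (h : ∀ D ∈ KD T, ∀ G ∈ W, mD D G ∈ W) :
    W ≤ Submodule.span ℂ {G | G ∈ W ∧ CsP T G} :=
  cmech_gen (fun a => lcoeff ℂ a) support (fun _ _ => mem_support_iff)
    (fun _ h => MvPolynomial.ext _ _ h) mD coeff_mD W h

/-- A property of the constant members which defines a subspace holds on a stable ideal. -/
theorem StI.ind {I : Ideal (MvPolynomial σ ℂ)} (h : StI T I) (W : Submodule ℂ (MvPolynomial σ ℂ))
    (hW : ∀ G ∈ I, CsP T G → G ∈ W) : ∀ G ∈ I, G ∈ W := fun _ hG =>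
  Submodule.span_le.2 (fun G hG => hW G hG.1 hG.2) (ech_poly (I.restrictScalars ℂ) h hG)

variable [Fintype σ]

/-- A stable space of vectors is spanned by its constant members. -/
theorem ech_vec (W : Submodule ℂ (σ → ℂ)) (h : StW T W) :
    W ≤ Submodule.span ℂ {v | v ∈ W ∧ CsV T v} :=
  cmech_gen (fun a => LinearMap.proj a) (fun v => Finset.univ.filter fun a => v a ≠ 0)
    (fun _ _ => by simp) (fun _ h => funext h) vD (fun _ _ _ => rfl) W h

theorem StW.exists_cs {W : Submodule ℂ (σ → ℂ)} (h : StW T W) (h0 : W ≠ ⊥) :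
    ∃ v ∈ W, v ≠ 0 ∧ CsV T v := by
  by_contra hc
  refine h0 (le_bot_iff.1 ((ech_vec W h).trans (Submodule.span_le.2 fun v hv => ?_)))
  exact not_not.1 fun e => hc ⟨v, hv.1, e, hv.2⟩

/-- A stable space is cut out by constant forms. -/
theorem StW.exists_form {W : Submodule ℂ (σ → ℂ)} (h : StW T W) {y : σ → ℂ} (hy : y ∉ W) :
    ∃ u : σ → ℂ, CsV T u ∧ (∀ v ∈ W, u ⬝ᵥ v = 0) ∧ u ⬝ᵥ y ≠ 0 := by
  let A : Submodule ℂ (σ → ℂ) :=
    { carrier := {u | ∀ v ∈ W, u ⬝ᵥ v = 0}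
      add_mem' := fun ha hb v hv => by rw [add_dotProduct, ha v hv, hb v hv, add_zero]
      zero_mem' := fun v _ => zero_dotProduct v
      smul_mem' := fun c a ha v hv => by rw [smul_dotProduct, ha v hv, smul_zero] }
  have hA : StW T A := fun D hD u hu v hv => by
    have := der_dot D u v
    rw [hu v hv, hu _ (h D hD v hv), map_zero, add_zero] at this
    exact this.symm
  obtain ⟨φ, h1, h2⟩ := Submodule.exists_dual_map_eq_bot_of_notMem hy inferInstance
  have e : ∀ v, (fun l => φ (Pi.single l 1)) ⬝ᵥ v = φ v := fun v => by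
    rw [LinearMap.pi_apply_eq_sum_univ φ v]
    refine Finset.sum_congr rfl fun l _ => ?_
    rw [smul_eq_mul, mul_comm]
    refine congrArg (v l * φ ·) (funext fun j => ?_)
    rw [Pi.single_apply]
    exact if_congr eq_comm rfl rfl
  have h3 : (fun l => φ (Pi.single l 1)) ∈ A := fun v hv => by
    rw [e, ← Submodule.mem_bot ℂ, ← h2]
    exact Submodule.mem_map_of_mem hv
  by_contra hc
  have h5 : A ≤ kerU fun _ : Fin 1 => y :=
    (ech_vec A hA).trans (Submodule.span_le.2 fun u hu _ => by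
      rw [dotProduct_comm]
      exact not_not.1 fun e => hc ⟨u, hu.2, hu.1, e⟩)
  have h4 := h5 h3 0
  rw [dotProduct_comm, e] at h4
  exact h1 h4

theorem exists_csP (G : MvPolynomial σ ℂ) : ∃ T : Set ℂ, T.Finite ∧ CsP T G := by
  refine ⟨(fun α => coeff α G) '' G.support, G.support.finite_toSet.image _,
    csP_iff.2 fun D hD α => ?_⟩
  by_cases h : α ∈ G.support
  · exact hD _ ⟨α, h, rfl⟩
  · rw [notMem_support_iff.1 h, map_zero]

theorem exists_stI (I : Ideal (MvPolynomial σ ℂ)) : ∃ T : Set ℂ, T.Finite ∧ StI T I := by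
  obtain ⟨S, rfl⟩ : I.FG := IsNoetherian.noetherian I
  choose t t1 t2 using exists_csP (σ := σ)
  refine ⟨⋃ G ∈ S, t G, S.finite_toSet.biUnion fun G _ => t1 G, fun D hD G hG => ?_⟩
  induction hG using Submodule.span_induction with
  | mem G hG =>
    rw [(t2 G).mono (Set.subset_biUnion_of_mem (u := t) hG) D hD]
    exact Ideal.zero_mem _
  | zero =>
    rw [mD_zero]
    exact Ideal.zero_mem _
  | add G G' _ _ a b =>
    rw [mD_add]
    exact Ideal.add_mem _ a b
  | smul c G hG a =>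
    rw [smul_eq_mul, mD_mul]
    exact Ideal.add_mem _ (Ideal.mul_mem_left _ _ a) (Ideal.mul_mem_right _ _ hG)

theorem exists_stW (W : Submodule ℂ (σ → ℂ)) : ∃ T : Set ℂ, T.Finite ∧ StW T W := by
  obtain ⟨S, rfl⟩ : W.FG := IsNoetherian.noetherian W
  refine ⟨⋃ v ∈ S, Set.range v, S.finite_toSet.biUnion fun v _ => Set.finite_range v,
    fun D hD v hv => ?_⟩
  induction hv using Submodule.span_induction with
  | mem v hv =>
    rw [csV_range v (Set.subset_biUnion_of_mem (u := fun v : σ → ℂ => Set.range v) hv) D hD]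
    exact Submodule.zero_mem _
  | zero =>
    rw [show vD D (0 : σ → ℂ) = 0 from funext fun _ => map_zero D]
    exact Submodule.zero_mem _
  | add v v' _ _ a b =>
    rw [vD_add]
    exact Submodule.add_mem _ a b
  | smul c v hv a =>
    rw [vD_smul]
    exact Submodule.add_mem _ (Submodule.smul_mem _ _ hv) (Submodule.smul_mem _ _ a)

theorem exists_adm {j : ℕ} {V : Ideal (MvPolynomial σ ℂ)} (h : PD j V) :
    ∃ T : Set ℂ, T.Finite ∧ Adm T j V := by
  obtain ⟨hj, p, g, J, h1, h2⟩ := id h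
  obtain ⟨T, t1, t2⟩ := exists_stI V
  obtain ⟨T', t3, t4⟩ := exists_csP (minor g J)
  exact ⟨T ∪ T', t1.union t3, h, t2.mono Set.subset_union_left, _, g, J, by omega,
    fun i => h2 ▸ mem_locP g p i, h2 ▸ minor_notin_locP h1, t4.mono Set.subset_union_right⟩

theorem Adm.mono {T' : Set ℂ} {j : ℕ} {V : Ideal (MvPolynomial σ ℂ)} (h : Adm T j V)
    (hT : T ⊆ T') : Adm T' j V := by
  obtain ⟨h1, h2, c, f, J, h3, h4, h5, h6⟩ := h
  exact ⟨h1, h2.mono hT, c, f, J, h3, h4, h5, h6.mono hT⟩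

end Vale.Agent.P054S
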