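import Vale.Agent.P054S.CMZar
import Vale.Agent.P054S.CMEch

namespace Vale.Agent.P054S

open MvPolynomial Module Vale.Agent.P054A
open scoped Classical

/-- The numerator of the derivative of `Φ / Δ`. -/
def cmPsi {R : Type} [CommRing R] [Algebra ℚ R] (E : Derivation ℚ R R) (Φ Δ : R) : R :=
  E Φ * Δ - Φ * E Δ

theorem cmstab_id {R : Type} [CommRing R] [Algebra ℚ R] (M E : Derivation ℚ R R) (Q Φ Δ : R) :
    Q * Δ * M (cmPsi E Φ Δ) = 2 * Q * M Δ * cmPsi E Φ Δ +
      Δ * cmPsi (Q • ⁅M, E⁆ + E Q • M) Φ Δ +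
      (Q * Δ * E (cmPsi M Φ Δ) - (2 * Q * E Δ + E Q * Δ) * cmPsi M Φ Δ) := by
  simp only [cmPsi, map_sub, Derivation.leibniz, Derivation.add_apply, Derivation.smul_apply,
    Derivation.commutator_apply, smul_eq_mul]
  ring

variable {σ : Type} [Fintype σ] {T : Set ℂ}

/-- The values at `b` of the derivatives of the vertex along `Z`. -/
noncomputable def cmW (Z : Ideal (MvPolynomial σ ℂ)) (Φ : σ → MvPolynomial σ ℂ)
    (Δ : MvPolynomial σ ℂ) (b : σ → ℂ) : Submodule ℂ (σ → ℂ) where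
  carrier := {v | ∃ E : Derivation ℚ (MvPolynomial σ ℂ) (MvPolynomial σ ℂ), (∀ c, E (C c) = 0) ∧
    (∀ G ∈ Z, E G ∈ Z) ∧ ∀ l, v l = eval b (cmPsi E (Φ l) Δ)}
  add_mem' := by
    rintro v v' ⟨E, h1, h2, h3⟩ ⟨E', k1, k2, k3⟩
    refine ⟨E + E', fun c => by rw [Derivation.add_apply, h1, k1, add_zero],
      fun G hG => Z.add_mem (h2 G hG) (k2 G hG), fun l => ?_⟩
    rw [Pi.add_apply, h3, k3, ← map_add]
    simp only [cmPsi, Derivation.add_apply]
    congr 1
    ring
  zero_mem' := ⟨0, fun _ => rfl, fun _ _ => Z.zero_mem, fun l => by simp [cmPsi]⟩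
  smul_mem' := by
    rintro c v ⟨E, h1, h2, h3⟩
    refine ⟨(C c : MvPolynomial σ ℂ) • E, fun x => by rw [Derivation.smul_apply, h1, smul_zero],
      fun G hG => Z.mul_mem_left _ (h2 G hG), fun l => ?_⟩
    rw [Pi.smul_apply, h3]
    simp only [cmPsi, Derivation.smul_apply, smul_eq_mul, map_sub, map_mul, eval_C]
    ring

omit [Fintype σ] in
theorem cmstab_psi (E : Derivation ℚ (MvPolynomial σ ℂ) (MvPolynomial σ ℂ))
    (hE : ∀ c, E (C c) = 0) (Q N : MvPolynomial σ ℂ) (a b : σ → ℂ) :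
    (fun l => eval b (cmPsi E (Q * X l - N * C (a l)) (Q - N))) =
      (eval b Q * eval b (Q - N)) • (fun l => eval b (E (X l))) +
        eval b (Q * E N - N * E Q) • (b - a) := by
  funext l
  simp only [cmPsi, map_sub, Derivation.leibniz, hE, smul_eq_mul, map_mul, map_add, eval_X, eval_C,
    Pi.add_apply, Pi.smul_apply, Pi.sub_apply, mul_zero, zero_add]
  ring

/-- A positive dimensional variety which is stable under the motion yields a constant vector. -/
theorem cm_stab {Z : Ideal (MvPolynomial σ ℂ)} {j c : ℕ} {g : Fin c → MvPolynomial σ ℂ}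
    {J : Fin c → σ} {Q N : MvPolynomial σ ℂ} {η : Dr → σ → MvPolynomial σ ℂ} {a b : σ → ℂ}
    (hZ : PD j Z) (h1 : 1 ≤ j) (hj : j + c = Fintype.card σ) (hg : ∀ i, g i ∈ Z) (hb : On b Z)
    (hm : eval b (minor g J) ≠ 0) (hM : Mov T Q N η a b)
    (hs : ∀ D ∈ KD T, ∀ i, MD D Q (η D) (g i) ∈ Z)
    (hv : ∀ D ∈ KD T, ∀ l, MD D Q (η D) (Q * X l - N * C (a l)) * (Q - N) -
      (Q * X l - N * C (a l)) * MD D Q (η D) (Q - N) ∈ Z)
    (hout : b - a ∉ tI Z b) :
    ∃ v, v ≠ 0 ∧ CsV T v ∧ v ∈ tI Z b ⊔ Submodule.span ℂ {b - a} := by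
  set W := cmW Z (fun l => Q * X l - N * C (a l)) (Q - N) b with hW
  have q0 := hM.q0
  have d0 := hM.d0
  have htan : ∀ E : Derivation ℚ (MvPolynomial σ ℂ) (MvPolynomial σ ℂ), (∀ c, E (C c) = 0) →
      (∀ G ∈ Z, E G ∈ Z) → (fun l => eval b (E (X l))) ∈ tI Z b := fun E e1 e2 G hG => by
    rw [← eval_field E e1]
    exact hb _ (e2 G hG)
  have hle : W ≤ tI Z b ⊔ Submodule.span ℂ {b - a} := by
    rintro v ⟨E, e1, e2, e3⟩
    rw [show v = _ from funext e3, cmstab_psi E e1]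
    exact Submodule.add_mem _ (Submodule.mem_sup_left (Submodule.smul_mem _ _ (htan E e1 e2)))
      (Submodule.mem_sup_right (Submodule.smul_mem _ _ (Submodule.mem_span_singleton_self _)))
  have hne : W ≠ ⊥ := by
    intro h0
    obtain ⟨E, e1, e2, l, e3⟩ := exists_field hZ h1 hj hg hb hm
    have k1 : (fun l => eval b (cmPsi E (Q * X l - N * C (a l)) (Q - N))) ∈ W :=
      ⟨E, e1, e2, fun _ => rfl⟩
    rw [h0, Submodule.mem_bot, cmstab_psi E e1] at k1
    have k2 : eval b (Q * E N - N * E Q) ≠ 0 := by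
      intro k
      rw [k, zero_smul, add_zero] at k1
      have := congrFun k1 l
      simp only [Pi.smul_apply, smul_eq_mul, Pi.zero_apply] at this
      exact mul_ne_zero (mul_ne_zero q0 d0) e3 this
    refine hout ?_
    have k3 : eval b (Q * E N - N * E Q) • (b - a) ∈ tI Z b := by
      rw [eq_neg_of_add_eq_zero_right k1]
      exact Submodule.neg_mem _ (Submodule.smul_mem _ _ (htan E e1 e2))
    exact (Submodule.smul_mem_iff _ k2).1 k3
  have hst : StW T W := by
    rintro D hD v ⟨E, e1, e2, e3⟩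
    obtain ⟨M, m1, m2⟩ := exists_der_MD D Q (η D)
    have m3 : ∀ G ∈ Z, M G ∈ Z := der_mem_of_sys hZ hj hg hb hm M fun i => (m1 _).symm ▸ hs D hD i
    have m4 : ∀ G, eval b (M G) = eval b Q * D (eval b G) := fun G => by
      rw [m1]
      exact eval_MD (hM.vel D hD) G
    have m5 : ∀ l, cmPsi M (Q * X l - N * C (a l)) (Q - N) ∈ Z := fun l => by
      rw [cmPsi, m1, m1]
      exact hv D hD l
    have w2 : (fun l => eval b (cmPsi (Q • ⁅M, E⁆ + E Q • M) (Q * X l - N * C (a l)) (Q - N)))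
        ∈ W := by
      refine ⟨_, fun x => ?_, fun G hG => ?_, fun _ => rfl⟩
      · simp only [Derivation.add_apply, Derivation.smul_apply, Derivation.commutator_apply, e1, m2,
          map_zero, Derivation.leibniz, smul_eq_mul]
        ring
      · simp only [Derivation.add_apply, Derivation.smul_apply, Derivation.commutator_apply,
          smul_eq_mul]
        exact Z.add_mem (Z.mul_mem_left _ (Z.sub_mem (m3 _ (e2 G hG)) (e2 _ (m3 G hG))))
          (Z.mul_mem_left _ (m3 G hG))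
    have k0 : eval b Q * eval b (Q - N) * eval b Q ≠ 0 := mul_ne_zero (mul_ne_zero q0 d0) q0
    refine (Submodule.smul_mem_iff _ k0).1 ?_
    have k1 : (eval b Q * eval b (Q - N) * eval b Q) • vD D v =
        (2 * eval b Q * eval b (M (Q - N))) • v + eval b (Q - N) • fun l =>
          eval b (cmPsi (Q • ⁅M, E⁆ + E Q • M) (Q * X l - N * C (a l)) (Q - N)) := by
      funext l
      have k2 := congrArg (eval b) (cmstab_id M E Q (Q * X l - N * C (a l)) (Q - N))
      have k3 := hb _ (Z.sub_mem (Z.mul_mem_left (Q * (Q - N)) (e2 _ (m5 l)))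
        (Z.mul_mem_left (2 * Q * E (Q - N) + E Q * (Q - N)) (m5 l)))
      rw [map_add, k3, add_zero, map_mul, map_mul, m4, ← e3 l, map_add, map_mul, map_mul, map_mul,
        map_mul, ← e3 l, map_ofNat] at k2
      simp only [Pi.smul_apply, Pi.add_apply, smul_eq_mul, vD]
      linear_combination k2
    rw [k1]
    exact W.add_mem (W.smul_mem _ ⟨E, e1, e2, e3⟩) (W.smul_mem _ w2)
  obtain ⟨v, v1, v2, v3⟩ := hst.exists_cs hne
  exact ⟨v, v2, v3, hle v1⟩

end Vale.Agent.P054S
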