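import Vale.Agent.P054S.CMEq
import Vale.Agent.P054S.CMStab
import Vale.Agent.P054S.CMNode

namespace Vale.Agent.P054S

open MvPolynomial Module Vale.Agent.P054A
open scoped Classical

theorem cmcnt_deg1 {σ : Type} [Fintype σ] (u a : σ → ℂ) :
    (∑ l, C (u l) * (X l - C (a l)) : MvPolynomial σ ℂ).totalDegree ≤ 1 := by
  refine totalDegree_finsetSum_le fun l _ => ?_
  refine (totalDegree_mul _ _).trans ?_
  rw [totalDegree_C, zero_add]
  refine (totalDegree_sub _ _).trans ?_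
  rw [totalDegree_C, totalDegree_X]
  exact le_rfl

theorem cmcnt_eval {σ : Type} [Fintype σ] (u a b : σ → ℂ) :
    eval b (∑ l, C (u l) * (X l - C (a l)) : MvPolynomial σ ℂ) = u ⬝ᵥ (b - a) := by
  simp [dotProduct, map_sum]

theorem cmcnt_dd {σ : Type} [Fintype σ] (u a b v : σ → ℂ) :
    dd (∑ l, C (u l) * (X l - C (a l)) : MvPolynomial σ ℂ) b v = u ⬝ᵥ v := by
  unfold dd dotProduct
  refine Finset.sum_congr rfl fun k _ => ?_
  congr 1
  rw [map_sum, map_sum, Finset.sum_eq_single k]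
  · simp
  · intro l _ hl
    simp [pderiv_X, Pi.single_apply, hl]
  · simp

theorem cmcnt_phi {σ : Type} [Fintype σ] {Q N : MvPolynomial σ ℂ} {m : ℕ}
    (hQ : Q.totalDegree ≤ m) (hN : N.totalDegree ≤ m) (l : σ) (r : ℂ) :
    (Q * X l - N * C r).totalDegree ≤ m + 1 := by
  refine (totalDegree_sub _ _).trans (max_le ?_ ?_)
  · refine (totalDegree_mul _ _).trans ?_
    rw [totalDegree_X]
    omega
  · refine (totalDegree_mul _ _).trans ?_
    rw [totalDegree_C]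
    omega

/-- There is no robust variety of positive dimension. -/
theorem cmcnt_no {σ : Type} [Fintype σ] {T : Set ℂ} {w s c lam : ℕ}
    {V : Ideal (MvPolynomial σ ℂ)} {f : Fin c → MvPolynomial σ ℂ} {J : Fin c → σ}
    {u : Fin lam → σ → ℂ} {a : σ → ℂ} {B : Finset (σ → ℂ)} (hV : PD w V)
    (hc : w + c = Fintype.card σ) (hs : 1 ≤ s) (hf : Sys V s f J)
    {Q N : MvPolynomial σ ℂ} {η : Dr → σ → MvPolynomial σ ℂ} (hQ : Q.totalDegree ≤ 6 * s)
    (hN : N.totalDegree ≤ 6 * s) (hη : ∀ E l, (η E l).totalDegree ≤ 6 * s)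
    (hB : ∀ b ∈ B, Sec T w V f J u a b ∧ Mov T Q N η a b)
    {j c' s' : ℕ} {Z : Ideal (MvPolynomial σ ℂ)} {g : Fin c' → MvPolynomial σ ℂ}
    {J' : Fin c' → σ} (hZ : PD j Z) (h1 : 1 ≤ j) (hj : j + c' = Fintype.card σ) (hs' : 6 * s ≤ s')
    (hg : ∀ i, g i ∈ Z) (hgd : ∀ i, (g i).totalDegree ≤ s') {b : σ → ℂ} (hb : b ∈ B)
    (hbZ : On b Z) (hm : eval b (minor g J') ≠ 0)
    (hG : ∀ G : MvPolynomial σ ℂ, G.totalDegree ≤ 4 * s' → (∀ b ∈ B, On b Z → eval b G = 0) →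
      G ∈ Z) : False := by
  have hS := (hB b hb).1
  have hfZ : ∀ i, f i ∈ Z := fun i => hG _ (by have := (hf.1 i).2; omega)
    fun b' hb' _ => (hB b' hb').1.on _ (hf.1 i).1
  have hlZ : ∀ k, (∑ l, C (u k l) * (X l - C (a l)) : MvPolynomial σ ℂ) ∈ Z := fun k =>
    hG _ (by have := cmcnt_deg1 (u k) a; omega) fun b' hb' _ => by
      rw [cmcnt_eval]
      exact (hB b' hb').1.ker k
  have hZV : tI Z b ≤ tI V b := by
    rw [tI_eq_tS hV hc (fun i => (hf.1 i).1) hS.on hS.mn]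
    rintro v hv G ⟨i, rfl⟩
    exact hv _ (hfZ i)
  have hZK : tI Z b ≤ kerU u := by
    intro v hv k
    rw [← cmcnt_dd (u k) a b v]
    exact hv _ (hlZ k)
  have e1 : ∀ D ∈ KD T, ∀ i, MD D Q (η D) (g i) ∈ Z := by
    intro D hD i
    refine hG _ ?_ fun b' hb' hb'Z => ?_
    · have h2 := totalDegree_MD_le (D := D) hQ (hη D) (g i)
      have := hgd i
      omega
    · rw [eval_MD ((hB b' hb').2.vel D hD), hb'Z _ (hg i), map_zero, mul_zero]
  have e2 : ∀ D ∈ KD T, ∀ l, MD D Q (η D) (Q * X l - N * C (a l)) * (Q - N) -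
      (Q * X l - N * C (a l)) * MD D Q (η D) (Q - N) ∈ Z := by
    intro D hD l
    refine hG _ ?_ fun b' hb' _ => ?_
    · have h2 := totalDegree_MD_le (D := D) hQ (hη D) (Q * X l - N * C (a l))
      have h3 := totalDegree_MD_le (D := D) hQ (hη D) (Q - N)
      have h4 := cmcnt_phi hQ hN l (a l)
      have h5 : (Q - N).totalDegree ≤ 6 * s := (totalDegree_sub _ _).trans (max_le hQ hN)
      refine (totalDegree_sub _ _).trans (max_le ?_ ?_)
      · refine (totalDegree_mul _ _).trans ?_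
        omega
      · refine (totalDegree_mul _ _).trans ?_
        omega
    · obtain ⟨q, hq, hq'⟩ := (hB b' hb').2.vert
      have h0 : D (q l) = 0 := csV_iff.1 hq D hD l
      rw [map_sub, map_mul, map_mul, eval_MD ((hB b' hb').2.vel D hD),
        eval_MD ((hB b' hb').2.vel D hD), hq' l, Derivation.leibniz, h0]
      simp only [smul_eq_mul]
      ring
  obtain ⟨v, hv0, hvc, hv⟩ := cm_stab hZ h1 hj hg hbZ hm (hB b hb).2 e1 e2
    (fun h => hS.out (hZV h))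
  refine hv0 (hS.k1 v hvc (sup_le_sup_right hZV _ hv) ?_)
  refine (sup_le hZK ?_ : tI Z b ⊔ Submodule.span ℂ {b - a} ≤ kerU u) hv
  rw [Submodule.span_singleton_le_iff_mem]
  exact hS.ker

/-- The number of second points. -/
theorem cm_cnt (σ : Type) [Fintype σ] : ∃ c₀ : ℕ, ∀ (T : Set ℂ) (w s c lam : ℕ)
    (V : Ideal (MvPolynomial σ ℂ)) (f : Fin c → MvPolynomial σ ℂ) (J : Fin c → σ)
    (u : Fin lam → σ → ℂ) (a : σ → ℂ) (B : Finset (σ → ℂ)), PD w V → w + c = Fintype.card σ →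
    1 ≤ s → Sys V s f J → StI T V → (∀ i, CsP T (f i)) → (∀ b ∈ B, Sec T w V f J u a b) →
    B.card ≤ c₀ * dg w V * s ^ (w - lam) := by
  obtain ⟨c1, h1⟩ := cm_node σ 4
  obtain ⟨c2, h2⟩ := cm_cut σ
  refine ⟨Fintype.card σ * Fintype.card σ * (c1 * c2 * 6 ^ Fintype.card σ), ?_⟩
  intro T w s c lam V f J u a B hV hc hs hf hst hfc hB
  obtain ⟨D, hD, D', hD', hp⟩ := cm_pair hst B hB
  obtain ⟨Q, N, η, hdeg, hmov⟩ := cm_eq (u := u) (a := a) hV hc hs hf hfc hD hD'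
  have key : ∀ x : Fin c × Fin c, (B.filter fun b => Mov T (Q x) (N x) (η x) a b).card ≤
      (c1 * c2 * 6 ^ Fintype.card σ) * dg w V * s ^ (w - lam) := by
    intro x
    set Bx := B.filter fun b => Mov T (Q x) (N x) (η x) a b with hBx
    have hBx' : ∀ b ∈ Bx, Sec T w V f J u a b ∧ Mov T (Q x) (N x) (η x) a b := fun b hb =>
      ⟨hB b (Finset.mem_filter.1 hb).1, (Finset.mem_filter.1 hb).2⟩
    rcases h1 Bx (6 * s) (by omega) with h | ⟨j, c', s', Z, g, J', hZ, hj1, hj, hs', hg, hgd,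
      ⟨b, hb, hbZ, hm⟩, hG⟩
    · obtain ⟨𝒬, hq1, hq2, hq3⟩ := h2 w lam V u a Bx hV fun b hb =>
        ⟨(hBx' b hb).1.on, (hBx' b hb).1.ker, (hBx' b hb).1.k4⟩
      have hsub : Bx ⊆ 𝒬.biUnion fun P => zs Bx P := by
        intro b hb
        obtain ⟨P, hP, hbP⟩ := hq3 b hb
        exact Finset.mem_biUnion.2 ⟨P, hP, Finset.mem_filter.2 ⟨hb, hbP⟩⟩
      have h6 : 6 ^ (w - lam) ≤ 6 ^ Fintype.card σ := Nat.pow_le_pow_right (by norm_num) (by omega)
      calc Bx.card ≤ ∑ P ∈ 𝒬, (zs Bx P).card :=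
            (Finset.card_le_card hsub).trans Finset.card_biUnion_le
        _ ≤ ∑ P ∈ 𝒬, c1 * dg (w - lam) P * (6 * s) ^ (w - lam) :=
            Finset.sum_le_sum fun P hP => h _ P (hq1 P hP)
        _ = c1 * (∑ P ∈ 𝒬, dg (w - lam) P) * (6 ^ (w - lam) * s ^ (w - lam)) := by
            rw [mul_pow, Finset.mul_sum, Finset.sum_mul]
        _ ≤ c1 * (c2 * dg w V) * (6 ^ Fintype.card σ * s ^ (w - lam)) :=
            Nat.mul_le_mul (Nat.mul_le_mul_left _ hq2) (Nat.mul_le_mul_right _ h6)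
        _ = _ := by ring
    · exact (cmcnt_no hV hc hs hf (hdeg x).1 (hdeg x).2.1 (hdeg x).2.2 hBx' hZ hj1 hj hs' hg hgd
        hb hbZ hm hG).elim
  have hsub : B ⊆ (Finset.univ : Finset (Fin c × Fin c)).biUnion
      fun x => B.filter fun b => Mov T (Q x) (N x) (η x) a b := by
    intro b hb
    obtain ⟨x, hx⟩ := hmov b (hB b hb) (hp b hb)
    exact Finset.mem_biUnion.2 ⟨x, Finset.mem_univ _, Finset.mem_filter.2 ⟨hb, hx⟩⟩
  have hcc : c * c ≤ Fintype.card σ * Fintype.card σ := Nat.mul_le_mul (by omega) (by omega)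
  calc B.card ≤ ∑ x : Fin c × Fin c, (B.filter fun b => Mov T (Q x) (N x) (η x) a b).card :=
        (Finset.card_le_card hsub).trans Finset.card_biUnion_le
    _ ≤ ∑ _x : Fin c × Fin c, (c1 * c2 * 6 ^ Fintype.card σ) * dg w V * s ^ (w - lam) :=
        Finset.sum_le_sum fun x _ => key x
    _ = c * c * ((c1 * c2 * 6 ^ Fintype.card σ) * dg w V * s ^ (w - lam)) := by
        rw [Finset.sum_const, Finset.card_univ, Fintype.card_prod, Fintype.card_fin, smul_eq_mul]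
    _ ≤ Fintype.card σ * Fintype.card σ *
          ((c1 * c2 * 6 ^ Fintype.card σ) * dg w V * s ^ (w - lam)) :=
        Nat.mul_le_mul_right _ hcc
    _ = _ := by ring

end Vale.Agent.P054S
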