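import Vale.Agent.P054S.Defs

/-!
Generic families exist.  K = IntermediateField.adjoin ℚ T is countable.  exists_isTranscendenceBasis K ℂ gives x : s → ℂ;
s is infinite (else ℂ is algebraic over a countable ring, so countable); e : ι ↪ s, a = x ∘ e.  R = MvPolynomial s K acts on ℂ by
aeval x; ℂ is formally etale over R (FractionRing R: Algebra.FormallyEtale.of_isLocalization, then of_isSeparable, comp).
With KaehlerDifferential.tensorKaehlerEquivOfFormallyEtale K R ℂ and mvPolynomialBasis (baseChange) build φ : Ω[ℂ⁄K] →ₗ[ℂ] ℂ with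
φ (d (x i)) = prescribed value; D = (φ.compDer (KaehlerDifferential.D K ℂ)).restrictScalars ℚ.
-/

namespace Vale.Agent.P054S

open MvPolynomial Vale.Agent.P054A Vale.Agent.P271 Sum
open scoped Classical

/-- Derivations with prescribed values on a transcendence basis. -/
theorem exists_der_basis {K s : Type} [Field K] [Algebra K ℂ] {x : s → ℂ}
    (hx : IsTranscendenceBasis K x) (c : s → ℂ) : ∃ D : Derivation K ℂ ℂ, ∀ i, D (x i) = c i := by
  let _ : Algebra (MvPolynomial s K) ℂ := (aeval x : MvPolynomial s K →ₐ[K] ℂ).toRingHom.toAlgebra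
  have : IsScalarTower K (MvPolynomial s K) ℂ :=
    IsScalarTower.of_algebraMap_eq fun r => ((aeval x).commutes r).symm
  have : FaithfulSMul (MvPolynomial s K) ℂ :=
    (faithfulSMul_iff_algebraMap_injective _ _).2 (algebraicIndependent_iff_injective_aeval.1 hx.1)
  have hX : ∀ i, algebraMap (MvPolynomial s K) ℂ (X i) = x i := fun i => aeval_X x i
  have : Algebra.IsAlgebraic (MvPolynomial s K) ℂ :=
    hx.isAlgebraic_iff.2 fun i => hX i ▸ isAlgebraic_algebraMap _
  let _ : Algebra (FractionRing (MvPolynomial s K)) ℂ := FractionRing.liftAlgebra _ _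
  have : CharZero K := (algebraMap K ℂ).charZero
  have : Algebra.IsAlgebraic (FractionRing (MvPolynomial s K)) ℂ :=
    Algebra.IsAlgebraic.extendScalars (IsFractionRing.injective (MvPolynomial s K) _)
  have : Algebra.FormallyEtale (MvPolynomial s K) (FractionRing (MvPolynomial s K)) :=
    Algebra.FormallyEtale.of_isLocalization (nonZeroDivisors _)
  have := Algebra.FormallyEtale.of_isSeparable (FractionRing (MvPolynomial s K)) ℂ
  have := Algebra.FormallyEtale.comp (MvPolynomial s K) (FractionRing (MvPolynomial s K)) ℂ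
  refine ⟨(((mkDerivation K c).liftKaehlerDifferential.liftBaseChange ℂ) ∘ₗ
    (KaehlerDifferential.tensorKaehlerEquivOfFormallyEtale K (MvPolynomial s K)
      ℂ).symm.toLinearMap).compDer (KaehlerDifferential.D K ℂ), fun i => ?_⟩
  have h := KaehlerDifferential.tensorKaehlerEquivOfFormallyEtale_symm_D_algebraMap K
    (MvPolynomial s K) ℂ (X i)
  rw [hX] at h
  change (mkDerivation K c).liftKaehlerDifferential.liftBaseChange ℂ
    ((KaehlerDifferential.tensorKaehlerEquivOfFormallyEtale K (MvPolynomial s K) ℂ).symm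
      (KaehlerDifferential.D K ℂ (x i))) = c i
  rw [h, LinearMap.liftBaseChange_tmul, one_smul, Derivation.liftKaehlerDifferential_comp_D,
    mkDerivation_X]

theorem exists_genA' {T : Set ℂ} (hT : T.Finite) (ι : Type) [Fintype ι] :
    ∃ a : ι → ℂ, GenA T a := by
  obtain ⟨s, hs⟩ := exists_isTranscendenceBasis (IntermediateField.adjoin ℚ T) ℂ
  have hK : Cardinal.mk (IntermediateField.adjoin ℚ T) ≤ Cardinal.aleph0 :=
    (IntermediateField.cardinalMk_adjoin_le ℚ T).trans (by
      simp [hT.countable.le_aleph0])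
  have h1 := IsAlgClosed.cardinal_eq_cardinal_transcendence_basis_of_aleph0_lt' _ hs hK
    (by rw [Cardinal.mk_complex]; exact Cardinal.aleph0_lt_continuum)
  have : Infinite s := by
    rw [Cardinal.infinite_iff, ← h1, Cardinal.mk_complex]
    exact Cardinal.aleph0_le_continuum
  let e : ι ↪ s := (Fintype.equivFin ι).toEmbedding.trans
    (Fin.valEmbedding.trans (Infinite.natEmbedding s))
  refine ⟨fun q => e q, fun c => ?_⟩
  obtain ⟨D, hD⟩ := exists_der_basis hs (Function.extend e c 0)
  refine ⟨D.restrictScalars ℚ, fun t ht => ?_, fun q => ?_⟩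
  · exact D.map_algebraMap ⟨t, IntermediateField.subset_adjoin ℚ T ht⟩
  · exact (hD (e q)).trans (e.injective.extend_apply c 0 q)

end Vale.Agent.P054S
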