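import Vale.Agent.P054S.GDl
import Vale.Agent.P054S.GEx
import Vale.Agent.P054S.CNode

/-!
The generic projection theorem.
-/

namespace Vale.Agent.P054S

open MvPolynomial Vale.Agent.P054A Sum
open scoped Classical

/-- Generic families exist. -/
theorem exists_genA {T : Set ℂ} (hT : T.Finite) (ι : Type) [Fintype ι] : ∃ a : ι → ℂ, GenA T a :=
  exists_genA' hT ι

/-- The generic projection theorem. -/
theorem gpt (k : ℕ) (hk : 1 ≤ k) : ∃ c : ℕ, ∀ (S : Finset (Tx k → ℂ)) (a : Pr (k + 1) → ℂ)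
    (M E m : ℕ) (G : MvPolynomial (Fin (k + 1)) ℂ), GenA (crd S) a → Dens S M k → NulB S E →
      1 ≤ m → m ≤ M → G ≠ 0 → G.totalDegree ≤ m → (∀ x ∈ S, eval (prj a x) G = 0) →
      S.card ≤ c * m * (M ^ k + E) := by
  obtain ⟨C, -, hC⟩ := node (Fin (k + 1)) 200
  refine ⟨C * (4 * cG k + 1), fun S a M E m G hgen hdens hnul hm hmM hG hd hz => ?_⟩
  obtain ⟨D, hD, hS⟩ := exists_dirD hgen
  have hinj : Set.InjOn (prj a) (S : Set (Tx k → ℂ)) := fun x hx y hy h =>
    prj_inj hk hD (hS x hx) (hS y hy) h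
  have hM : 0 < M ^ k := pow_pos (by omega) k
  by_contra hlt
  have hρ : (4 * cG k + 1 + E / M ^ k) * M ^ k ≤ (4 * cG k + 1) * (M ^ k + E) := by
    have h1 := Nat.div_mul_le_self E (M ^ k)
    nlinarith [Nat.zero_le (cG k * E)]
  have hρ1 : 1 ≤ 4 * cG k + 1 + E / M ^ k := le_add_right (Nat.le_add_left 1 _)
  obtain ⟨j, c, f, J, Z, T', s, hjc, hj, hc, hZ, hT', hsim, hs, -, -, hcard, hrob⟩ :=
    hC (S.image (prj a)) G m M (4 * cG k + 1 + E / M ^ k) hG hd hm hmM hρ1
      (fun p hp => by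
        obtain ⟨x, hx, rfl⟩ := Finset.mem_image.1 hp
        exact hz x hx)
      (by
        rw [Finset.card_image_of_injOn hinj, Fintype.card_fin, Nat.add_sub_cancel]
        refine lt_of_le_of_lt ?_ (not_le.1 hlt)
        calc C * (4 * cG k + 1 + E / M ^ k) * m * M ^ k
            = C * m * ((4 * cG k + 1 + E / M ^ k) * M ^ k) := by ring
          _ ≤ C * m * ((4 * cG k + 1) * (M ^ k + E)) := Nat.mul_le_mul_left _ hρ
          _ = _ := by ring)
  rw [Fintype.card_fin] at hjc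
  have hdg := hZ.one_le_dg
  have hMj : 0 < M ^ j := pow_pos (by omega) j
  set T := S.filter fun x => prj a x ∈ T' with hT
  have hTS : T ⊆ S := Finset.filter_subset _ _
  have himg : ∀ q : (Fin (k + 1) → ℂ) → Prop,
      (T'.filter q).card = (T.filter fun x => q (prj a x)).card := fun q => by
    rw [← Finset.card_image_of_injOn (hinj.mono fun x hx => hTS (Finset.mem_filter.1 hx).1)]
    congr 1
    ext z
    simp only [Finset.mem_filter, Finset.mem_image, hT]
    constructor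
    · rintro ⟨h1, h2⟩
      obtain ⟨x, hx, rfl⟩ := Finset.mem_image.1 (hT' h1)
      exact ⟨x, ⟨⟨hx, h1⟩, h2⟩, rfl⟩
    · rintro ⟨x, ⟨⟨-, h1⟩, h2⟩, rfl⟩
      exact ⟨h1, h2⟩
  have hcT : T'.card = T.card := by simpa using himg fun _ => True
  have hpos : 0 < T'.card :=
    lt_of_lt_of_le (Nat.mul_pos (Nat.mul_pos hρ1 hdg) hMj) hcard
  obtain ⟨p₀, hp₀⟩ := Finset.card_pos.1 hpos
  obtain ⟨hS₀, rfl⟩ := hsim p₀ hp₀
  rcases dl (T := T) hD (fun x hx => hS x (hTS hx)) hjc hc hS₀ hs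
    (fun x hx => by
      obtain ⟨h1, h2⟩ := hsim _ (Finset.mem_filter.1 hx).2
      rw [← h2]
      exact on_locP h1.1)
    (Finset.card_pos.1 (hcT ▸ hpos))
    (fun g hg hd => by
      have h1 := hrob g hg hd
      rw [himg, hcT] at h1
      exact h1) with ⟨rfl, h⟩ | ⟨j', hj', P, hP, hdP, hle⟩
  · have h1 := hnul T hTS h
    have h2 := Nat.lt_div_mul_add (a := E) hM
    have h3 : (4 * cG j + 1 + E / M ^ j) * 1 * M ^ j ≤ T'.card :=
      le_trans (by gcongr) hcard
    nlinarith [Nat.zero_le (cG j * M ^ j)]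
  · have h1 := hdens j' (by omega) P hP.pd
    have h2 : (zs T P).card ≤ (zs S P).card :=
      Finset.card_le_card (Finset.filter_subset_filter _ hTS)
    have h3 : dg j' P * M ^ j' ≤ cG k * dg j (locP f p₀) * M ^ j :=
      Nat.mul_le_mul hdP (Nat.pow_le_pow_right (by omega) hj')
    have h4 : (4 * cG k + 1) * dg j (locP f p₀) * M ^ j ≤ T'.card :=
      le_trans (Nat.mul_le_mul_right _ (Nat.mul_le_mul_right _ (Nat.le_add_right _ _))) hcard
    have h5 : 0 < dg j (locP f p₀) * M ^ j := Nat.mul_pos hdg hMj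
    nlinarith

end Vale.Agent.P054S
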