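import Vale.Agent.P054S.CMEch
import Vale.Agent.P054S.Gpt
import Vale.Agent.P054S.CKr

namespace Vale.Agent.P054S

open MvPolynomial Module Vale.Agent.P054A
open scoped Classical

variable {σ : Type} [Fintype σ] {T : Set ℂ}

/-- Lying over. -/
theorem cmgp_over {V : Ideal (MvPolynomial σ ℂ)} {d : ℕ} {t : Fin d → MvPolynomial σ ℂ}
    (hy : AlgebraicIndependent ℂ fun i => Ideal.Quotient.mkₐ ℂ V (t i))
    (hint : Algebra.IsIntegral (Algebra.adjoin ℂ (Set.range fun i => Ideal.Quotient.mkₐ ℂ V (t i)))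
      (MvPolynomial σ ℂ ⧸ V)) (y : Fin d → ℂ) : ∃ z, On z V ∧ ∀ i, eval z (t i) = y i := by
  let φ := (aeval y : MvPolynomial (Fin d) ℂ →ₐ[ℂ] ℂ).comp hy.aevalEquiv.symm.toAlgHom
  have h1 := RingHom.ker_isMaximal_of_surjective φ fun c => ⟨_, φ.commutes c⟩
  obtain ⟨Q, hQ, h2⟩ := Ideal.exists_ideal_over_maximal_of_isIntegral (S := MvPolynomial σ ℂ ⧸ V)
    (RingHom.ker φ) fun x hx => by
      rw [show x = 0 from Subtype.ext hx]
      exact zero_mem _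
  obtain ⟨z, hz⟩ := isMaximal_iff_eq_vanishingIdeal_singleton.1
    (Ideal.comap_isMaximal_of_surjective (Ideal.Quotient.mk V) Ideal.Quotient.mk_surjective (K := Q))
  have h3 : ∀ G, Ideal.Quotient.mk V G ∈ Q → eval z G = 0 := fun G hG =>
    (mem_vanishingIdeal_singleton_iff z G).1 (hz ▸ hG)
  refine ⟨z, fun G hG => h3 G ?_, fun i => ?_⟩
  · rw [Ideal.Quotient.eq_zero_iff_mem.2 hG]
    exact zero_mem _
  · have h4 : hy.aevalEquiv (X i - C (y i)) ∈ RingHom.ker φ := by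
      change aeval y (hy.aevalEquiv.symm (hy.aevalEquiv _)) = 0
      rw [AlgEquiv.symm_apply_apply]
      simp
    rw [← h2, Ideal.mem_comap, hy.algebraMap_aevalEquiv, map_sub, aeval_X, aeval_C] at h4
    have h5 := h3 (t i - C (y i)) h4
    rwa [map_sub, eval_C, sub_eq_zero] at h5

/-- Generic points exist. -/
theorem exists_gen {V : Ideal (MvPolynomial σ ℂ)} {j : ℕ} (hV : PD j V) (hT : T.Finite) :
    ∃ z, Gen T j V z := by
  obtain ⟨d, t, hd, -, hy, hint⟩ := ckr_fn hV.var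
  choose S hS hc using fun i => exists_csP (t i)
  obtain ⟨y, hg⟩ := exists_genA (hT.union (Set.finite_iUnion hS)) (Fin d)
  obtain ⟨z, hz, he⟩ := cmgp_over hy hint y
  refine ⟨z, hz, hd.trans ?_⟩
  have h1 : (tg T z).map (Matrix.of fun i l => eval z (pderiv l (t i))).mulVecLin = ⊤ := by
    refine eq_top_iff.2 fun c _ => ?_
    obtain ⟨D, hD, h2⟩ := hg c
    refine ⟨vD D z, ⟨D, fun s hs => hD s (Or.inl hs), rfl⟩, funext fun i => ?_⟩
    have h3 := der_eval D z (t i)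
    rw [hc i D fun s hs => hD s (Or.inr (Set.mem_iUnion.2 ⟨i, hs⟩)), map_zero, zero_add, he,
      h2] at h3
    exact h3.symm
  have h4 := Submodule.finrank_map_le (Matrix.of fun i l => eval z (pderiv l (t i))).mulVecLin
    (tg T z)
  rwa [h1, finrank_top, finrank_fin_fun] at h4

/-- Generic forms are injective on stable spaces of the right dimension. -/
theorem cmgp_bij {lam : ℕ} {u : Fin lam → σ → ℂ} {W : Submodule ℂ (σ → ℂ)} (hW : StW T W)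
    (hr : finrank ℂ W = lam)
    (h : ∀ v : σ → ℂ, v ≠ 0 → ∀ w : Fin lam → ℂ, ∃ D ∈ KD T, ∀ k, vD D (u k) ⬝ᵥ v = w k) :
    (∀ v ∈ W, v ∈ kerU u → v = 0) ∧ ∀ w : Fin lam → ℂ, ∃ v ∈ W, ∀ k, u k ⬝ᵥ v = w k := by
  have h1 := LinearMap.injective_iff_surjective_of_finrank_eq_finrank
    (hr.trans (finrank_fin_fun ℂ).symm) (f := (Matrix.of u).mulVecLin.domRestrict W)
  have h2 : ∀ v ∈ W, v ∈ kerU u → v = 0 := fun v hv hk => by
    by_contra h0
    refine h0 (congrArg Subtype.val ((injective_iff_map_eq_zero _).1 (h1.2 fun w => ?_) ⟨v, hv⟩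
      (funext hk)))
    obtain ⟨D, hD, h3⟩ := h v h0 (-w)
    refine ⟨⟨vD D v, hW D hD v hv⟩, funext fun k => ?_⟩
    have h4 := der_dot D (u k) v
    rw [hk k, map_zero, h3, Pi.neg_apply, eq_comm, neg_add_eq_zero] at h4
    exact h4.symm
  refine ⟨h2, fun w => ?_⟩
  obtain ⟨v, hv⟩ := h1.1 ((injective_iff_map_eq_zero _).2 fun v hv =>
    Subtype.ext (h2 v v.2 (congrFun hv))) w
  exact ⟨v, v.2, congrFun hv⟩

theorem cmgp_kill {lam : ℕ} {u : Fin lam → σ → ℂ} {a : σ → ℂ} {D : Dr} :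
    D ∈ KD (slT T u a) ↔ D ∈ KD T ∧ (∀ k, vD D (u k) = 0) ∧ vD D a ∈ kerU u := by
  constructor
  · intro h
    have h1 : ∀ k, vD D (u k) = 0 := fun k => funext fun l => h _ (Or.inl (Or.inr ⟨(k, l), rfl⟩))
    refine ⟨fun t ht => h t (Or.inl (Or.inl ht)), h1, fun k => ?_⟩
    have h2 := der_dot D (u k) a
    rwa [h _ (Or.inr ⟨k, rfl⟩), h1, zero_dotProduct, zero_add, eq_comm] at h2
  · rintro ⟨h1, h2, h3⟩ t ((ht | ⟨x, rfl⟩) | ⟨k, rfl⟩)
    · exact h1 t ht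
    · exact congrFun (h2 x.1) x.2
    · rw [der_dot, h2, zero_dotProduct, zero_add, h3 k]

/-- The generic slice and the vertices on it. -/
theorem exists_slice (hT : T.Finite) (a : σ → ℂ) (lam : ℕ) {ι : Type} (F : Finset ι)
    (p : ι → σ → ℂ) (Ω : ι → Submodule ℂ (σ → ℂ)) (hp : ∀ i ∈ F, CsV T (p i))
    (hΩ : ∀ i ∈ F, StW T (Ω i)) (hr : ∀ i ∈ F, finrank ℂ (Ω i) = lam)
    (ha : ∀ i ∈ F, a - p i ∉ Ω i) :
    ∃ (u : Fin lam → σ → ℂ) (q : ι → σ → ℂ), tg T a ⊓ kerU u ≤ tg (slT T u a) a ∧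
      tg (slT T u a) a ≤ kerU u ∧ ∀ i ∈ F, q i - p i ∈ Ω i ∧ a - q i ∈ kerU u ∧
        Ω i ⊓ kerU u = ⊥ ∧ Ω i ≤ tg T (q i) ∧ tg T a ≤ tg (T ∪ Set.range (q i)) a ∧
        CsV (slT T u a) (q i) := by
  obtain ⟨u', hu⟩ := exists_genA (hT.union (Set.finite_range a)) (Fin lam × σ)
  obtain ⟨u, hu'⟩ : ∃ u : Fin lam → σ → ℂ, u = fun k l => u' (k, l) := ⟨_, rfl⟩
  have h1 : ∀ c : Fin lam → σ → ℂ, ∃ D ∈ KD T, vD D a = 0 ∧ ∀ k, vD D (u k) = c k := fun c => by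
    obtain ⟨D, hD, h⟩ := hu fun x => c x.1 x.2
    exact ⟨D, fun t ht => hD t (Or.inl ht), funext fun l => hD _ (Or.inr ⟨l, rfl⟩),
      fun k => funext fun l => hu' ▸ h (k, l)⟩
  have h2 : ∀ v : σ → ℂ, v ≠ 0 → ∀ w : Fin lam → ℂ,
      ∃ D ∈ KD T, vD D a = 0 ∧ ∀ k, vD D (u k) ⬝ᵥ v = w k := fun v hv w => by
    obtain ⟨l, hl⟩ := Function.ne_iff.1 hv
    obtain ⟨D, hD, h, h'⟩ := h1 fun k => Pi.single l (w k / v l)
    exact ⟨D, hD, h, fun k => by rw [h', single_dotProduct, div_mul_cancel₀ _ hl]⟩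
  have h3 := fun i hi => cmgp_bij (u := u) (hΩ i hi) (hr i hi) fun v hv w =>
    (h2 v hv w).imp fun D hD => ⟨hD.1, hD.2.2⟩
  choose! o ho ho' using fun i hi => (h3 i hi).2 fun k => u k ⬝ᵥ (a - p i)
  refine ⟨u, fun i => p i + o i, ?_, ?_, fun i hi => ?_⟩
  · rintro _ ⟨⟨D₀, hD₀, rfl⟩, hk⟩
    obtain ⟨D₁, hD₁, h, h'⟩ := h1 fun k => - vD D₀ (u k)
    have e : vD (D₀ + D₁) a = evD a D₀ := by rw [add_vD, h, add_zero]; rfl
    exact ⟨D₀ + D₁, cmgp_kill.2 ⟨add_mem hD₀ hD₁, fun k => by rw [add_vD, h', add_neg_cancel],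
      e ▸ hk⟩, e⟩
  · rintro _ ⟨D, hD, rfl⟩
    exact (cmgp_kill.1 hD).2.2
  have h4 : a - (p i + o i) ∈ kerU u := fun k => by
    rw [← sub_sub, dotProduct_sub, ho' i hi, sub_self]
  have h5 : ∀ D ∈ KD T, vD D (p i + o i) ∈ Ω i := fun D hD => by
    rw [vD_add, hp i hi D hD, zero_add]
    exact hΩ i hi D hD _ (ho i hi)
  have h6 : ∀ (D : Dr) k, vD D (u k) ⬝ᵥ (a - (p i + o i)) + u k ⬝ᵥ vD D a =
      u k ⬝ᵥ vD D (p i + o i) := fun D k => by
    have h := der_dot D (u k) (a - (p i + o i))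
    rw [h4 k, map_zero, vD_sub, dotProduct_sub (u k)] at h
    linear_combination -h
  have h7 : ∀ v ∈ Ω i, ∃ D ∈ KD T, vD D a = 0 ∧ vD D (p i + o i) = v := fun v hv => by
    obtain ⟨D, hD, h, h'⟩ := h2 (a - (p i + o i)) (fun h0 => ha i hi (by
      rw [← sub_sub, sub_eq_zero] at h0
      exact h0 ▸ ho i hi)) fun k => u k ⬝ᵥ v
    refine ⟨D, hD, h, sub_eq_zero.1 ((h3 i hi).1 _ (sub_mem (h5 D hD) hv) fun k => ?_)⟩
    rw [dotProduct_sub, ← h6, h', h, dotProduct_zero, add_zero, sub_self]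
  refine ⟨by rw [add_sub_cancel_left]; exact ho i hi, h4,
    eq_bot_iff.2 fun v hv => (h3 i hi).1 v hv.1 hv.2, fun v hv => ?_, ?_, fun D hD => ?_⟩
  · obtain ⟨D, hD, -, h⟩ := h7 v hv
    exact ⟨D, hD, h⟩
  · rintro _ ⟨D₀, hD₀, rfl⟩
    obtain ⟨D₁, hD₁, h, h'⟩ := h7 _ (neg_mem (h5 D₀ hD₀))
    refine ⟨D₀ + D₁, ?_, show vD (D₀ + D₁) a = vD D₀ a by rw [add_vD, h, add_zero]⟩
    rintro t (ht | ⟨l, rfl⟩)
    · exact add_mem hD₀ hD₁ t ht
    · exact congrFun (show vD (D₀ + D₁) (p i + o i) = 0 by rw [add_vD, h', add_neg_cancel]) l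
  · obtain ⟨h, h', h''⟩ := cmgp_kill.1 hD
    refine (h3 i hi).1 _ (h5 D h) fun k => ?_
    rw [← h6, h', h'' k, zero_dotProduct, add_zero]

theorem finrank_kerU {lam : ℕ} (u : Fin lam → σ → ℂ) :
    Fintype.card σ ≤ finrank ℂ (kerU u) + lam := by
  have h1 := LinearMap.finrank_range_add_finrank_ker (Matrix.of u).mulVecLin
  have h2 := Submodule.finrank_le (LinearMap.range (Matrix.of u).mulVecLin)
  have e : LinearMap.ker (Matrix.of u).mulVecLin = kerU u :=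
    Submodule.ext fun v => funext_iff
  rw [e, finrank_fintype_fun_eq_card] at h1
  rw [finrank_fin_fun] at h2
  omega

theorem slT_finite {lam : ℕ} (hT : T.Finite) (u : Fin lam → σ → ℂ) (a : σ → ℂ) :
    (slT T u a).Finite := by
  exact (hT.union (Set.finite_range _)).union (Set.finite_range _)

theorem subset_slT {lam : ℕ} (u : Fin lam → σ → ℂ) (a : σ → ℂ) : T ⊆ slT T u a := by
  exact fun t ht => Or.inl (Or.inl ht)

end Vale.Agent.P054S
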