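import Vale.Agent.P054S.CMD

namespace Vale.Agent.P054S

open MvPolynomial Module Vale.Agent.P054A
open scoped Classical

variable {σ : Type} [Fintype σ] {V : Ideal (MvPolynomial σ ℂ)} {j : ℕ} {z : σ → ℂ}

theorem tS_range {κ : Type} (f : κ → MvPolynomial σ ℂ) (z : σ → ℂ) :
    tS (Set.range f) z = P054A.tan f z :=
  Submodule.ext fun _ => Set.forall_mem_range

theorem cmzar_span {A : Set (MvPolynomial σ ℂ)} {v : σ → ℂ} (h : ∀ G ∈ A, eval z G = 0)
    (hv : v ∈ tS A z) {G : MvPolynomial σ ℂ} (hG : G ∈ Ideal.span A) :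
    eval z G = 0 ∧ dd G z v = 0 := by
  induction hG using Submodule.span_induction with
  | mem G hG => exact ⟨h G hG, hv G hG⟩
  | zero => simp [dd]
  | add a b _ _ ha hb => simp only [map_add, add_dd, ha, hb, add_zero, and_self]
  | smul a b _ hb => simp only [smul_eq_mul, map_mul, mul_dd, hb, mul_zero, zero_mul, add_zero,
      and_self]

/-- At a simple point the system computes the tangent space. -/
theorem tI_eq_tS {c : ℕ} {f : Fin c → MvPolynomial σ ℂ} {J : Fin c → σ} (hV : PD j V)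
    (hj : j + c = Fintype.card σ) (hf : ∀ i, f i ∈ V) (hz : On z V)
    (hm : eval z (minor f J) ≠ 0) : tI V z = tS (Set.range f) z := by
  refine le_antisymm (fun v hv G ⟨i, e⟩ => hv G (e ▸ hf i)) fun v hv G hG => ?_
  obtain ⟨q, hq, h⟩ := ((hV.locP_eq (by simpa using hj) hf hz hm).2.ge hG :)
  have h1 := (cmzar_span (Set.forall_mem_range.2 fun i => hz _ (hf i)) hv h).2
  rwa [mul_dd, hz G hG, zero_mul, add_zero, mul_eq_zero, or_iff_right hq] at h1

theorem finrank_tI {c : ℕ} {f : Fin c → MvPolynomial σ ℂ} {J : Fin c → σ} (hV : PD j V)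
    (hj : j + c = Fintype.card σ) (hf : ∀ i, f i ∈ V) (hz : On z V)
    (hm : eval z (minor f J) ≠ 0) : finrank ℂ (tI V z) = j := by
  have h := finrank_tan (L := ℂ) (ζ := z) hm
  rw [tI_eq_tS hV hj hf hz hm, tS_range]
  rw [Fintype.card_fin] at h
  omega

/-- The tangent space is at least as large as the dimension. -/
theorem le_finrank_tI (hV : PD j V) (hz : On z V) : j ≤ finrank ℂ (tI V z) := by
  obtain ⟨m, g, hg⟩ := Submodule.fg_iff_exists_fin_generating_family.1 (IsNoetherian.noetherian V)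
  have h1 : ∀ i, g i ∈ V := fun i => hg ▸ Submodule.subset_span ⟨i, rfl⟩
  have h2 : P054A.tan g z ≤ tI V z := fun v hv G hG =>
    (cmzar_span (Set.forall_mem_range.2 fun i => hz _ (h1 i)) ((tS_range g z).ge hv) (hg.ge hG)).2
  have h3 : finrank ℂ (P054A.tan g z) ≤ Fintype.card σ :=
    (Submodule.finrank_le _).trans (Module.finrank_fintype_fun_eq_card ℂ).le
  obtain ⟨ρ, γ, h4⟩ := exists_minor_ne g z (Nat.add_sub_cancel' h3).le
  have h5 := Simple.pd (j := finrank ℂ (P054A.tan g z)) ⟨fun i => hz _ (h1 (ρ i)), h4⟩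
    (by rw [Fintype.card_fin, Nat.add_sub_cancel' h3])
  exact (h5.dim_le hV (locP_le hV.prime (fun i => h1 (ρ i)) hz)).trans (Submodule.finrank_mono h2)

/-- A derivation which maps a generically simple system into the prime preserves the prime. -/
theorem der_mem_of_sys {c : ℕ} {f : Fin c → MvPolynomial σ ℂ} {J : Fin c → σ} (hV : PD j V)
    (hj : j + c = Fintype.card σ) (hf : ∀ i, f i ∈ V) (hz : On z V)
    (hm : eval z (minor f J) ≠ 0) (E : Derivation ℚ (MvPolynomial σ ℂ) (MvPolynomial σ ℂ))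
    (hE : ∀ i, E (f i) ∈ V) : ∀ G ∈ V, E G ∈ V := by
  intro G hG
  obtain ⟨q, hq, h⟩ := ((hV.locP_eq (by simpa using hj) hf hz hm).2.ge hG :)
  have h1 : ∀ H ∈ Ideal.span (Set.range f), E H ∈ V := fun H hH => by
    induction hH using Submodule.span_induction with
    | mem G hG => exact Set.forall_mem_range (p := fun G => E G ∈ V).2 hE G hG
    | zero => simp
    | add a b _ _ ha hb => exact map_add E a b ▸ add_mem ha hb
    | smul a b hb' hb =>
      rw [smul_eq_mul, E.leibniz]
      exact add_mem (V.mul_mem_left _ hb)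
        (V.mul_mem_right _ (Ideal.span_le.2 (Set.range_subset_iff.2 hf) hb'))
  have h2 := h1 _ h
  rw [E.leibniz] at h2
  exact (hV.prime.mem_or_mem ((V.add_mem_iff_left (V.mul_mem_right _ hG)).1 h2)).resolve_left
    fun e => hq (hz q e)

/-- A vector field tangent to `V` which does not vanish at a simple point. -/
theorem exists_field {c : ℕ} {f : Fin c → MvPolynomial σ ℂ} {J : Fin c → σ} (hV : PD j V)
    (h1 : 1 ≤ j) (hj : j + c = Fintype.card σ) (hf : ∀ i, f i ∈ V) (hz : On z V)
    (hm : eval z (minor f J) ≠ 0) :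
    ∃ E : Derivation ℚ (MvPolynomial σ ℂ) (MvPolynomial σ ℂ), (∀ c, E (C c) = 0) ∧
      (∀ G ∈ V, E G ∈ V) ∧ ∃ l, eval z (E (X l)) ≠ 0 := by
  obtain ⟨k, hk⟩ : ∃ k, k ∉ Set.range J := not_forall.1 fun h => by
    have h2 := Fintype.card_le_of_surjective J h
    rw [Fintype.card_fin] at h2
    omega
  obtain ⟨D, hD⟩ := exists_der_Dl f J (Pi.single k 1)
  have e : ∀ g, D g = Dk f J k g := fun g => by simp [hD, Dl, Pi.single_apply]
  refine ⟨D.restrictScalars ℚ, fun c => D.map_algebraMap c, fun G hG => ?_, k, ?_⟩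
  · have h2 := (hV.locP_eq (by simpa using hj) hf hz hm).2
    rw [Derivation.restrictScalars_apply, e, ← h2]
    exact Dk_mem_locP f J z k (h2.ge hG)
  · rwa [Derivation.restrictScalars_apply, e, Dk_X f J hk, if_pos rfl]

/-- A derivation which kills the scalars is a vector field. -/
theorem eval_field (E : Derivation ℚ (MvPolynomial σ ℂ) (MvPolynomial σ ℂ))
    (hE : ∀ c, E (C c) = 0) (z : σ → ℂ) (G : MvPolynomial σ ℂ) :
    eval z (E G) = dd G z fun l => eval z (E (X l)) := by
  induction G using MvPolynomial.induction_on with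
  | C c => simp [hE, dd]
  | add p q hp hq => rw [map_add, map_add, hp, hq, add_dd]
  | mul_X p l hp =>
    rw [E.leibniz, mul_dd, ← hp]
    simp [dd, pderiv_X, Pi.single_apply]

end Vale.Agent.P054S
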