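import Vale.Agent.P054S.CMEch
import Vale.Agent.P054S.CMZar

namespace Vale.Agent.P054S

open MvPolynomial Module Vale.Agent.P054A
open scoped Classical

variable {σ : Type} [Fintype σ] {T T' : Set ℂ} {V : Ideal (MvPolynomial σ ℂ)} {j : ℕ} {z : σ → ℂ}

theorem cmtr_dual (W : Submodule ℂ (σ → ℂ)) : ∃ S : Finset σ, S.card = finrank ℂ W ∧
    ∀ l ∈ S, ∃ v ∈ W, v l = 1 ∧ ∀ l' ∈ S, l' ≠ l → v l' = 0 := by
  let b := Module.finBasis ℂ W
  let A : Matrix (Fin (finrank ℂ W)) σ ℂ := Matrix.of fun i => (b i : σ → ℂ)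
  have h1 : LinearIndependent ℂ A.row := b.linearIndependent.map' W.subtype W.ker_subtype
  obtain ⟨ρ, γ, h2⟩ := LocA_minor A (r := finrank ℂ W) (by rw [h1.rank_matrix, Fintype.card_fin])
  have h3 := Matrix.nonsing_inv_mul _ (isUnit_iff_ne_zero.2 h2)
  have h4 : ∀ k k', (∑ i, (A.submatrix ρ γ)⁻¹ k i • (b (ρ i) : σ → ℂ)) (γ k') =
      if k = k' then 1 else 0 := fun k k' => by
    rw [← Matrix.one_apply, ← h3, Finset.sum_apply, Matrix.mul_apply]
    rfl
  have h5 : Function.Injective γ := fun k k' e => by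
    have a := h4 k k
    rw [e, h4, if_pos rfl] at a
    exact by_contra fun hn => zero_ne_one ((if_neg hn).symm.trans a)
  refine ⟨Finset.univ.image γ, by rw [Finset.card_image_of_injective _ h5]; simp, fun l hl => ?_⟩
  obtain ⟨k, -, rfl⟩ := Finset.mem_image.1 hl
  refine ⟨_, W.sum_mem fun i _ => W.smul_mem _ (b (ρ i)).2, (h4 k k).trans (if_pos rfl),
    fun l' hl' hne => ?_⟩
  obtain ⟨k', -, rfl⟩ := Finset.mem_image.1 hl'
  exact (h4 k k').trans (if_neg fun e => hne (by rw [e]))

theorem cmtr_zero {S : Finset σ}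
    (hS : ∀ l ∈ S, ∃ v ∈ tg T z, v l = 1 ∧ ∀ l' ∈ S, l' ≠ l → v l' = 0) (n : ℕ) :
    ∀ G : MvPolynomial σ ℂ, (∀ α, coeff α G ≠ 0 → ∑ l, α l < n ∧ ∀ l ∉ S, α l = 0) → CsP T G →
      eval z G = 0 → G = 0 := by
  induction n with
  | zero => exact fun G h _ _ => MvPolynomial.ext _ _ fun α => by_contra fun a => by simpa using (h α a).1
  | succ n ih =>
    intro G h hc h0
    have h1 : ∀ l α, coeff α (pderiv l G) ≠ 0 → coeff (α + Finsupp.single l 1) G ≠ 0 :=
      fun l α a => left_ne_zero_of_mul (by rwa [coeff_pderiv] at a)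
    have h2 : ∀ l ∉ S, pderiv l G = 0 := fun l hl => MvPolynomial.ext _ _ fun α =>
      by_contra fun a => by simpa using (h _ (h1 l α a)).2 l hl
    have h3 : ∀ l, pderiv l G = 0 := fun l => by
      by_cases hl : l ∈ S
      swap
      · exact h2 l hl
      obtain ⟨v, ⟨D, hD, rfl⟩, v1, v2⟩ := hS l hl
      refine ih _ (fun α a => ⟨?_, fun l' hl' => ?_⟩) (hc.pderiv l) ?_
      · have b := (h _ (h1 l α a)).1
        simp only [Finsupp.add_apply, Finset.sum_add_distrib, Finsupp.univ_sum_single_apply] at b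
        omega
      · have b := (h _ (h1 l α a)).2 l' hl'
        rw [Finsupp.add_apply] at b
        omega
      · have b := der_eval D z G
        rw [h0, map_zero, hc D hD, map_zero, zero_add, dd, Finset.sum_eq_single l] at b
        · rw [show vD D z l = 1 from v1, mul_one] at b
          exact b.symm
        · intro l' _ hne
          by_cases hl' : l' ∈ S
          · rw [show vD D z l' = 0 from v2 l' hl' hne, mul_zero]
          · rw [h2 l' hl', map_zero, zero_mul]
        · exact fun a => absurd (Finset.mem_univ l) a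
    have h4 : G = C (coeff 0 G) := MvPolynomial.ext _ _ fun α => by
      rw [coeff_C]
      split_ifs with e
      · rw [e]
      · obtain ⟨l, hl⟩ := DFunLike.ne_iff.1 (Ne.symm e)
        have b := coeff_pderiv (i := l) G (α - Finsupp.single l 1)
        rw [h3, coeff_zero, tsub_add_cancel_of_le
          (Finsupp.single_le_iff.2 (Nat.one_le_iff_ne_zero.2 hl))] at b
        exact (mul_eq_zero.1 b.symm).resolve_right (Nat.cast_add_one_ne_zero _)
    rw [h4, eval_C] at h0
    rw [h4, h0, map_zero]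

/-- The growth of a stable ideal bounds the velocities of its points. -/
theorem cm_tr {I : Ideal (MvPolynomial σ ℂ)} (hI : StI T I) (hz : On z I) {a : ℕ}
    (ha : ∀ M, H I M ≤ a * (M + 1) ^ j) : finrank ℂ (tg T z) ≤ j := by
  obtain ⟨S, h1, h2⟩ := cmtr_dual (tg T z)
  let W : Submodule ℂ (MvPolynomial σ ℂ) :=
    { carrier := {G | G ∈ I ∧ ∀ α, coeff α G ≠ 0 → ∀ l ∉ S, α l = 0}
      add_mem' := fun {G G'} a b => ⟨I.add_mem a.1 b.1, fun α h => by
        by_cases e : coeff α G = 0
        · exact b.2 α (by rwa [coeff_add, e, zero_add] at h)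
        · exact a.2 α e⟩
      zero_mem' := ⟨I.zero_mem, fun α h => absurd (coeff_zero α) h⟩
      smul_mem' := fun c G a => ⟨Submodule.smul_of_tower_mem I c a.1, fun α h =>
        a.2 α (right_ne_zero_of_smul (by rwa [coeff_smul] at h))⟩ }
  have h3 : W ≤ ⊥ := (ech_poly (T := T) W fun D hD G hG => ⟨hI D hD G hG.1, fun α h =>
    hG.2 α fun e => h (by rw [coeff_mD, e, map_zero])⟩).trans (Submodule.span_le.2 fun G hG =>
      cmtr_zero h2 (G.totalDegree + 1) G (fun α h => ⟨by
        have b := le_totalDegree (mem_support_iff.2 h)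
        rw [Finsupp.sum_fintype _ _ fun _ => rfl] at b
        omega, hG.1.2 α h⟩) hG.2 (hz G hG.1.1))
  rw [← h1]
  refine le_of_growth (C := 1) (a := a) (s := 0) (t := S.card) fun M => ?_
  rw [one_mul]
  exact (pow_le_H_of_free S (fun G hG hv => h3 ⟨hG, fun α h l hl => by_contra fun e => hl
    (hv l ((mem_vars l).2 ⟨α, mem_support_iff.2 h, Finsupp.mem_support_iff.2 e⟩))⟩) M).trans (ha _)

/-- Constant polynomials which vanish at a generic point lie in the prime. -/
theorem cm_gen (hV : PD j V) (hs : StI T V) (hz : Gen T j V z) {G : MvPolynomial σ ℂ}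
    (hG : CsP T G) (h0 : eval z G = 0) : G ∈ V := by
  by_contra hn
  rcases j with _ | j
  · exact hn (by rw [hV.eq_point hz.1]; exact locb_mem.2 h0)
  have h1 := cm_tr (T := T) (z := z) (I := V ⊔ Ideal.span {G}) (fun D hD P hP => by
      obtain ⟨x, hx, y, hy, rfl⟩ := Submodule.mem_sup.1 hP
      obtain ⟨c, rfl⟩ := Ideal.mem_span_singleton'.1 hy
      rw [mD_add, mD_mul, hG D hD, mul_zero, zero_add]
      exact Submodule.add_mem_sup (hs D hD x hx)
        (Ideal.mul_mem_right _ _ (Ideal.mem_span_singleton_self G)))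
    (fun P hP => by
      obtain ⟨x, hx, y, hy, rfl⟩ := Submodule.mem_sup.1 hP
      obtain ⟨c, rfl⟩ := Ideal.mem_span_singleton'.1 hy
      rw [map_add, map_mul, hz.1 x hx, h0, mul_zero, add_zero])
    (H_sec hV.prime hV.H_le hn (Nat.le_succ _) (Nat.succ_pos _))
  have h2 := hz.2
  omega

/-- At a generic point the velocities fill the tangent space. -/
theorem Adm.tan_eq (h : Adm T j V) (hz : Gen T j V z) :
    tI V z = tg T z ∧ finrank ℂ (tI V z) = j := by
  obtain ⟨h1, h2, c, f, J, h3, h4, h5, h6⟩ := h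
  have h7 := finrank_tI h1 h3 h4 hz.1 fun e => h5 (cm_gen h1 h2 hz h6 e)
  exact ⟨(Submodule.eq_of_le_of_finrank_le (tg_le_tI h2 hz.1) (h7.le.trans hz.2)).symm, h7⟩

/-- If a generic point lies in a constant flat then so does the variety. -/
theorem cm_flat (hV : PD j V) (hs : StI T V) (hz : Gen T j V z) {p : σ → ℂ} (hp : CsV T p)
    {W : Submodule ℂ (σ → ℂ)} (hW : StW T W) (h : z - p ∈ W) : ∀ y, On y V → y - p ∈ W := by
  intro y hy
  by_contra hn
  obtain ⟨u, u1, u2, u3⟩ := hW.exists_form hn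
  have e : ∀ x, eval x (∑ l, C (u l) * (X l - C (p l))) = u ⬝ᵥ (x - p) := fun x => by
    simp [dotProduct]
  exact u3 (e y ▸ hy _ (cm_gen hV hs hz (CsP.sum fun l _ => (csP_C fun D hD =>
    csV_iff.1 u1 D hD l).mul ((csP_X l).sub (csP_C fun D hD => csV_iff.1 hp D hD l)))
    ((e z).trans (u2 _ h))))

end Vale.Agent.P054S
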