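import Vale.Agent.P054S.CMTan
import Vale.Agent.P054S.CMTr
import Vale.Agent.P054S.Gpt

namespace Vale.Agent.P054S

open MvPolynomial Module Vale.Agent.P054A
open scoped Classical

variable {σ : Type} [Fintype σ] {T T' : Set ℂ} {U V₀ : Ideal (MvPolynomial σ ℂ)} {w : ℕ}
  {p q a : σ → ℂ} {K : Submodule ℂ (σ → ℂ)}

omit [Fintype σ] in
theorem cmkey_vD_zero (D : Dr) : vD D (0 : σ → ℂ) = 0 := by
  funext l
  simp [vD]

omit [Fintype σ] in
/-- The velocity of the generic point of the cone. -/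
theorem cmkey_vel {lam : ℕ} (o : Fin lam → σ → ℂ) (th : Option (Fin lam) → ℂ) {D : Dr}
    (hq : vD D q = 0) :
    vD D (q + th none • (a - q) + ∑ k, th (some k) • o k) =
      D (th none) • (a - q) + th none • vD D a +
        ∑ k, (D (th (some k)) • o k + th (some k) • vD D (o k)) := by
  rw [vD_add, vD_add, vD_smul, vD_sub, vD_sum, hq, zero_add, sub_zero]
  simp only [vD_smul]

/-- A generic point of the cone with the expected velocities. -/
theorem cmkey_pt (hT : T'.Finite) (hq : CsV T' q) {W : Submodule ℂ (σ → ℂ)} (hΩ : StW T' W)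
    (a : σ → ℂ) : ∃ (θ : ℂ) (o : σ → ℂ), θ ≠ 0 ∧ o ∈ W ∧
      tg T' (q + θ • (a - q) + o) = (tg T' a ⊔ Submodule.span ℂ {a - q}) ⊔ W := by
  let b := Module.finBasis ℂ W
  let o : Fin (finrank ℂ W) → σ → ℂ := fun k => (b k : σ → ℂ)
  have ho : ∀ k, o k ∈ W := fun k => (b k).2
  let T2 : Set ℂ := T' ∪ Set.range a ∪ Set.range fun x : Fin (finrank ℂ W) × σ => o x.1 x.2
  have hT2 : T2.Finite := (hT.union (Set.finite_range _)).union (Set.finite_range _)
  obtain ⟨th, hth⟩ := exists_genA hT2 (Option (Fin (finrank ℂ W)))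
  have hgen : ∀ c : Option (Fin (finrank ℂ W)) → ℂ,
      c none • (a - q) + ∑ k, c (some k) • o k ∈
        tg T' (q + th none • (a - q) + ∑ k, th (some k) • o k) := by
    intro c
    obtain ⟨D, hD, hc⟩ := hth c
    have hD' : D ∈ KD T' := fun t ht => hD t (Or.inl (Or.inl ht))
    have h1 : vD D a = 0 := funext fun l => hD _ (Or.inl (Or.inr ⟨l, rfl⟩))
    have h2 : ∀ k, vD D (o k) = 0 := fun k => funext fun l => hD _ (Or.inr ⟨(k, l), rfl⟩)
    refine ⟨D, hD', ?_⟩
    change vD D _ = _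
    rw [cmkey_vel o th (hq D hD'), h1, smul_zero, add_zero, hc]
    simp only [h2, smul_zero, add_zero, hc]
  have h0 : th none ≠ 0 := by
    intro h
    obtain ⟨D, -, hc⟩ := hth fun _ => 1
    have := hc none
    rw [h, map_zero] at this
    exact zero_ne_one this
  have hy : a - q ∈ tg T' (q + th none • (a - q) + ∑ k, th (some k) • o k) := by
    simpa using hgen fun x => Option.elim x 1 fun _ => 0
  have hW : W ≤ tg T' (q + th none • (a - q) + ∑ k, th (some k) • o k) := by
    intro v hv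
    have h1 := hgen fun x => Option.elim x 0 fun k => b.repr ⟨v, hv⟩ k
    have h2 : ∑ k, b.repr ⟨v, hv⟩ k • o k = v := by
      have h3 := congrArg W.subtype (b.sum_repr ⟨v, hv⟩)
      rw [map_sum] at h3
      simp only [map_smul] at h3
      exact h3
    simpa [h2] using h1
  have hs : ∀ D ∈ KD T', ∑ k, (D (th (some k)) • o k + th (some k) • vD D (o k)) ∈ W :=
    fun D hD => Submodule.sum_mem _ fun k _ =>
      W.add_mem (W.smul_mem _ (ho k)) (W.smul_mem _ (hΩ D hD _ (ho k)))
  refine ⟨th none, ∑ k, th (some k) • o k, h0,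
    Submodule.sum_mem _ fun k _ => W.smul_mem _ (ho k), le_antisymm ?_ ?_⟩
  · rintro v ⟨D, hD, rfl⟩
    change vD D _ ∈ _
    rw [cmkey_vel o th (hq D hD)]
    refine Submodule.add_mem _ (Submodule.mem_sup_left (Submodule.add_mem _ ?_ ?_))
      (Submodule.mem_sup_right (hs D hD))
    · exact Submodule.mem_sup_right (Submodule.smul_mem _ _ (Submodule.mem_span_singleton_self _))
    · exact Submodule.mem_sup_left (Submodule.smul_mem _ _ ⟨D, hD, rfl⟩)
  · refine sup_le (sup_le ?_ ((Submodule.span_singleton_le_iff_mem _ _).2 hy)) hW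
    rintro v ⟨D, hD, rfl⟩
    have h1 : vD D (q + th none • (a - q) + ∑ k, th (some k) • o k) ∈
        tg T' (q + th none • (a - q) + ∑ k, th (some k) • o k) := ⟨D, hD, rfl⟩
    have h2 := Submodule.sub_mem _ (Submodule.sub_mem _ h1 (hW (hs D hD)))
      (Submodule.smul_mem _ (D (th none)) hy)
    have e : vD D (q + th none • (a - q) + ∑ k, th (some k) • o k) -
        ∑ k, (D (th (some k)) • o k + th (some k) • vD D (o k)) - D (th none) • (a - q) =
          th none • vD D a := by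
      rw [cmkey_vel o th (hq D hD)]
      abel
    rw [e] at h2
    exact (Submodule.smul_mem_iff _ h0).1 h2

/-- The polynomials whose derivative along `v` lies in `U`. -/
def cmkeyW (U : Ideal (MvPolynomial σ ℂ)) (v : σ → ℂ) : Submodule ℂ (MvPolynomial σ ℂ) where
  carrier := {G | dv v G ∈ U}
  add_mem' := fun {G G'} h h' => by
    have e : dv v (G + G') = dv v G + dv v G' := by
      simp only [dv, map_add, add_mul, Finset.sum_add_distrib]
    change dv v (G + G') ∈ U
    rw [e]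
    exact U.add_mem h h'
  zero_mem' := by
    change dv v 0 ∈ U
    simp [dv]
  smul_mem' := fun c G h => by
    have e : dv v (c • G) = C c * dv v G := by
      simp only [dv, Finset.mul_sum, Derivation.map_smul]
      simp only [smul_eq_C_mul, mul_assoc]
    change dv v (c • G) ∈ U
    rw [e]
    exact U.mul_mem_left _ h

/-- The tangent space of the cone along the generic ruling in the slice. -/
theorem cm_key (hT : T'.Finite) (hU : Adm T' (w + 1) U) (hx : Vx q U) (hq : CsV T' q)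
    (hΩ : StW T' (Om U)) (hl : U ≤ V₀) (ha : On a V₀) (hp : q - p ∈ Om U) (hnf : NFl w p V₀)
    (hK : Om U ⊓ K = ⊥) (haK : a - q ∈ K) (htK : tg T' a ≤ K) (hout : a - q ∉ tg T' a)
    (hr : w ≤ finrank ℂ (tg T' a) + finrank ℂ (Om U)) :
    finrank ℂ (tI U a) = w + 1 ∧ (∀ v, CsV T' v → v ∈ tI U a → v ∈ K → v = 0) ∧
      (∃ D ∈ KD T', ∃ D' ∈ KD T', vD D' (vD D a) ∉ tI U a) ∧ finrank ℂ (Om U) < w := by
  obtain ⟨θ, o, hθ, ho, htg⟩ := cmkey_pt hT hq hΩ a
  have haU : On a U := fun g hg => ha g (hl hg)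
  have hcU : On (q + θ • (a - q) + o) U := by
    simpa using ho _ (hx a haU θ) 1
  have hy0 : a - q ≠ 0 := fun h => hout (h ▸ Submodule.zero_mem _)
  have f1 : finrank ℂ (tg T' a ⊔ Submodule.span ℂ {a - q} : Submodule ℂ (σ → ℂ)) =
      finrank ℂ (tg T' a) + 1 := by
    have h1 := Submodule.finrank_sup_add_finrank_inf_eq (tg T' a) (Submodule.span ℂ {a - q})
    have h2 : tg T' a ⊓ Submodule.span ℂ {a - q} = ⊥ :=
      disjoint_iff.1 ((Submodule.disjoint_span_singleton' hy0).2 hout)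
    rw [h2, finrank_bot, add_zero, finrank_span_singleton hy0] at h1
    exact h1
  have f2 : finrank ℂ ((tg T' a ⊔ Submodule.span ℂ {a - q}) ⊔ Om U : Submodule ℂ (σ → ℂ)) =
      finrank ℂ (tg T' a) + 1 + finrank ℂ (Om U) := by
    have h1 := Submodule.finrank_sup_add_finrank_inf_eq
      (tg T' a ⊔ Submodule.span ℂ {a - q}) (Om U)
    have h2 : (tg T' a ⊔ Submodule.span ℂ {a - q}) ⊓ Om U = ⊥ := by
      refine le_bot_iff.1 (le_trans ?_ hK.le)
      exact le_inf inf_le_right (inf_le_left.trans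
        (sup_le htK ((Submodule.span_singleton_le_iff_mem _ _).2 haK)))
    rw [h2, finrank_bot, add_zero, f1] at h1
    exact h1
  have hgen : Gen T' (w + 1) U (q + θ • (a - q) + o) := ⟨hcU, by rw [htg, f2]; omega⟩
  obtain ⟨e1, e2⟩ := hU.tan_eq hgen
  have e3 : tI U (q + θ • (a - q) + o) = tI U a := tI_move hU.1.prime hx hθ ho a
  have e4 : tI U a = (tg T' a ⊔ Submodule.span ℂ {a - q}) ⊔ Om U := by rw [← e3, e1, htg]
  have e5 : finrank ℂ (tI U a) = w + 1 := by rw [← e3, e2]
  have k2 : ∃ D ∈ KD T', ∃ D' ∈ KD T', vD D' (vD D a) ∉ tI U a := by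
    by_contra hcon
    have h1 : ∀ D ∈ KD T', ∀ D' ∈ KD T', vD D' (vD D a) ∈ tI U a := fun D hD D' hD' => by
      by_contra h
      exact hcon ⟨D, hD, D', hD', h⟩
    have t1 : tg T' a ≤ tI U a := e4 ▸ le_sup_left.trans le_sup_left
    have t2 : a - q ∈ tI U a := e4 ▸ Submodule.mem_sup_left
      (Submodule.mem_sup_right (Submodule.mem_span_singleton_self _))
    have t3 : Om U ≤ tI U a := e4 ▸ le_sup_right
    have hst : StW T' (tI U a) := by
      intro D' hD' v hv
      rw [e4] at hv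
      obtain ⟨y, hy, z, hz, rfl⟩ := Submodule.mem_sup.1 hv
      obtain ⟨_, ⟨D, hD, rfl⟩, x, hx', rfl⟩ := Submodule.mem_sup.1 hy
      obtain ⟨s, rfl⟩ := Submodule.mem_span_singleton.1 hx'
      rw [vD_add, vD_add, vD_smul, vD_sub, hq D' hD', sub_zero]
      exact Submodule.add_mem _ (Submodule.add_mem _ (h1 D hD D' hD') (Submodule.add_mem _
        (Submodule.smul_mem _ _ t2) (Submodule.smul_mem _ _ (t1 ⟨D', hD', rfl⟩))))
        (t3 (hΩ D' hD' z hz))
    have hc : q + θ • (a - q) + o - q ∈ tI U a := by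
      have e : q + θ • (a - q) + o - q = θ • (a - q) + o := by abel
      rw [e]
      exact Submodule.add_mem _ (Submodule.smul_mem _ _ t2) (t3 ho)
    obtain ⟨z, hz, hz'⟩ := hnf (tI U a) e5.le
    have h2 := cm_flat hU.1 hU.2.1 hgen hq hst hc z fun g hg => hz g (hl hg)
    refine hz' ?_
    have e : z - p = (z - q) + (q - p) := by abel
    rw [e]
    exact Submodule.add_mem _ h2 (t3 hp)
  refine ⟨e5, fun v hv hva hvK => ?_, k2, ?_⟩
  · have h1 : v ∈ Om U := by
      refine mem_Om_of_dv (hU.2.1.ind (cmkeyW U v) fun G hG hc => ?_)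
      refine cm_gen hU.1 hU.2.1 hgen (hc.dv hv) ?_
      rw [eval_dv]
      exact (e3 ▸ hva : v ∈ tI U (q + θ • (a - q) + o)) G hG
    have h2 : v ∈ Om U ⊓ K := ⟨h1, hvK⟩
    rw [hK] at h2
    exact h2
  · have h1 : finrank ℂ (tg T' a) ≠ 0 := by
      intro h
      obtain ⟨D, hD, D', -, h2⟩ := k2
      have h3 : vD D a ∈ tg T' a := ⟨D, hD, rfl⟩
      rw [Submodule.finrank_eq_zero.1 h, Submodule.mem_bot] at h3
      rw [h3, cmkey_vD_zero] at h2
      exact h2 (Submodule.zero_mem _)
    rw [e4, f2] at e5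
    omega

end Vale.Agent.P054S
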