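import Vale.Agent.P054S.CMHom
import Vale.Agent.P054S.CMTr

namespace Vale.Agent.P054S

open MvPolynomial Module Vale.Agent.P054A
open scoped Classical

variable {σ : Type} [Fintype σ] {T : Set ℂ} {U V V₀ V₁ : Ideal (MvPolynomial σ ℂ)} {w : ℕ}
  {q a : σ → ℂ}

theorem cmsv_fac {g : Polynomial ℂ} {j N : ℕ} (h0 : g.coeff j ≠ 0) (hN : g.coeff (j + N) ≠ 0)
    (hl : ∀ k < j, g.coeff k = 0) :
    ∃ g', g = Polynomial.X ^ j * g' ∧ g'.eval 0 ≠ 0 ∧ N ≤ g'.natDegree := by
  obtain ⟨g', rfl⟩ := Polynomial.X_pow_dvd_iff.2 hl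
  refine ⟨g', rfl, ?_, Polynomial.le_natDegree_of_ne_zero ?_⟩
  · rw [← Polynomial.coeff_zero_eq_eval_zero, ← Polynomial.coeff_X_pow_mul g' j 0, zero_add]
    exact h0
  · rw [← Polynomial.coeff_X_pow_mul g' j N, add_comm]
    exact hN

theorem cmsv_root {g : Polynomial ℂ} {j N : ℕ} (h0 : g.coeff j ≠ 0) (hN : g.coeff (j + N) ≠ 0)
    (hl : ∀ k < j, g.coeff k = 0) (h1 : 1 ≤ N) : ∃ t, t ≠ 0 ∧ g.eval t = 0 := by
  obtain ⟨g', rfl, h2, h3⟩ := cmsv_fac h0 hN hl
  obtain ⟨t, ht⟩ := Complex.exists_root (f := g')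
    (Polynomial.natDegree_pos_iff_degree_pos.1 (h1.trans h3))
  refine ⟨t, fun h => h2 (h ▸ ht.eq_zero), ?_⟩
  rw [Polynomial.eval_mul, ht.eq_zero, mul_zero]

theorem cmsv_root2 {g : Polynomial ℂ} {j N : ℕ} (h0 : g.coeff j ≠ 0) (hN : g.coeff (j + N) ≠ 0)
    (hl : ∀ k < j, g.coeff k = 0) (h1 : 2 ≤ N) (hall : ∀ t, t ≠ 0 → g.eval t = 0 → t = 1) :
    g.derivative.eval 1 = 0 := by
  obtain ⟨g', rfl, h2, h3⟩ := cmsv_fac h0 hN hl
  have h4 : ∀ t, g'.eval t = 0 → t = 1 := fun t ht =>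
    hall t (fun h => h2 (h ▸ ht)) (by rw [Polynomial.eval_mul, ht, mul_zero])
  obtain ⟨t, ht⟩ := Complex.exists_root (f := g')
    (Polynomial.natDegree_pos_iff_degree_pos.1 (by omega))
  obtain rfl := h4 t ht
  obtain ⟨g₂, rfl⟩ := Polynomial.dvd_iff_isRoot.2 ht
  have h5 := Polynomial.natDegree_mul_le (p := Polynomial.X - Polynomial.C (1 : ℂ)) (q := g₂)
  rw [Polynomial.natDegree_X_sub_C] at h5
  obtain ⟨s, hs⟩ := Complex.exists_root (f := g₂)
    (Polynomial.natDegree_pos_iff_degree_pos.1 (by omega))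
  obtain rfl := h4 s (by rw [Polynomial.eval_mul, hs.eq_zero, mul_zero])
  simp [Polynomial.derivative_mul, hs.eq_zero]

omit [Fintype σ] in
theorem cmsv_add (k : ℕ) (G H : MvPolynomial σ ℂ) : hc q k (G + H) = hc q k G + hc q k H := by
  simp only [hc, map_add, Polynomial.coeff_add]

omit [Fintype σ] in
theorem cmsv_sub (k : ℕ) (G H : MvPolynomial σ ℂ) : hc q k (G - H) = hc q k G - hc q k H := by
  simp only [hc, map_sub, Polynomial.coeff_sub]

omit [Fintype σ] in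
theorem cmsv_smul (k : ℕ) (c : ℂ) (G : MvPolynomial σ ℂ) : hc q k (c • G) = c • hc q k G := by
  simp only [hc, map_smul, Polynomial.coeff_smul]

omit [Fintype σ] in
theorem cmsv_hc (k m : ℕ) (G : MvPolynomial σ ℂ) :
    hc q k (hc q m G) = if m = k then hc q m G else 0 := by
  rw [hc, hφ_hc, Polynomial.coeff_monomial]

omit [Fintype σ] in
theorem cmsv_mul (k m : ℕ) (G H : MvPolynomial σ ℂ) :
    hc q k (hc q m G * H) = if m ≤ k then hc q m G * hc q (k - m) H else 0 := by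
  rw [hc, map_mul, hφ_hc, ← Polynomial.C_mul_X_pow_eq_monomial, mul_assoc, Polynomial.coeff_C_mul,
    Polynomial.coeff_X_pow_mul', mul_ite, mul_zero]
  rfl

omit [Fintype σ] in
theorem cmsv_mem {G : MvPolynomial σ ℂ} (h : ∀ k, hc q k G ∈ U) : G ∈ U := by
  rw [← sum_hc q G (Nat.lt_succ_self _)]
  exact Ideal.sum_mem _ fun k _ => h k

omit [Fintype σ] in
theorem cmsv_eval (m : ℕ) (t : ℂ) (G : MvPolynomial σ ℂ) :
    eval (q + t • (a - q)) (hc q m G) = eval a (hc q m G) * t ^ m := by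
  rw [eval_hφ, hφ_hc, Polynomial.map_monomial, Polynomial.eval_monomial]

theorem cmsv_hom (hU : PD (w + 1) U) (hV : PD w V) (hx : Vx q U) (hl : U ≤ V) (hn : ¬ Vx q V)
    {m : ℕ} {G : MvPolynomial σ ℂ} (h : hc q m G ∈ V) : hc q m G ∈ U := by
  refine (mem_cone_iff hU hV hx hl hn).2 fun k => ?_
  rw [cmsv_hc]
  split_ifs
  · exact h
  · exact V.zero_mem

/-- Members of `V` whose components outside a window lie in `U`. -/
def cmsvW (q : σ → ℂ) (U V : Ideal (MvPolynomial σ ℂ)) (j n : ℕ) :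
    Submodule ℂ (MvPolynomial σ ℂ) where
  carrier := {G | G ∈ V ∧ ∀ k, k < j ∨ j + n < k → hc q k G ∈ U}
  add_mem' := fun ha hb => ⟨V.add_mem ha.1 hb.1, fun k hk => by
    rw [cmsv_add]
    exact U.add_mem (ha.2 k hk) (hb.2 k hk)⟩
  zero_mem' := ⟨V.zero_mem, fun k _ => by simp [hc]⟩
  smul_mem' := fun c _ ha => ⟨Submodule.smul_of_tower_mem V c ha.1, fun k hk => by
    rw [cmsv_smul]
    exact Submodule.smul_of_tower_mem U c (ha.2 k hk)⟩

omit [Fintype σ] in
theorem cmsv_win {G : MvPolynomial σ ℂ} (h : G ∈ V) : ∃ n, G ∈ cmsvW q U V 0 n :=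
  ⟨(hφ q G).natDegree, h, fun k hk => by
    rw [hc, Polynomial.coeff_eq_zero_of_natDegree_lt (by omega)]
    exact U.zero_mem⟩

omit [Fintype σ] in
theorem cmsv_kill {j N : ℕ} {G : MvPolynomial σ ℂ} (hG : G ∈ cmsvW q U V j N) (hN : 1 ≤ N)
    (hmin : ∀ n < N, ∀ i, ∀ H ∈ cmsvW q U V i n, H ∈ U) {x : σ → ℂ} (hx : On x U)
    (h0 : eval x G = 0) (h1 : eval x (hc q (j + N) G) ≠ 0) : On x V := by
  have key : ∀ n i, ∀ H ∈ cmsvW q U V i n, eval x H = 0 := by
    intro n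
    induction n with
    | zero => exact fun i H hH => hx H (hmin 0 hN i H hH)
    | succ n ih =>
      intro i H hH
      by_cases hn : n + 1 < N
      · exact hx H (hmin _ hn i H hH)
      have h2 : hc q (j + N) G * H - hc q (i + (n + 1)) H * G ∈ cmsvW q U V (j + N + i) n := by
        refine ⟨V.sub_mem (V.mul_mem_left _ hH.1) (V.mul_mem_left _ hG.1), fun k hk => ?_⟩
        rw [cmsv_sub, cmsv_mul, cmsv_mul]
        by_cases h3 : k = j + N + (i + (n + 1))
        · rw [if_pos (by omega), if_pos (by omega), show k - (j + N) = i + (n + 1) by omega,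
            show k - (i + (n + 1)) = j + N by omega, mul_comm, sub_self]
          exact U.zero_mem
        refine U.sub_mem ?_ ?_
        · split_ifs
          · exact U.mul_mem_left _ (hH.2 _ (by omega))
          · exact U.zero_mem
        · split_ifs
          · exact U.mul_mem_left _ (hG.2 _ (by omega))
          · exact U.zero_mem
      have h4 := ih _ _ h2
      rw [map_sub, map_mul, map_mul, h0, mul_zero, sub_zero] at h4
      exact (mul_eq_zero.1 h4).resolve_left h1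
  intro H hH
  obtain ⟨n, hn⟩ := cmsv_win (q := q) (U := U) hH
  exact key n 0 H hn

theorem cmsv_min (hU : PD (w + 1) U) (h1 : PD w V) (hsU : StI T U) (hs1 : StI T V)
    (hq : CsV T q) (hx : Vx q U) (hl1 : U ≤ V) (hn1 : ¬ Vx q V) :
    ∃ (j N : ℕ) (G : MvPolynomial σ ℂ), 1 ≤ N ∧ CsP T G ∧ G ∈ cmsvW q U V j N ∧ hc q j G ∉ U ∧
      hc q (j + N) G ∉ U ∧ ∀ n < N, ∀ i, ∀ H ∈ cmsvW q U V i n, H ∈ U := by
  have hex : ∃ n, ∃ j, ∃ G ∈ cmsvW q U V j n, G ∉ U := by
    by_contra hne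
    refine hn1 (le_antisymm hl1 (fun G hG => ?_) ▸ hx)
    obtain ⟨n, hn⟩ := cmsv_win (q := q) (U := U) hG
    by_contra hG'
    exact hne ⟨n, 0, G, hn, hG'⟩
  obtain ⟨j, G₀, hG₀, hG₀'⟩ := Nat.find_spec hex
  have hmin : ∀ n < Nat.find hex, ∀ i, ∀ H ∈ cmsvW q U V i n, H ∈ U := fun n hn i H hH =>
    by_contra fun h => Nat.find_min hex hn ⟨i, H, hH, h⟩
  generalize Nat.find hex = N at hG₀ hmin
  have hc' : ∃ G ∈ cmsvW q U V j N, CsP T G ∧ G ∉ U := by
    by_contra hne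
    have h2 := ech_poly (T := T) (cmsvW q U V j N) (fun D hD G hG => ⟨hs1 D hD G hG.1,
      fun k hk => by
        rw [← mD_hc hq hD]
        exact hsU D hD _ (hG.2 k hk)⟩) hG₀
    refine hG₀' ((Submodule.span_le (p := U.restrictScalars ℂ)).2 (fun G hG => ?_) h2)
    exact by_contra fun h => hne ⟨G, hG.1, hG.2, h⟩
  obtain ⟨G, hG, hGc, hGU⟩ := hc'
  cases N with
  | zero =>
    exfalso
    have h2 : G - hc q j G ∈ U := cmsv_mem (q := q) fun k => by
      rw [cmsv_sub, cmsv_hc]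
      split_ifs with h
      · rw [h, sub_self]
        exact U.zero_mem
      · rw [sub_zero]
        exact hG.2 k (by omega)
    have h3 : hc q j G ∈ V := by
      have h4 := V.sub_mem hG.1 (hl1 h2)
      rwa [sub_sub_cancel] at h4
    have h4 := U.add_mem h2 (cmsv_hom hU h1 hx hl1 hn1 h3)
    rw [sub_add_cancel] at h4
    exact hGU h4
  | succ M =>
    refine ⟨j, M + 1, G, by omega, hGc, hG, fun h => hGU (hmin M (by omega) (j + 1) G
      ⟨hG.1, fun k hk => ?_⟩), fun h => hGU (hmin M (by omega) j G ⟨hG.1, fun k hk => ?_⟩), hmin⟩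
    · by_cases h2 : k = j
      · exact h2 ▸ h
      · exact hG.2 k (by omega)
    · by_cases h2 : k = j + (M + 1)
      · exact h2 ▸ h
      · exact hG.2 k (by omega)

/-- At a generic point the ray to a point which is not a vertex is transversal. -/
theorem ray_notin (hV : PD w V) (hs : StI T V) (ha : Gen T w V a) (hq : CsV T q)
    (hn : ¬ Vx q V) : a - q ∉ tI V a := by
  intro h
  let W : Submodule ℂ (MvPolynomial σ ℂ) :=
    { carrier := {G | eu q G ∈ V}
      add_mem' := fun {G H} hG hH => by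
        have e : eu q (G + H) = eu q G + eu q H := by
          simp only [eu, map_add, add_mul, Finset.sum_add_distrib]
        exact Set.mem_ofPred_eq.mpr (e ▸ V.add_mem hG hH)
      zero_mem' := by simp [eu]
      smul_mem' := fun c G hG => by
        have e : eu q (c • G) = c • eu q G := by
          simp only [eu, Derivation.map_smul, smul_mul_assoc, Finset.smul_sum]
        exact Set.mem_ofPred_eq.mpr (e ▸ Submodule.smul_of_tower_mem V c hG) }
  refine hn (vx_of_eu hV.prime (hs.ind W fun G hG hGc => cm_gen hV hs ha (hGc.eu hq) ?_))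
  rw [eval_eu]
  exact h G hG

/-- The generic ruling of the cone meets `V₁` in a second point. -/
theorem cm_second (hU : PD (w + 1) U) (h0 : PD w V₀) (h1 : PD w V₁) (hsU : StI T U)
    (hs0 : StI T V₀) (hs1 : StI T V₁) (hq : CsV T q) (hx : Vx q U) (hl0 : U ≤ V₀) (hl1 : U ≤ V₁)
    (hn0 : ¬ Vx q V₀) (hn1 : ¬ Vx q V₁) (ha : Gen T w V₀ a) (h : V₀ ≠ V₁ ∨ ¬ Bir q V₁) :
    ∃ t : ℂ, t ≠ 0 ∧ t ≠ 1 ∧ On (q + t • (a - q)) V₁ := by
  obtain ⟨j, N, G, hN, hGc, hG, hj, hjN, hmin⟩ := cmsv_min hU h1 hsU hs1 hq hx hl1 hn1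
  have haU : On a U := fun H hH => ha.1 H (hl0 hH)
  have hne : ∀ m, hc q m G ∉ U → eval a (hc q m G) ≠ 0 := fun m hm h0' =>
    hm (cmsv_hom hU h0 hx hl0 hn0 (cm_gen h0 hs0 ha (hGc.hc hq m) h0'))
  have hco : ∀ (H : MvPolynomial σ ℂ) (k : ℕ),
      ((hφ q H).map (eval a)).coeff k = eval a (hc q k H) := fun H k => Polynomial.coeff_map _ _
  have g0 : ((hφ q G).map (eval a)).coeff j ≠ 0 := hco G j ▸ hne j hj
  have gN : ((hφ q G).map (eval a)).coeff (j + N) ≠ 0 := hco G (j + N) ▸ hne _ hjN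
  have gl : ∀ k < j, ((hφ q G).map (eval a)).coeff k = 0 := fun k hk =>
    (hco G k).trans (haU _ (hG.2 k (Or.inl hk)))
  have hon : ∀ t, t ≠ 0 → ((hφ q G).map (eval a)).eval t = 0 → On (q + t • (a - q)) V₁ :=
    fun t ht h0' => cmsv_kill hG hN hmin (hx a haU t) ((eval_hφ q a t G).trans h0') (by
      rw [cmsv_eval]
      exact mul_ne_zero (hne _ hjN) (pow_ne_zero _ ht))
  have ha1 : q + (1 : ℂ) • (a - q) = a := by rw [one_smul, add_sub_cancel]
  by_cases hV : V₀ = V₁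
  swap
  · obtain ⟨t, ht, ht'⟩ := cmsv_root g0 gN gl hN
    refine ⟨t, ht, fun h1' => hV ?_, hon t ht ht'⟩
    have h2 := hon t ht ht'
    rw [h1', ha1] at h2
    exact (h1.eq_of_le h0 (hs1.ind (V₀.restrictScalars ℂ) fun H hH hHc =>
      cm_gen h0 hs0 ha hHc (h2 H hH))).symm
  subst hV
  have hB : ¬ Bir q V₀ := h.resolve_left fun h => h rfl
  by_contra hno
  have hall : ∀ t, t ≠ 0 → ((hφ q G).map (eval a)).eval t = 0 → t = 1 := fun t ht ht' =>
    by_contra fun h1' => hno ⟨t, ht, h1', hon t ht ht'⟩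
  rcases hN.eq_or_lt with hN1 | hN2
  · subst hN1
    refine hB ⟨j, hc q j G, hc q (j + 1) G, hφ_hc q j G, hφ_hc q (j + 1) G,
      fun h2 => hjN (cmsv_hom hU h0 hx hl0 hn0 h2), ?_⟩
    have h2 : G - (hc q j G + hc q (j + 1) G) ∈ U := cmsv_mem (q := q) fun k => by
      rw [cmsv_sub, cmsv_add, cmsv_hc, cmsv_hc]
      split_ifs with h3 h4 h4
      · omega
      · rw [h3, add_zero, sub_self]
        exact U.zero_mem
      · rw [h4, zero_add, sub_self]
        exact U.zero_mem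
      · rw [add_zero, sub_zero]
        exact hG.2 k (by omega)
    have h4 := V₀.sub_mem hG.1 (hl0 h2)
    rwa [sub_sub_cancel] at h4
  have hd := cmsv_root2 g0 gN gl hN2 hall
  have he : (hφ q (eu q G)).map (eval a) =
      Polynomial.X * ((hφ q G).map (eval a)).derivative := by
    ext k
    rw [hco, hc_eu, smul_eval]
    cases k with
    | zero => simp
    | succ k =>
      rw [Polynomial.coeff_X_mul, Polynomial.coeff_derivative, hco, Nat.cast_succ, mul_comm]
  have h2 : eu q G ∈ V₀ := cm_gen h0 hs0 ha (hGc.eu hq) (by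
    rw [← ha1, eval_hφ, he, Polynomial.eval_mul, hd, mul_zero])
  have h3 : ∀ k, hc q k (eu q G - (j : ℂ) • G) = ((k : ℂ) - j) • hc q k G := fun k => by
    rw [cmsv_sub, cmsv_smul, hc_eu, sub_smul]
  have h4 : eu q G - (j : ℂ) • G ∈ U := hmin (N - 1) (by omega) (j + 1) _
    ⟨V₀.sub_mem h2 (Submodule.smul_of_tower_mem V₀ _ hG.1), fun k hk => by
      rw [h3]
      by_cases h5 : k = j
      · rw [h5, sub_self, zero_smul]
        exact U.zero_mem
      · exact Submodule.smul_of_tower_mem U _ (hG.2 k (by omega))⟩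
  have h5 := Submodule.smul_of_tower_mem U (N : ℂ)⁻¹ ((vx_iff hU.prime).1 hx _ h4 (j + N))
  rw [h3, Nat.cast_add, add_sub_cancel_left, inv_smul_smul₀ (Nat.cast_ne_zero.2 (by omega))] at h5
  exact hjN h5

end Vale.Agent.P054S
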