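import Vale.Agent.P054S.CMTan
import Vale.Agent.P054S.CMSv

namespace Vale.Agent.P054S

open MvPolynomial Module Vale.Agent.P054A
open scoped Classical

variable {σ : Type} [Fintype σ] {T T₁ T' : Set ℂ} {U V₀ V₁ : Ideal (MvPolynomial σ ℂ)} {w : ℕ}
  {q a : σ → ℂ}

theorem cmsec_sup {W : Submodule ℂ (σ → ℂ)} {y : σ → ℂ} (hy : y ∉ W) :
    finrank ℂ (W ⊔ Submodule.span ℂ {y} : Submodule ℂ (σ → ℂ)) = finrank ℂ W + 1 := by
  have h0 : y ≠ 0 := fun h => hy (h ▸ W.zero_mem)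
  have h1 := Submodule.finrank_sup_add_finrank_inf_eq W (Submodule.span ℂ {y})
  have h2 : W ⊓ Submodule.span ℂ {y} = ⊥ :=
    disjoint_iff.1 (Submodule.disjoint_span_singleton_of_notMem hy)
  rw [h2, finrank_bot, finrank_span_singleton h0] at h1
  exact h1

omit [Fintype σ] in
theorem cmsec_der (hq : CsV T q) {D : Dr} (hD : D ∈ KD T) (t : ℂ) :
    vD D (q + t • (a - q)) = D t • (a - q) + t • vD D a := by
  rw [vD_add, vD_smul, vD_sub, hq D hD, zero_add, sub_zero]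

/-- The second point is generic. -/
theorem gen_second (hq : CsV T q) (hr : w ≤ finrank ℂ (tg T a)) (hout : a - q ∉ tg T a) {t : ℂ}
    (ht : t ≠ 0) : w ≤ finrank ℂ (tg T (q + t • (a - q))) := by
  have h0 : a - q ≠ 0 := fun h => hout (h ▸ Submodule.zero_mem _)
  have h1 : tg T a ⊔ Submodule.span ℂ {a - q}
      ≤ tg T (q + t • (a - q)) ⊔ Submodule.span ℂ {a - q} := by
    refine sup_le ?_ le_sup_right
    intro v hv
    obtain ⟨D, hD, rfl⟩ := mem_tg.1 hv
    have e : vD D a = t⁻¹ • (vD D (q + t • (a - q)) - D t • (a - q)) := by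
      rw [cmsec_der hq hD, add_sub_cancel_left, smul_smul, inv_mul_cancel₀ ht, one_smul]
    rw [e]
    exact Submodule.smul_mem _ _ (Submodule.sub_mem _
      (Submodule.mem_sup_left (mem_tg.2 ⟨D, hD, rfl⟩))
      (Submodule.mem_sup_right (Submodule.smul_mem _ _ (Submodule.mem_span_singleton_self _))))
  have h2 := Submodule.finrank_mono h1
  have h3 := Submodule.finrank_sup_add_finrank_inf_eq (tg T (q + t • (a - q)))
    (Submodule.span ℂ {a - q})
  rw [cmsec_sup hout] at h2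
  rw [finrank_span_singleton h0] at h3
  omega

/-- The data at the second point. -/
theorem cm_sec {c lam : ℕ} {f : Fin c → MvPolynomial σ ℂ} {J : Fin c → σ} {u : Fin lam → σ → ℂ}
    (hU : PD (w + 1) U) (h1 : PD w V₁) (hc : w + c = Fintype.card σ) (hf : ∀ i, f i ∈ V₁)
    (hm : minor f J ∉ V₁) (hmc : CsP T₁ (minor f J)) (hs1 : StI T₁ V₁) (hq₁ : CsV T₁ q)
    (hq : CsV T' q) (hx : Vx q U) (hl1 : U ≤ V₁) (hn1 : ¬ Vx q V₁) (ha : On a U)
    (hr : w ≤ finrank ℂ (tg T₁ a)) (hout : a - q ∉ tg T₁ a) {t : ℂ} (ht0 : t ≠ 0) (ht1 : t ≠ 1)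
    (hb : On (q + t • (a - q)) V₁) (haK : a - q ∈ kerU u) (hK : Om U ⊓ kerU u = ⊥)
    (hlam : finrank ℂ (Om U) = lam) (k0 : finrank ℂ (tI U a) = w + 1)
    (k1 : ∀ v, CsV T' v → v ∈ tI U a → v ∈ kerU u → v = 0)
    (k2 : ∃ D ∈ KD T', ∃ D' ∈ KD T', vD D' (vD D a) ∉ tI U a) :
    Sec T' w V₁ f J u a (q + t • (a - q)) := by
  have gen : Gen T₁ w V₁ (q + t • (a - q)) := ⟨hb, gen_second hq₁ hr hout ht0⟩
  have mn : eval (q + t • (a - q)) (minor f J) ≠ 0 := fun h0 => hm (cm_gen h1 hs1 gen hmc h0)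
  have ray := ray_notin h1 hs1 gen hq₁ hn1
  have e1 : q + t • (a - q) - a = (t - 1) • (a - q) := by
    rw [sub_smul, one_smul]
    abel
  have ht : t - 1 ≠ 0 := sub_ne_zero.2 ht1
  have y1 : a - q ∉ tI V₁ (q + t • (a - q)) := fun h => ray (by
    rw [add_sub_cancel_left]
    exact Submodule.smul_mem _ _ h)
  have y2 : q + t • (a - q) - a ∉ tI V₁ (q + t • (a - q)) := fun h => y1 (by
    rw [e1] at h
    exact (Submodule.smul_mem_iff _ ht).1 h)
  have mv : tI U (q + t • (a - q)) = tI U a := by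
    have h := tI_move hU.prime hx ht0 (Submodule.zero_mem _) a
    rwa [add_zero] at h
  have l1 : tI V₁ (q + t • (a - q)) ≤ tI U a := mv ▸ tI_anti hl1 _
  have l2 : a - q ∈ tI U a := ray_mem_tI hx ha
  have eq : tI V₁ (q + t • (a - q)) ⊔ Submodule.span ℂ {q + t • (a - q) - a} = tI U a := by
    refine Submodule.eq_of_le_of_finrank_le (sup_le l1 ?_) ?_
    · rw [Submodule.span_singleton_le_iff_mem, e1]
      exact Submodule.smul_mem _ _ l2
    · rw [cmsec_sup y2, finrank_tI h1 hc hf hb mn, k0]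
  refine ⟨⟨q, t, hq, ht0, ht1, rfl⟩, hb, mn, ?_, y2, ?_, ?_, ?_⟩
  · rw [e1]
    exact Submodule.smul_mem _ _ haK
  · rw [eq]
    exact k1
  · rw [eq]
    exact k2
  · have x1 : (tI V₁ (q + t • (a - q)) ⊓ kerU u) ⊔ Submodule.span ℂ {a - q} ≤ kerU u :=
      sup_le inf_le_right ((Submodule.span_singleton_le_iff_mem _ _).2 haK)
    have x2 : (tI V₁ (q + t • (a - q)) ⊓ kerU u) ⊔ Submodule.span ℂ {a - q} ≤ tI U a :=
      sup_le (inf_le_left.trans l1) ((Submodule.span_singleton_le_iff_mem _ _).2 l2)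
    have x3 := cmsec_sup (W := tI V₁ (q + t • (a - q)) ⊓ kerU u) (y := a - q) fun h => y1 h.1
    have x4 := Submodule.finrank_sup_add_finrank_inf_eq (Om U)
      ((tI V₁ (q + t • (a - q)) ⊓ kerU u) ⊔ Submodule.span ℂ {a - q})
    have x5 : Om U ⊓ ((tI V₁ (q + t • (a - q)) ⊓ kerU u) ⊔ Submodule.span ℂ {a - q}) = ⊥ :=
      le_bot_iff.1 (hK ▸ inf_le_inf_left _ x1)
    have x6 := Submodule.finrank_mono (sup_le (Om_le_tI ha) x2)
    rw [x5, finrank_bot, x3, hlam] at x4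
    omega

/-- The second point determines the vertex. -/
theorem vertex_unique {q' : σ → ℂ} {t t' : ℂ} (hq : CsV T q) (hq' : CsV T q') (ht : t ≠ 1)
    (h : q + t • (a - q) = q' + t' • (a - q')) (hout : a - q ∉ tg T a) (hne : tg T a ≠ ⊥) :
    q = q' := by
  have h1 : (1 - t) • (a - q) = (1 - t') • (a - q') := by
    have e : ∀ (s : ℂ) (p : σ → ℂ), (1 - s) • (a - p) = a - (p + s • (a - p)) := fun s p => by
      rw [sub_smul, one_smul]
      abel
    rw [e, e, h]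
  have hs : 1 - t ≠ 0 := sub_ne_zero.2 ht.symm
  by_cases htt : t = t'
  · rw [← htt] at h1
    exact sub_right_injective (smul_right_injective _ hs h1)
  · exfalso
    have h0 : a - q ≠ 0 := fun h => hout (h ▸ Submodule.zero_mem _)
    have hs' : 1 - t' ≠ 0 := fun h' => by
      rw [h', zero_smul] at h1
      exact h0 ((smul_eq_zero.1 h1).resolve_left hs)
    have h2 : a - q' = ((1 - t')⁻¹ * (1 - t)) • (a - q) := by
      rw [mul_smul, h1, smul_smul, inv_mul_cancel₀ hs', one_smul]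
    obtain ⟨v, hv, hv0⟩ := (Submodule.ne_bot_iff _).1 hne
    obtain ⟨D, hD, rfl⟩ := mem_tg.1 hv
    have h3 := congrArg (vD D) h
    rw [cmsec_der hq hD, cmsec_der hq' hD, h2, smul_smul] at h3
    have h4 : (D t - D t' * ((1 - t')⁻¹ * (1 - t))) • (a - q) = (t' - t) • vD D a := by
      rw [sub_smul, sub_smul]
      linear_combination (exp := 1) h3
    have h5 : D t - D t' * ((1 - t')⁻¹ * (1 - t)) ≠ 0 := fun h' => by
      rw [h', zero_smul] at h4
      exact hv0 ((smul_eq_zero.1 h4.symm).resolve_left (sub_ne_zero.2 (Ne.symm htt)))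
    exact hout ((Submodule.smul_mem_iff _ h5).1 (h4 ▸ Submodule.smul_mem _ _ hv))

end Vale.Agent.P054S
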