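import Vale.Agent.P054S.CMCnt
import Vale.Agent.P054S.CMSec
import Vale.Agent.P054S.CMKey
import Vale.Agent.P054S.CMGp

namespace Vale.Agent.P054S

open MvPolynomial Module Vale.Agent.P054A
open scoped Classical

theorem cmcore_fin {ι : Type} (F : Finset ι) (A : ι → Set ℂ → Prop)
    (hm : ∀ i T T', A i T → T ⊆ T' → A i T') (h : ∀ i ∈ F, ∃ T : Set ℂ, T.Finite ∧ A i T) :
    ∃ T : Set ℂ, T.Finite ∧ ∀ i ∈ F, A i T := by
  choose! T h1 h2 using h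
  exact ⟨⋃ i ∈ F, T i, Set.Finite.biUnion F.finite_toSet h1, fun i hi =>
    hm i _ _ (h2 i hi) (Set.subset_biUnion_of_mem (u := T) hi)⟩

variable {σ : Type} [Fintype σ]

/-- The data of one class after slicing. -/
theorem cmcore_one {T : Set ℂ} {w c lam : ℕ} {V₀ V₁ U : Ideal (MvPolynomial σ ℂ)}
    {f : Fin c → MvPolynomial σ ℂ} {J : Fin c → σ} {p q a : σ → ℂ} {u : Fin lam → σ → ℂ}
    {h : MvPolynomial σ ℂ} (hT : T.Finite) (h0 : PD w V₀) (h1 : PD w V₁)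
    (hc : w + c = Fintype.card σ) (hf : ∀ i, f i ∈ V₁) (hm : minor f J ∉ V₁)
    (hmc : CsP T (minor f J)) (s0 : StI T V₀) (s1 : StI T V₁) (hcl : Cls w V₀ V₁ p U)
    (hlam : finrank ℂ (Om U) = lam) (hA : Adm T (w + 1) U) (hΩ : StW T (Om U)) (hp : CsV T p)
    (hh : CsP T h) (hh0 : eval p h ≠ 0)
    (hh1 : ∀ q, q - p ∈ Om U → eval q h ≠ 0 → ¬ Vx q V₀ ∧ ¬ Vx q V₁ ∧ (V₀ ≠ V₁ ∨ ¬ Bir q V₁))
    (ha : Gen T w V₀ a) (e1 : tg T a ⊓ kerU u ≤ tg (slT T u a) a) (e2 : tg (slT T u a) a ≤ kerU u)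
    (q1 : q - p ∈ Om U) (q2 : a - q ∈ kerU u) (q3 : Om U ⊓ kerU u = ⊥) (q4 : Om U ≤ tg T q)
    (q5 : tg T a ≤ tg (T ∪ Set.range q) a) (q6 : CsV (slT T u a) q) :
    lam < w ∧ Vx q U ∧ ¬ Vx q V₀ ∧ a - q ∉ tg (slT T u a) a ∧ tg (slT T u a) a ≠ ⊥ ∧
      ∃ t : ℂ, t ≠ 1 ∧ Sec (slT T u a) w V₁ f J u a (q + t • (a - q)) := by
  have hq0 : eval q h ≠ 0 := by
    intro e
    have k := cm_gen (flatI_pd p (Om U)).1 (stI_flatI hp hΩ)
      ⟨on_flatI.2 q1, Submodule.finrank_mono q4⟩ hh e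
    exact hh0 ((on_flatI (x := p)).2 (by rw [sub_self]; exact Submodule.zero_mem _) h k)
  obtain ⟨n0, n1, n2⟩ := hh1 q q1 hq0
  have hx : Vx q U := hcl.vx.shift q1
  have sT : T ⊆ T ∪ Set.range q := Set.subset_union_left
  have cq : CsV (T ∪ Set.range q) q := csV_range q Set.subset_union_right
  have ga : Gen (T ∪ Set.range q) w V₀ a := ⟨ha.1, ha.2.trans (Submodule.finrank_mono q5)⟩
  obtain ⟨t, t0, t1, hb⟩ := cm_second hcl.pd h0 h1 (hA.2.1.mono sT) (s0.mono sT) (s1.mono sT) cq hx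
    hcl.le0 hcl.le1 n0 n1 ga n2
  have out : a - q ∉ tI V₀ a := ray_notin h0 (s0.mono sT) ga cq n0
  have sT' : T ⊆ slT T u a := subset_slT u a
  have out' : a - q ∉ tg (slT T u a) a := fun k => out (tg_le_tI (s0.mono sT') ha.1 k)
  have out1 : a - q ∉ tg (T ∪ Set.range q) a := fun k => out (tg_le_tI (s0.mono sT) ha.1 k)
  have hr : w ≤ finrank ℂ (tg (slT T u a) a) + finrank ℂ (Om U) := by
    have k1 := Submodule.finrank_sup_add_finrank_inf_eq (tg T a) (kerU u)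
    have k2 := finrank_kerU u
    have k3 := Submodule.finrank_mono e1
    have k4 := Submodule.finrank_le (tg T a ⊔ kerU u)
    rw [Module.finrank_fintype_fun_eq_card] at k4
    have k5 := ha.2
    omega
  obtain ⟨k0, k1, k2, k3⟩ := cm_key (slT_finite hT u a) (hA.mono sT') hx q6 (hΩ.mono sT') hcl.le0
    ha.1 q1 hcl.nf q3 q2 e2 out' hr
  refine ⟨hlam ▸ k3, hx, n0, out', fun e => ?_, t, t1, cm_sec hcl.pd h1 hc hf hm (hmc.mono sT)
    (s1.mono sT) cq q6 hx hcl.le1 n1 (fun g hg => ha.1 g (hcl.le0 hg)) ga.2 out1 t0 t1 hb q2 q3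
    hlam k0 k1 k2⟩
  obtain ⟨D, hD, D', -, k⟩ := k2
  have z : vD D a = 0 := by
    have : vD D a ∈ tg (slT T u a) a := mem_tg.2 ⟨D, hD, rfl⟩
    rwa [e, Submodule.mem_bot] at this
  have z' : vD D' (0 : σ → ℂ) = 0 := funext fun _ => D'.map_zero
  rw [z, z'] at k
  exact k (Submodule.zero_mem _)

/-- The number of cones with a vertex flat of dimension `lam`. -/
theorem cm_core (σ : Type) [Fintype σ] : ∃ c₀ : ℕ, ∀ (w s c lam : ℕ)
    (V₀ V₁ : Ideal (MvPolynomial σ ℂ)) (f : Fin c → MvPolynomial σ ℂ) (J : Fin c → σ)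
    (F : Finset (Ideal (MvPolynomial σ ℂ))) (p : Ideal (MvPolynomial σ ℂ) → σ → ℂ),
    PD w V₀ → PD w V₁ → w + c = Fintype.card σ → 1 ≤ s → Sys V₁ s f J →
    (∀ U ∈ F, Cls w V₀ V₁ (p U) U ∧ finrank ℂ (Om U) = lam) →
    (F.Nonempty → lam < w) ∧ F.card ≤ c₀ * dg w V₁ * s ^ (w - lam) := by
  obtain ⟨c₀, hcnt⟩ := cm_cnt σ
  refine ⟨c₀, fun w s c lam V₀ V₁ f J F p h0 h1 hc hs hf hF => ?_⟩
  have hex : ∀ U ∈ F, ∃ h : MvPolynomial σ ℂ, eval (p U) h ≠ 0 ∧ ∀ q, q - p U ∈ Om U →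
      eval q h ≠ 0 → ¬ Vx q V₀ ∧ ¬ Vx q V₁ ∧ (V₀ ≠ V₁ ∨ ¬ Bir q V₁) := fun U hU => (hF U hU).1.ex
  choose! h hh0 hh1 using hex
  obtain ⟨T1, f1, a1⟩ := cmcore_fin F
    (fun U T => Adm T (w + 1) U ∧ StW T (Om U) ∧ CsV T (p U) ∧ CsP T (h U))
    (fun U T T' k hT => ⟨k.1.mono hT, k.2.1.mono hT, k.2.2.1.mono hT, k.2.2.2.mono hT⟩)
    fun U hU => by
      obtain ⟨A, g1, g2⟩ := exists_adm (hF U hU).1.pd
      obtain ⟨B, g3, g4⟩ := exists_stW (Om U)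
      obtain ⟨E, g5, g6⟩ := exists_csP (h U)
      exact ⟨A ∪ B ∪ E ∪ Set.range (p U), ((g1.union g3).union g5).union (Set.finite_range _),
        g2.mono fun x hx => Or.inl (Or.inl (Or.inl hx)),
        g4.mono fun x hx => Or.inl (Or.inl (Or.inr hx)), csV_range _ Set.subset_union_right,
        g6.mono fun x hx => Or.inl (Or.inr hx)⟩
  obtain ⟨T2, f2, a2⟩ := cmcore_fin Finset.univ (fun i T => CsP T (f i))
    (fun i T T' k hT => k.mono hT) fun i _ => exists_csP (f i)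
  obtain ⟨T3, f3, a3⟩ := exists_csP (minor f J)
  obtain ⟨T4, f4, a4⟩ := exists_stI V₀
  obtain ⟨T5, f5, a5⟩ := exists_stI V₁
  set T := T1 ∪ T2 ∪ T3 ∪ T4 ∪ T5 with hTdef
  have hT : T.Finite := (((f1.union f2).union f3).union f4).union f5
  have u1 : T1 ⊆ T := fun x hx => Or.inl (Or.inl (Or.inl (Or.inl hx)))
  have u2 : T2 ⊆ T := fun x hx => Or.inl (Or.inl (Or.inl (Or.inr hx)))
  have u3 : T3 ⊆ T := fun x hx => Or.inl (Or.inl (Or.inr hx))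
  have s0 : StI T V₀ := a4.mono fun x hx => Or.inl (Or.inr hx)
  have s1 : StI T V₁ := a5.mono fun x hx => Or.inr hx
  obtain ⟨a, ha⟩ := exists_gen h0 hT
  obtain ⟨u, q, e1, e2, hq⟩ := exists_slice hT a lam F p (fun U => Om U)
    (fun U hU => (a1 U hU).2.2.1.mono u1) (fun U hU => (a1 U hU).2.1.mono u1)
    (fun U hU => (hF U hU).2) fun U hU k => by
      obtain ⟨z, z1, z2⟩ := (hF U hU).1.nf (Om U) (finrank_Om_le (hF U hU).1.pd)
      exact z2 (cm_flat h0 s0 ha ((a1 U hU).2.2.1.mono u1) ((a1 U hU).2.1.mono u1) k z z1)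
  have one : ∀ U ∈ F, lam < w ∧ Vx (q U) U ∧ ¬ Vx (q U) V₀ ∧ a - q U ∉ tg (slT T u a) a ∧
      tg (slT T u a) a ≠ ⊥ ∧
      ∃ t : ℂ, t ≠ 1 ∧ Sec (slT T u a) w V₁ f J u a (q U + t • (a - q U)) := fun U hU => by
    obtain ⟨q1, q2, q3, q4, q5, q6⟩ := hq U hU
    exact cmcore_one hT h0 h1 hc (fun i => (hf.1 i).1) hf.2 (a3.mono u3) s0 s1 (hF U hU).1
      (hF U hU).2 ((a1 U hU).1.mono u1) ((a1 U hU).2.1.mono u1) ((a1 U hU).2.2.1.mono u1)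
      ((a1 U hU).2.2.2.mono u1) (hh0 U hU) (hh1 U hU) ha e1 e2 q1 q2 q3 q4 q5 q6
  refine ⟨fun ⟨U, hU⟩ => (one U hU).1, ?_⟩
  have two : ∀ U ∈ F, ∃ t : ℂ, t ≠ 1 ∧ Sec (slT T u a) w V₁ f J u a (q U + t • (a - q U)) :=
    fun U hU => (one U hU).2.2.2.2.2
  choose! t t1 t2 using two
  have inj : Set.InjOn (fun U => q U + t U • (a - q U)) (F : Set (Ideal (MvPolynomial σ ℂ))) := by
    intro U hU U' hU' e
    obtain ⟨-, x1, n1, o1, b1, -⟩ := one U hU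
    obtain ⟨-, x2, n2, -⟩ := one U' hU'
    have e' : q U = q U' := vertex_unique (hq U hU).2.2.2.2.2 (hq U' hU').2.2.2.2.2 (t1 U hU) e o1 b1
    ext G
    rw [mem_cone_iff (hF U hU).1.pd h0 x1 (hF U hU).1.le0 n1,
      mem_cone_iff (hF U' hU').1.pd h0 x2 (hF U' hU').1.le0 n2, e']
  rw [← Finset.card_image_of_injOn inj]
  refine hcnt (slT T u a) w s c lam V₁ f J u a _ h1 hc hs hf (s1.mono (subset_slT u a))
    (fun i => ((a2 i (Finset.mem_univ i)).mono u2).mono (subset_slT u a)) fun b hb => ?_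
  obtain ⟨U, hU, rfl⟩ := Finset.mem_image.1 hb
  exact t2 U hU

end Vale.Agent.P054S
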