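import Vale.Agent.P054S.CMDef

namespace Vale.Agent.P054S

open MvPolynomial Module Vale.Agent.P054A
open scoped Classical

variable {σ : Type} {D : Dr} {T T' : Set ℂ}

theorem coeff_mD (D : Dr) (G : MvPolynomial σ ℂ) (α : σ →₀ ℕ) :
    coeff α (mD D G) = D (coeff α G) := by
  rw [mD, coeff_sum]
  simp only [coeff_monomial]
  rw [Finset.sum_ite_eq']
  split_ifs with h
  · rfl
  · rw [notMem_support_iff.1 h, map_zero]

theorem cmd_add (D : Dr) (G G' : MvPolynomial σ ℂ) : mD D (G + G') = mD D G + mD D G' := by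
  ext α
  simp only [coeff_mD, coeff_add, map_add]

theorem cmd_mul (D : Dr) (G G' : MvPolynomial σ ℂ) :
    mD D (G * G') = G * mD D G' + G' * mD D G := by
  ext α
  rw [mul_comm G']
  simp only [coeff_mD, coeff_add, coeff_mul, map_sum, Derivation.leibniz, smul_eq_mul,
    ← Finset.sum_add_distrib]
  exact Finset.sum_congr rfl fun x _ => by ring

/-- `mD D` is a derivation of the polynomial ring. -/
theorem exists_der_mD (D : Dr) :
    ∃ E : Derivation ℚ (MvPolynomial σ ℂ) (MvPolynomial σ ℂ), ∀ G, E G = mD D G := by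
  let L : MvPolynomial σ ℂ →+ MvPolynomial σ ℂ := AddMonoidHom.mk' (mD D) (cmd_add D)
  exact ⟨Derivation.mk' L.toRatLinearMap fun a b => cmd_mul D a b, fun _ => rfl⟩

theorem mD_zero (D : Dr) : mD D (0 : MvPolynomial σ ℂ) = 0 := by
  ext α
  simp [coeff_mD]

theorem mD_add (D : Dr) (G G' : MvPolynomial σ ℂ) : mD D (G + G') = mD D G + mD D G' := by
  exact cmd_add D G G'

theorem mD_sub (D : Dr) (G G' : MvPolynomial σ ℂ) : mD D (G - G') = mD D G - mD D G' := by
  ext α
  simp only [coeff_mD, coeff_sub, map_sub]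

theorem mD_mul (D : Dr) (G G' : MvPolynomial σ ℂ) :
    mD D (G * G') = G * mD D G' + G' * mD D G := by
  exact cmd_mul D G G'

theorem mD_C (D : Dr) (c : ℂ) : mD D (C c : MvPolynomial σ ℂ) = C (D c) := by
  ext α
  simp only [coeff_mD, coeff_C]
  split_ifs
  · rfl
  · exact map_zero D

theorem mD_X (D : Dr) (l : σ) : mD D (X l : MvPolynomial σ ℂ) = 0 := by
  ext α
  simp only [coeff_mD, coeff_X, coeff_zero]
  split_ifs
  · exact D.map_one_eq_zero
  · exact map_zero D

theorem mD_smul (D : Dr) (c : ℂ) (G : MvPolynomial σ ℂ) :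
    mD D (c • G) = D c • G + c • mD D G := by
  ext α
  simp only [coeff_mD, coeff_add, coeff_smul, smul_eq_mul, Derivation.leibniz]
  ring

theorem mD_sum (D : Dr) {ι : Type} (s : Finset ι) (G : ι → MvPolynomial σ ℂ) :
    mD D (∑ i ∈ s, G i) = ∑ i ∈ s, mD D (G i) := by
  ext α
  simp only [coeff_mD, coeff_sum, map_sum]

theorem support_mD (D : Dr) (G : MvPolynomial σ ℂ) : (mD D G).support ⊆ G.support := by
  intro α h
  rw [MvPolynomial.mem_support_iff] at h ⊢
  intro h0
  rw [coeff_mD, h0, map_zero] at h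
  exact h rfl

theorem totalDegree_mD_le (D : Dr) (G : MvPolynomial σ ℂ) :
    (mD D G).totalDegree ≤ G.totalDegree := by
  exact Finset.sup_mono (support_mD D G)

theorem mD_pderiv (D : Dr) (l : σ) (G : MvPolynomial σ ℂ) :
    mD D (pderiv l G) = pderiv l (mD D G) := by
  ext α
  have h : D ((α l : ℂ) + 1) = 0 := by
    rw [map_add, D.map_one_eq_zero, D.map_natCast, add_zero]
  simp only [coeff_mD, coeff_pderiv, Derivation.leibniz, h, smul_eq_mul, mul_zero, zero_add]
  ring

theorem csP_iff {G : MvPolynomial σ ℂ} : CsP T G ↔ ∀ D ∈ KD T, ∀ α, D (coeff α G) = 0 := by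
  constructor
  · intro h D hD α
    rw [← coeff_mD, h D hD, coeff_zero]
  · intro h D hD
    ext α
    rw [coeff_mD, h D hD, coeff_zero]

theorem csV_iff {z : σ → ℂ} : CsV T z ↔ ∀ D ∈ KD T, ∀ l, D (z l) = 0 := by
  exact ⟨fun h D hD l => congrFun (h D hD) l, fun h D hD => funext (h D hD)⟩

theorem CsP.add {G G' : MvPolynomial σ ℂ} (h : CsP T G) (h' : CsP T G') : CsP T (G + G') := by
  intro D hD
  rw [mD_add, h D hD, h' D hD, add_zero]

theorem CsP.sub {G G' : MvPolynomial σ ℂ} (h : CsP T G) (h' : CsP T G') : CsP T (G - G') := by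
  intro D hD
  rw [mD_sub, h D hD, h' D hD, sub_zero]

theorem CsP.mul {G G' : MvPolynomial σ ℂ} (h : CsP T G) (h' : CsP T G') : CsP T (G * G') := by
  intro D hD
  rw [mD_mul, h D hD, h' D hD, mul_zero, mul_zero, add_zero]

theorem CsP.pderiv {G : MvPolynomial σ ℂ} (h : CsP T G) (l : σ) : CsP T (pderiv l G) := by
  intro D hD
  rw [mD_pderiv, h D hD, map_zero]

theorem CsP.sum {ι : Type} {s : Finset ι} {G : ι → MvPolynomial σ ℂ} (h : ∀ i ∈ s, CsP T (G i)) :
    CsP T (∑ i ∈ s, G i) := by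
  intro D hD
  rw [mD_sum]
  exact Finset.sum_eq_zero fun i hi => h i hi D hD

theorem csP_X (l : σ) : CsP T (X l : MvPolynomial σ ℂ) := by
  exact fun D _ => mD_X D l

theorem csP_C {c : ℂ} (h : ∀ D ∈ KD T, D c = 0) : CsP T (C c : MvPolynomial σ ℂ) := by
  intro D hD
  rw [mD_C, h D hD, map_zero]

theorem vD_add (D : Dr) (y z : σ → ℂ) : vD D (y + z) = vD D y + vD D z := by
  exact funext fun l => map_add D (y l) (z l)

theorem vD_sub (D : Dr) (y z : σ → ℂ) : vD D (y - z) = vD D y - vD D z := by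
  exact funext fun l => map_sub D (y l) (z l)

theorem vD_smul (D : Dr) (c : ℂ) (z : σ → ℂ) : vD D (c • z) = D c • z + c • vD D z := by
  funext l
  simp only [vD, Pi.smul_apply, Pi.add_apply, smul_eq_mul, Derivation.leibniz]
  ring

theorem vD_sum (D : Dr) {ι : Type} (s : Finset ι) (z : ι → σ → ℂ) :
    vD D (∑ i ∈ s, z i) = ∑ i ∈ s, vD D (z i) := by
  funext l
  simp only [vD, Finset.sum_apply, map_sum]

theorem add_vD (D D' : Dr) (z : σ → ℂ) : vD (D + D') z = vD D z + vD D' z := by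
  rfl

theorem smul_vD (c : ℂ) (D : Dr) (z : σ → ℂ) : vD (c • D) z = c • vD D z := by
  rfl

theorem CsV.mono {z : σ → ℂ} (h : CsV T z) (hT : T ⊆ T') : CsV T' z := by
  exact fun D hD => h D (KD_anti hT hD)

theorem CsP.mono {G : MvPolynomial σ ℂ} (h : CsP T G) (hT : T ⊆ T') : CsP T' G := by
  exact fun D hD => h D (KD_anti hT hD)

theorem StI.mono {I : Ideal (MvPolynomial σ ℂ)} (h : StI T I) (hT : T ⊆ T') : StI T' I := by
  exact fun D hD => h D (KD_anti hT hD)

theorem StW.mono {W : Submodule ℂ (σ → ℂ)} (h : StW T W) (hT : T ⊆ T') : StW T' W := by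
  exact fun D hD => h D (KD_anti hT hD)

theorem tg_anti (z : σ → ℂ) (hT : T ⊆ T') : tg T' z ≤ tg T z := by
  exact Submodule.map_mono (KD_anti hT)

theorem csV_range (z : σ → ℂ) (h : Set.range z ⊆ T) : CsV T z := by
  exact fun D hD => funext fun l => hD _ (h ⟨l, rfl⟩)

theorem cmd_deg (l : σ) (F : MvPolynomial σ ℂ) :
    (pderiv l F).totalDegree ≤ F.totalDegree := by
  refine Finset.sup_le fun α hα => ?_
  rw [MvPolynomial.mem_support_iff, coeff_pderiv] at hα
  refine le_trans ?_ (le_totalDegree (MvPolynomial.mem_support_iff.2 (left_ne_zero_of_mul hα)))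
  rw [Finsupp.sum_add_index' (fun _ => rfl) fun _ _ _ => rfl]
  exact Nat.le_add_right _ _

variable [Fintype σ]

theorem der_dot (D : Dr) (y z : σ → ℂ) : D (y ⬝ᵥ z) = vD D y ⬝ᵥ z + y ⬝ᵥ vD D z := by
  simp only [dotProduct, vD, map_sum, Derivation.leibniz, smul_eq_mul, ← Finset.sum_add_distrib]
  exact Finset.sum_congr rfl fun l _ => by ring

theorem cmd_add_dd (G G' : MvPolynomial σ ℂ) (z v : σ → ℂ) :
    dd (G + G') z v = dd G z v + dd G' z v := by
  simp only [dd, map_add, add_mul, Finset.sum_add_distrib]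

theorem cmd_mul_dd (G G' : MvPolynomial σ ℂ) (z v : σ → ℂ) :
    dd (G * G') z v = eval z G * dd G' z v + eval z G' * dd G z v := by
  simp only [dd, pderiv_mul, map_add, map_mul, Finset.mul_sum, ← Finset.sum_add_distrib]
  exact Finset.sum_congr rfl fun l _ => by ring

theorem cmd_dd_X (i : σ) (z v : σ → ℂ) : dd (X i : MvPolynomial σ ℂ) z v = v i := by
  rw [dd, Finset.sum_eq_single i]
  · rw [pderiv_X_self, map_one, one_mul]
  · intro l _ hl
    rw [pderiv_X_of_ne hl.symm, map_zero, zero_mul]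
  · intro h
    exact absurd (Finset.mem_univ i) h

theorem cmd_dd_C (c : ℂ) (z v : σ → ℂ) : dd (C c : MvPolynomial σ ℂ) z v = 0 := by
  simp [dd]

/-- The chain rule. -/
theorem der_eval (D : Dr) (z : σ → ℂ) (G : MvPolynomial σ ℂ) :
    D (eval z G) = eval z (mD D G) + dd G z (vD D z) := by
  induction G using MvPolynomial.induction_on with
  | C c => rw [mD_C, cmd_dd_C, eval_C, eval_C, add_zero]
  | add p q hp hq =>
    rw [map_add, map_add, mD_add, map_add, cmd_add_dd, hp, hq]
    ring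
  | mul_X p i hp =>
    rw [cmd_mul_dd, cmd_dd_X, mD_mul, mD_X, mul_zero, zero_add, eval_mul, eval_mul, eval_X,
      Derivation.leibniz, hp, smul_eq_mul, smul_eq_mul, vD]
    ring

theorem eval_dv (v z : σ → ℂ) (G : MvPolynomial σ ℂ) : eval z (dv v G) = dd G z v := by
  simp only [dv, dd, map_sum, map_mul, eval_C]

theorem eval_eu (q z : σ → ℂ) (G : MvPolynomial σ ℂ) : eval z (eu q G) = dd G z (z - q) := by
  simp only [eu, dd, map_sum, map_mul, map_sub, eval_C, eval_X, Pi.sub_apply]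

theorem dd_add (G : MvPolynomial σ ℂ) (z v v' : σ → ℂ) :
    dd G z (v + v') = dd G z v + dd G z v' := by
  simp only [dd, Pi.add_apply, mul_add, Finset.sum_add_distrib]

theorem dd_sub (G : MvPolynomial σ ℂ) (z v v' : σ → ℂ) :
    dd G z (v - v') = dd G z v - dd G z v' := by
  simp only [dd, Pi.sub_apply, mul_sub, Finset.sum_sub_distrib]

theorem dd_smul (G : MvPolynomial σ ℂ) (z v : σ → ℂ) (c : ℂ) : dd G z (c • v) = c * dd G z v := by
  simp only [dd, Finset.mul_sum, Pi.smul_apply, smul_eq_mul]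
  exact Finset.sum_congr rfl fun l _ => by ring

theorem add_dd (G G' : MvPolynomial σ ℂ) (z v : σ → ℂ) :
    dd (G + G') z v = dd G z v + dd G' z v := by
  exact cmd_add_dd G G' z v

theorem mul_dd (G G' : MvPolynomial σ ℂ) (z v : σ → ℂ) :
    dd (G * G') z v = eval z G * dd G' z v + eval z G' * dd G z v := by
  exact cmd_mul_dd G G' z v

theorem CsP.dv {G : MvPolynomial σ ℂ} (h : CsP T G) {v : σ → ℂ} (hv : CsV T v) :
    CsP T (dv v G) := by
  exact CsP.sum fun l _ => (h.pderiv l).mul (csP_C fun D hD => csV_iff.1 hv D hD l)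

theorem CsP.eu {G : MvPolynomial σ ℂ} (h : CsP T G) {q : σ → ℂ} (hq : CsV T q) :
    CsP T (eu q G) := by
  exact CsP.sum fun l _ =>
    (h.pderiv l).mul ((csP_X l).sub (csP_C fun D hD => csV_iff.1 hq D hD l))

/-- Velocities are tangent to stable ideals. -/
theorem tg_le_tI {I : Ideal (MvPolynomial σ ℂ)} (hI : StI T I) {z : σ → ℂ} (hz : On z I) :
    tg T z ≤ tI I z := by
  intro v hv
  obtain ⟨D, hD, rfl⟩ := mem_tg.1 hv
  intro G hG
  have h := der_eval D z G
  rw [hz G hG, hz _ (hI D hD G hG), map_zero, zero_add] at h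
  exact h.symm

theorem tI_anti {I I' : Ideal (MvPolynomial σ ℂ)} (h : I ≤ I') (z : σ → ℂ) :
    tI I' z ≤ tI I z := by
  exact fun v hv G hG => hv G (h hG)

/-- The total derivative is a derivation. -/
theorem exists_der_MD (D : Dr) (Q : MvPolynomial σ ℂ) (η : σ → MvPolynomial σ ℂ) :
    ∃ E : Derivation ℚ (MvPolynomial σ ℂ) (MvPolynomial σ ℂ),
      (∀ G, E G = MD D Q η G) ∧ ∀ c, E (C c) = Q * C (D c) := by
  have ha : ∀ G G', MD D Q η (G + G') = MD D Q η G + MD D Q η G' := fun G G' => by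
    simp only [MD, mD_add, map_add, mul_add, Finset.sum_add_distrib]
    ring
  have hm : ∀ G G', MD D Q η (G * G') = G * MD D Q η G' + G' * MD D Q η G := fun G G' => by
    have e : ∑ l, η l * pderiv l (G * G') =
        G * ∑ l, η l * pderiv l G' + G' * ∑ l, η l * pderiv l G := by
      simp only [pderiv_mul, Finset.mul_sum, ← Finset.sum_add_distrib]
      exact Finset.sum_congr rfl fun l _ => by ring
    rw [MD, MD, MD, e, mD_mul]
    ring
  let L : MvPolynomial σ ℂ →+ MvPolynomial σ ℂ := AddMonoidHom.mk' (MD D Q η) ha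
  refine ⟨Derivation.mk' L.toRatLinearMap fun a b => hm a b, fun _ => rfl, fun c => ?_⟩
  change MD D Q η (C c) = _
  simp [MD, mD_C]

theorem eval_MD {Q : MvPolynomial σ ℂ} {η : σ → MvPolynomial σ ℂ} {b : σ → ℂ}
    (h : ∀ l, eval b (η l) = eval b Q * D (b l)) (G : MvPolynomial σ ℂ) :
    eval b (MD D Q η G) = eval b Q * D (eval b G) := by
  rw [der_eval, MD, map_add, map_mul, map_sum, mul_add, dd, Finset.mul_sum]
  congr 1
  refine Finset.sum_congr rfl fun l _ => ?_
  rw [map_mul, h l, vD]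
  ring

theorem totalDegree_MD_le {Q : MvPolynomial σ ℂ} {η : σ → MvPolynomial σ ℂ} {m : ℕ}
    (hQ : Q.totalDegree ≤ m) (hη : ∀ l, (η l).totalDegree ≤ m) (G : MvPolynomial σ ℂ) :
    (MD D Q η G).totalDegree ≤ m + G.totalDegree := by
  refine (totalDegree_add _ _).trans (max_le ?_ ?_)
  · exact (totalDegree_mul _ _).trans (add_le_add hQ (totalDegree_mD_le D G))
  · exact totalDegree_finsetSum_le fun l _ =>
      (totalDegree_mul _ _).trans (add_le_add (hη l) (cmd_deg l G))

end Vale.Agent.P054S
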