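import Vale.Agent.P054S.CMGood
import Vale.Agent.P054S.CFCone
import Vale.Agent.P054S.Alg

/-!
Definitions for the multiplicity lemma.  See skeleton/P054S/PROOF_CM.md.
-/

namespace Vale.Agent.P054S

open MvPolynomial Vale.Agent.P054A
open scoped Classical

noncomputable section

/-- Derivations of the complex numbers. -/
abbrev Dr : Type := Derivation ℚ ℂ ℂ

/-- The derivations which kill the numbers in `T`. -/
def KD (T : Set ℂ) : Submodule ℂ Dr where
  carrier := {D | ∀ t ∈ T, D t = 0}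
  add_mem' := fun {a b} ha hb t ht => by rw [Derivation.add_apply, ha t ht, hb t ht, add_zero]
  zero_mem' := fun t _ => rfl
  smul_mem' := fun c a ha t ht => by rw [Derivation.smul_apply, ha t ht, smul_zero]

theorem mem_KD {T : Set ℂ} {D : Dr} : D ∈ KD T ↔ ∀ t ∈ T, D t = 0 := Iff.rfl

theorem KD_anti {T T' : Set ℂ} (h : T ⊆ T') : KD T' ≤ KD T := fun _ hD t ht => hD t (h ht)

variable {σ : Type}

/-- A derivation applied to the coordinates of a vector. -/
def vD (D : Dr) (z : σ → ℂ) : σ → ℂ := fun l => D (z l)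

/-- A derivation applied to the coefficients of a polynomial. -/
def mD (D : Dr) (G : MvPolynomial σ ℂ) : MvPolynomial σ ℂ :=
  ∑ α ∈ G.support, monomial α (D (coeff α G))

/-- The velocity of a point as a linear function of the derivation. -/
def evD (z : σ → ℂ) : Dr →ₗ[ℂ] (σ → ℂ) where
  toFun D := vD D z
  map_add' _ _ := rfl
  map_smul' _ _ := rfl

/-- The velocities of a point. -/
def tg (T : Set ℂ) (z : σ → ℂ) : Submodule ℂ (σ → ℂ) := (KD T).map (evD z)

theorem mem_tg {T : Set ℂ} {z v : σ → ℂ} : v ∈ tg T z ↔ ∃ D ∈ KD T, vD D z = v := Iff.rfl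

/-- A constant vector. -/
def CsV (T : Set ℂ) (z : σ → ℂ) : Prop := ∀ D ∈ KD T, vD D z = 0

/-- A polynomial with constant coefficients. -/
def CsP (T : Set ℂ) (G : MvPolynomial σ ℂ) : Prop := ∀ D ∈ KD T, mD D G = 0

/-- A stable ideal. -/
def StI (T : Set ℂ) (I : Ideal (MvPolynomial σ ℂ)) : Prop := ∀ D ∈ KD T, ∀ G ∈ I, mD D G ∈ I

/-- A stable subspace. -/
def StW (T : Set ℂ) (W : Submodule ℂ (σ → ℂ)) : Prop := ∀ D ∈ KD T, ∀ v ∈ W, vD D v ∈ W

/-- `V` is invariant under the homotheties with centre `q`. -/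
def Vx (q : σ → ℂ) (V : Ideal (MvPolynomial σ ℂ)) : Prop :=
  ∀ z, On z V → ∀ t : ℂ, On (q + t • (z - q)) V

/-- The translations which preserve `V`. -/
def Om (V : Ideal (MvPolynomial σ ℂ)) : Submodule ℂ (σ → ℂ) where
  carrier := {v | ∀ z, On z V → ∀ t : ℂ, On (z + t • v) V}
  add_mem' := fun {a b} ha hb z hz t => by
    rw [smul_add, ← add_assoc]
    exact hb _ (ha z hz t) t
  zero_mem' := fun z hz t => by rwa [smul_zero, add_zero]
  smul_mem' := fun c a ha z hz t => by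
    rw [smul_smul]
    exact ha z hz _

theorem mem_Om {V : Ideal (MvPolynomial σ ℂ)} {v : σ → ℂ} :
    v ∈ Om V ↔ ∀ z, On z V → ∀ t : ℂ, On (z + t • v) V := Iff.rfl

/-- The expansion `G (q + t (x - q))` in powers of `t`. -/
def hφ (q : σ → ℂ) : MvPolynomial σ ℂ →ₐ[ℂ] Polynomial (MvPolynomial σ ℂ) :=
  aeval fun l => Polynomial.C (C (q l)) + Polynomial.X * Polynomial.C (X l - C (q l))

/-- The homogeneous component of degree `k` about `q`. -/
def hc (q : σ → ℂ) (k : ℕ) (G : MvPolynomial σ ℂ) : MvPolynomial σ ℂ := (hφ q G).coeff k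

/-- The projection of `V` from `q` is birational. -/
def Bir (q : σ → ℂ) (V : Ideal (MvPolynomial σ ℂ)) : Prop :=
  ∃ (j : ℕ) (A B : MvPolynomial σ ℂ), hφ q A = Polynomial.monomial j A ∧
    hφ q B = Polynomial.monomial (j + 1) B ∧ B ∉ V ∧ A + B ∈ V

variable [Fintype σ]

/-- The differential of `G` at `z` applied to `v`. -/
def dd (G : MvPolynomial σ ℂ) (z v : σ → ℂ) : ℂ := ∑ l, eval z (pderiv l G) * v l

/-- The directional derivative. -/
def dv (v : σ → ℂ) (G : MvPolynomial σ ℂ) : MvPolynomial σ ℂ := ∑ l, pderiv l G * C (v l)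

/-- The Euler operator with centre `q`. -/
def eu (q : σ → ℂ) (G : MvPolynomial σ ℂ) : MvPolynomial σ ℂ :=
  ∑ l, pderiv l G * (X l - C (q l))

/-- The common kernel of the differentials of the members of `A`. -/
def tS (A : Set (MvPolynomial σ ℂ)) (z : σ → ℂ) : Submodule ℂ (σ → ℂ) where
  carrier := {v | ∀ G ∈ A, dd G z v = 0}
  add_mem' := fun {a b} ha hb G hG => by
    have h1 := ha G hG
    have h2 := hb G hG
    simp only [dd, Pi.add_apply, mul_add, Finset.sum_add_distrib] at h1 h2 ⊢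
    rw [h1, h2, add_zero]
  zero_mem' := fun G _ => by simp [dd]
  smul_mem' := fun c a ha G hG => by
    have h1 := ha G hG
    have e : dd G z (c • a) = c * dd G z a := by
      simp only [dd, Finset.mul_sum, Pi.smul_apply, smul_eq_mul]
      exact Finset.sum_congr rfl fun l _ => by ring
    rw [e, h1, mul_zero]

theorem mem_tS {A : Set (MvPolynomial σ ℂ)} {z v : σ → ℂ} :
    v ∈ tS A z ↔ ∀ G ∈ A, dd G z v = 0 := Iff.rfl

/-- The Zariski tangent space. -/
abbrev tI (I : Ideal (MvPolynomial σ ℂ)) (z : σ → ℂ) : Submodule ℂ (σ → ℂ) :=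
  tS (I : Set (MvPolynomial σ ℂ)) z

/-- The common kernel of the forms `u`. -/
def kerU {lam : ℕ} (u : Fin lam → σ → ℂ) : Submodule ℂ (σ → ℂ) where
  carrier := {v | ∀ k, u k ⬝ᵥ v = 0}
  add_mem' := fun {a b} ha hb k => by rw [dotProduct_add, ha k, hb k, add_zero]
  zero_mem' := fun k => dotProduct_zero _
  smul_mem' := fun c a ha k => by rw [dotProduct_smul, ha k, smul_zero]

theorem mem_kerU {lam : ℕ} {u : Fin lam → σ → ℂ} {v : σ → ℂ} :
    v ∈ kerU u ↔ ∀ k, u k ⬝ᵥ v = 0 := Iff.rfl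

/-- The numbers in `T`, the entries of `u` and the values of `u` at `a`. -/
def slT {lam : ℕ} (T : Set ℂ) (u : Fin lam → σ → ℂ) (a : σ → ℂ) : Set ℂ :=
  T ∪ (Set.range fun x : Fin lam × σ => u x.1 x.2) ∪ Set.range fun k => u k ⬝ᵥ a

/-- A stable prime with a constant nonvanishing minor. -/
def Adm (T : Set ℂ) (j : ℕ) (V : Ideal (MvPolynomial σ ℂ)) : Prop :=
  PD j V ∧ StI T V ∧ ∃ (c : ℕ) (f : Fin c → MvPolynomial σ ℂ) (J : Fin c → σ),
    j + c = Fintype.card σ ∧ (∀ i, f i ∈ V) ∧ minor f J ∉ V ∧ CsP T (minor f J)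

/-- `z` is a generic point of `V`. -/
def Gen (T : Set ℂ) (j : ℕ) (V : Ideal (MvPolynomial σ ℂ)) (z : σ → ℂ) : Prop :=
  On z V ∧ j ≤ Module.finrank ℂ (tg T z)

/-- The total derivative along the points with velocity `η / Q`. -/
def MD (D : Dr) (Q : MvPolynomial σ ℂ) (η : σ → MvPolynomial σ ℂ) (G : MvPolynomial σ ℂ) :
    MvPolynomial σ ℂ := Q * mD D G + ∑ l, η l * pderiv l G

/-- A cone `U` with vertex `p` over both varieties. -/
structure Cls (w : ℕ) (V₀ V₁ : Ideal (MvPolynomial σ ℂ)) (p : σ → ℂ)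
    (U : Ideal (MvPolynomial σ ℂ)) : Prop where
  pd : PD (w + 1) U
  vx : Vx p U
  le0 : U ≤ V₀
  le1 : U ≤ V₁
  nf : NFl w p V₀
  ex : ∃ h : MvPolynomial σ ℂ, eval p h ≠ 0 ∧ ∀ q, q - p ∈ Om U → eval q h ≠ 0 →
    ¬ Vx q V₀ ∧ ¬ Vx q V₁ ∧ (V₀ ≠ V₁ ∨ ¬ Bir q V₁)

/-- The second point `b` on the line through the generic point `a` and a constant vertex. -/
structure Sec (T : Set ℂ) (w : ℕ) {c lam : ℕ} (V : Ideal (MvPolynomial σ ℂ))
    (f : Fin c → MvPolynomial σ ℂ) (J : Fin c → σ) (u : Fin lam → σ → ℂ) (a b : σ → ℂ) : Prop where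
  line : ∃ (q : σ → ℂ) (t : ℂ), CsV T q ∧ t ≠ 0 ∧ t ≠ 1 ∧ b = q + t • (a - q)
  on : On b V
  mn : eval b (minor f J) ≠ 0
  ker : b - a ∈ kerU u
  out : b - a ∉ tI V b
  k1 : ∀ v, CsV T v → v ∈ tI V b ⊔ Submodule.span ℂ {b - a} → v ∈ kerU u → v = 0
  k2 : ∃ D ∈ KD T, ∃ D' ∈ KD T, vD D' (vD D a) ∉ tI V b ⊔ Submodule.span ℂ {b - a}
  k4 : Module.finrank ℂ (tI V b ⊓ kerU u : Submodule ℂ (σ → ℂ)) + lam ≤ w

/-- The motion of `b` and the vertex are rational in `b`. -/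
structure Mov (T : Set ℂ) (Q N : MvPolynomial σ ℂ) (η : Dr → σ → MvPolynomial σ ℂ)
    (a b : σ → ℂ) : Prop where
  q0 : eval b Q ≠ 0
  d0 : eval b (Q - N) ≠ 0
  vel : ∀ D ∈ KD T, ∀ l, eval b (η D l) = eval b Q * D (b l)
  vert : ∃ q, CsV T q ∧ ∀ l, eval b (Q * X l - N * C (a l)) = eval b (Q - N) * q l

end

end Vale.Agent.P054S
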