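import Vale.Agent.P054S.CMHom

namespace Vale.Agent.P054S

open MvPolynomial Module Vale.Agent.P054A
open scoped Classical

theorem cmdeg_top {L : Type} [Field L] [Algebra ℂ L] (K : IntermediateField ℂ L) (h : K = ⊤) :
    FiniteDimensional K L ∧ finrank K L ≤ 1 := by
  subst h
  exact ⟨Module.finite_of_finrank_eq_succ IntermediateField.finrank_top,
    IntermediateField.finrank_top.le⟩

theorem cmdeg_one {d w : ℕ} {V U : Ideal (MvPolynomial (Fin d) ℂ)} (hV : PD w V) (hw : 1 ≤ w)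
    {L : Type} [Field L] [Algebra ℂ L] {υ : Fin d → L} (hk : ∀ G, aeval υ G = 0 ↔ G ∈ V)
    (hL : IntermediateField.adjoin ℂ (Set.range υ) = ⊤) {q : Fin d → ℂ} (hU : PD (w + 1) U)
    (hq : Vx q U) (hle : U ≤ V) (hb : Bir q V) {m : ℕ} (hm : dg (w + 1) U ≤ m) :
    ∃ (β : Fin d → L) (ρ : L),
      (∀ M, H (RingHom.ker (aeval β : MvPolynomial (Fin d) ℂ →ₐ[ℂ] L)) M ≤
        3 ^ (w + 1) * m * (M + 1) ^ w) ∧ IntermediateField.adjoin ℂ (Set.range β) = ⊤ ∧
      ∀ i, υ i - algebraMap ℂ L (q i) = ρ * aeval β (X i - C (q i) : MvPolynomial (Fin d) ℂ) := by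
  obtain ⟨l, hl⟩ : ∃ l, (X l - C (q l) : MvPolynomial (Fin d) ℂ) ∉ V := by
    by_contra hc
    have := hV.eq_zero_of_coord q fun l => not_not.1 fun h => hc ⟨l, h⟩
    omega
  obtain ⟨ρ, hρ⟩ : ∃ ρ : L, ρ = υ l - algebraMap ℂ L (q l) := ⟨_, rfl⟩
  have h0 : ρ ≠ 0 := fun e => hl ((hk _).1 (by rw [map_sub, aeval_X, aeval_C, ← hρ, e]))
  obtain ⟨β, hβ⟩ : ∃ β : Fin d → L,
      β = fun i => algebraMap ℂ L (q i) + ρ⁻¹ * (υ i - algebraMap ℂ L (q i)) := ⟨_, rfl⟩
  have hev : ∀ G, aeval β G =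
      ((hφ q G).map (aeval υ : MvPolynomial (Fin d) ℂ →ₐ[ℂ] L).toRingHom).eval ρ⁻¹ := fun G => by
    rw [hβ]
    exact aeval_hφ q υ ρ⁻¹ G
  have hX : ∀ i, υ i - algebraMap ℂ L (q i) =
      ρ * aeval β (X i - C (q i) : MvPolynomial (Fin d) ℂ) := fun i => by
    rw [map_sub, aeval_X, aeval_C, hβ]
    simp only [add_sub_cancel_left]
    rw [← mul_assoc, mul_inv_cancel₀ h0, one_mul]
  refine ⟨β, ρ, fun M => ?_, ?_, hX⟩
  · have hg : (X l - C (q l) - 1 : MvPolynomial (Fin d) ℂ) ∉ U := fun h => by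
      obtain ⟨z, hz, -⟩ := exists_on_ne hU.prime (g := 1) ((Ideal.ne_top_iff_one _).1 hU.prime.ne_top)
      have h1 := hq z hz 0 _ h
      simp at h1
    have hd : (X l - C (q l) - 1 : MvPolynomial (Fin d) ℂ).totalDegree ≤ 1 :=
      (totalDegree_sub _ _).trans (max_le ((totalDegree_sub _ _).trans
        (max_le (totalDegree_X l).le (by simp))) (by simp))
    have h1 := H_sec hU.prime hU.H_le hg hd le_rfl M
    refine (H_anti (sup_le (fun G hG => ?_) ?_) M).trans (h1.trans ?_)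
    · rw [RingHom.mem_ker, hev]
      have : (hφ q G).map (aeval υ : MvPolynomial (Fin d) ℂ →ₐ[ℂ] L).toRingHom = 0 := by
        ext k
        rw [Polynomial.coeff_map, Polynomial.coeff_zero]
        exact (hk _).2 (hle ((vx_iff hU.prime).1 hq G hG k))
      rw [this, Polynomial.eval_zero]
    · rw [Ideal.span_singleton_le_iff_mem, RingHom.mem_ker, map_sub, map_one, sub_eq_zero]
      apply mul_left_cancel₀ h0
      rw [← hX, mul_one, hρ]
    · rw [mul_one]
      gcongr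
  · obtain ⟨j, A, B, hA, hB, hB0, hAB⟩ := hb
    have hm : ∀ G : MvPolynomial (Fin d) ℂ,
        aeval β G ∈ IntermediateField.adjoin ℂ (Set.range β) := fun G => by
      apply IntermediateField.algebra_adjoin_le_adjoin
      rw [Algebra.adjoin_range_eq_range_aeval]
      exact ⟨G, rfl⟩
    have e1 : aeval β A = aeval υ A * ρ⁻¹ ^ j := by
      rw [hev, hA, Polynomial.map_monomial, Polynomial.eval_monomial]
      rfl
    have e2 : aeval β B = aeval υ B * ρ⁻¹ ^ (j + 1) := by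
      rw [hev, hB, Polynomial.map_monomial, Polynomial.eval_monomial]
      rfl
    have e3 : aeval υ A = -aeval υ B := by
      have := (hk _).2 hAB
      rw [map_add] at this
      exact eq_neg_of_add_eq_zero_left this
    have e4 : aeval υ B ≠ 0 := fun e => hB0 ((hk _).1 e)
    have e5 : ρ = -(aeval β A / aeval β B) := by
      have h1 : ρ⁻¹ ^ j ≠ 0 := pow_ne_zero _ (inv_ne_zero h0)
      rw [e1, e2, e3, pow_succ]
      generalize ρ⁻¹ ^ j = y at h1
      field_simp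
    have hρm : ρ ∈ IntermediateField.adjoin ℂ (Set.range β) := by
      rw [e5]
      exact neg_mem (div_mem (hm A) (hm B))
    rw [eq_top_iff, ← hL, IntermediateField.adjoin_le_iff]
    rintro _ ⟨i, rfl⟩
    rw [eq_add_of_sub_eq (hX i)]
    exact add_mem (mul_mem hρm (hm _)) (IntermediateField.algebraMap_mem _ _)

/-- Birational projections which lose much degree have their centres in a proper flat. -/
theorem cm_deg (d : ℕ) : ∃ c : ℕ, ∀ (w : ℕ) (V : Ideal (MvPolynomial (Fin d) ℂ)), PD w V →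
    1 ≤ w → w + 1 ≤ d → ∃ (z : Fin d → ℂ) (W : Submodule ℂ (Fin d → ℂ)), W ≠ ⊤ ∧
      ∀ (q : Fin d → ℂ) (U : Ideal (MvPolynomial (Fin d) ℂ)), PD (w + 1) U → Vx q U → U ≤ V →
        Bir q V → c * dg (w + 1) U < dg w V → q - z ∈ W := by
  obtain ⟨c, hc0, hc⟩ : ∃ c : ℕ, 0 < c ∧ ∀ w, w + 1 ≤ d → (w + 2) ^ (2 * w + 1) * 3 ^ (w + 1) ≤ c :=
    ⟨(d + 2) ^ (2 * d + 1) * 3 ^ (d + 1), by positivity, fun w hw => Nat.mul_le_mul
      ((Nat.pow_le_pow_left (by omega) _).trans (Nat.pow_le_pow_right (by omega) (by omega)))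
      (Nat.pow_le_pow_right (by omega) (by omega))⟩
  refine ⟨c, fun w V hV hw hd => ?_⟩
  obtain ⟨E, hE⟩ : ∃ E : Set (Fin d → ℂ), ∀ q, q ∈ E ↔ ∃ U, PD (w + 1) U ∧ Vx q U ∧ U ≤ V ∧
      Bir q V ∧ c * dg (w + 1) U < dg w V := ⟨{q | _}, fun _ => Iff.rfl⟩
  have hne : affineSpan ℂ E ≠ ⊤ := fun hS => by
    obtain ⟨L, _, _, υ, hk, hL⟩ := low_generic hV.prime
    have hm : ∀ U : Ideal (MvPolynomial (Fin d) ℂ), c * dg (w + 1) U < dg w V →
        dg (w + 1) U ≤ (dg w V - 1) / c := fun U h =>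
      (Nat.le_div_iff_mul_le hc0).2 (by rw [mul_comm]; omega)
    obtain ⟨s, hs⟩ := AffineSubspace.nonempty_of_affineSpan_eq_top ℂ (Fin d → ℂ) (Fin d → ℂ) hS
    obtain ⟨U₀, hU₀, -, -, -, h₀⟩ := (hE s).1 hs
    have h1 : 1 ≤ (dg w V - 1) / c := hU₀.one_le_dg.trans (hm U₀ h₀)
    have htr : (w : Cardinal) ≤ Algebra.trdeg ℂ L := by
      rw [← hV.trdeg υ hk]
      exact trdeg_le_of_injective (IntermediateField.val _) Subtype.val_injective
    have key := deg_lemma (δ := 3 ^ (w + 1) * ((dg w V - 1) / c)) (T := 1) hd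
      (Nat.mul_pos (by positivity) h1) le_rfl υ hL htr E hS (τ := Fin d) fun q hq => by
        obtain ⟨U, hU, h2, h3, h4, h5⟩ := (hE q).1 hq
        obtain ⟨β, ρ, k1, k2, k3⟩ := cmdeg_one hV hw hk hL hU h2 h3 h4 (hm U h5)
        exact ⟨β, ρ, fun i => X i - C (q i), k1, (cmdeg_top _ k2).1, (cmdeg_top _ k2).2,
          fun i => (totalDegree_sub _ _).trans (max_le (totalDegree_X i).le (by simp)), k3⟩
    have e : RingHom.ker (aeval υ : MvPolynomial (Fin d) ℂ →ₐ[ℂ] L) = V := by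
      ext G
      exact hk G
    rw [e] at key
    have h2 := dg_le key
    rw [mul_one, ← mul_assoc] at h2
    have h3 := Nat.mul_le_mul_right ((dg w V - 1) / c) (hc w hd)
    have h4 := Nat.mul_div_le (dg w V - 1) c
    have h5 := hV.one_le_dg
    omega
  rcases E.eq_empty_or_nonempty with h0 | ⟨z, hz⟩
  · have : Nonempty (Fin d) := ⟨⟨0, by omega⟩⟩
    refine ⟨0, ⊥, bot_ne_top, fun q U h1 h2 h3 h4 h5 => ?_⟩
    have := (hE q).2 ⟨U, h1, h2, h3, h4, h5⟩
    rw [h0] at this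
    exact this.elim
  · refine ⟨z, (affineSpan ℂ E).direction, fun h => hne ?_, fun q U h1 h2 h3 h4 h5 => ?_⟩
    · exact (AffineSubspace.direction_eq_top_iff_of_nonempty ⟨z, mem_affineSpan ℂ hz⟩).1 h
    · exact AffineSubspace.vsub_mem_direction
        (mem_affineSpan ℂ ((hE q).2 ⟨U, h1, h2, h3, h4, h5⟩)) (mem_affineSpan ℂ hz)

end Vale.Agent.P054S
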