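import Vale.Agent.P054S.CMZar

namespace Vale.Agent.P054S

open MvPolynomial Module Vale.Agent.P054A
open scoped Classical

variable {σ : Type} [Fintype σ] {T : Set ℂ} {V : Ideal (MvPolynomial σ ℂ)} {w s c lam : ℕ}
  {f : Fin c → MvPolynomial σ ℂ} {J : Fin c → σ} {u : Fin lam → σ → ℂ} {a : σ → ℂ}

omit [Fintype σ] in
/-- The velocity of the second point. -/
theorem cmeq_vel {q b : σ → ℂ} {t : ℂ} (hq : CsV T q) (h1 : t ≠ 1) (hb : b = q + t • (a - q))
    {E : Dr} (hE : E ∈ KD T) : vD E b = t • vD E a + (E t / (t - 1)) • (b - a) := by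
  have h2 : t - 1 ≠ 0 := sub_ne_zero.2 h1
  have e : b - a = (t - 1) • (a - q) := by rw [hb]; module
  rw [e, smul_smul, div_mul_cancel₀ _ h2, hb, vD_add, vD_smul, vD_sub, hq E hE]
  module

theorem cmeq_mem (hs : StI T V) {b : σ → ℂ} (h : Sec T w V f J u a b) {E : Dr} (hE : E ∈ KD T) :
    vD E a ∈ tI V b ⊔ Submodule.span ℂ {b - a} := by
  obtain ⟨q, t, hq, h0, h1, hb⟩ := h.line
  have h2 : vD E b ∈ tI V b := tg_le_tI hs h.on ⟨E, hE, rfl⟩
  rw [← Submodule.smul_mem_iff _ h0, ← sub_eq_iff_eq_add.2 (cmeq_vel hq h1 hb hE)]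
  exact Submodule.sub_mem _ (Submodule.mem_sup_left h2)
    (Submodule.mem_sup_right (Submodule.smul_mem _ _ (Submodule.mem_span_singleton_self _)))

/-- One pair of derivations works for all points. -/
theorem cm_pair (hs : StI T V) (B : Finset (σ → ℂ)) (h : ∀ b ∈ B, Sec T w V f J u a b) :
    ∃ D ∈ KD T, ∃ D' ∈ KD T, ∀ b ∈ B,
      vD D' (vD D a) ∉ tI V b ⊔ Submodule.span ℂ {b - a} := by
  obtain ⟨D', hD'⟩ := Submodule.exists_forall_notMem_of_forall_ne_top
    (fun b : B => ⨅ D : KD T, (tI V b.1 ⊔ Submodule.span ℂ {b.1 - a}).comap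
      ((evD (vD D.1 a)).comp (KD T).subtype)) fun b hb => by
        obtain ⟨D, hD, D', hD', hn⟩ := (h b.1 b.2).k2
        have : (⟨D', hD'⟩ : KD T) ∈ (⊤ : Submodule ℂ (KD T)) := Submodule.mem_top
        rw [← hb, Submodule.mem_iInf] at this
        exact hn (this ⟨D, hD⟩)
  let R : B → Submodule ℂ (KD T) := fun b =>
    { carrier := {D | vD D'.1 (vD D.1 a) ∈ tI V b.1 ⊔ Submodule.span ℂ {b.1 - a}}
      add_mem' := fun {D₁ D₂} h₁ h₂ => by
        change vD D'.1 (vD (D₁.1 + D₂.1) a) ∈ tI V b.1 ⊔ Submodule.span ℂ {b.1 - a}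
        rw [add_vD, vD_add]
        exact Submodule.add_mem _ h₁ h₂
      zero_mem' := by
        have e : vD D'.1 (vD (0 : KD T).1 a) = 0 := funext fun l => map_zero D'.1
        change vD D'.1 (vD (0 : KD T).1 a) ∈ tI V b.1 ⊔ Submodule.span ℂ {b.1 - a}
        rw [e]
        exact Submodule.zero_mem _
      smul_mem' := fun k D hD => by
        change vD D'.1 (vD (k • D.1) a) ∈ tI V b.1 ⊔ Submodule.span ℂ {b.1 - a}
        rw [smul_vD, vD_smul]
        exact Submodule.add_mem _ (Submodule.smul_mem _ _ (cmeq_mem hs (h b.1 b.2) D.2))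
          (Submodule.smul_mem _ _ hD) }
  obtain ⟨D, hD⟩ := Submodule.exists_forall_notMem_of_forall_ne_top R fun b hb => by
    refine hD' b ((Submodule.mem_iInf _).2 fun D => ?_)
    have : D ∈ (⊤ : Submodule ℂ (KD T)) := Submodule.mem_top
    rw [← hb] at this
    exact this
  exact ⟨D.1, D.2, D'.1, D'.2, fun b hb => hD ⟨b, hb⟩⟩

omit [Fintype σ] in
theorem cmeq_deg_mul {G G' : MvPolynomial σ ℂ} {m n : ℕ} (h : G.totalDegree ≤ m)
    (h' : G'.totalDegree ≤ n) : (G * G').totalDegree ≤ m + n :=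
  (totalDegree_mul _ _).trans (add_le_add h h')

omit [Fintype σ] in
theorem cmeq_deg_sub {G G' : MvPolynomial σ ℂ} {m : ℕ} (h : G.totalDegree ≤ m)
    (h' : G'.totalDegree ≤ m) : (G - G').totalDegree ≤ m :=
  (totalDegree_sub _ _).trans (max_le h h')

omit [Fintype σ] in
theorem cmeq_deg_pderiv {G : MvPolynomial σ ℂ} {m : ℕ} (h : G.totalDegree ≤ m) (l : σ) :
    (pderiv l G).totalDegree ≤ m := by
  refine Finset.sup_le fun α hα => ?_
  rw [MvPolynomial.mem_support_iff, coeff_pderiv] at hα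
  refine le_trans ?_
    ((le_totalDegree (MvPolynomial.mem_support_iff.2 (left_ne_zero_of_mul hα))).trans h)
  rw [Finsupp.sum_add_index' (fun _ => rfl) fun _ _ _ => rfl]
  exact Nat.le_add_right _ _

omit [Fintype σ] in
theorem cmeq_deg_lin (l : σ) (k : ℂ) : (X l - C k : MvPolynomial σ ℂ).totalDegree ≤ 1 :=
  (totalDegree_sub_C_le _ _).trans (totalDegree_X l).le

theorem cmeq_deg_dv {G : MvPolynomial σ ℂ} {m : ℕ} (h : G.totalDegree ≤ m) (v : σ → ℂ) :
    (dv v G).totalDegree ≤ m :=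
  totalDegree_finsetSum_le fun l _ => cmeq_deg_mul (cmeq_deg_pderiv h l) (totalDegree_C _).le

theorem cmeq_deg_eu {G : MvPolynomial σ ℂ} {m : ℕ} (h : G.totalDegree ≤ m) (q : σ → ℂ) :
    (eu q G).totalDegree ≤ m + 1 :=
  totalDegree_finsetSum_le fun l _ => cmeq_deg_mul (cmeq_deg_pderiv h l) (cmeq_deg_lin l _)

theorem cmeq_mD_dv {E : Dr} {G : MvPolynomial σ ℂ} (h : mD E G = 0) (v : σ → ℂ) :
    mD E (dv v G) = dv (vD E v) G := by
  rw [dv, dv, mD_sum]
  refine Finset.sum_congr rfl fun l _ => ?_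
  rw [mD_mul, mD_pderiv, h, map_zero, mul_zero, add_zero, mD_C]
  rfl

theorem cmeq_mD_eu {E : Dr} {G : MvPolynomial σ ℂ} (h : mD E G = 0) (q : σ → ℂ) :
    mD E (eu q G) = -dv (vD E q) G := by
  rw [eu, dv, mD_sum, ← Finset.sum_neg_distrib]
  refine Finset.sum_congr rfl fun l _ => ?_
  rw [mD_mul, mD_pderiv, h, map_zero, mul_zero, add_zero, mD_sub, mD_C, mD_X, zero_sub, mul_neg]
  rfl

/-- The two by two minor. -/
noncomputable def cmeqF (a : σ → ℂ) (D : Dr) (G H : MvPolynomial σ ℂ) : MvPolynomial σ ℂ :=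
  eu a G * dv (vD D a) H - eu a H * dv (vD D a) G

/-- The scaled velocity field. -/
noncomputable def cmeqXi (a : σ → ℂ) (G : MvPolynomial σ ℂ) (E : Dr) (l : σ) :
    MvPolynomial σ ℂ := eu a G * C (E (a l)) - dv (vD E a) G * (X l - C (a l))

theorem cmeq_deg_F {G H : MvPolynomial σ ℂ} (hG : G.totalDegree ≤ s) (hH : H.totalDegree ≤ s)
    (D : Dr) : (cmeqF a D G H).totalDegree ≤ s + 1 + s :=
  cmeq_deg_sub (cmeq_deg_mul (cmeq_deg_eu hG a) (cmeq_deg_dv hH _))
    (cmeq_deg_mul (cmeq_deg_eu hH a) (cmeq_deg_dv hG _))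

theorem cmeq_deg_Xi {G : MvPolynomial σ ℂ} (hG : G.totalDegree ≤ s) (E : Dr) (l : σ) :
    (cmeqXi a G E l).totalDegree ≤ s + 1 :=
  cmeq_deg_sub (cmeq_deg_mul (n := 0) (cmeq_deg_eu hG a) (totalDegree_C _).le)
    (cmeq_deg_mul (cmeq_deg_dv hG _) (cmeq_deg_lin l _))

section point

variable {q b : σ → ℂ} {t : ℂ}

theorem cmeq_rel (hq : CsV T q) (h1 : t ≠ 1) (hb : b = q + t • (a - q)) {G : MvPolynomial σ ℂ}
    (hG : CsP T G) (hG0 : eval b G = 0) {E : Dr} (hE : E ∈ KD T) :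
    t * dd G b (vD E a) = -(E t / (t - 1)) * dd G b (b - a) := by
  have h := der_eval E b G
  rw [hG0, map_zero, hG E hE, map_zero, zero_add, cmeq_vel hq h1 hb hE, dd_add, dd_smul,
    dd_smul] at h
  linear_combination -h

theorem cmeq_eval_Xi (hq : CsV T q) (h1 : t ≠ 1) (hb : b = q + t • (a - q))
    {G : MvPolynomial σ ℂ} (hG : CsP T G) (hG0 : eval b G = 0) {E : Dr} (hE : E ∈ KD T) (l : σ) :
    t * eval b (cmeqXi a G E l) = dd G b (b - a) * E (b l) := by
  have h := congrFun (cmeq_vel hq h1 hb hE) l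
  have h2 := cmeq_rel hq h1 hb hG hG0 hE
  simp only [vD, Pi.add_apply, Pi.smul_apply, Pi.sub_apply, smul_eq_mul] at h
  simp only [cmeqXi, map_sub, map_mul, eval_C, eval_X, eval_eu, eval_dv]
  rw [h]
  linear_combination (-(b l - a l)) * h2

theorem cmeq_mov (hq : CsV T q) (h0 : t ≠ 0) (h1 : t ≠ 1) (hb : b = q + t • (a - q))
    {G H : MvPolynomial σ ℂ} (hG : CsP T G) (hG0 : eval b G = 0) (hH : CsP T H)
    (hH0 : eval b H = 0) {D D' : Dr} (hD : D ∈ KD T) (hD' : D' ∈ KD T)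
    (he : dd G b (b - a) ≠ 0)
    (hn : dd G b (b - a) * dd H b (vD D' (vD D a)) ≠ dd H b (b - a) * dd G b (vD D' (vD D a))) :
    Mov T (-∑ l, pderiv l (cmeqF a D G H) * cmeqXi a G D' l) (eu a G * mD D' (cmeqF a D G H))
      (fun E l => mD D' (cmeqF a D G H) * cmeqXi a G E l) a b := by
  have g1 := cmeq_rel hq h1 hb hG hG0 hD
  have g2 := cmeq_rel hq h1 hb hH hH0 hD
  have g3 := cmeq_rel hq h1 hb hG hG0 hD'
  have g4 := cmeq_rel hq h1 hb hH hH0 hD'
  have hF : eval b (cmeqF a D G H) = 0 := by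
    refine mul_left_cancel₀ h0 ?_
    simp only [cmeqF, map_sub, map_mul, eval_eu, eval_dv]
    linear_combination dd G b (b - a) * g2 - dd H b (b - a) * g1
  have hN : eval b (mD D' (cmeqF a D G H)) = dd G b (b - a) * dd H b (vD D' (vD D a)) -
      dd H b (b - a) * dd G b (vD D' (vD D a)) := by
    refine mul_left_cancel₀ (mul_ne_zero h0 h0) ?_
    simp only [cmeqF, mD_sub, mD_mul, cmeq_mD_dv (hG D' hD'), cmeq_mD_dv (hH D' hD'),
      cmeq_mD_eu (hG D' hD'), cmeq_mD_eu (hH D' hD'), map_sub, map_add, map_mul, map_neg, eval_eu,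
      eval_dv]
    linear_combination (t * dd H b (vD D' a)) * g1 - (t * dd G b (vD D' a)) * g2 +
      (D t / (t - 1) * dd H b (b - a)) * g3 - (D t / (t - 1) * dd G b (b - a)) * g4
  have hN0 : eval b (mD D' (cmeqF a D G H)) ≠ 0 := by
    rw [hN]
    exact sub_ne_zero.2 hn
  generalize cmeqF a D G H = F at hF hN0 ⊢
  have hQ : t * eval b (-∑ l, pderiv l F * cmeqXi a G D' l) =
      dd G b (b - a) * eval b (mD D' F) := by
    have h := der_eval D' b F
    rw [hF, map_zero] at h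
    have e : t * ∑ l, eval b (pderiv l F * cmeqXi a G D' l) =
        dd G b (b - a) * dd F b (vD D' b) := by
      rw [Finset.mul_sum, dd, dd, Finset.mul_sum]
      refine Finset.sum_congr rfl fun l _ => ?_
      rw [map_mul, mul_left_comm, cmeq_eval_Xi hq h1 hb hG hG0 hD', dd]
      simp only [vD]
      ring
    rw [map_neg, map_sum, mul_neg, e]
    linear_combination dd G b (b - a) * h
  generalize (-∑ l, pderiv l F * cmeqXi a G D' l) = Q at hQ ⊢
  have hQ0 : eval b Q ≠ 0 := fun h => by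
    rw [h, mul_zero] at hQ
    exact mul_ne_zero he hN0 hQ.symm
  have hd : eval b (Q - eu a G * mD D' F) = (1 - t) * eval b Q := by
    rw [map_sub, map_mul, eval_eu, ← hQ]
    ring
  refine ⟨hQ0, ?_, fun E hE l => mul_left_cancel₀ h0 ?_, q, hq, fun l => ?_⟩
  · rw [hd]
    exact mul_ne_zero (sub_ne_zero.2 h1.symm) hQ0
  · rw [map_mul, mul_left_comm, cmeq_eval_Xi hq h1 hb hG hG0 hE, ← mul_assoc t, hQ]
    ring
  · have hl := congrFun hb l
    simp only [Pi.add_apply, Pi.smul_apply, Pi.sub_apply, smul_eq_mul] at hl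
    rw [hd, map_sub, map_mul, map_mul, map_mul, eval_eu, ← hQ, eval_X, eval_C, hl]
    ring

end point

/-- The motion of the second point is rational of degree `6 s`. -/
theorem cm_eq (hV : PD w V) (hc : w + c = Fintype.card σ) (hs : 1 ≤ s) (hf : Sys V s f J)
    (hfc : ∀ i, CsP T (f i)) {D D' : Dr} (hD : D ∈ KD T) (hD' : D' ∈ KD T) :
    ∃ (Q N : Fin c × Fin c → MvPolynomial σ ℂ) (η : Fin c × Fin c → Dr → σ → MvPolynomial σ ℂ),
      (∀ x, (Q x).totalDegree ≤ 6 * s ∧ (N x).totalDegree ≤ 6 * s ∧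
        ∀ E l, (η x E l).totalDegree ≤ 6 * s) ∧
      ∀ b, Sec T w V f J u a b → vD D' (vD D a) ∉ tI V b ⊔ Submodule.span ℂ {b - a} →
        ∃ x, Mov T (Q x) (N x) (η x) a b := by
  refine ⟨fun x => -∑ l, pderiv l (cmeqF a D (f x.1) (f x.2)) * cmeqXi a (f x.1) D' l,
    fun x => eu a (f x.1) * mD D' (cmeqF a D (f x.1) (f x.2)),
    fun x E l => mD D' (cmeqF a D (f x.1) (f x.2)) * cmeqXi a (f x.1) E l, fun x => ?_,
    fun b hb hn => ?_⟩
  · have hF := cmeq_deg_F (a := a) (hf.1 x.1).2 (hf.1 x.2).2 D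
    have hM := (totalDegree_mD_le D' _).trans hF
    refine ⟨?_, (cmeq_deg_mul (cmeq_deg_eu (hf.1 x.1).2 a) hM).trans (by omega),
      fun E l => (cmeq_deg_mul hM (cmeq_deg_Xi (hf.1 x.1).2 E l)).trans (by omega)⟩
    rw [totalDegree_neg]
    exact totalDegree_finsetSum_le fun l _ =>
      (cmeq_deg_mul (cmeq_deg_pderiv hF l) (cmeq_deg_Xi (hf.1 x.1).2 D' l)).trans (by omega)
  · obtain ⟨q, t, hq, h0, h1, hbq⟩ := hb.line
    have hT := tI_eq_tS hV hc (fun i => (hf.1 i).1) hb.on hb.mn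
    have hz : ∀ i, eval b (f i) = 0 := fun i => hb.on _ (hf.1 i).1
    obtain ⟨i, hi⟩ : ∃ i, dd (f i) b (b - a) ≠ 0 := by
      by_contra hcon
      refine hb.out (hT ▸ mem_tS.2 ?_)
      rintro _ ⟨i, rfl⟩
      exact by_contra fun h => hcon ⟨i, h⟩
    obtain ⟨j, hj⟩ : ∃ j, dd (f i) b (b - a) * dd (f j) b (vD D' (vD D a)) ≠
        dd (f j) b (b - a) * dd (f i) b (vD D' (vD D a)) := by
      by_contra hcon
      refine hn ?_
      have hm : vD D' (vD D a) - (dd (f i) b (vD D' (vD D a)) / dd (f i) b (b - a)) • (b - a) ∈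
          tI V b := by
        refine hT ▸ mem_tS.2 ?_
        rintro _ ⟨j, rfl⟩
        have hj := not_not.1 fun h => hcon ⟨j, h⟩
        rw [dd_sub, dd_smul]
        field_simp
        linear_combination hj
      rw [← sub_add_cancel (vD D' (vD D a))
        ((dd (f i) b (vD D' (vD D a)) / dd (f i) b (b - a)) • (b - a))]
      exact Submodule.add_mem _ (Submodule.mem_sup_left hm)
        (Submodule.mem_sup_right (Submodule.smul_mem _ _ (Submodule.mem_span_singleton_self _)))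
    exact ⟨(i, j), cmeq_mov hq h0 h1 hbq (hfc i) (hz i) (hfc j) (hz j) hD hD' hi hj⟩

end Vale.Agent.P054S
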