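import Vale.Agent.P054S.CCDef
import Vale.Agent.P054S.CFFlat

/-!
The multiplicity lemma for flat nodes.
-/

namespace Vale.Agent.P054S

open MvPolynomial Module Vale.Agent.P054A
open scoped Classical

theorem cmf_arith {u t R n η N Z c B r τ : ℝ} (hc : 0 ≤ c) (hu : 10 ^ 10 * (c + 1) ^ 3 ≤ u)
    (ht : 0 < t) (hτ : 0 < τ) (hn : 0 ≤ n) (hZ : 0 < Z) (hr : 0 ≤ r) (hR : τ / (t * Z) ≤ R)
    (h1 : η * n ≤ c * N) (h2 : r * Z ^ 3 * t ^ 2 * u ≤ (c + 1) * η * τ ^ 2) (h3 : r * Z * u ≤ N)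
    (hB : B ≤ N * r + r * η * (10 ^ 9 * (n ^ 2 / R ^ 2 + n))) : B ≤ N ^ 2 / Z := by
  have u0 : 0 < u := lt_of_lt_of_le (by positivity) hu
  have N0 : 0 ≤ N := le_trans (by positivity) h3
  have e1 : r * Z ≤ N / u := by rwa [le_div_iff₀ u0]
  have e2 : r * Z * (n / R ^ 2) ≤ (c + 1) * c * (N / u) := by
    calc r * Z * (n / R ^ 2) ≤ r * Z * (n / (τ / (t * Z)) ^ 2) := by gcongr
      _ = r * Z ^ 3 * t ^ 2 * u * (n / (τ ^ 2 * u)) := by field_simp
      _ ≤ (c + 1) * η * τ ^ 2 * (n / (τ ^ 2 * u)) := by gcongr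
      _ = (c + 1) * (η * n) / u := by field_simp
      _ ≤ (c + 1) * (c * N) / u := by gcongr
      _ = _ := by ring
  have e3 : 0 ≤ N / u := by positivity
  rw [le_div_iff₀ hZ]
  calc B * Z ≤ (N * r + r * η * (10 ^ 9 * (n ^ 2 / R ^ 2 + n))) * Z := by gcongr
    _ = N * (r * Z) + 10 ^ 9 * (η * n) * (r * Z * (n / R ^ 2) + r * Z) := by ring
    _ ≤ N * (N / u) + 10 ^ 9 * (c * N) * ((c + 1) * c * (N / u) + N / u) := by gcongr
    _ = N ^ 2 * ((1 + 10 ^ 9 * (c * ((c + 1) * c + 1))) / u) := by ring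
    _ ≤ N ^ 2 * 1 := by
        gcongr
        rw [div_le_one u0]
        nlinarith [mul_nonneg hc hc, mul_nonneg (mul_nonneg hc hc) hc]
    _ = _ := mul_one _

theorem Nodes.spans {d c w η t : ℕ} {P Q : Finset (Pt d)} {V : Pt d → Id d}
    (h : Nodes c Q V w η t) (hQ : Q ⊆ P) (ht : c < t) {q : Pt d} (hq : q ∈ Q) :
    Spans P (V q) := fun g h1 h2 => by
  by_contra e
  have h3 := h.rob q hq g h1 1 le_rfl h2
  rw [Finset.filter_true_of_mem fun x hx => by
    obtain ⟨b1, b2⟩ := Finset.mem_filter.1 hx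
    exact not_not.1 fun b3 => e ⟨x, hQ b1, b2 ▸ h.on x b1, b3⟩, mul_one] at h3
  exact absurd (Nat.le_of_mul_le_mul_right h3
    (Finset.card_pos.2 ⟨q, Finset.mem_filter.2 ⟨hq, rfl⟩⟩)) (not_le.2 ht)

/-- The multiplicity lemma for one class of flat nodes. -/
theorem mlc_flat (k c : ℕ) (hk : 2 ≤ k) : ∃ τ₀ : ℕ, ∀ τ Z : ℕ, τ₀ ≤ τ →
    ∀ P Q : Finset (Pt (k + 1)), Std P τ Z → Q ⊆ P → Poor Q τ →
    ∀ (V : Pt (k + 1) → Id (k + 1)) (w η t : ℕ), 1 ≤ w → w < k → Nodes c Q V w η t →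
      (∀ q ∈ Q, Flat (V q)) → c < t → t ^ w ≤ η → τ ^ w ≤ η ^ 2 →
      ∃ B : Finset (Pt (k + 1) × Pt (k + 1)), (B.card : ℝ) ≤ (P.card : ℝ) ^ 2 / Z ∧
        ∀ p ∈ P, ∀ Y : Id k, PD w Y →
          ((Q.filter fun q => (p, q) ∉ B ∧ InCone p (V q) Y).card : ℝ)
            ≤ 1000 * η * (1 + τ / (t * Z)) := by
  choose f hf using fun a => pts_real (a + 2) 800 (by omega)
  obtain ⟨τ₁, h₁⟩ := cf_root (2 * 800) (by omega) (10 ^ 10 * ((c : ℝ) + 1) ^ 3)
  refine ⟨∑ a ∈ Finset.range k, f a + τ₁, fun τ Z hτ P Q hP hQ hpo V w η t hw hwk hV hF hct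
    htη hτη => ?_⟩
  rcases Q.eq_empty_or_nonempty with rfl | ⟨q₀, hq₀⟩
  · exact ⟨∅, by simp; positivity, fun p _ Y _ => by simp; positivity⟩
  obtain ⟨u, u1, u2, hu⟩ := h₁ τ (by omega)
  have u0 : 0 < u := by linarith
  have τ0 : (0 : ℝ) < τ := hu ▸ by positivity
  have t0 : (0 : ℝ) < t := Nat.cast_pos.2 (by omega)
  have Z0 : (0 : ℝ) < Z := Nat.cast_pos.2 hP.zpos
  have c0 : (0 : ℝ) ≤ c := Nat.cast_nonneg _
  have η0 : (0 : ℝ) ≤ η := Nat.cast_nonneg _
  have hc : ∀ U : Submodule ℝ (ℝ × Pt (k + 1)), finrank ℝ U ≤ w + 2 →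
      ((P.filter fun x => hm x ∈ U).card : ℝ) ≤ u ^ ((w + 1) * 800 + 1) := fun U hU => by
    obtain ⟨a, rfl⟩ := Nat.exists_eq_add_of_le' hw
    obtain ⟨p, D, h3, h4⟩ := hom_sub P (a := a + 2) hU
    have h5 : f a ≤ ∑ a ∈ Finset.range k, f a :=
      Finset.single_le_sum (fun _ _ => Nat.zero_le _) (Finset.mem_range.2 (by omega))
    exact (Nat.cast_le.2 (Finset.card_le_card h4)).trans
      (cf_le_of_pow (by omega) u0.le hu (hf a τ (by omega) _ P hP.nd p D h3))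
  have hs : ∀ q ∈ Q, Spans P (V q) := fun q hq => hV.spans hQ hct hq
  let F : Pt (k + 1) → Submodule ℝ (ℝ × Pt (k + 1)) := fun q => Vale.Agent.P054S.hF P (V q)
  have hrk : ∀ q ∈ Q, finrank ℝ (F q) = w + 1 := fun q hq =>
    hF_rank (hV.pd q hq) (hF q hq) (hQ hq) (hV.on q hq) (hs q hq)
  have hinj : ∀ q ∈ Q, ∀ q' ∈ Q, F q = F q' → V q = V q' := fun q hq q' hq' =>
    hF_inj (hF q hq) (hF q' hq') (hs q hq) (hs q' hq')
  have hfib : ∀ q ∈ Q, (Q.filter fun x => F x = F q) = fib Q V q := fun q hq =>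
    Finset.filter_congr fun x hx => ⟨hinj x hx q hq, fun e => by simp only [F, e]⟩
  have hlo : ∀ q ∈ Q, η ≤ c * (fib Q V q).card := fun q hq => by
    simpa [(hF q hq).dg_eq (hV.pd q hq)] using hV.lo q hq
  have hhi : ∀ q ∈ Q, (Q.filter fun x => F x = F q).card ≤ η := fun q hq => by
    simpa [(hF q hq).dg_eq (hV.pd q hq), hfib q hq] using hV.hi q hq
  have hn : η * (Q.image F).card ≤ c * P.card := by
    refine le_trans ?_ (Nat.mul_le_mul_left c (Finset.card_le_card hQ))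
    rw [Finset.card_eq_sum_card_image F Q, Finset.mul_sum, mul_comm]
    refine Finset.card_nsmul_le_sum _ _ _ fun U hU => ?_
    obtain ⟨q, hq, rfl⟩ := Finset.mem_image.1 hU
    exact hfib q hq ▸ hlo q hq
  have hZ : (Z : ℝ) ≤ u ^ 8 := by
    refine le_of_pow_le_pow_left₀ (n := 200) (by omega) (by positivity) ?_
    rw [← pow_mul, hu]
    exact_mod_cast hP.zle
  have hN : u ^ ((k + 1) * 800) ≤ (P.card : ℝ) := by
    refine le_of_pow_le_pow_left₀ (n := 2) (by omega) (by positivity) ?_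
    rw [← pow_mul, show (k + 1) * 800 * 2 = 2 * 800 * (k + 1) by ring, pow_mul, hu]
    exact_mod_cast hP.big
  have hkey : (t : ℝ) ^ 2 * u ^ (w * 800 + 826) ≤ (c + 1) * η * τ ^ 2 := by
    rw [← hu, ← pow_mul]
    rcases hw.eq_or_lt with rfl | h2
    · have h1 : ((fib Q V q₀).card : ℝ) ≤ u ^ 1550 := by
        refine le_of_pow_le_pow_left₀ (n := 32) (by omega) (by positivity) ?_
        rw [← pow_mul, show 1550 * 32 = 2 * 800 * 31 from rfl, pow_mul, hu]
        refine mod_cast le_trans (Nat.pow_le_pow_left (Finset.card_le_card fun x hx => ?_) _)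
          (hpo _ (hV.pd q₀ hq₀) (hF q₀ hq₀))
        obtain ⟨b1, b2⟩ := Finset.mem_filter.1 hx
        exact mem_ptsOn.2 ⟨b1, b2 ▸ hV.on x b1⟩
      have h2 : (t : ℝ) ≤ η := by exact_mod_cast (pow_one t).symm.trans_le htη
      have h3 : (η : ℝ) ≤ c * (fib Q V q₀).card := by exact_mod_cast hlo q₀ hq₀
      calc (t : ℝ) ^ 2 * u ^ (1 * 800 + 826) = t * t * u ^ 1626 := by rw [sq]
        _ ≤ ((c + 1) * u ^ 1550) * η * u ^ 1626 := by
            gcongr
            exact h2.trans (h3.trans (by gcongr; linarith))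
        _ = (c + 1) * η * u ^ (1550 + 1626) := by rw [pow_add]; ring
        _ ≤ _ := by gcongr; omega
    · obtain ⟨a, rfl⟩ := Nat.exists_eq_add_of_le' h2
      have h1 : (t : ℝ) ^ 2 * u ^ (a * 800) ≤ η := by
        refine le_of_pow_le_pow_left₀ (n := a + 2) (by omega) η0 ?_
        have h3 : (t : ℝ) ^ (a + 2) ≤ η := by exact_mod_cast htη
        have h4 : u ^ (800 * (a + 2)) ≤ η := by
          refine le_of_pow_le_pow_left₀ (n := 2) (by omega) η0 ?_
          rw [← pow_mul, show 800 * (a + 2) * 2 = 2 * 800 * (a + 2) by ring, pow_mul, hu]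
          exact_mod_cast hτη
        calc _ = ((t : ℝ) ^ (a + 2)) ^ 2 * (u ^ (800 * (a + 2))) ^ a := by
              rw [mul_pow, ← pow_mul, ← pow_mul, ← pow_mul, ← pow_mul]
              congr 2 <;> ring
          _ ≤ (η : ℝ) ^ 2 * η ^ a := by gcongr
          _ = _ := by rw [← pow_add, add_comm]
      calc (t : ℝ) ^ 2 * u ^ ((a + 2) * 800 + 826) = 1 * (t ^ 2 * u ^ (a * 800)) * u ^ 2426 := by
            rw [one_mul, mul_assoc, ← pow_add, show (a + 2) * 800 + 826 = a * 800 + 2426 by omega]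
        _ ≤ (c + 1) * η * u ^ 2426 := by gcongr; linarith
        _ ≤ _ := by gcongr; omega
  set R : ℝ := max 1000 (τ / (t * Z))
  let good : Submodule ℝ (ℝ × Pt (k + 1)) → Prop := fun U =>
    finrank ℝ U = w + 2 ∧ R ≤ P054.inpl (Q.image F) U
  have h1 := cf_pairs w P Q hm F hrk good (le_max_left _ _) (r := u ^ ((w + 1) * 800 + 1))
    (M := η) (by positivity) η0 (fun U hU => hc U hU.1.le) (fun U hU => hU.2)
    fun q hq => Nat.cast_le.2 (hhi q hq)
  have h2 := pairs_on P Q (fun p q => hm p ∈ F q) fun q hq => hc (F q) (by rw [hrk q hq]; omega)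
  refine ⟨((P ×ˢ Q).filter fun z => hm z.1 ∈ F z.2) ∪ (P ×ˢ Q).filter fun z =>
    hm z.1 ∉ F z.2 ∧ good (F z.2 ⊔ Submodule.span ℝ {hm z.1}), ?_, fun p hp Y hY => ?_⟩
  · have h4 : ((Q.card : ℕ) : ℝ) ≤ P.card := Nat.cast_le.2 (Finset.card_le_card hQ)
    refine cmf_arith (R := R) (n := (Q.image F).card) (η := η) (r := u ^ ((w + 1) * 800 + 1))
      c0 u1 t0 τ0 (Nat.cast_nonneg _) Z0 (by positivity) (le_max_right _ _)
      (by exact_mod_cast hn) (le_trans ?_ hkey) (le_trans ?_ hN)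
      ((Nat.cast_le.2 (Finset.card_union_le _ _)).trans (by
        rw [Nat.cast_add]
        exact add_le_add (h2.trans (by gcongr)) (le_trans (Nat.cast_le.2 (Finset.card_le_card
          fun z hz => by simpa only [Finset.mem_filter] using hz)) h1)))
    · calc _ ≤ u ^ ((w + 1) * 800 + 1) * (u ^ 8) ^ 3 * t ^ 2 * u := by gcongr
        _ = _ := by
          rw [← pow_mul, ← pow_add, mul_comm _ ((t : ℝ) ^ 2), mul_assoc, ← pow_succ,
            show (w + 1) * 800 + 1 + 8 * 3 + 1 = w * 800 + 826 by omega]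
    · calc _ ≤ u ^ ((w + 1) * 800 + 1) * u ^ 8 * u := by gcongr
        _ ≤ _ := by
          rw [← pow_add, ← pow_succ]
          exact pow_le_pow_right₀ u2 (by omega)
  · set S := Q.filter fun q => (p, q) ∉ ((P ×ˢ Q).filter fun z => hm z.1 ∈ F z.2) ∪
      ((P ×ˢ Q).filter fun z => hm z.1 ∉ F z.2 ∧ good (F z.2 ⊔ Submodule.span ℝ {hm z.1})) ∧
      InCone p (V q) Y
    have h4 : ∀ q ∈ S, q ∈ Q ∧ hm p ∉ F q ∧ ¬ good (F q ⊔ Submodule.span ℝ {hm p}) ∧
        InCone p (V q) Y := fun q hq => by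
      obtain ⟨b1, b2, b3⟩ := Finset.mem_filter.1 hq
      have b4 := Finset.mem_product.2 (show (p, q).1 ∈ P ∧ (p, q).2 ∈ Q from ⟨hp, b1⟩)
      have b5 : hm p ∉ F q := fun e => b2 (Finset.mem_union_left _ (Finset.mem_filter.2 ⟨b4, e⟩))
      exact ⟨b1, b5, fun e => b2 (Finset.mem_union_right _ (Finset.mem_filter.2 ⟨b4, b5, e⟩)), b3⟩
    have x0 : (0 : ℝ) ≤ τ / (t * Z) := by positivity
    rcases S.eq_empty_or_nonempty with e | ⟨q, hq⟩
    · rw [e, Finset.card_empty, Nat.cast_zero]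
      positivity
    obtain ⟨b1, b2, b3, b4⟩ := h4 q hq
    have h5 : (P054.inpl (Q.image F) (F q ⊔ Submodule.span ℝ {hm p}) : ℝ) ≤ R := (not_le.1
      fun e => b3 ⟨by rw [Submodule.finrank_sup_span_singleton b2, hrk q b1], e⟩).le
    have h6 : S.card ≤ η * P054.inpl (Q.image F) (F q ⊔ Submodule.span ℝ {hm p}) := by
      refine Finset.card_le_mul_card_image_of_maps_to (f := F) (fun x hx => ?_) _ fun W hW => ?_
      · obtain ⟨c1, c2, -, c4⟩ := h4 x hx
        exact Finset.mem_filter.2 ⟨Finset.mem_image_of_mem F c1,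
          cone_pl hP.sep hp (hQ b1) (hV.pd q b1) hY (hV.on q b1) (hs q b1) b2 c2 b4 c4⟩
      · obtain ⟨z, hz, rfl⟩ := Finset.mem_image.1 (Finset.mem_filter.1 hW).1
        exact le_trans (Finset.card_le_card
          (Finset.filter_subset_filter _ (Finset.filter_subset _ _))) (hhi z hz)
    calc (S.card : ℝ) ≤ η * P054.inpl (Q.image F) (F q ⊔ Submodule.span ℝ {hm p}) := by
          exact_mod_cast h6
      _ ≤ η * (1000 * (1 + τ / (t * Z))) := by
          gcongr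
          exact h5.trans (max_le (by linarith) (by linarith))
      _ = _ := by ring

end Vale.Agent.P054S
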