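import Vale.Agent.P054S.CFDef

/-!
The vertices admitted in the multiplicity lemma.
-/

namespace Vale.Agent.P054S

open MvPolynomial Vale.Agent.P054A
open scoped Classical

/-- `V` does not lie in a flat of dimension at most `w + 1` through `p`. -/
def NFl {σ : Type} (w : ℕ) (p : σ → ℂ) (V : Ideal (MvPolynomial σ ℂ)) : Prop :=
  ∀ Θ : Submodule ℂ (σ → ℂ), Module.finrank ℂ Θ ≤ w + 1 → ∃ z, On z V ∧ z - p ∉ Θ

/-- `p` is an admissible vertex for `V`. -/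
def GoodV {k : ℕ} (w : ℕ) (p : Pt (k + 1)) (V : Ideal (MvPolynomial (Fin (k + 1)) ℂ)) : Prop :=
  ¬ Vert p V ∧ X 0 - C ((p 0 : ℝ) : ℂ) ∉ V ∧ NFl w (cx p) V

/-- Flats of dimension `l < w` hold at most `r l` points of `S`. -/
def FlatB {d : ℕ} (S : Finset (Pt d)) (w : ℕ) (r : ℕ → ℕ) : Prop :=
  ∀ l < w, ∀ (z : Fin d → ℂ) (W : Submodule ℂ (Fin d → ℂ)), Module.finrank ℂ W ≤ l →
    (S.filter fun q => cx q - z ∈ W).card ≤ r l

/-- Proper flats hold at most `h` points of `S`. -/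
def HypB {d : ℕ} (S : Finset (Pt d)) (h : ℕ) : Prop :=
  ∀ (z : Fin d → ℂ) (W : Submodule ℂ (Fin d → ℂ)), W ≠ ⊤ →
    (S.filter fun q => cx q - z ∈ W).card ≤ h

end Vale.Agent.P054S
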