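import Vale.Agent.P054S.CMD

namespace Vale.Agent.P054S

open MvPolynomial Module Vale.Agent.P054A
open scoped Classical

variable {σ : Type} {T : Set ℂ} {V : Ideal (MvPolynomial σ ℂ)} {q : σ → ℂ}

theorem cmhom_C (q : σ → ℂ) (a : ℂ) : hφ q (C a) = Polynomial.C (C a) := by
  rw [hφ, aeval_C]
  rfl

theorem cmhom_X (q : σ → ℂ) (l : σ) :
    hφ q (X l) = Polynomial.C (C (q l)) + Polynomial.X * Polynomial.C (X l - C (q l)) := by
  rw [hφ, aeval_X]

theorem cmhom_sub (q : σ → ℂ) (l : σ) :
    hφ q (X l - C (q l)) = Polynomial.X * Polynomial.C (X l - C (q l)) := by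
  rw [map_sub, cmhom_X, cmhom_C, add_sub_cancel_left]

theorem cmhom_one (q : σ → ℂ) (G : MvPolynomial σ ℂ) : (hφ q G).eval 1 = G := by
  induction G using MvPolynomial.induction_on with
  | C a => rw [cmhom_C, Polynomial.eval_C]
  | add G G' h h' => rw [map_add, Polynomial.eval_add, h, h']
  | mul_X G l h =>
    rw [map_mul, Polynomial.eval_mul, h, cmhom_X]
    simp

theorem cmhom_comp (q : σ → ℂ) (G : MvPolynomial σ ℂ) :
    (hφ q G).map (hφ q).toRingHom =
      ((hφ q G).map Polynomial.C).comp (Polynomial.C Polynomial.X * Polynomial.X) := by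
  have e : ∀ H, (hφ q).toRingHom H = hφ q H := fun _ => rfl
  induction G using MvPolynomial.induction_on with
  | C a => rw [cmhom_C, Polynomial.map_C, Polynomial.map_C, Polynomial.C_comp, e, cmhom_C]
  | add G G' h h' =>
    rw [map_add, Polynomial.map_add, Polynomial.map_add, Polynomial.add_comp, h, h']
  | mul_X G l h =>
    rw [map_mul, Polynomial.map_mul, Polynomial.map_mul, Polynomial.mul_comp, h, cmhom_X]
    congr 1
    simp only [Polynomial.map_add, Polynomial.map_mul, Polynomial.map_C, Polynomial.map_X,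
      Polynomial.add_comp, Polynomial.mul_comp, Polynomial.C_comp, Polynomial.X_comp, e, cmhom_C,
      cmhom_sub, Polynomial.C_mul]
    ring

theorem cmhom_add (q : σ → ℂ) (k : ℕ) (G G' : MvPolynomial σ ℂ) :
    hc q k (G + G') = hc q k G + hc q k G' := by
  rw [hc, map_add, Polynomial.coeff_add, hc, hc]

theorem cmhom_mul0 (q : σ → ℂ) (G : MvPolynomial σ ℂ) (l : σ) :
    hc q 0 (G * X l) = hc q 0 G * C (q l) := by
  rw [hc, map_mul, cmhom_X, Polynomial.mul_coeff_zero, hc]
  simp

theorem cmhom_mul1 (q : σ → ℂ) (k : ℕ) (G : MvPolynomial σ ℂ) (l : σ) :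
    hc q (k + 1) (G * X l) = hc q (k + 1) G * C (q l) + hc q k G * (X l - C (q l)) := by
  rw [hc, map_mul, cmhom_X, mul_add, ← mul_assoc, Polynomial.coeff_add, Polynomial.coeff_mul_C,
    Polynomial.coeff_mul_C, Polynomial.coeff_mul_X, hc, hc]

/-- Evaluation of the expansion at a point with coordinates in an algebra. -/
theorem aeval_hφ {L : Type} [CommRing L] [Algebra ℂ L] (q : σ → ℂ) (z : σ → L) (t : L)
    (G : MvPolynomial σ ℂ) :
    aeval (fun l => algebraMap ℂ L (q l) + t * (z l - algebraMap ℂ L (q l))) G =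
      ((hφ q G).map (aeval z : MvPolynomial σ ℂ →ₐ[ℂ] L).toRingHom).eval t := by
  induction G using MvPolynomial.induction_on with
  | C a => rw [cmhom_C, Polynomial.map_C, Polynomial.eval_C, aeval_C]; simp
  | add G G' h h' => rw [map_add, map_add, Polynomial.map_add, Polynomial.eval_add, h, h']
  | mul_X G l h =>
    rw [map_mul, map_mul, Polynomial.map_mul, Polynomial.eval_mul, h, aeval_X, cmhom_X]
    simp

theorem eval_hφ (q z : σ → ℂ) (t : ℂ) (G : MvPolynomial σ ℂ) :
    eval (q + t • (z - q)) G = ((hφ q G).map (eval z)).eval t := by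
  induction G using MvPolynomial.induction_on with
  | C a => rw [cmhom_C, Polynomial.map_C, Polynomial.eval_C, eval_C, eval_C]
  | add G G' h h' => rw [map_add, map_add, Polynomial.map_add, Polynomial.eval_add, h, h']
  | mul_X G l h =>
    rw [map_mul, map_mul, Polynomial.map_mul, Polynomial.eval_mul, h, eval_X, cmhom_X]
    simp

theorem sum_hc (q : σ → ℂ) (G : MvPolynomial σ ℂ) {n : ℕ} (hn : (hφ q G).natDegree < n) :
    ∑ k ∈ Finset.range n, hc q k G = G := by
  have h := Polynomial.eval_eq_sum_range' hn (1 : MvPolynomial σ ℂ)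
  rw [cmhom_one] at h
  refine Eq.trans (Finset.sum_congr rfl fun k _ => ?_) h.symm
  rw [one_pow, mul_one, hc]

/-- The components are homogeneous. -/
theorem hφ_hc (q : σ → ℂ) (k : ℕ) (G : MvPolynomial σ ℂ) :
    hφ q (hc q k G) = Polynomial.monomial k (hc q k G) := by
  have h := congrArg (fun p => Polynomial.coeff p k) (cmhom_comp q G)
  simp only [Polynomial.comp_C_mul_X_coeff, Polynomial.coeff_map] at h
  rw [← Polynomial.C_mul_X_pow_eq_monomial]
  exact h

theorem mD_hc (hq : CsV T q) {D : Dr} (hD : D ∈ KD T) (k : ℕ) (G : MvPolynomial σ ℂ) :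
    mD D (hc q k G) = hc q k (mD D G) := by
  have h0 : ∀ l, mD D (C (q l) : MvPolynomial σ ℂ) = 0 := fun l => by
    rw [mD_C, csV_iff.1 hq D hD l, C_0]
  have h1 : ∀ l, mD D (X l - C (q l) : MvPolynomial σ ℂ) = 0 := fun l => by
    rw [mD_sub, mD_X, h0, sub_zero]
  induction G using MvPolynomial.induction_on generalizing k with
  | C a =>
    rw [mD_C, hc, hc, cmhom_C, cmhom_C, Polynomial.coeff_C, Polynomial.coeff_C]
    split_ifs
    · exact mD_C D a
    · exact mD_zero D
  | add G G' h h' => rw [cmhom_add, mD_add, mD_add, cmhom_add, h, h']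
  | mul_X G l h =>
    rw [mD_mul D G, mD_X, mul_zero, zero_add, mul_comm (X l)]
    rcases k with _ | k
    · rw [cmhom_mul0, cmhom_mul0, mD_mul, h0, h]
      ring
    · rw [cmhom_mul1, cmhom_mul1, mD_add, mD_mul, mD_mul, h0, h1, h, h]
      ring

theorem CsP.hc {G : MvPolynomial σ ℂ} (h : CsP T G) (hq : CsV T q) (k : ℕ) :
    CsP T (hc q k G) := by
  intro D hD
  rw [mD_hc hq hD, h D hD, P054S.hc, map_zero, Polynomial.coeff_zero]

variable [Fintype σ]

theorem cmhom_eu_mul (q : σ → ℂ) (G : MvPolynomial σ ℂ) (l : σ) :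
    eu q (G * X l) = eu q G * X l + G * (X l - C (q l)) := by
  have e : ∀ m, pderiv m (G * X l) * (X m - C (q m)) = pderiv m G * (X m - C (q m)) * X l +
      if m = l then G * (X m - C (q m)) else 0 := fun m => by
    rw [pderiv_mul]
    split_ifs with h
    · subst h
      rw [pderiv_X_self]
      ring
    · rw [pderiv_X_of_ne (Ne.symm h)]
      ring
  simp only [eu, e, Finset.sum_add_distrib, Finset.sum_mul, Finset.sum_ite_eq', Finset.mem_univ,
    if_true]

theorem cmhom_eu (q : σ → ℂ) (G : MvPolynomial σ ℂ) :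
    hφ q (eu q G) = Polynomial.X * Polynomial.derivative (hφ q G) := by
  induction G using MvPolynomial.induction_on with
  | C a => simp [eu]
  | add G G' h h' =>
    have e : eu q (G + G') = eu q G + eu q G' := by
      simp only [eu, map_add, add_mul, Finset.sum_add_distrib]
    rw [e, map_add, map_add, map_add, h, h', mul_add]
  | mul_X G l h =>
    rw [cmhom_eu_mul, map_add, map_mul, map_mul, map_mul, h, cmhom_sub, Polynomial.derivative_mul,
      cmhom_X]
    simp only [Polynomial.derivative_add, Polynomial.derivative_mul, Polynomial.derivative_C,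
      Polynomial.derivative_X]
    ring

theorem hc_eu (q : σ → ℂ) (k : ℕ) (G : MvPolynomial σ ℂ) :
    hc q k (eu q G) = (k : ℂ) • hc q k G := by
  rw [hc, cmhom_eu, hc]
  rcases k with _ | k
  · simp
  · rw [Polynomial.coeff_X_mul, Polynomial.coeff_derivative, smul_eq_C_mul, mul_comm]
    simp

theorem vx_iff (hV : V.IsPrime) : Vx q V ↔ ∀ G ∈ V, ∀ k, hc q k G ∈ V := by
  refine ⟨fun h G hG k => cf_mem_of_on hV fun z hz => ?_, fun h z hz t G hG => ?_⟩
  · have e : (hφ q G).map (eval z) = 0 := Polynomial.funext fun t => by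
      rw [← eval_hφ, Polynomial.eval_zero]
      exact h z hz t G hG
    rw [hc, ← Polynomial.coeff_map, e, Polynomial.coeff_zero]
  · have e : (hφ q G).map (eval z) = 0 := Polynomial.ext fun k => by
      rw [Polynomial.coeff_map, Polynomial.coeff_zero]
      exact hz _ (h G hG k)
    rw [eval_hφ, e, Polynomial.eval_zero]

theorem vx_of_eu (hV : V.IsPrime) (h : ∀ G ∈ V, eu q G ∈ V) : Vx q V := by
  have key : ∀ (n : ℕ) (G : MvPolynomial σ ℂ), G ∈ V → (∀ k, n ≤ k → hc q k G = 0) →
      ∀ k, hc q k G ∈ V := fun n => by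
    induction n with
    | zero =>
      intro G _ h0 k
      rw [h0 k (Nat.zero_le k)]
      exact V.zero_mem
    | succ n ih =>
      intro G hG h0
      have e : ∀ k, hc q k (eu q G - (n : ℂ) • G) = ((k : ℂ) - n) • hc q k G := fun k => by
        rw [sub_smul, ← hc_eu, hc, map_sub, map_smul, Polynomial.coeff_sub, Polynomial.coeff_smul,
          hc, hc]
      have h1 := ih _ (V.sub_mem (h G hG) (Submodule.smul_of_tower_mem V (n : ℂ) hG))
        fun k hk => by
          rw [e]
          rcases hk.eq_or_lt with rfl | hk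
          · rw [sub_self, zero_smul]
          · rw [h0 k hk, smul_zero]
      have h2 : ∀ k, k ≠ n → hc q k G ∈ V := fun k hk => by
        have h3 := Submodule.smul_of_tower_mem V ((k : ℂ) - n)⁻¹ (h1 k)
        rwa [e, smul_smul, inv_mul_cancel₀ (sub_ne_zero.2 (Nat.cast_injective.ne hk)),
          one_smul] at h3
      intro k
      by_cases hk : k = n
      · subst hk
        have h3 := sum_hc q G (n := (hφ q G).natDegree + k + 1) (by omega)
        rw [← Finset.add_sum_erase _ _ (a := k) (Finset.mem_range.2 (by omega))] at h3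
        rw [eq_sub_of_add_eq h3]
        exact V.sub_mem hG (V.sum_mem fun j hj => h2 j (Finset.ne_of_mem_erase hj))
      · exact h2 k hk
  exact (vx_iff hV).2 fun G hG => key ((hφ q G).natDegree + 1) G hG fun k hk =>
    Polynomial.coeff_eq_zero_of_natDegree_lt hk

/-- A hypersurface of a cone which is not a cone determines the cone. -/
theorem mem_cone_iff {U : Ideal (MvPolynomial σ ℂ)} {w : ℕ} (hU : PD (w + 1) U) (hV : PD w V)
    (hq : Vx q U) (hle : U ≤ V) (hn : ¬ Vx q V) {G : MvPolynomial σ ℂ} :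
    G ∈ U ↔ ∀ k, hc q k G ∈ V := by
  have hp := hV.prime
  obtain ⟨W, hW, hm⟩ : ∃ W : Ideal (MvPolynomial σ ℂ), W.IsPrime ∧
      ∀ G, G ∈ W ↔ ∀ k, hc q k G ∈ V := by
    refine ⟨RingHom.ker ((Polynomial.mapRingHom (Ideal.Quotient.mk V)).comp (hφ q).toRingHom),
      RingHom.ker_isPrime _, fun G => ?_⟩
    rw [RingHom.mem_ker, RingHom.comp_apply, Polynomial.coe_mapRingHom, Polynomial.ext_iff]
    refine forall_congr' fun k => ?_
    rw [Polynomial.coeff_map, Polynomial.coeff_zero, Ideal.Quotient.eq_zero_iff_mem]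
    rfl
  have h1 : U ≤ W := fun G hG => (hm G).2 fun k => hle ((vx_iff hU.prime).1 hq G hG k)
  have h2 : W ≤ V := fun G hG => by
    rw [← sum_hc q G (Nat.lt_succ_self _)]
    exact V.sum_mem fun k _ => (hm G).1 hG k
  have h3 : W ≠ V := fun e => hn ((vx_iff hp).2 fun G hG => (hm G).1 (e ▸ hG))
  obtain ⟨j, hj⟩ := exists_PD hW
  have h4 := hj.dim_lt hV (lt_of_le_of_ne h2 h3)
  have h5 := hU.dim_le hj h1
  obtain rfl : j = w + 1 := by omega
  rw [hU.eq_of_le hj h1]
  exact hm G

/-- Points which are not vertices form an open set. -/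
theorem exists_not_vx (hn : ¬ Vx q V) :
    ∃ h : MvPolynomial σ ℂ, eval q h ≠ 0 ∧ ∀ q', eval q' h ≠ 0 → ¬ Vx q' V := by
  unfold Vx On at hn
  push Not at hn
  obtain ⟨z, hz, t, G, hG, h0⟩ := hn
  have e : ∀ (q' : σ → ℂ) (H : MvPolynomial σ ℂ),
      eval q' (aeval (fun l => X l + C t * (C (z l) - X l)) H : MvPolynomial σ ℂ) =
        eval (q' + t • (z - q')) H := fun q' H => by
    induction H using MvPolynomial.induction_on with
    | C a => simp
    | add G G' h h' => rw [map_add, map_add, map_add, h, h']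
    | mul_X G l h =>
      rw [map_mul, map_mul, map_mul, h]
      simp
  refine ⟨aeval (fun l => X l + C t * (C (z l) - X l)) G, ?_, fun q' h1 h2 => ?_⟩
  · rwa [e]
  · rw [e] at h1
    exact h1 (h2 z hz t G hG)

end Vale.Agent.P054S
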