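import Vale.Agent.P054S.CMain
import Vale.Agent.P054S.CMJb

/-!
The weighted form of `degml`.
-/

namespace Vale.Agent.P054S

open MvPolynomial Vale.Agent.P054A
open scoped Classical

/-- Few vertices project a variety to one whose degree is smaller by a factor `n`. -/
theorem degmlJ (k : ℕ) : ∃ c : ℕ, ∀ (w s h n : ℕ) (V : Ideal (MvPolynomial (Fin (k + 1)) ℂ))
    (f : Fin (k + 1 - w) → MvPolynomial (Fin (k + 1)) ℂ) (J : Fin (k + 1 - w) → Fin (k + 1))
    (S : Finset (Pt (k + 1))) (r : ℕ → ℕ), 1 ≤ s → 1 ≤ n → PD w V → Sys V s f J →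
    (∀ p ∈ S, GoodV w p V ∧ ∃ Y, PD w Y ∧ InCone p V Y ∧ c * n * dg w Y < dg w V) →
    FlatB S w r → HypB S h →
    n * S.card ≤ n * h + c * dg w V * ∑ l ∈ Finset.range w, s ^ (w - l) * r l := by
  obtain ⟨c, hc⟩ := cm_count_n (Fin (k + 1))
  obtain ⟨e, -, he⟩ := cm_deg_n (k + 1)
  refine ⟨c + e, fun w s h n V f J S r hs hn hV hf hS hB hH => ?_⟩
  rcases S.eq_empty_or_nonempty with rfl | ⟨p₀, hp₀⟩
  · simp
  have hw1 : 1 ≤ w := by
    by_contra hw
    obtain rfl : w = 0 := by omega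
    exact cmain_pos hV (hS p₀ hp₀).1.2.2
  have hw2 : w + 1 ≤ k + 1 := by
    obtain ⟨g0, Y, hY, i0, -⟩ := hS p₀ hp₀
    have := (cone_data hV hY g0 i0).1.1
    rwa [Fintype.card_fin] at this
  have hw : w + (k + 1 - w) = Fintype.card (Fin (k + 1)) := by
    rw [Fintype.card_fin]
    omega
  obtain ⟨z, W, hW, hz⟩ := he w n V hV hw1 hw2 hn
  rw [← Finset.card_filter_add_card_filter_not (s := S) fun q => cx q - z ∈ W, mul_add]
  refine Nat.add_le_add (Nat.mul_le_mul_left _ (hH z W hW)) (le_trans ?_ (Nat.mul_le_mul_right _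
    (Nat.mul_le_mul_right _ (Nat.le_add_right c e))))
  rw [← Finset.card_image_of_injective _ cmain_inj]
  refine hc n w s _ V f J _ r hV hw hs hf (fun q hq => ?_)
    (cmain_flat hB (Finset.filter_subset _ _))
  obtain ⟨p, hp, rfl⟩ := Finset.mem_image.1 hq
  obtain ⟨hp, hpW⟩ := Finset.mem_filter.1 hp
  obtain ⟨g0, Y, hY, i0, hd⟩ := hS p hp
  obtain ⟨a1, a2, a3, a4, a5⟩ := cone_data hV hY g0 i0
  obtain ⟨u, u1, u2⟩ := exists_not_vx a4
  obtain ⟨L, l1, l2⟩ := Submodule.exists_le_ker_of_notMem hpW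
  have hL : ∀ x, eval x (aff (-L z) L) = L (x - z) := fun x => by
    rw [eval_aff, neg_add_eq_sub, ← map_sub]
  refine ⟨coneI p Y, a1, a2, a3, g0.2.2, u * aff (-L z) L, ?_, fun q hO hq => ?_⟩
  · rw [map_mul, hL]; exact mul_ne_zero u1 l1
  · rw [map_mul, hL] at hq
    refine ⟨u2 q (left_ne_zero_of_mul hq), fun hb => ?_⟩
    exact right_ne_zero_of_mul hq (l2 (hz q _ a1 (a2.shift hO) a3 hb (lt_of_le_of_lt
      (Nat.mul_le_mul (Nat.mul_le_mul_right _ (Nat.le_add_left e c)) a5) hd)))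

end Vale.Agent.P054S
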