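import Vale.Agent.P054S.CMJDef
import Vale.Agent.P054S.CMSec

namespace Vale.Agent.P054S

open MvPolynomial Module Vale.Agent.P054A
open scoped Classical

variable {σ : Type} [Fintype σ] {T : Set ℂ} {U V : Ideal (MvPolynomial σ ℂ)} {w n : ℕ}
  {q a : σ → ℂ}

theorem cmj_roots {g : Polynomial ℂ} {j N : ℕ} (h0 : g.coeff j ≠ 0) (hN : g.coeff (j + N) ≠ 0)
    (hl : ∀ k < j, g.coeff k = 0)
    (hs : ∀ t, t ≠ 0 → g.eval t = 0 → g.derivative.eval t ≠ 0) :
    ∃ A : Finset ℂ, N ≤ A.card ∧ ∀ t ∈ A, t ≠ 0 ∧ g.eval t = 0 := by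
  obtain ⟨g', rfl, h2, h3⟩ := cmsv_fac h0 hN hl
  have hg : g' ≠ 0 := fun e => h2 (by rw [e, Polynomial.eval_zero])
  have hr : ∀ t, g'.eval t = 0 → t ≠ 0 ∧ (Polynomial.X ^ j * g').eval t = 0 := fun t ht =>
    ⟨fun e => h2 (e ▸ ht), by rw [Polynomial.eval_mul, ht, mul_zero]⟩
  have hnd : g'.roots.Nodup := by
    refine Multiset.nodup_iff_count_le_one.2 fun t => ?_
    rw [Polynomial.count_roots]
    by_contra hc
    obtain ⟨k1, k2⟩ := (Polynomial.one_lt_rootMultiplicity_iff_isRoot hg).1 (not_le.1 hc)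
    refine hs t (hr t k1).1 (hr t k1).2 ?_
    rw [Polynomial.derivative_mul, Polynomial.eval_add, Polynomial.eval_mul, Polynomial.eval_mul,
      k1.eq_zero, k2.eq_zero, mul_zero, mul_zero, add_zero]
  refine ⟨g'.roots.toFinset, ?_, fun t ht => hr t
    (Polynomial.isRoot_of_mem_roots (Multiset.mem_toFinset.1 ht))⟩
  rw [Multiset.toFinset_card_of_nodup hnd, ← (IsAlgClosed.splits g').natDegree_eq_card_roots]
  exact h3

/-- The generic ruling of the cone meets `V` in `n` further points. -/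
theorem cm_second_n (hU : PD (w + 1) U) (hV : PD w V) (hsU : StI T U) (hs : StI T V)
    (hq : CsV T q) (hx : Vx q U) (hl : U ≤ V) (hn : ¬ Vx q V) (ha : Gen T w V a)
    (h : ¬ BirN n q V) : ∃ A : Finset ℂ, n ≤ A.card ∧
      ∀ t ∈ A, t ≠ 0 ∧ t ≠ 1 ∧ On (q + t • (a - q)) V := by
  obtain ⟨j, N, G, hN, hGc, hG, hj, hjN, hmin⟩ := cmsv_min hU hV hsU hs hq hx hl hn
  have haU : On a U := fun H hH => ha.1 H (hl hH)
  have hne : ∀ m, hc q m G ∉ U → eval a (hc q m G) ≠ 0 := fun m hm h0' =>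
    hm (cmsv_hom hU hV hx hl hn (cm_gen hV hs ha (hGc.hc hq m) h0'))
  have hco : ∀ (H : MvPolynomial σ ℂ) (k : ℕ),
      ((hφ q H).map (eval a)).coeff k = eval a (hc q k H) := fun H k => Polynomial.coeff_map _ _
  have g0 : ((hφ q G).map (eval a)).coeff j ≠ 0 := hco G j ▸ hne j hj
  have gN : ((hφ q G).map (eval a)).coeff (j + N) ≠ 0 := hco G (j + N) ▸ hne _ hjN
  have gl : ∀ k < j, ((hφ q G).map (eval a)).coeff k = 0 := fun k hk =>
    (hco G k).trans (haU _ (hG.2 k (Or.inl hk)))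
  have hon : ∀ t, t ≠ 0 → ((hφ q G).map (eval a)).eval t = 0 → On (q + t • (a - q)) V :=
    fun t ht h0' => cmsv_kill hG hN hmin (hx a haU t) ((eval_hφ q a t G).trans h0') (by
      rw [cmsv_eval]
      exact mul_ne_zero (hne _ hjN) (pow_ne_zero _ ht))
  have hnN : n < N := by
    by_contra hc'
    have e : ∀ k, hc q k (∑ i ∈ Finset.Icc j (j + N), hc q i G) =
        if k ∈ Finset.Icc j (j + N) then hc q k G else 0 := fun k => by
      rw [hc, map_sum, Polynomial.finsetSum_coeff]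
      simp only [hφ_hc, Polynomial.coeff_monomial]
      rw [Finset.sum_ite_eq']
    refine h ⟨j, N, ∑ i ∈ Finset.Icc j (j + N), hc q i G, not_lt.1 hc', ?_, ?_, fun i hi => ?_⟩
    · have h2 : G - ∑ i ∈ Finset.Icc j (j + N), hc q i G ∈ U := cmsv_mem (q := q) fun k => by
        rw [cmsv_sub, e]
        split_ifs with h3
        · rw [sub_self]
          exact U.zero_mem
        · rw [sub_zero]
          rw [Finset.mem_Icc] at h3
          exact hG.2 k (by omega)
      have h4 := V.sub_mem hG.1 (hl h2)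
      rwa [sub_sub_cancel] at h4
    · rw [e, if_pos (Finset.mem_Icc.2 ⟨by omega, le_rfl⟩)]
      exact fun h2 => hjN (cmsv_hom hU hV hx hl hn h2)
    · rw [e, if_neg]
      rw [Finset.mem_Icc]
      omega
  have he : (hφ q (eu q G)).map (eval a) =
      Polynomial.X * ((hφ q G).map (eval a)).derivative := by
    ext k
    rw [hco, hc_eu, smul_eval]
    cases k with
    | zero => simp
    | succ k =>
      rw [Polynomial.coeff_X_mul, Polynomial.coeff_derivative, hco, Nat.cast_succ, mul_comm]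
  have hout : a - q ∉ tg T a := fun k => ray_notin hV hs ha hq hn (tg_le_tI hs ha.1 k)
  have hsim : ∀ t, t ≠ 0 → ((hφ q G).map (eval a)).eval t = 0 →
      ((hφ q G).map (eval a)).derivative.eval t ≠ 0 := fun t ht h0' hd => by
    have h2 : eu q G ∈ V := cm_gen hV hs ⟨hon t ht h0', gen_second hq ha.2 hout ht⟩ (hGc.eu hq) (by
      rw [eval_hφ, he, Polynomial.eval_mul, hd, mul_zero])
    have h3 : ∀ k, hc q k (eu q G - (j : ℂ) • G) = ((k : ℂ) - j) • hc q k G := fun k => by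
      rw [cmsv_sub, cmsv_smul, hc_eu, sub_smul]
    have h4 : eu q G - (j : ℂ) • G ∈ U := hmin (N - 1) (by omega) (j + 1) _
      ⟨V.sub_mem h2 (Submodule.smul_of_tower_mem V _ hG.1), fun k hk => by
        rw [h3]
        by_cases h5 : k = j
        · rw [h5, sub_self, zero_smul]
          exact U.zero_mem
        · exact Submodule.smul_of_tower_mem U _ (hG.2 k (by omega))⟩
    have h5 := Submodule.smul_of_tower_mem U (N : ℂ)⁻¹ ((vx_iff hU.prime).1 hx _ h4 (j + N))
    rw [h3, Nat.cast_add, add_sub_cancel_left, inv_smul_smul₀ (Nat.cast_ne_zero.2 (by omega))] at h5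
    exact hjN h5
  obtain ⟨A, hA, hA'⟩ := cmj_roots g0 gN gl hsim
  refine ⟨A.erase 1, ?_, fun t ht => ?_⟩
  · have := Finset.pred_card_le_card_erase (s := A) (a := 1)
    omega
  · obtain ⟨k1, k2⟩ := Finset.mem_erase.1 ht
    exact ⟨(hA' t k2).1, k1, hon t (hA' t k2).1 (hA' t k2).2⟩

end Vale.Agent.P054S
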