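import Vale.Agent.P054S.CMCore
import Vale.Agent.P054S.CMJSv

namespace Vale.Agent.P054S

open MvPolynomial Module Vale.Agent.P054A
open scoped Classical

variable {σ : Type} [Fintype σ]

/-- The data of one class after slicing. -/
theorem cmj_one {T : Set ℂ} {n w c lam : ℕ} {V U : Ideal (MvPolynomial σ ℂ)}
    {f : Fin c → MvPolynomial σ ℂ} {J : Fin c → σ} {p q a : σ → ℂ} {u : Fin lam → σ → ℂ}
    {h : MvPolynomial σ ℂ} (hT : T.Finite) (h0 : PD w V)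
    (hc : w + c = Fintype.card σ) (hf : ∀ i, f i ∈ V) (hm : minor f J ∉ V)
    (hmc : CsP T (minor f J)) (s0 : StI T V) (hcl : ClsN n w V p U)
    (hlam : finrank ℂ (Om U) = lam) (hA : Adm T (w + 1) U) (hΩ : StW T (Om U)) (hp : CsV T p)
    (hh : CsP T h) (hh0 : eval p h ≠ 0)
    (hh1 : ∀ q, q - p ∈ Om U → eval q h ≠ 0 → ¬ Vx q V ∧ ¬ BirN n q V)
    (ha : Gen T w V a) (e1 : tg T a ⊓ kerU u ≤ tg (slT T u a) a) (e2 : tg (slT T u a) a ≤ kerU u)
    (q1 : q - p ∈ Om U) (q2 : a - q ∈ kerU u) (q3 : Om U ⊓ kerU u = ⊥) (q4 : Om U ≤ tg T q)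
    (q5 : tg T a ≤ tg (T ∪ Set.range q) a) (q6 : CsV (slT T u a) q) :
    lam < w ∧ Vx q U ∧ ¬ Vx q V ∧ a - q ∉ tg (slT T u a) a ∧ tg (slT T u a) a ≠ ⊥ ∧
      ∃ A : Finset ℂ, n ≤ A.card ∧
        ∀ t ∈ A, t ≠ 1 ∧ Sec (slT T u a) w V f J u a (q + t • (a - q)) := by
  have hq0 : eval q h ≠ 0 := by
    intro e
    have k := cm_gen (flatI_pd p (Om U)).1 (stI_flatI hp hΩ)
      ⟨on_flatI.2 q1, Submodule.finrank_mono q4⟩ hh e
    exact hh0 ((on_flatI (x := p)).2 (by rw [sub_self]; exact Submodule.zero_mem _) h k)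
  obtain ⟨n0, n2⟩ := hh1 q q1 hq0
  have hx : Vx q U := hcl.vx.shift q1
  have sT : T ⊆ T ∪ Set.range q := Set.subset_union_left
  have cq : CsV (T ∪ Set.range q) q := csV_range q Set.subset_union_right
  have ga : Gen (T ∪ Set.range q) w V a := ⟨ha.1, ha.2.trans (Submodule.finrank_mono q5)⟩
  obtain ⟨A, hA1, hA2⟩ := cm_second_n hcl.pd h0 (hA.2.1.mono sT) (s0.mono sT) cq hx hcl.le n0 ga n2
  have out : a - q ∉ tI V a := ray_notin h0 (s0.mono sT) ga cq n0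
  have sT' : T ⊆ slT T u a := subset_slT u a
  have out' : a - q ∉ tg (slT T u a) a := fun k => out (tg_le_tI (s0.mono sT') ha.1 k)
  have out1 : a - q ∉ tg (T ∪ Set.range q) a := fun k => out (tg_le_tI (s0.mono sT) ha.1 k)
  have hr : w ≤ finrank ℂ (tg (slT T u a) a) + finrank ℂ (Om U) := by
    have k1 := Submodule.finrank_sup_add_finrank_inf_eq (tg T a) (kerU u)
    have k2 := finrank_kerU u
    have k3 := Submodule.finrank_mono e1
    have k4 := Submodule.finrank_le (tg T a ⊔ kerU u)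
    rw [Module.finrank_fintype_fun_eq_card] at k4
    have k5 := ha.2
    omega
  obtain ⟨k0, k1, k2, k3⟩ := cm_key (slT_finite hT u a) (hA.mono sT') hx q6 (hΩ.mono sT') hcl.le
    ha.1 q1 hcl.nf q3 q2 e2 out' hr
  refine ⟨hlam ▸ k3, hx, n0, out', fun e => ?_, A, hA1, fun t ht => ⟨(hA2 t ht).2.1,
    cm_sec hcl.pd h0 hc hf hm (hmc.mono sT) (s0.mono sT) cq q6 hx hcl.le n0
      (fun g hg => ha.1 g (hcl.le hg)) ga.2 out1 (hA2 t ht).1 (hA2 t ht).2.1 (hA2 t ht).2.2 q2 q3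
      hlam k0 k1 k2⟩⟩
  obtain ⟨D, hD, D', -, k⟩ := k2
  have z : vD D a = 0 := by
    have : vD D a ∈ tg (slT T u a) a := mem_tg.2 ⟨D, hD, rfl⟩
    rwa [e, Submodule.mem_bot] at this
  have z' : vD D' (0 : σ → ℂ) = 0 := funext fun _ => D'.map_zero
  rw [z, z'] at k
  exact k (Submodule.zero_mem _)

/-- The weighted number of cones with a vertex flat of dimension `lam`. -/
theorem cm_core_n (σ : Type) [Fintype σ] : ∃ c₀ : ℕ, ∀ (n w s c lam : ℕ)
    (V : Ideal (MvPolynomial σ ℂ)) (f : Fin c → MvPolynomial σ ℂ) (J : Fin c → σ)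
    (F : Finset (Ideal (MvPolynomial σ ℂ))) (p : Ideal (MvPolynomial σ ℂ) → σ → ℂ),
    PD w V → w + c = Fintype.card σ → 1 ≤ s → Sys V s f J →
    (∀ U ∈ F, ClsN n w V (p U) U ∧ finrank ℂ (Om U) = lam) →
    (F.Nonempty → lam < w) ∧ n * F.card ≤ c₀ * dg w V * s ^ (w - lam) := by
  obtain ⟨c₀, hcnt⟩ := cm_cnt σ
  refine ⟨c₀, fun n w s c lam V f J F p h0 hc hs hf hF => ?_⟩
  have hex : ∀ U ∈ F, ∃ h : MvPolynomial σ ℂ, eval (p U) h ≠ 0 ∧ ∀ q, q - p U ∈ Om U →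
      eval q h ≠ 0 → ¬ Vx q V ∧ ¬ BirN n q V := fun U hU => (hF U hU).1.ex
  choose! h hh0 hh1 using hex
  obtain ⟨T1, f1, a1⟩ := cmcore_fin F
    (fun U T => Adm T (w + 1) U ∧ StW T (Om U) ∧ CsV T (p U) ∧ CsP T (h U))
    (fun U T T' k hT => ⟨k.1.mono hT, k.2.1.mono hT, k.2.2.1.mono hT, k.2.2.2.mono hT⟩)
    fun U hU => by
      obtain ⟨A, g1, g2⟩ := exists_adm (hF U hU).1.pd
      obtain ⟨B, g3, g4⟩ := exists_stW (Om U)
      obtain ⟨E, g5, g6⟩ := exists_csP (h U)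
      exact ⟨A ∪ B ∪ E ∪ Set.range (p U), ((g1.union g3).union g5).union (Set.finite_range _),
        g2.mono fun x hx => Or.inl (Or.inl (Or.inl hx)),
        g4.mono fun x hx => Or.inl (Or.inl (Or.inr hx)), csV_range _ Set.subset_union_right,
        g6.mono fun x hx => Or.inl (Or.inr hx)⟩
  obtain ⟨T2, f2, a2⟩ := cmcore_fin Finset.univ (fun i T => CsP T (f i))
    (fun i T T' k hT => k.mono hT) fun i _ => exists_csP (f i)
  obtain ⟨T3, f3, a3⟩ := exists_csP (minor f J)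
  obtain ⟨T4, f4, a4⟩ := exists_stI V
  set T := T1 ∪ T2 ∪ T3 ∪ T4 with hTdef
  have hT : T.Finite := ((f1.union f2).union f3).union f4
  have u1 : T1 ⊆ T := fun x hx => Or.inl (Or.inl (Or.inl hx))
  have u2 : T2 ⊆ T := fun x hx => Or.inl (Or.inl (Or.inr hx))
  have u3 : T3 ⊆ T := fun x hx => Or.inl (Or.inr hx)
  have s0 : StI T V := a4.mono fun x hx => Or.inr hx
  obtain ⟨a, ha⟩ := exists_gen h0 hT
  obtain ⟨u, q, e1, e2, hq⟩ := exists_slice hT a lam F p (fun U => Om U)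
    (fun U hU => (a1 U hU).2.2.1.mono u1) (fun U hU => (a1 U hU).2.1.mono u1)
    (fun U hU => (hF U hU).2) fun U hU k => by
      obtain ⟨z, z1, z2⟩ := (hF U hU).1.nf (Om U) (finrank_Om_le (hF U hU).1.pd)
      exact z2 (cm_flat h0 s0 ha ((a1 U hU).2.2.1.mono u1) ((a1 U hU).2.1.mono u1) k z z1)
  have one : ∀ U ∈ F, lam < w ∧ Vx (q U) U ∧ ¬ Vx (q U) V ∧ a - q U ∉ tg (slT T u a) a ∧
      tg (slT T u a) a ≠ ⊥ ∧ ∃ A : Finset ℂ, n ≤ A.card ∧
        ∀ t ∈ A, t ≠ 1 ∧ Sec (slT T u a) w V f J u a (q U + t • (a - q U)) := fun U hU => by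
    obtain ⟨q1, q2, q3, q4, q5, q6⟩ := hq U hU
    exact cmj_one hT h0 hc (fun i => (hf.1 i).1) hf.2 (a3.mono u3) s0 (hF U hU).1
      (hF U hU).2 ((a1 U hU).1.mono u1) ((a1 U hU).2.1.mono u1) ((a1 U hU).2.2.1.mono u1)
      ((a1 U hU).2.2.2.mono u1) (hh0 U hU) (hh1 U hU) ha e1 e2 q1 q2 q3 q4 q5 q6
  refine ⟨fun ⟨U, hU⟩ => (one U hU).1, ?_⟩
  have two : ∀ U ∈ F, ∃ A : Finset ℂ, n ≤ A.card ∧
      ∀ t ∈ A, t ≠ 1 ∧ Sec (slT T u a) w V f J u a (q U + t • (a - q U)) :=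
    fun U hU => (one U hU).2.2.2.2.2
  choose! A t1 t2 using two
  have inj : Set.InjOn (fun x : (_ : Ideal (MvPolynomial σ ℂ)) × ℂ => q x.1 + x.2 • (a - q x.1))
      (F.sigma A : Set ((_ : Ideal (MvPolynomial σ ℂ)) × ℂ)) := by
    rintro ⟨U, t⟩ hx ⟨U', t'⟩ hx' e
    obtain ⟨hU, ht⟩ := Finset.mem_sigma.1 (Finset.mem_coe.1 hx)
    obtain ⟨hU', -⟩ := Finset.mem_sigma.1 (Finset.mem_coe.1 hx')
    obtain ⟨-, x1, n1, o1, b1, -⟩ := one U hU
    obtain ⟨-, x2, n2, -⟩ := one U' hU'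
    have e' : q U = q U' :=
      vertex_unique (hq U hU).2.2.2.2.2 (hq U' hU').2.2.2.2.2 (t2 U hU t ht).1 e o1 b1
    obtain rfl : U = U' := by
      ext G
      rw [mem_cone_iff (hF U hU).1.pd h0 x1 (hF U hU).1.le n1,
        mem_cone_iff (hF U' hU').1.pd h0 x2 (hF U' hU').1.le n2, e']
    have e2 : a - q U ≠ 0 := fun k => o1 (k ▸ Submodule.zero_mem _)
    obtain rfl : t = t' := smul_left_injective ℂ e2 (add_left_cancel e)
    rfl
  calc n * F.card = ∑ U ∈ F, n := by rw [Finset.sum_const, smul_eq_mul, mul_comm]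
    _ ≤ ∑ U ∈ F, (A U).card := Finset.sum_le_sum t1
    _ = (F.sigma A).card := (Finset.card_sigma F A).symm
    _ = _ := (Finset.card_image_of_injOn inj).symm
    _ ≤ _ := hcnt (slT T u a) w s c lam V f J u a _ h0 hc hs hf (s0.mono (subset_slT u a))
        (fun i => ((a2 i (Finset.mem_univ i)).mono u2).mono (subset_slT u a)) fun b hb => by
          obtain ⟨x, hx, rfl⟩ := Finset.mem_image.1 hb
          obtain ⟨hU, ht⟩ := Finset.mem_sigma.1 hx
          exact (t2 _ hU _ ht).2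

/-- The weighted number of vertices. -/
theorem cm_count_n (σ : Type) [Fintype σ] : ∃ c₀ : ℕ, ∀ (n w s c : ℕ)
    (V : Ideal (MvPolynomial σ ℂ)) (f : Fin c → MvPolynomial σ ℂ) (J : Fin c → σ)
    (S : Finset (σ → ℂ)) (r : ℕ → ℕ), PD w V → w + c = Fintype.card σ → 1 ≤ s →
    Sys V s f J → (∀ p ∈ S, ∃ U, ClsN n w V p U) →
    (∀ l < w, ∀ (z : σ → ℂ) (W : Submodule ℂ (σ → ℂ)), finrank ℂ W ≤ l →
      (S.filter fun q => q - z ∈ W).card ≤ r l) →
    n * S.card ≤ c₀ * dg w V * ∑ l ∈ Finset.range w, s ^ (w - l) * r l := by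
  obtain ⟨c₀, H⟩ := cm_core_n σ
  refine ⟨c₀, fun n w s c V f J S r h0 hw hs hsys hS hr => ?_⟩
  choose! U hU using hS
  have hlt : ∀ p ∈ S, finrank ℂ (Om (U p)) < w := fun p hp =>
    (H n w s c _ V f J {U p} (fun _ => p) h0 hw hs hsys (fun W hW => by
      rw [Finset.mem_singleton.1 hW]
      exact ⟨hU p hp, rfl⟩)).1 (Finset.singleton_nonempty _)
  rw [Finset.card_eq_sum_card_fiberwise (f := fun p => finrank ℂ (Om (U p))) (t := Finset.range w)
    (fun p hp => Finset.mem_coe.2 (Finset.mem_range.2 (hlt p hp))), Finset.mul_sum, Finset.mul_sum]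
  refine Finset.sum_le_sum fun l hl => ?_
  set S' := S.filter fun p => finrank ℂ (Om (U p)) = l with hS'
  have hex : ∀ W ∈ S'.image U, ∃ p, p ∈ S' ∧ U p = W := fun W hW => Finset.mem_image.1 hW
  choose! π hπ using hex
  have hF := (H n w s c l V f J (S'.image U) π h0 hw hs hsys fun W hW => by
    obtain ⟨k1, k2⟩ := hπ W hW
    obtain ⟨k3, k4⟩ := Finset.mem_filter.1 k1
    have := hU _ k3
    rw [k2] at this k4
    exact ⟨this, k4⟩).2
  have hfib : ∀ W ∈ S'.image U, (S'.filter fun p => U p = W).card ≤ r l := by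
    intro W hW
    obtain ⟨k1, k2⟩ := hπ W hW
    obtain ⟨k3, k4⟩ := Finset.mem_filter.1 k1
    rw [k2] at k4
    refine le_trans (Finset.card_le_card fun q hq => ?_)
      (hr l (Finset.mem_range.1 hl) (π W) (Om W) k4.le)
    obtain ⟨j1, j2⟩ := Finset.mem_filter.1 hq
    have j3 := (Finset.mem_filter.1 j1).1
    refine Finset.mem_filter.2 ⟨j3, Vx.sub_mem ?_ ?_⟩
    · have := (hU _ k3).vx
      rwa [k2] at this
    · have := (hU _ j3).vx
      rwa [j2] at this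
  calc n * S'.card ≤ n * (r l * (S'.image U).card) :=
        Nat.mul_le_mul_left _ (Finset.card_le_mul_card_image S' (r l) hfib)
    _ = r l * (n * (S'.image U).card) := by ring
    _ ≤ r l * (c₀ * dg w V * s ^ (w - l)) := Nat.mul_le_mul_left _ hF
    _ = c₀ * dg w V * (s ^ (w - l) * r l) := by ring

end Vale.Agent.P054S
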