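import Vale.Agent.P054S.CMDef

/-!
Definitions for the weighted multiplicity lemma.
-/

namespace Vale.Agent.P054S

open MvPolynomial Vale.Agent.P054A
open scoped Classical

variable {σ : Type}

/-- The projection of `V` from `q` has degree at most `n`. -/
def BirN (n : ℕ) (q : σ → ℂ) (V : Ideal (MvPolynomial σ ℂ)) : Prop :=
  ∃ (j N : ℕ) (G : MvPolynomial σ ℂ), N ≤ n ∧ G ∈ V ∧ hc q (j + N) G ∉ V ∧
    ∀ i, i < j ∨ j + N < i → hc q i G = 0

/-- A cone `U` with vertex `p` over `V` whose rulings meet `V` in more than `n` points. -/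
structure ClsN [Fintype σ] (n w : ℕ) (V : Ideal (MvPolynomial σ ℂ)) (p : σ → ℂ)
    (U : Ideal (MvPolynomial σ ℂ)) : Prop where
  pd : PD (w + 1) U
  vx : Vx p U
  le : U ≤ V
  nf : NFl w p V
  ex : ∃ h : MvPolynomial σ ℂ, eval p h ≠ 0 ∧ ∀ q, q - p ∈ Om U → eval q h ≠ 0 →
    ¬ Vx q V ∧ ¬ BirN n q V

end Vale.Agent.P054S
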