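import Vale.Agent.P054S.CMJDef
import Vale.Agent.P054S.CMDeg

namespace Vale.Agent.P054S

open MvPolynomial Module Vale.Agent.P054A
open scoped Classical

theorem cmjdeg_fin {L : Type} [Field L] [Algebra ℂ L] {K : IntermediateField ℂ L} {ρ : L}
    {N n : ℕ} (e : ℕ → K) (hN : N ≤ n) (h0 : e N ≠ 0)
    (h1 : ∑ i ∈ Finset.range (N + 1), (e i : L) * ρ ^ i = 0)
    (h2 : ∀ E : IntermediateField ℂ L, K ≤ E → ρ ∈ E → E = ⊤) :
    FiniteDimensional K L ∧ finrank K L ≤ n := by
  set P : Polynomial K := ∑ i ∈ Finset.range (N + 1), Polynomial.monomial i (e i) with hP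
  have c1 : P.coeff N = e N := by
    rw [hP, Polynomial.finsetSum_coeff]
    simp only [Polynomial.coeff_monomial]
    rw [Finset.sum_ite_eq', if_pos (Finset.self_mem_range_succ N)]
  have c2 : P ≠ 0 := fun h => h0 (by rw [← c1, h, Polynomial.coeff_zero])
  have c3 : P.natDegree ≤ N := Polynomial.natDegree_sum_le_of_forall_le _ _ fun i hi =>
    (Polynomial.natDegree_monomial_le _).trans (Nat.lt_succ_iff.1 (Finset.mem_range.1 hi))
  have c4 : Polynomial.aeval ρ P = 0 := by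
    rw [hP, map_sum, ← h1]
    exact Finset.sum_congr rfl fun i _ => Polynomial.aeval_monomial ρ
  have c5 : IsIntegral K ρ := (IsAlgebraic.isIntegral ⟨P, c2, c4⟩)
  have c6 : IntermediateField.adjoin K {ρ} = ⊤ := by
    have := h2 ((IntermediateField.adjoin K {ρ}).restrictScalars ℂ)
      (fun x hx => IntermediateField.algebraMap_mem (IntermediateField.adjoin K {ρ}) ⟨x, hx⟩)
      (IntermediateField.mem_adjoin_simple_self K ρ)
    exact IntermediateField.restrictScalars_eq_top_iff.1 this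
  have c7 := IntermediateField.adjoin.finiteDimensional c5
  have c8 := IntermediateField.adjoin.finrank c5
  rw [c6] at c7 c8
  refine ⟨IntermediateField.topEquiv.toLinearEquiv.finiteDimensional, ?_⟩
  rw [← IntermediateField.finrank_top', c8]
  exact ((Polynomial.natDegree_le_natDegree (minpoly.degree_le_of_ne_zero K ρ c2 c4)).trans
    c3).trans hN

theorem cmjdeg_one {d w n : ℕ} {V U : Ideal (MvPolynomial (Fin d) ℂ)} (hV : PD w V) (hw : 1 ≤ w)
    {L : Type} [Field L] [Algebra ℂ L] {υ : Fin d → L} (hk : ∀ G, aeval υ G = 0 ↔ G ∈ V)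
    (hL : IntermediateField.adjoin ℂ (Set.range υ) = ⊤) {q : Fin d → ℂ} (hU : PD (w + 1) U)
    (hq : Vx q U) (hle : U ≤ V) (hb : BirN n q V) {m : ℕ} (hm : dg (w + 1) U ≤ m) :
    ∃ (β : Fin d → L) (ρ : L),
      (∀ M, H (RingHom.ker (aeval β : MvPolynomial (Fin d) ℂ →ₐ[ℂ] L)) M ≤
        3 ^ (w + 1) * m * (M + 1) ^ w) ∧
      (FiniteDimensional (IntermediateField.adjoin ℂ (Set.range β)) L ∧
        finrank (IntermediateField.adjoin ℂ (Set.range β)) L ≤ n) ∧
      ∀ i, υ i - algebraMap ℂ L (q i) = ρ * aeval β (X i - C (q i) : MvPolynomial (Fin d) ℂ) := by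
  obtain ⟨l, hl⟩ : ∃ l, (X l - C (q l) : MvPolynomial (Fin d) ℂ) ∉ V := by
    by_contra hc
    have := hV.eq_zero_of_coord q fun l => not_not.1 fun h => hc ⟨l, h⟩
    omega
  obtain ⟨ρ, hρ⟩ : ∃ ρ : L, ρ = υ l - algebraMap ℂ L (q l) := ⟨_, rfl⟩
  have h0 : ρ ≠ 0 := fun e => hl ((hk _).1 (by rw [map_sub, aeval_X, aeval_C, ← hρ, e]))
  obtain ⟨β, hβ⟩ : ∃ β : Fin d → L,
      β = fun i => algebraMap ℂ L (q i) + ρ⁻¹ * (υ i - algebraMap ℂ L (q i)) := ⟨_, rfl⟩
  have hev : ∀ G, aeval β G =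
      ((hφ q G).map (aeval υ : MvPolynomial (Fin d) ℂ →ₐ[ℂ] L).toRingHom).eval ρ⁻¹ := fun G => by
    rw [hβ]
    exact aeval_hφ q υ ρ⁻¹ G
  have hX : ∀ i, υ i - algebraMap ℂ L (q i) =
      ρ * aeval β (X i - C (q i) : MvPolynomial (Fin d) ℂ) := fun i => by
    rw [map_sub, aeval_X, aeval_C, hβ]
    simp only [add_sub_cancel_left]
    rw [← mul_assoc, mul_inv_cancel₀ h0, one_mul]
  refine ⟨β, ρ, fun M => ?_, ?_, hX⟩
  · have hg : (X l - C (q l) - 1 : MvPolynomial (Fin d) ℂ) ∉ U := fun h => by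
      obtain ⟨z, hz, -⟩ := exists_on_ne hU.prime (g := 1) ((Ideal.ne_top_iff_one _).1 hU.prime.ne_top)
      have h1 := hq z hz 0 _ h
      simp at h1
    have hd : (X l - C (q l) - 1 : MvPolynomial (Fin d) ℂ).totalDegree ≤ 1 :=
      (totalDegree_sub _ _).trans (max_le ((totalDegree_sub _ _).trans
        (max_le (totalDegree_X l).le (by simp))) (by simp))
    have h1 := H_sec hU.prime hU.H_le hg hd le_rfl M
    refine (H_anti (sup_le (fun G hG => ?_) ?_) M).trans (h1.trans ?_)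
    · rw [RingHom.mem_ker, hev]
      have : (hφ q G).map (aeval υ : MvPolynomial (Fin d) ℂ →ₐ[ℂ] L).toRingHom = 0 := by
        ext k
        rw [Polynomial.coeff_map, Polynomial.coeff_zero]
        exact (hk _).2 (hle ((vx_iff hU.prime).1 hq G hG k))
      rw [this, Polynomial.eval_zero]
    · rw [Ideal.span_singleton_le_iff_mem, RingHom.mem_ker, map_sub, map_one, sub_eq_zero]
      apply mul_left_cancel₀ h0
      rw [← hX, mul_one, hρ]
    · rw [mul_one]
      gcongr
  · obtain ⟨j, N, G, hN, hG, hG0, hG1⟩ := hb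
    have hm : ∀ G : MvPolynomial (Fin d) ℂ,
        aeval β G ∈ IntermediateField.adjoin ℂ (Set.range β) := fun G => by
      apply IntermediateField.algebra_adjoin_le_adjoin
      rw [Algebra.adjoin_range_eq_range_aeval]
      exact ⟨G, rfl⟩
    have hev' : ∀ G, aeval υ G =
        ((hφ q G).map (aeval β : MvPolynomial (Fin d) ℂ →ₐ[ℂ] L).toRingHom).eval ρ := fun G => by
      rw [← aeval_hφ q β ρ G]
      congr 2
      funext i
      have := hX i
      rw [map_sub, aeval_X, aeval_C] at this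
      exact eq_add_of_sub_eq' this
    refine cmjdeg_fin (ρ := ρ) (N := N) (fun i => ⟨aeval β (hc q (j + i) G), hm _⟩) hN ?_ ?_ ?_
    · intro e
      refine hG0 ((hk _).1 ?_)
      rw [hev', hφ_hc, Polynomial.map_monomial, Polynomial.eval_monomial]
      exact mul_eq_zero_of_left (congrArg Subtype.val e) _
    · have h1 := (hk G).2 hG
      have h2 : hφ q G = ∑ i ∈ Finset.range (N + 1), Polynomial.monomial (j + i) (hc q (j + i) G) := by
        ext1 k
        rw [Polynomial.finsetSum_coeff]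
        simp only [Polynomial.coeff_monomial]
        by_cases h3 : k < j ∨ j + N < k
        · rw [Finset.sum_eq_zero fun i hi => if_neg (by rw [Finset.mem_range] at hi; omega)]
          exact hG1 k h3
        · rw [Finset.sum_eq_single (k - j) (fun i _ hi => if_neg (by omega))
            (fun hi => absurd (Finset.mem_range.2 (by omega)) hi), if_pos (by omega),
            show j + (k - j) = k by omega]
          rfl
      rw [hev', h2, Polynomial.map_sum, Polynomial.eval_finsetSum] at h1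
      simp only [Polynomial.map_monomial, Polynomial.eval_monomial] at h1
      refine (mul_eq_zero.1 ?_).resolve_left (pow_ne_zero j h0)
      rw [← h1, Finset.mul_sum]
      exact Finset.sum_congr rfl fun i _ => by
        rw [pow_add]
        exact mul_left_comm _ _ _ |>.trans (by rfl)
    · intro E h1 h2
      rw [eq_top_iff, ← hL, IntermediateField.adjoin_le_iff]
      rintro _ ⟨i, rfl⟩
      rw [eq_add_of_sub_eq (hX i)]
      exact add_mem (mul_mem h2 (h1 (hm _))) (IntermediateField.algebraMap_mem _ _)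

/-- Projections of small degree which lose much degree have their centres in a proper flat. -/
theorem cm_deg_n (d : ℕ) : ∃ c : ℕ, ∀ (w n : ℕ) (V : Ideal (MvPolynomial (Fin d) ℂ)), PD w V →
    1 ≤ w → w + 1 ≤ d → 1 ≤ n → ∃ (z : Fin d → ℂ) (W : Submodule ℂ (Fin d → ℂ)), W ≠ ⊤ ∧
      ∀ (q : Fin d → ℂ) (U : Ideal (MvPolynomial (Fin d) ℂ)), PD (w + 1) U → Vx q U → U ≤ V →
        BirN n q V → c * n * dg (w + 1) U < dg w V → q - z ∈ W := by
  obtain ⟨c, hc0, hc⟩ : ∃ c : ℕ, 0 < c ∧ ∀ w, w + 1 ≤ d → (w + 2) ^ (2 * w + 1) * 3 ^ (w + 1) ≤ c :=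
    ⟨(d + 2) ^ (2 * d + 1) * 3 ^ (d + 1), by positivity, fun w hw => Nat.mul_le_mul
      ((Nat.pow_le_pow_left (by omega) _).trans (Nat.pow_le_pow_right (by omega) (by omega)))
      (Nat.pow_le_pow_right (by omega) (by omega))⟩
  refine ⟨c, fun w n V hV hw hd hn => ?_⟩
  obtain ⟨E, hE⟩ : ∃ E : Set (Fin d → ℂ), ∀ q, q ∈ E ↔ ∃ U, PD (w + 1) U ∧ Vx q U ∧ U ≤ V ∧
      BirN n q V ∧ c * n * dg (w + 1) U < dg w V := ⟨{q | _}, fun _ => Iff.rfl⟩
  have hne : affineSpan ℂ E ≠ ⊤ := fun hS => by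
    obtain ⟨L, _, _, υ, hk, hL⟩ := low_generic hV.prime
    have hm : ∀ U : Ideal (MvPolynomial (Fin d) ℂ), c * n * dg (w + 1) U < dg w V →
        dg (w + 1) U ≤ (dg w V - 1) / (c * n) := fun U h =>
      (Nat.le_div_iff_mul_le (Nat.mul_pos hc0 hn)).2 (by rw [mul_comm]; omega)
    obtain ⟨s, hs⟩ := AffineSubspace.nonempty_of_affineSpan_eq_top ℂ (Fin d → ℂ) (Fin d → ℂ) hS
    obtain ⟨U₀, hU₀, -, -, -, h₀⟩ := (hE s).1 hs
    have h1 : 1 ≤ (dg w V - 1) / (c * n) := hU₀.one_le_dg.trans (hm U₀ h₀)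
    have htr : (w : Cardinal) ≤ Algebra.trdeg ℂ L := by
      rw [← hV.trdeg υ hk]
      exact trdeg_le_of_injective (IntermediateField.val _) Subtype.val_injective
    have key := deg_lemma (δ := 3 ^ (w + 1) * ((dg w V - 1) / (c * n))) (T := n) hd
      (Nat.mul_pos (by positivity) h1) hn υ hL htr E hS (τ := Fin d) fun q hq => by
        obtain ⟨U, hU, h2, h3, h4, h5⟩ := (hE q).1 hq
        obtain ⟨β, ρ, k1, k2, k3⟩ := cmjdeg_one hV hw hk hL hU h2 h3 h4 (hm U h5)
        exact ⟨β, ρ, fun i => X i - C (q i), k1, k2.1, k2.2,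
          fun i => (totalDegree_sub _ _).trans (max_le (totalDegree_X i).le (by simp)), k3⟩
    have e : RingHom.ker (aeval υ : MvPolynomial (Fin d) ℂ →ₐ[ℂ] L) = V := by
      ext G
      exact hk G
    rw [e] at key
    have h2 := dg_le key
    have h3 := Nat.mul_le_mul_right (n * ((dg w V - 1) / (c * n))) (hc w hd)
    have h4 := Nat.mul_div_le (dg w V - 1) (c * n)
    rw [mul_assoc] at h4
    rw [mul_assoc, mul_left_comm n, ← mul_assoc] at h2
    have h5 := hV.one_le_dg
    omega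
  rcases E.eq_empty_or_nonempty with h0 | ⟨z, hz⟩
  · have : Nonempty (Fin d) := ⟨⟨0, by omega⟩⟩
    refine ⟨0, ⊥, bot_ne_top, fun q U h1 h2 h3 h4 h5 => ?_⟩
    have := (hE q).2 ⟨U, h1, h2, h3, h4, h5⟩
    rw [h0] at this
    exact this.elim
  · refine ⟨z, (affineSpan ℂ E).direction, fun h => hne ?_, fun q U h1 h2 h3 h4 h5 => ?_⟩
    · exact (AffineSubspace.direction_eq_top_iff_of_nonempty ⟨z, mem_affineSpan ℂ hz⟩).1 h
    · exact AffineSubspace.vsub_mem_direction
        (mem_affineSpan ℂ ((hE q).2 ⟨U, h1, h2, h3, h4, h5⟩)) (mem_affineSpan ℂ hz)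

end Vale.Agent.P054S
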