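import Vale.Agent.P054S.CMSec
import Vale.Agent.P054S.CMDeg
import Vale.Agent.P054S.CMJDef

/-!
Projections of bounded degree.
-/

namespace Vale.Agent.P054S

open MvPolynomial Module Vale.Agent.P054A
open scoped Classical

theorem cmj_sum {σ : Type} (q : σ → ℂ) (G : MvPolynomial σ ℂ) (s : Finset ℕ) (i : ℕ) :
    hc q i (∑ k ∈ s, hc q k G) = if i ∈ s then hc q i G else 0 := by
  rw [hc, map_sum, Polynomial.finset_sum_coeff, ← Finset.sum_ite_eq' s i fun k => hc q k G]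
  exact Finset.sum_congr rfl fun k _ => cmsv_hc i k G

theorem cmj_roots {g : Polynomial ℂ} {j N : ℕ} (h0 : g.coeff j ≠ 0) (hN : g.coeff (j + N) ≠ 0)
    (hl : ∀ k < j, g.coeff k = 0) (hs : ∀ t, t ≠ 0 → g.eval t = 0 → g.derivative.eval t ≠ 0) :
    ∃ S : Finset ℂ, N ≤ S.card + 1 ∧ ∀ t ∈ S, t ≠ 0 ∧ t ≠ 1 ∧ g.eval t = 0 := by
  obtain ⟨g', rfl, h2, h3⟩ := cmsv_fac h0 hN hl
  have h4 : g' ≠ 0 := fun e => h2 (by rw [e, Polynomial.eval_zero])
  have h5 : g'.roots.Nodup := Multiset.nodup_iff_count_le_one.2 fun t => by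
    rw [Polynomial.count_roots]
    by_contra hlt
    obtain ⟨a1, a2⟩ := (Polynomial.one_lt_rootMultiplicity_iff_isRoot h4).1 (not_le.1 hlt)
    refine hs t (fun e => h2 (e ▸ a1.eq_zero)) (by rw [Polynomial.eval_mul, a1.eq_zero, mul_zero]) ?_
    rw [Polynomial.derivative_mul, Polynomial.eval_add, Polynomial.eval_mul, Polynomial.eval_mul,
      a1.eq_zero, a2.eq_zero, mul_zero, mul_zero, add_zero]
  refine ⟨g'.roots.toFinset.erase 1, ?_, fun t ht => ?_⟩
  · have a1 := Finset.pred_card_le_card_erase (s := g'.roots.toFinset) (a := 1)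
    rw [Multiset.toFinset_card_of_nodup h5, IsAlgClosed.card_roots_eq_natDegree] at a1
    omega
  · obtain ⟨a1, a2⟩ := Finset.mem_erase.1 ht
    have a3 := ((Polynomial.mem_roots h4).1 (Multiset.mem_toFinset.1 a2)).eq_zero
    exact ⟨fun e => h2 (e ▸ a3), a1, by rw [Polynomial.eval_mul, a3, mul_zero]⟩

/-- The generic ruling of the cone meets `V` in `n` further points. -/
theorem cm_second_n {σ : Type} [Fintype σ] {T : Set ℂ} {U V : Ideal (MvPolynomial σ ℂ)} {w n : ℕ}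
    {q a : σ → ℂ} (hU : PD (w + 1) U) (h0 : PD w V) (hsU : StI T U) (hs0 : StI T V) (hq : CsV T q)
    (hx : Vx q U) (hl0 : U ≤ V) (hn0 : ¬ Vx q V) (ha : Gen T w V a) (h : ¬ BirN n q V) :
    ∃ S : Finset ℂ, n ≤ S.card ∧ ∀ t ∈ S, t ≠ 0 ∧ t ≠ 1 ∧ On (q + t • (a - q)) V := by
  obtain ⟨j, N, G, hN, hGc, hG, hj, hjN, hmin⟩ := cmsv_min hU h0 hsU hs0 hq hx hl0 hn0
  have haU : On a U := fun H hH => ha.1 H (hl0 hH)
  have hne : ∀ m, hc q m G ∉ U → eval a (hc q m G) ≠ 0 := fun m hm h0' =>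
    hm (cmsv_hom hU h0 hx hl0 hn0 (cm_gen h0 hs0 ha (hGc.hc hq m) h0'))
  have hco : ∀ (H : MvPolynomial σ ℂ) (k : ℕ),
      ((hφ q H).map (eval a)).coeff k = eval a (hc q k H) := fun H k => Polynomial.coeff_map _ _
  have hon : ∀ t, t ≠ 0 → ((hφ q G).map (eval a)).eval t = 0 → On (q + t • (a - q)) V :=
    fun t ht h0' => cmsv_kill hG hN hmin (hx a haU t) ((eval_hφ q a t G).trans h0') (by
      rw [cmsv_eval]
      exact mul_ne_zero (hne _ hjN) (pow_ne_zero _ ht))
  have hnN : n < N := by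
    by_contra hle
    have h2 : G - ∑ k ∈ Finset.Icc j (j + N), hc q k G ∈ U := cmsv_mem (q := q) fun k => by
      rw [cmsv_sub, cmj_sum]
      split_ifs with h3
      · rw [sub_self]
        exact U.zero_mem
      · rw [sub_zero]
        exact hG.2 k (by rw [Finset.mem_Icc] at h3; omega)
    have h4 := V.sub_mem hG.1 (hl0 h2)
    rw [sub_sub_cancel] at h4
    refine h ⟨j, N, _, not_lt.1 hle, h4, fun h5 => ?_, fun i hi => ?_⟩
    · rw [cmj_sum, if_pos (Finset.mem_Icc.2 ⟨by omega, le_rfl⟩)] at h5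
      exact hjN (cmsv_hom hU h0 hx hl0 hn0 h5)
    · rw [cmj_sum, if_neg (by rw [Finset.mem_Icc]; omega)]
  have he : (hφ q (eu q G)).map (eval a) =
      Polynomial.X * ((hφ q G).map (eval a)).derivative := by
    rw [cmhom_eu, Polynomial.map_mul, Polynomial.map_X, Polynomial.derivative_map]
  have out : a - q ∉ tg T a := fun k => ray_notin h0 hs0 ha hq hn0 (tg_le_tI hs0 ha.1 k)
  obtain ⟨S, a1, a2⟩ := cmj_roots (hco G j ▸ hne j hj) (hco G (j + N) ▸ hne _ hjN)
    (fun k hk => (hco G k).trans (haU _ (hG.2 k (Or.inl hk)))) fun t ht h1 hd => by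
      have h2 : eu q G ∈ V := cm_gen h0 hs0 ⟨hon t ht h1, gen_second hq ha.2 out ht⟩ (hGc.eu hq) (by
        rw [eval_hφ, he, Polynomial.eval_mul, hd, mul_zero])
      have h3 : ∀ k, hc q k (eu q G - (j : ℂ) • G) = ((k : ℂ) - j) • hc q k G := fun k => by
        rw [cmsv_sub, cmsv_smul, hc_eu, sub_smul]
      have h4 : eu q G - (j : ℂ) • G ∈ U := hmin (N - 1) (by omega) (j + 1) _
        ⟨V.sub_mem h2 (Submodule.smul_of_tower_mem V _ hG.1), fun k hk => by
          rw [h3]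
          by_cases h5 : k = j
          · rw [h5, sub_self, zero_smul]
            exact U.zero_mem
          · exact Submodule.smul_of_tower_mem U _ (hG.2 k (by omega))⟩
      have h5 := Submodule.smul_of_tower_mem U (N : ℂ)⁻¹ ((vx_iff hU.prime).1 hx _ h4 (j + N))
      rw [h3, Nat.cast_add, add_sub_cancel_left,
        inv_smul_smul₀ (Nat.cast_ne_zero.2 (by omega))] at h5
      exact hjN h5
  exact ⟨S, by omega, fun t ht => ⟨(a2 t ht).1, (a2 t ht).2.1, hon t (a2 t ht).1 (a2 t ht).2.2⟩⟩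

theorem cmj_rank {K L : Type} [Field K] [Field L] [Algebra K L] {ρ : L} {N : ℕ} (c : ℕ → K)
    (h0 : c N ≠ 0) (h : ∑ k ∈ Finset.range (N + 1), algebraMap K L (c k) * ρ ^ k = 0)
    (ht : IntermediateField.adjoin K {ρ} = ⊤) : FiniteDimensional K L ∧ finrank K L ≤ N := by
  let p : Polynomial K := ∑ k ∈ Finset.range (N + 1), Polynomial.monomial k (c k)
  have h1 : p ≠ 0 := fun e => h0 (by
    have := congrArg (fun r => Polynomial.coeff r N) e
    simpa [p, Polynomial.coeff_monomial] using this)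
  have h2 : Polynomial.aeval ρ p = 0 := by
    rw [map_sum, ← h]
    exact Finset.sum_congr rfl fun k _ => Polynomial.aeval_monomial ρ
  have h3 : IsIntegral K ρ := IsAlgebraic.isIntegral ⟨p, h1, h2⟩
  have h4 := IntermediateField.adjoin.finiteDimensional h3
  have h5 := IntermediateField.adjoin.finrank h3
  rw [ht] at h4 h5
  refine ⟨IntermediateField.topEquiv.toLinearEquiv.finiteDimensional, ?_⟩
  rw [← IntermediateField.finrank_top', h5]
  exact (Polynomial.natDegree_le_natDegree (minpoly.degree_le_of_ne_zero K ρ h1 h2)).trans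
    (Polynomial.natDegree_sum_le_of_forall_le _ _ fun k hk =>
      (Polynomial.natDegree_monomial_le _).trans (Nat.lt_succ_iff.1 (Finset.mem_range.1 hk)))

theorem cmj_one {d w n : ℕ} {V U : Ideal (MvPolynomial (Fin d) ℂ)} (hV : PD w V) (hw : 1 ≤ w)
    {L : Type} [Field L] [Algebra ℂ L] {υ : Fin d → L} (hk : ∀ G, aeval υ G = 0 ↔ G ∈ V)
    (hL : IntermediateField.adjoin ℂ (Set.range υ) = ⊤) {q : Fin d → ℂ} (hU : PD (w + 1) U)
    (hq : Vx q U) (hle : U ≤ V) (hb : BirN n q V) {m : ℕ} (hm : dg (w + 1) U ≤ m) :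
    ∃ (β : Fin d → L) (ρ : L),
      (∀ M, H (RingHom.ker (aeval β : MvPolynomial (Fin d) ℂ →ₐ[ℂ] L)) M ≤
        3 ^ (w + 1) * m * (M + 1) ^ w) ∧
      (FiniteDimensional (IntermediateField.adjoin ℂ (Set.range β)) L ∧
        finrank (IntermediateField.adjoin ℂ (Set.range β)) L ≤ n) ∧
      ∀ i, υ i - algebraMap ℂ L (q i) = ρ * aeval β (X i - C (q i) : MvPolynomial (Fin d) ℂ) := by
  obtain ⟨l, hl⟩ : ∃ l, (X l - C (q l) : MvPolynomial (Fin d) ℂ) ∉ V := by
    by_contra hc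
    have := hV.eq_zero_of_coord q fun l => not_not.1 fun h => hc ⟨l, h⟩
    omega
  obtain ⟨ρ, hρ⟩ : ∃ ρ : L, ρ = υ l - algebraMap ℂ L (q l) := ⟨_, rfl⟩
  have h0 : ρ ≠ 0 := fun e => hl ((hk _).1 (by rw [map_sub, aeval_X, aeval_C, ← hρ, e]))
  obtain ⟨β, hβ⟩ : ∃ β : Fin d → L,
      β = fun i => algebraMap ℂ L (q i) + ρ⁻¹ * (υ i - algebraMap ℂ L (q i)) := ⟨_, rfl⟩
  have hev : ∀ G, aeval β G =
      ((hφ q G).map (aeval υ : MvPolynomial (Fin d) ℂ →ₐ[ℂ] L).toRingHom).eval ρ⁻¹ := fun G => by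
    rw [hβ]
    exact aeval_hφ q υ ρ⁻¹ G
  have hX : ∀ i, υ i - algebraMap ℂ L (q i) =
      ρ * aeval β (X i - C (q i) : MvPolynomial (Fin d) ℂ) := fun i => by
    rw [map_sub, aeval_X, aeval_C, hβ]
    simp only [add_sub_cancel_left]
    rw [← mul_assoc, mul_inv_cancel₀ h0, one_mul]
  refine ⟨β, ρ, fun M => ?_, ?_, hX⟩
  · have hg : (X l - C (q l) - 1 : MvPolynomial (Fin d) ℂ) ∉ U := fun h => by
      obtain ⟨z, hz, -⟩ := exists_on_ne hU.prime (g := 1) ((Ideal.ne_top_iff_one _).1 hU.prime.ne_top)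
      have h1 := hq z hz 0 _ h
      simp at h1
    have hd : (X l - C (q l) - 1 : MvPolynomial (Fin d) ℂ).totalDegree ≤ 1 :=
      (totalDegree_sub _ _).trans (max_le ((totalDegree_sub _ _).trans
        (max_le (totalDegree_X l).le (by simp))) (by simp))
    have h1 := H_sec hU.prime hU.H_le hg hd le_rfl M
    refine (H_anti (sup_le (fun G hG => ?_) ?_) M).trans (h1.trans ?_)
    · rw [RingHom.mem_ker, hev]
      have : (hφ q G).map (aeval υ : MvPolynomial (Fin d) ℂ →ₐ[ℂ] L).toRingHom = 0 := by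
        ext k
        rw [Polynomial.coeff_map, Polynomial.coeff_zero]
        exact (hk _).2 (hle ((vx_iff hU.prime).1 hq G hG k))
      rw [this, Polynomial.eval_zero]
    · rw [Ideal.span_singleton_le_iff_mem, RingHom.mem_ker, map_sub, map_one, sub_eq_zero]
      apply mul_left_cancel₀ h0
      rw [← hX, mul_one, hρ]
    · rw [mul_one]
      gcongr
  · obtain ⟨j, N, G, hN, hG, hG1, hG0⟩ := hb
    have hm : ∀ G : MvPolynomial (Fin d) ℂ,
        aeval β G ∈ IntermediateField.adjoin ℂ (Set.range β) := fun G => by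
      apply IntermediateField.algebra_adjoin_le_adjoin
      rw [Algebra.adjoin_range_eq_range_aeval]
      exact ⟨G, rfl⟩
    have e1 : ∀ k, aeval β (hc q k G) * ρ ^ k = aeval υ (hc q k G) := fun k => by
      rw [hev, hφ_hc, Polynomial.map_monomial, Polynomial.eval_monomial, mul_assoc, ← mul_pow,
        inv_mul_cancel₀ h0, one_pow, mul_one]
      rfl
    have e2 : ∑ k ∈ Finset.Ico j (j + (N + 1)), hc q k G = G := by
      refine sub_eq_zero.1 (cmsv_mem (q := q) (U := ⊥) fun k => ?_)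
      rw [cmsv_sub, cmj_sum, Ideal.mem_bot]
      split_ifs with h3
      · exact sub_self _
      · rw [hG0 k (by rw [Finset.mem_Ico] at h3; omega), sub_zero]
    obtain ⟨b1, b2⟩ := cmj_rank (K := IntermediateField.adjoin ℂ (Set.range β)) (ρ := ρ) (N := N)
      (fun k => ⟨aeval β (hc q (j + k) G), hm _⟩) (fun e => hG1 ((hk _).1 (by
        rw [← e1, show aeval β (hc q (j + N) G) = 0 from congrArg Subtype.val e, zero_mul])))
      (by
        apply mul_left_cancel₀ (pow_ne_zero j h0)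
        have e3 := congrArg (aeval υ) e2
        rw [(hk G).2 hG, Finset.sum_Ico_eq_sum_range, add_tsub_cancel_left, map_sum] at e3
        rw [mul_zero, ← e3, Finset.mul_sum]
        refine Finset.sum_congr rfl fun k _ => ?_
        rw [← e1, pow_add]
        exact (mul_left_comm _ _ _))
      (by
        rw [eq_top_iff, ← IntermediateField.adjoin_eq_top_of_adjoin_eq_top ℂ hL,
          IntermediateField.adjoin_le_iff]
        rintro _ ⟨i, rfl⟩
        rw [eq_add_of_sub_eq (hX i)]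
        exact add_mem (mul_mem (IntermediateField.mem_adjoin_simple_self _ ρ)
          (IntermediateField.algebraMap_mem _ (⟨_, hm _⟩ : IntermediateField.adjoin ℂ (Set.range β))))
          (IntermediateField.algebraMap_mem _
            (algebraMap ℂ (IntermediateField.adjoin ℂ (Set.range β)) (q i))))
    exact ⟨b1, b2.trans hN⟩

/-- Projections of bounded degree which lose much degree have their centres in a proper flat. -/
theorem cm_deg_n (d : ℕ) : ∃ c : ℕ, 1 ≤ c ∧ ∀ (w n : ℕ) (V : Ideal (MvPolynomial (Fin d) ℂ)),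
    PD w V → 1 ≤ w → w + 1 ≤ d → 1 ≤ n → ∃ (z : Fin d → ℂ) (W : Submodule ℂ (Fin d → ℂ)), W ≠ ⊤ ∧
      ∀ (q : Fin d → ℂ) (U : Ideal (MvPolynomial (Fin d) ℂ)), PD (w + 1) U → Vx q U → U ≤ V →
        BirN n q V → c * n * dg (w + 1) U < dg w V → q - z ∈ W := by
  obtain ⟨c, hc0, hc⟩ : ∃ c : ℕ, 0 < c ∧ ∀ w, w + 1 ≤ d → (w + 2) ^ (2 * w + 1) * 3 ^ (w + 1) ≤ c :=
    ⟨(d + 2) ^ (2 * d + 1) * 3 ^ (d + 1), by positivity, fun w hw => Nat.mul_le_mul
      ((Nat.pow_le_pow_left (by omega) _).trans (Nat.pow_le_pow_right (by omega) (by omega)))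
      (Nat.pow_le_pow_right (by omega) (by omega))⟩
  refine ⟨c, hc0, fun w n V hV hw hd hn => ?_⟩
  obtain ⟨E, hE⟩ : ∃ E : Set (Fin d → ℂ), ∀ q, q ∈ E ↔ ∃ U, PD (w + 1) U ∧ Vx q U ∧ U ≤ V ∧
      BirN n q V ∧ c * n * dg (w + 1) U < dg w V := ⟨{q | _}, fun _ => Iff.rfl⟩
  have hne : affineSpan ℂ E ≠ ⊤ := fun hS => by
    obtain ⟨L, _, _, υ, hk, hL⟩ := low_generic hV.prime
    have hm : ∀ U : Ideal (MvPolynomial (Fin d) ℂ), c * n * dg (w + 1) U < dg w V →
        dg (w + 1) U ≤ (dg w V - 1) / (c * n) := fun U h =>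
      (Nat.le_div_iff_mul_le (Nat.mul_pos hc0 hn)).2 (by rw [mul_comm]; omega)
    obtain ⟨s, hs⟩ := AffineSubspace.nonempty_of_affineSpan_eq_top ℂ (Fin d → ℂ) (Fin d → ℂ) hS
    obtain ⟨U₀, hU₀, -, -, -, h₀⟩ := (hE s).1 hs
    have h1 : 1 ≤ (dg w V - 1) / (c * n) := hU₀.one_le_dg.trans (hm U₀ h₀)
    have htr : (w : Cardinal) ≤ Algebra.trdeg ℂ L := by
      rw [← hV.trdeg υ hk]
      exact trdeg_le_of_injective (IntermediateField.val _) Subtype.val_injective
    have key := deg_lemma (δ := 3 ^ (w + 1) * ((dg w V - 1) / (c * n))) (T := n) hd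
      (Nat.mul_pos (by positivity) h1) hn υ hL htr E hS (τ := Fin d) fun q hq => by
        obtain ⟨U, hU, h2, h3, h4, h5⟩ := (hE q).1 hq
        obtain ⟨β, ρ, k1, k2, k3⟩ := cmj_one hV hw hk hL hU h2 h3 h4 (hm U h5)
        exact ⟨β, ρ, fun i => X i - C (q i), k1, k2.1, k2.2,
          fun i => (totalDegree_sub _ _).trans (max_le (totalDegree_X i).le (by simp)), k3⟩
    have e : RingHom.ker (aeval υ : MvPolynomial (Fin d) ℂ →ₐ[ℂ] L) = V := by
      ext G
      exact hk G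
    rw [e] at key
    have h2 := dg_le key
    rw [mul_mul_mul_comm] at h2
    have h3 := Nat.mul_le_mul_right (n * ((dg w V - 1) / (c * n))) (hc w hd)
    have h4 := Nat.mul_div_le (dg w V - 1) (c * n)
    rw [mul_assoc] at h4
    have h5 := hV.one_le_dg
    omega
  rcases E.eq_empty_or_nonempty with h0 | ⟨z, hz⟩
  · have : Nonempty (Fin d) := ⟨⟨0, by omega⟩⟩
    refine ⟨0, ⊥, bot_ne_top, fun q U h1 h2 h3 h4 h5 => ?_⟩
    have := (hE q).2 ⟨U, h1, h2, h3, h4, h5⟩
    rw [h0] at this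
    exact this.elim
  · refine ⟨z, (affineSpan ℂ E).direction, fun h => hne ?_, fun q U h1 h2 h3 h4 h5 => ?_⟩
    · exact (AffineSubspace.direction_eq_top_iff_of_nonempty ⟨z, mem_affineSpan ℂ hz⟩).1 h
    · exact AffineSubspace.vsub_mem_direction
        (mem_affineSpan ℂ ((hE q).2 ⟨U, h1, h2, h3, h4, h5⟩)) (mem_affineSpan ℂ hz)

end Vale.Agent.P054S
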