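import Vale.Agent.P054S.CMLb
import Vale.Agent.P054S.CMF

/-!
The multiplicity lemma.
-/

namespace Vale.Agent.P054S

open MvPolynomial Vale.Agent.P054A
open scoped Classical

/-- The multiplicity lemma for one class of nodes. -/
theorem mlc (k c b : ℕ) (hk : 2 ≤ k) : ∃ K t₀ τ₀ : ℕ, ∀ τ Z : ℕ, τ₀ ≤ τ →
    ∀ P Q : Finset (Pt (k + 1)), Std P τ Z → Q ⊆ P → Poor Q τ →
    ∀ (V : Pt (k + 1) → Id (k + 1)) (w η t : ℕ), 1 ≤ w → w < k → Nodes c Q V w η t → t₀ ≤ t →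
      t ^ w ≤ η → τ ^ w ≤ η ^ 2 → t ≤ 4 * τ + 2 →
      ∃ B : Finset (Pt (k + 1) × Pt (k + 1)),
        (B.card : ℝ) ≤ P.card * Q.card / (b + 1) + (P.card : ℝ) ^ 2 / Z ∧ MLB P Q V w η t τ Z K B := by
  obtain ⟨K, τ₁, h₁⟩ := mlc_nf k c b hk
  obtain ⟨τ₂, h₂⟩ := mlc_flat k c hk
  refine ⟨K + 1000, c + 1, τ₁ + τ₂, fun τ Z hτ P Q hP hQ hp V w η t w1 wk hV ht h1 h2 _ => ?_⟩
  have s1 : (Q.filter fun q => ¬ Flat (V q)) ⊆ Q := Finset.filter_subset _ _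
  have s2 : (Q.filter fun q => Flat (V q)) ⊆ Q := Finset.filter_subset _ _
  obtain ⟨B₁, a1, a2⟩ := h₁ τ Z (by omega) P _ hP (s1.trans hQ) V w η t wk
    (by convert hV.restrict fun U => ¬ Flat U) (fun q hq => (Finset.mem_filter.1 hq).2) (by omega)
    h1 h2
  obtain ⟨B₂, b1, b2⟩ := h₂ τ Z (by omega) P _ hP (s2.trans hQ) (fun L c1 c2 =>
    (Nat.pow_le_pow_left (Finset.card_le_card (Finset.filter_subset_filter _ s2)) _).trans
      (hp L c1 c2)) V w η t w1 wk (hV.restrict Flat) (fun q hq => (Finset.mem_filter.1 hq).2)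
    (by omega) h1 h2
  have s3 : ((Q.filter fun q => ¬ Flat (V q)).card : ℝ) ≤ Q.card :=
    Nat.cast_le.2 (Finset.card_le_card s1)
  refine ⟨B₁ ∪ B₂, (Nat.cast_le.2 (Finset.card_union_le _ _)).trans ?_, fun p hp Y hY => ?_⟩
  · rw [Nat.cast_add]
    exact add_le_add (a1.trans (by gcongr)) b1
  have c1 : (Q.filter fun q => (p, q) ∉ B₁ ∪ B₂ ∧ q ≠ p ∧ InCone p (V q) Y) ⊆
      ((Q.filter fun q => ¬ Flat (V q)).filter fun q => (p, q) ∉ B₁ ∧ InCone p (V q) Y) ∪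
      (Q.filter fun q => Flat (V q)).filter fun q => (p, q) ∉ B₂ ∧ InCone p (V q) Y := by
    intro q hq
    simp only [Finset.mem_union, Finset.mem_filter, not_or] at hq ⊢
    exact (em (Flat (V q))).symm.imp (fun e => ⟨⟨hq.1, e⟩, hq.2.1.1, hq.2.2.2⟩)
      fun e => ⟨⟨hq.1, e⟩, hq.2.1.2, hq.2.2.2⟩
  have c2 := (Finset.card_le_card c1).trans (Finset.card_union_le _ _)
  refine (Nat.cast_le.2 c2).trans ?_
  rw [Nat.cast_add]
  refine (add_le_add (a2 p hp Y hY) (b2 p hp Y hY)).trans ?_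
  have d1 : (1 : ℝ) ≤ dg w Y := by exact_mod_cast hY.one_le_dg
  have x0 : (0 : ℝ) ≤ τ * Q.card / (t * P.card) := by positivity
  have y0 : (0 : ℝ) ≤ τ / (t * Z) := by positivity
  rw [Nat.cast_add, add_mul (K : ℝ), add_mul (K * _ : ℝ), add_mul (K * _ * _ : ℝ)]
  refine add_le_add (mul_le_mul_of_nonneg_left
    (le_trans (by gcongr) (le_add_of_nonneg_right y0)) (by positivity)) ?_
  refine mul_le_mul (mul_le_mul_of_nonneg_right ?_ (Nat.cast_nonneg _)) (by linarith)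
    (by positivity) (by positivity)
  push_cast
  linarith

end Vale.Agent.P054S
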