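import Vale.Agent.P054S.CCDef
import Vale.Agent.P054S.CMGood
import Vale.Agent.P054S.CFHom

/-!
Points on flats and the size of the error sum in the multiplicity lemma.
-/

namespace Vale.Agent.P054S

open MvPolynomial Module Vale.Agent.P054A
open scoped Classical

/-- The bound for the points on a flat of dimension `l`. -/
def rF (τ l : ℕ) : ℕ := if l = 0 then 1 else Nat.sqrt (16 * τ ^ (l + 1))

theorem flatB_rF (k : ℕ) : ∃ τ₀ : ℕ, ∀ τ ≥ τ₀, ∀ P : Finset (Pt (k + 1)), nd2 P ≤ τ →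
    ∀ S ⊆ P, ∀ w ≤ k, FlatB S w (rF τ) := by
  choose f hf using fun a => pts_cx (a + 2) 2 (by omega)
  refine ⟨∑ a ∈ Finset.range k, f a + 1, fun τ hτ P hP S hS w hw l hl z W hW => ?_⟩
  refine (Finset.card_le_card (Finset.filter_subset_filter _ hS)).trans ?_
  rcases Nat.eq_zero_or_pos l with rfl | l0
  · have h0 : W = ⊥ := Submodule.finrank_eq_zero.1 (by omega)
    simp only [rF, if_true, h0, Submodule.mem_bot]
    refine Finset.card_le_one.2 fun a ha b hb => ?_
    have h1 := (Finset.mem_filter.1 ha).2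
    have h2 := (Finset.mem_filter.1 hb).2
    funext i
    have h3 := congrFun (h1.trans h2.symm) i
    simpa [cx] using h3
  rw [rF, if_neg (by omega), Nat.le_sqrt']
  rcases Nat.lt_or_ge l 2 with l1 | l2
  · obtain rfl : l = 1 := by omega
    obtain ⟨p, hp⟩ := cf_cx_sub P z W
    have h1 := (Finset.card_le_card hp).trans (cf_le_one hP p ((rank_reW W).trans hW))
    calc _ ≤ (4 * τ) ^ 2 := Nat.pow_le_pow_left (by omega) 2
      _ = _ := by ring
  · obtain ⟨a, rfl⟩ := Nat.exists_eq_add_of_le' l2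
    have h5 : f a ≤ ∑ a ∈ Finset.range k, f a :=
      Finset.single_le_sum (fun _ _ => Nat.zero_le _) (Finset.mem_range.2 (by omega))
    have h1 := hf a τ (by omega) _ P hP z W hW
    refine le_trans ?_ (Nat.le_mul_of_pos_left _ (by norm_num))
    refine (Nat.pow_le_pow_iff_left (n := 2) (by omega)).1 ?_
    rw [← pow_mul, ← pow_mul]
    exact h1.trans (Nat.pow_le_pow_right (by omega) (by omega))

theorem rF_le {τ t η w l : ℕ} (hl : l < w) (h1 : t ^ w ≤ η) (h2 : τ ^ w ≤ η ^ 2) :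
    t * (t ^ (w - l) * rF τ l) ≤ 4 * η * (t + τ) := by
  rcases Nat.eq_zero_or_pos l with rfl | l0
  · simp only [rF, if_true, Nat.sub_zero, mul_one]
    nlinarith [Nat.mul_le_mul_left t h1, Nat.zero_le (η * τ), Nat.zero_le (η * t)]
  obtain ⟨b, rfl⟩ := Nat.exists_eq_add_of_le' l0
  obtain ⟨a, rfl⟩ := Nat.exists_eq_add_of_le' hl.le
  rw [Nat.add_sub_cancel, rF, if_neg (by omega)]
  refine le_trans ?_ (Nat.mul_le_mul_left _ (Nat.le_add_left τ t))
  have h3 : (t ^ (a + 1)) ^ 2 * τ ^ b ≤ η ^ 2 := by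
    refine (Nat.pow_le_pow_iff_left (n := a + (b + 1)) (by omega)).1 ?_
    calc _ = (t ^ (a + (b + 1))) ^ (2 * (a + 1)) * (τ ^ (a + (b + 1))) ^ b := by ring
      _ ≤ η ^ (2 * (a + 1)) * (η ^ 2) ^ b := by gcongr
      _ = _ := by ring
  refine (Nat.pow_le_pow_iff_left (n := 2) (by omega)).1 ?_
  calc _ = (t ^ (a + 1)) ^ 2 * Nat.sqrt (16 * τ ^ (b + 1 + 1)) ^ 2 := by ring
    _ ≤ (t ^ (a + 1)) ^ 2 * (16 * τ ^ (b + 1 + 1)) := Nat.mul_le_mul_left _ (Nat.sqrt_le' _)
    _ = (t ^ (a + 1)) ^ 2 * τ ^ b * (4 * τ) ^ 2 := by ring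
    _ ≤ η ^ 2 * (4 * τ) ^ 2 := Nat.mul_le_mul_right _ h3
    _ = _ := by ring

theorem sum_rF_le {τ t η w c k : ℕ} (hw : w ≤ k) (h1 : t ^ w ≤ η) (h2 : τ ^ w ≤ η ^ 2) :
    t * ∑ l ∈ Finset.range w, (c * t) ^ (w - l) * rF τ l
      ≤ 4 * k * (c + 1) ^ k * (η * (t + τ)) := by
  rw [Finset.mul_sum]
  refine (Finset.sum_le_card_nsmul _ _ ((c + 1) ^ k * (4 * η * (t + τ))) fun l hl => ?_).trans ?_
  · calc _ = c ^ (w - l) * (t * (t ^ (w - l) * rF τ l)) := by rw [mul_pow]; ring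
      _ ≤ _ := Nat.mul_le_mul ((Nat.pow_le_pow_left (by omega) _).trans
          (Nat.pow_le_pow_right (by omega) (by omega))) (rF_le (Finset.mem_range.1 hl) h1 h2)
  · rw [Finset.card_range, smul_eq_mul]
    calc _ ≤ k * ((c + 1) ^ k * (4 * η * (t + τ))) := Nat.mul_le_mul_right _ hw
      _ = _ := by ring

variable {d c w η t : ℕ} {Q : Finset (Pt d)} {V : Pt d → Id d}

/-- Restriction of a class of nodes to the nodes with a given property. -/
theorem Nodes.restrict (h : Nodes c Q V w η t) (A : Id d → Prop) :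
    Nodes c (Q.filter fun q => A (V q)) V w η t := by
  have e : ∀ q ∈ Q.filter fun q => A (V q), fib (Q.filter fun q => A (V q)) V q = fib Q V q := by
    intro q hq
    ext x
    simp only [fib, Finset.mem_filter] at hq ⊢
    exact ⟨fun hx => ⟨hx.1.1, hx.2⟩, fun hx => ⟨⟨hx.1, hx.2 ▸ hq.2⟩, hx.2⟩⟩
  have m : ∀ q ∈ Q.filter fun q => A (V q), q ∈ Q := fun q hq => (Finset.mem_filter.1 hq).1
  exact ⟨fun q hq => h.pd q (m q hq), fun q hq => h.on q (m q hq),
    fun q hq => e q hq ▸ h.lo q (m q hq), fun q hq => e q hq ▸ h.hi q (m q hq),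
    fun q hq => h.sys q (m q hq), fun q hq => e q hq ▸ h.rob q (m q hq)⟩

/-- The number of points with node `U`. -/
noncomputable def wt (Q : Finset (Pt d)) (V : Pt d → Id d) (U : Id d) : ℕ :=
  (Q.filter fun q => V q = U).card

theorem wt_fib (q : Pt d) : wt Q V (V q) = (fib Q V q).card := rfl

theorem sum_wt_le (𝒰 : Finset (Id d)) : ∑ U ∈ 𝒰, wt Q V U ≤ Q.card := by
  simp only [wt]
  rw [← Finset.card_biUnion]
  · exact Finset.card_le_card (Finset.biUnion_subset.2 fun _ _ => Finset.filter_subset _ _)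
  · intro U _ U' _ hne
    exact Finset.disjoint_filter.2 fun q _ h1 h2 => hne (h1.symm.trans h2)

theorem card_le_sum_wt {S : Finset (Pt d)} (hS : S ⊆ Q) : S.card ≤ ∑ U ∈ S.image V, wt Q V U := by
  rw [Finset.card_eq_sum_card_image V]
  refine Finset.sum_le_sum fun U _ => Finset.card_le_card fun q hq => ?_
  exact Finset.mem_filter.2 ⟨hS (Finset.mem_filter.1 hq).1, (Finset.mem_filter.1 hq).2⟩

theorem Nodes.sum_dg (h : Nodes c Q V w η t) :
    (∑ U ∈ Q.image V, dg w U) * η ≤ c * Q.card := by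
  rw [Finset.sum_mul]
  refine le_trans (Finset.sum_le_sum fun U hU => ?_)
    ((Finset.mul_sum _ _ _).ge.trans (Nat.mul_le_mul_left c (sum_wt_le (V := V) (Q.image V))))
  obtain ⟨q, hq, rfl⟩ := Finset.mem_image.1 hU
  exact h.lo q hq

end Vale.Agent.P054S
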