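import Vale.Agent.P054S.CMLa
import Vale.Agent.P054S.CMJ

/-!
The multiplicity lemma for nodes which are not flats.
-/

namespace Vale.Agent.P054S

open MvPolynomial Module Vale.Agent.P054A
open scoped Classical

/-- Few points are not admissible vertices. -/
theorem card_not_good (k : ℕ) (hk : 2 ≤ k) : ∃ τ₀ : ℕ, ∀ τ ≥ τ₀, ∀ P : Finset (Pt (k + 1)),
    nd2 P ≤ τ → τ ^ (k + 1) ≤ P.card ^ 2 → Sep0 P → ∀ Z : ℕ, Z ^ 5 ≤ τ →
      ∀ (w : ℕ) (V : Id (k + 1)) (q : Pt (k + 1)), PD w V → ¬ Flat V → w < k → q ∈ P →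
        On (cx q) V → (P.filter fun p => ¬ GoodV w p V).card * Z ≤ 2 * P.card := by
  obtain ⟨τ₁, h₁⟩ := pts_vert k hk
  obtain ⟨τ₂, h₂⟩ := pts_span k hk
  refine ⟨τ₁ + τ₂, fun τ hτ P hP hN hS Z hZ w V q hV hF hw hq ho => ?_⟩
  have a1 := h₁ τ (by omega) P hP hN Z hZ V (fun e => by
    have := hV.unique (e ▸ PD_bot)
    simp at this
    omega)
  have a2 : (P.filter fun p => low V 1 ≠ ⊥ ∧ On (cx p) (low V 1)).card * Z ≤ P.card := by
    by_cases e : low V 1 = ⊥
    · simp [e]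
    · simpa [e, ptsOn] using h₂ τ (by omega) P hP hN Z hZ V e
  have a3 : (P.filter fun p => ¬ GoodV w p V) ⊆ (P.filter fun p => Vert p V) ∪
      P.filter fun p => low V 1 ≠ ⊥ ∧ On (cx p) (low V 1) := by
    intro p hp
    obtain ⟨b1, b2⟩ := Finset.mem_filter.1 hp
    by_contra hc
    rw [Finset.mem_union, Finset.mem_filter, Finset.mem_filter, not_or] at hc
    have b3 : low V 1 = ⊥ ∨ ¬ On (cx p) (low V 1) := by
      by_contra h
      rw [not_or, not_not] at h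
      exact hc.2 ⟨b1, h⟩
    refine b2 ⟨fun e => hc.1 ⟨b1, e⟩, fun e => ?_, nfl_of_low hV hF hw b3⟩
    have b4 : p = q := by
      by_contra hne
      have := ho _ e
      simp [cx, sub_eq_zero] at this
      exact hS p b1 q hq hne this.symm
    subst b4
    rcases b3 with b3 | b3
    · have b5 : X 0 - C ((p 0 : ℝ) : ℂ) ∈ low V 1 := Ideal.subset_span ⟨e,
        (totalDegree_sub _ _).trans (by simp)⟩
      rw [b3, Ideal.mem_bot] at b5
      have := congrArg (eval fun _ => ((p 0 : ℝ) : ℂ) + 1) b5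
      simp at this
    · exact b3 fun g hg => ho g (cf_low_le V 1 hg)
  have a4 := (Finset.card_le_card a3).trans (Finset.card_union_le _ _)
  refine (Nat.mul_le_mul_right Z a4).trans ?_
  rw [add_mul, two_mul]
  exact add_le_add a1 (by convert a2)

theorem mlc_arith {D η c a N t τ S C : ℕ} (h1 : D * η ≤ c * a) (h2 : a ≤ N)
    (h3 : t * S ≤ C * (η * (t + τ))) (ht : 0 < t) (hN : 0 < N) :
    (D : ℝ) * S ≤ C * c * N * (1 + τ * a / (t * N)) := by
  have t0 : (0 : ℝ) < t := by exact_mod_cast ht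
  have N0 : (0 : ℝ) < N := by exact_mod_cast hN
  have h4 : t * (D * S) ≤ C * c * (t * N + τ * a) :=
    calc t * (D * S) = D * (t * S) := by ring
      _ ≤ D * (C * (η * (t + τ))) := Nat.mul_le_mul_left _ h3
      _ = C * (D * η) * (t + τ) := by ring
      _ ≤ C * (c * a) * (t + τ) := by gcongr
      _ = C * c * (t * a + τ * a) := by ring
      _ ≤ _ := by gcongr
  refine le_of_mul_le_mul_left ?_ t0
  calc (t : ℝ) * (D * S) ≤ C * c * (t * N + τ * a) := by exact_mod_cast h4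
    _ = _ := by field_simp

theorem mlc_div {s y u N A β : ℝ} (hy : 0 < y) (hβ : 0 < β) (hN : 0 ≤ N) (hu : 0 ≤ u)
    (hA : β * u + 1 ≤ A) (h : A * y * s ≤ u * N * y) : s ≤ N / β := by
  rw [le_div_iff₀ hβ]
  have h1 : A * s ≤ u * N := le_of_mul_le_mul_right (by linarith) hy
  have h2 : 0 ≤ β * u := by positivity
  refine le_of_mul_le_mul_left ?_ (show 0 < A by linarith)
  nlinarith [mul_le_mul_of_nonneg_right h1 hβ.le, mul_le_mul_of_nonneg_right hA hN]

/-- The multiplicity lemma for one class of nodes which are not flats. -/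
theorem mlc_nf (k c b : ℕ) (hk : 2 ≤ k) : ∃ K τ₀ : ℕ, ∀ τ Z : ℕ, τ₀ ≤ τ →
    ∀ P Q : Finset (Pt (k + 1)), Std P τ Z → Q ⊆ P →
    ∀ (V : Pt (k + 1) → Id (k + 1)) (w η t : ℕ), w < k → Nodes c Q V w η t →
      (∀ q ∈ Q, ¬ Flat (V q)) → 1 ≤ t → t ^ w ≤ η → τ ^ w ≤ η ^ 2 →
      ∃ B : Finset (Pt (k + 1) × Pt (k + 1)), (B.card : ℝ) ≤ P.card * Q.card / (b + 1) ∧
        ∀ p ∈ P, ∀ Y : Id k, PD w Y →
          ((Q.filter fun q => (p, q) ∉ B ∧ InCone p (V q) Y).card : ℝ)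
            ≤ K * dg w Y * η * (1 + τ * Q.card / (t * P.card)) := by
  obtain ⟨c₁, h₁⟩ := ml k
  obtain ⟨c₂, h₂⟩ := degmlJ k
  obtain ⟨τ₁, g₁⟩ := card_not_good k hk
  obtain ⟨τ₂, g₂⟩ := pts_proper k hk
  obtain ⟨τ₃, g₃⟩ := flatB_rF k
  set Cs := 4 * k * (c + 1) ^ k
  set A := 4 * (b + 1) * (c₂ * (Cs * c)) + 1 with hA
  set L := 4 * (b + 1) * (c₁ * (Cs * c)) + 1 with hL
  refine ⟨c₂ * ((A + 1) * (L + 1) + A), τ₁ + τ₂ + τ₃ + (6 * (b + 1)) ^ 5,
    fun τ Z hτ P Q hP hQ V w η t hw hV hF ht h1 h2 => ?_⟩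
  rcases Q.eq_empty_or_nonempty with rfl | ⟨q₀, hq₀⟩
  · exact ⟨∅, by simp, fun p _ Y _ => by simp; positivity⟩
  have N0 : 0 < P.card := Finset.card_pos.2 ⟨q₀, hQ hq₀⟩
  have hs : 1 ≤ c * t := by
    have a1 := hV.lo q₀ hq₀
    have a2 := Nat.mul_le_mul (hV.pd q₀ hq₀).one_le_dg ((Nat.one_le_pow w t ht).trans h1)
    rcases Nat.eq_zero_or_pos c with rfl | c0
    · omega
    · exact Nat.mul_pos c0 ht
  set N := P.card
  set Sg := ∑ l ∈ Finset.range w, (c * t) ^ (w - l) * rF τ l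
  have hSg : t * Sg ≤ Cs * (η * (t + τ)) := sum_rF_le hw.le h1 h2
  have hfl : ∀ S ⊆ P, FlatB S w (rF τ) := fun S hS => g₃ τ (by omega) P hP.nd S hS w hw.le
  set x : ℝ := τ * Q.card / (t * N) with hx
  have x0 : 0 ≤ x := by positivity
  let y : Id (k + 1) → ℝ := fun U => τ * wt Q V U / (t * N)
  have y0 : ∀ U, 0 ≤ y U := fun U => by positivity
  let J : Id (k + 1) → ℕ := fun U => ⌈(A : ℝ) * (1 + y U)⌉₊
  let nb : Pt (k + 1) → Id (k + 1) → Finset (Id (k + 1)) := fun p U => (Q.image V).filter fun U' =>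
    U ≠ U' ∧ GoodV w p U' ∧ ∃ Y, PD w Y ∧ InCone p U Y ∧ InCone p U' Y
  let b2 : Pt (k + 1) → Id (k + 1) → Prop := fun p U =>
    GoodV w p U ∧ ∃ Y, PD w Y ∧ InCone p U Y ∧ c₂ * J U * dg w Y < dg w U
  let b3 : Pt (k + 1) → Id (k + 1) → Prop := fun p U =>
    GoodV w p U ∧ (L : ℝ) * (1 + x) < (nb p U).card
  have β0 : (0 : ℝ) < b + 1 := by positivity
  have hZ : (6 * (b + 1)) ^ 5 ≤ τ := by omega
  have c1 : ∀ q ∈ Q, ((P.filter fun p => ¬ GoodV w p (V q)).card : ℝ) ≤ N / (3 * (b + 1)) := by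
    intro q hq
    have a1 := g₁ τ (by omega) P hP.nd hP.big hP.sep _ hZ w (V q) q (hV.pd q hq) (hF q hq) hw
      (hQ hq) (hV.on q hq)
    rw [le_div_iff₀ (by positivity)]
    have a2 : ((P.filter fun p => ¬ GoodV w p (V q)).card : ℝ) * (6 * (b + 1)) ≤ 2 * N := by
      exact_mod_cast a1
    linarith
  have c2 : ∀ q ∈ Q, ((P.filter fun p => b2 p (V q)).card : ℝ)
      ≤ N / (6 * (b + 1)) + N / (4 * (b + 1)) := by
    intro q hq
    obtain ⟨f, I, hf⟩ := hV.sys q hq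
    have a0 : (A : ℝ) * (1 + y (V q)) ≤ J (V q) := Nat.le_ceil _
    have A1 : (1 : ℝ) ≤ A := by exact_mod_cast (show 1 ≤ A by omega)
    have J1 : 1 ≤ J (V q) := by
      rw [← Nat.one_le_cast (α := ℝ)]
      nlinarith [mul_nonneg (zero_le_one.trans A1) (y0 (V q))]
    have a1 := h₂ w (c * t) (N / (6 * (b + 1))) (J (V q)) (V q) f I (P.filter fun p => b2 p (V q))
      (rF τ) hs J1 (hV.pd q hq) hf (fun p hp => (Finset.mem_filter.1 hp).2)
      (hfl _ (Finset.filter_subset _ _)) fun z W hW =>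
        (Finset.card_le_card (Finset.filter_subset_filter _ (Finset.filter_subset _ _))).trans
          ((Nat.le_div_iff_mul_le (by omega)).2
            (g₂ τ (by omega) P hP.nd hP.big _ (cf_sq hZ) z W hW))
    have a2 := mlc_arith (hV.lo q hq) (N := N) (Finset.card_le_card
      ((Finset.filter_subset _ _).trans hQ)) hSg ht N0
    have a3 : ((N / (6 * (b + 1)) : ℕ) : ℝ) ≤ N / (6 * (b + 1)) := by
      simpa using Nat.cast_div_le (α := ℝ) (m := N) (n := 6 * (b + 1))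
    have a4 : (J (V q) : ℝ) * ((P.filter fun p => b2 p (V q)).card : ℝ) ≤
        J (V q) * ((N / (6 * (b + 1)) : ℕ) : ℝ) + c₂ * dg w (V q) * Sg := by exact_mod_cast a1
    generalize ((P.filter fun p => b2 p (V q)).card : ℝ) = s at a4 ⊢
    generalize ((N / (6 * (b + 1)) : ℕ) : ℝ) = h at a3 a4
    rcases le_total s h with e | e
    · exact e.trans (a3.trans (le_add_of_nonneg_right (by positivity)))
    have a5 := mlc_div (s := s - h) (y := 1 + y (V q)) (u := c₂ * (Cs * c)) (N := N) (A := A)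
      (β := 4 * (b + 1)) (by linarith [y0 (V q)]) (by positivity) (by positivity) (by positivity)
      (by rw [hA]; push_cast; exact le_rfl) (by
        have a6 := mul_le_mul_of_nonneg_left a2 (Nat.cast_nonneg (α := ℝ) c₂)
        have a7 := mul_le_mul_of_nonneg_right a0 (sub_nonneg.2 e)
        change _ ≤ _ * (_ * _ * _ * (1 + y (V q))) at a6
        nlinarith)
    linarith
  have c3 : ∀ q ∈ Q, ((P.filter fun p => b3 p (V q)).card : ℝ) ≤ N / (4 * (b + 1)) := by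
    intro q hq
    set S := P.filter fun p => b3 p (V q)
    have a1 : ∑ p ∈ S, (nb p (V q)).card ≤ c₁ * ((∑ U ∈ Q.image V, dg w U) * Sg) := by
      simp only [nb, Finset.card_filter]
      rw [Finset.sum_comm, Finset.sum_mul, Finset.mul_sum]
      refine Finset.sum_le_sum fun U hU => ?_
      obtain ⟨q', hq', rfl⟩ := Finset.mem_image.1 hU
      rw [← Finset.card_filter, ← mul_assoc]
      by_cases e : V q = V q'
      · simp [e]
      obtain ⟨f, I, hf⟩ := hV.sys q' hq'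
      refine h₁ w (c * t) (V q) (V q') f I _ (rF τ) hs (hV.pd q hq) (hV.pd q' hq') e hf
        (fun p hp => ?_) (hfl _ ((Finset.filter_subset _ _).trans (Finset.filter_subset _ _)))
      obtain ⟨d1, -, d2⟩ := Finset.mem_filter.1 hp
      exact ⟨(Finset.mem_filter.1 d1).2.1, d2⟩
    have a2 := mlc_arith hV.sum_dg (N := N) (Finset.card_le_card hQ) hSg ht N0
    have a3 : (L : ℝ) * (1 + x) * S.card ≤ ∑ p ∈ S, ((nb p (V q)).card : ℝ) := by
      rw [mul_comm, ← nsmul_eq_mul]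
      exact Finset.card_nsmul_le_sum _ _ _ fun p hp => (Finset.mem_filter.1 hp).2.2.le
    have a4 : ∑ p ∈ S, ((nb p (V q)).card : ℝ)
        ≤ c₁ * (((∑ U ∈ Q.image V, dg w U : ℕ) : ℝ) * Sg) := by exact_mod_cast a1
    refine mlc_div (y := 1 + x) (u := c₁ * (Cs * c)) (A := L) (by linarith) (by positivity)
      (by positivity) (by positivity) (by rw [hL]; push_cast; exact le_rfl) ?_
    have a6 := mul_le_mul_of_nonneg_left a2 (Nat.cast_nonneg (α := ℝ) c₁)
    rw [← hx] at a6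
    nlinarith
  refine ⟨(P ×ˢ Q).filter fun z => ¬ GoodV w z.1 (V z.2) ∨ b2 z.1 (V z.2) ∨ b3 z.1 (V z.2),
    ?_, fun p hp Y hY => ?_⟩
  · rw [mul_comm (N : ℝ), mul_div_assoc]
    convert pairs_on P Q (fun p q => ¬ GoodV w p (V q) ∨ b2 p (V q) ∨ b3 p (V q))
      (c := N / (b + 1)) fun q hq => ?_
    have a1 := (Finset.card_union_le (P.filter fun p => ¬ GoodV w p (V q))
      ((P.filter fun p => b2 p (V q)) ∪ P.filter fun p => b3 p (V q))).trans
        (Nat.add_le_add_left (Finset.card_union_le _ _) _)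
    refine (Nat.cast_le.2 (le_trans (Finset.card_le_card fun p hp => ?_) a1)).trans ?_
    · simp only [Finset.mem_union, Finset.mem_filter] at hp ⊢
      exact hp.2.imp (fun e => ⟨hp.1, e⟩) (Or.imp (fun e => ⟨hp.1, e⟩) fun e => ⟨hp.1, e⟩)
    push_cast
    refine (add_le_add (c1 q hq) (add_le_add (c2 q hq) (c3 q hq))).trans_eq ?_
    field_simp
    ring
  · set S := Q.filter fun q => (p, q) ∉ ((P ×ˢ Q).filter fun z => ¬ GoodV w z.1 (V z.2) ∨
      b2 z.1 (V z.2) ∨ b3 z.1 (V z.2)) ∧ InCone p (V q) Y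
    have a1 : ∀ U ∈ S.image V, U ∈ Q.image V ∧ GoodV w p U ∧ InCone p U Y ∧
        wt Q V U ≤ c₂ * J U * dg w Y * η ∧ ((nb p U).card : ℝ) ≤ L * (1 + x) := by
      intro U hU
      obtain ⟨q, hq, rfl⟩ := Finset.mem_image.1 hU
      obtain ⟨d1, d2, d3⟩ := Finset.mem_filter.1 hq
      have d4 : ¬ (¬ GoodV w p (V q) ∨ b2 p (V q) ∨ b3 p (V q)) := fun e =>
        d2 (Finset.mem_filter.2 ⟨Finset.mem_product.2 ⟨hp, d1⟩, e⟩)
      rw [not_or, not_or, not_not] at d4
      exact ⟨Finset.mem_image_of_mem V d1, d4.1, d3, (hV.hi q d1).trans (Nat.mul_le_mul_right _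
        (not_lt.1 fun e => d4.2.1 ⟨d4.1, Y, hY, d3, e⟩)), not_lt.1 fun e => d4.2.2 ⟨d4.1, e⟩⟩
    have a2 : ((S.image V).card : ℝ) ≤ (L + 1) * (1 + x) := by
      rcases (S.image V).eq_empty_or_nonempty with e | ⟨U, hU⟩
      · rw [e, Finset.card_empty, Nat.cast_zero]
        positivity
      have d1 : (S.image V).erase U ⊆ nb p U := fun U' hU' => by
        obtain ⟨d2, d3⟩ := Finset.mem_erase.1 hU'
        exact Finset.mem_filter.2 ⟨(a1 U' d3).1, d2.symm, (a1 U' d3).2.1, Y, hY, (a1 U hU).2.2.1,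
          (a1 U' d3).2.2.1⟩
      have d2 : ((S.image V).card : ℝ) ≤ (nb p U).card + 1 := by
        rw [← Finset.card_erase_add_one hU]
        exact_mod_cast Nat.add_le_add_right (Finset.card_le_card d1) 1
      linarith [(a1 U hU).2.2.2.2]
    have a3 : ∑ U ∈ S.image V, y U ≤ x := by
      simp only [y]
      rw [← Finset.sum_div, ← Finset.mul_sum, hx]
      gcongr
      exact_mod_cast sum_wt_le (S.image V)
    have a4 : ∑ U ∈ S.image V, (J U : ℝ) ≤ ((A + 1) * (L + 1) + A) * (1 + x) := by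
      have d1 : ∑ U ∈ S.image V, (J U : ℝ) ≤ ∑ U ∈ S.image V, ((A + 1) + A * y U) :=
        Finset.sum_le_sum fun U _ => (Nat.ceil_lt_add_one (by
          have := y0 U
          positivity)).le.trans_eq (by ring)
      rw [Finset.sum_add_distrib, Finset.sum_const, nsmul_eq_mul, ← Finset.mul_sum] at d1
      have A0 : (0 : ℝ) ≤ A := Nat.cast_nonneg _
      nlinarith [mul_le_mul_of_nonneg_left a2 (show (0 : ℝ) ≤ A + 1 by linarith),
        mul_le_mul_of_nonneg_left a3 A0]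
    have a5 : S.card ≤ c₂ * dg w Y * η * ∑ U ∈ S.image V, J U := by
      rw [Finset.mul_sum]
      exact (card_le_sum_wt (Finset.filter_subset _ _)).trans (Finset.sum_le_sum fun U hU =>
        (a1 U hU).2.2.2.1.trans_eq (by ring))
    calc (S.card : ℝ) ≤ c₂ * dg w Y * η * ∑ U ∈ S.image V, (J U : ℝ) := by exact_mod_cast a5
      _ ≤ c₂ * dg w Y * η * (((A + 1) * (L + 1) + A) * (1 + x)) := by gcongr
      _ = _ := by push_cast; ring

end Vale.Agent.P054S
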