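import Vale.Agent.P054S.CMCore

namespace Vale.Agent.P054S

open MvPolynomial Module Vale.Agent.P054A
open scoped Classical

/-- The number of vertices. -/
theorem cm_count (σ : Type) [Fintype σ] : ∃ c₀ : ℕ, ∀ (w s c : ℕ)
    (V₀ V₁ : Ideal (MvPolynomial σ ℂ)) (f : Fin c → MvPolynomial σ ℂ) (J : Fin c → σ)
    (S : Finset (σ → ℂ)) (r : ℕ → ℕ), PD w V₀ → PD w V₁ → w + c = Fintype.card σ → 1 ≤ s →
    Sys V₁ s f J → (∀ p ∈ S, ∃ U, Cls w V₀ V₁ p U) →
    (∀ l < w, ∀ (z : σ → ℂ) (W : Submodule ℂ (σ → ℂ)), finrank ℂ W ≤ l →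
      (S.filter fun q => q - z ∈ W).card ≤ r l) →
    S.card ≤ c₀ * dg w V₁ * ∑ l ∈ Finset.range w, s ^ (w - l) * r l := by
  obtain ⟨c₀, H⟩ := cm_core σ
  refine ⟨c₀, fun w s c V₀ V₁ f J S r h0 h1 hw hs hsys hS hr => ?_⟩
  choose! U hU using hS
  have hlt : ∀ p ∈ S, finrank ℂ (Om (U p)) < w := fun p hp =>
    (H w s c _ V₀ V₁ f J {U p} (fun _ => p) h0 h1 hw hs hsys (fun W hW => by
      rw [Finset.mem_singleton.1 hW]
      exact ⟨hU p hp, rfl⟩)).1 (Finset.singleton_nonempty _)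
  rw [Finset.card_eq_sum_card_fiberwise (f := fun p => finrank ℂ (Om (U p))) (t := Finset.range w)
    (fun p hp => Finset.mem_coe.2 (Finset.mem_range.2 (hlt p hp))), Finset.mul_sum]
  refine Finset.sum_le_sum fun l hl => ?_
  set S' := S.filter fun p => finrank ℂ (Om (U p)) = l with hS'
  have hex : ∀ W ∈ S'.image U, ∃ p, p ∈ S' ∧ U p = W := fun W hW => Finset.mem_image.1 hW
  choose! π hπ using hex
  have hF := (H w s c l V₀ V₁ f J (S'.image U) π h0 h1 hw hs hsys fun W hW => by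
    obtain ⟨k1, k2⟩ := hπ W hW
    obtain ⟨k3, k4⟩ := Finset.mem_filter.1 k1
    have := hU _ k3
    rw [k2] at this k4
    exact ⟨this, k4⟩).2
  have hfib : ∀ W ∈ S'.image U, (S'.filter fun p => U p = W).card ≤ r l := by
    intro W hW
    obtain ⟨k1, k2⟩ := hπ W hW
    obtain ⟨k3, k4⟩ := Finset.mem_filter.1 k1
    rw [k2] at k4
    refine le_trans (Finset.card_le_card fun q hq => ?_)
      (hr l (Finset.mem_range.1 hl) (π W) (Om W) k4.le)
    obtain ⟨j1, j2⟩ := Finset.mem_filter.1 hq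
    have j3 := (Finset.mem_filter.1 j1).1
    refine Finset.mem_filter.2 ⟨j3, Vx.sub_mem ?_ ?_⟩
    · have := (hU _ k3).vx
      rwa [k2] at this
    · have := (hU _ j3).vx
      rwa [j2] at this
  calc S'.card ≤ r l * (S'.image U).card := Finset.card_le_mul_card_image S' (r l) hfib
    _ ≤ r l * (c₀ * dg w V₁ * s ^ (w - l)) := Nat.mul_le_mul_left _ hF
    _ = c₀ * dg w V₁ * (s ^ (w - l) * r l) := by ring

/-- The cone over the base, in the language of this block. -/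
theorem cone_data {k w : ℕ} {p : Pt (k + 1)} {V : Ideal (MvPolynomial (Fin (k + 1)) ℂ)}
    {Y : Ideal (MvPolynomial (Fin k) ℂ)} (hV : PD w V) (hY : PD w Y) (hg : GoodV w p V)
    (h : InCone p V Y) : PD (w + 1) (coneI p Y) ∧ Vx (cx p) (coneI p Y) ∧ coneI p Y ≤ V ∧
      ¬ Vx (cx p) V ∧ dg (w + 1) (coneI p Y) ≤ dg w Y := by
  obtain ⟨g1, g2, -⟩ := hg
  have hle := coneI_le hV.prime g2 h
  have hvert := vert_coneI p hY.prime
  obtain ⟨j, hj⟩ := exists_PD (coneI_prime p hY.prime)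
  have j1 : j ≤ w + 1 := hj.le_of_H le_rfl (H_coneI_le p hY)
  have j2 : w < j := hj.dim_lt hV (lt_of_le_of_ne hle fun e => g1 (e ▸ hvert))
  obtain rfl : j = w + 1 := by omega
  refine ⟨hj, hvert.2, hle, fun hx => g1 ⟨?_, hx⟩, dg_le (H_coneI_le p hY)⟩
  obtain ⟨z, hz⟩ := cf_exists_on hV.prime
  simpa using hx z hz 0

end Vale.Agent.P054S
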