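import Vale.Agent.P054S.CMD

namespace Vale.Agent.P054S

open MvPolynomial Module Vale.Agent.P054A
open scoped Classical

variable {σ : Type} [Fintype σ] {U : Ideal (MvPolynomial σ ℂ)} {p q z v : σ → ℂ}

/-- The restriction of `G` to the line `z + t v`. -/
noncomputable def cmtan_ray {σ : Type} (z v : σ → ℂ) : MvPolynomial σ ℂ →ₐ[ℂ] Polynomial ℂ :=
  aeval fun l => Polynomial.C (z l) + Polynomial.C (v l) * Polynomial.X

omit [Fintype σ] in
theorem cmtan_eval (z v : σ → ℂ) (G : MvPolynomial σ ℂ) (t : ℂ) :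
    (cmtan_ray z v G).eval t = eval (z + t • v) G := by
  induction G using MvPolynomial.induction_on with
  | C a => simp [cmtan_ray]
  | add p q hp hq => simp only [map_add, Polynomial.eval_add, hp, hq]
  | mul_X p i hp =>
    rw [map_mul, Polynomial.eval_mul, hp, map_mul, eval_X, Pi.add_apply, Pi.smul_apply,
      smul_eq_mul, mul_comm t]
    simp [cmtan_ray]

theorem cmtan_dv_mul_X (v : σ → ℂ) (G : MvPolynomial σ ℂ) (i : σ) :
    dv v (G * X i) = dv v G * X i + G * C (v i) := by
  have h : ∀ l, pderiv l (G * X i) * C (v l)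
      = pderiv l G * C (v l) * X i + if l = i then G * C (v i) else 0 := fun l => by
    rw [Derivation.leibniz, pderiv_X]
    by_cases e : l = i
    · subst e
      simp only [Pi.single_eq_same, smul_eq_mul, if_true]
      ring
    · rw [Pi.single_eq_of_ne (Ne.symm e), if_neg e]
      simp only [smul_eq_mul]
      ring
  simp only [dv, h, Finset.sum_add_distrib, Finset.sum_mul, Finset.sum_ite_eq', Finset.mem_univ,
    if_true]

theorem cmtan_der (z v : σ → ℂ) (G : MvPolynomial σ ℂ) :
    Polynomial.derivative (cmtan_ray z v G) = cmtan_ray z v (dv v G) := by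
  induction G using MvPolynomial.induction_on with
  | C a => simp [cmtan_ray, dv]
  | add p q hp hq =>
    have : dv v (p + q) = dv v p + dv v q := by
      simp only [dv, map_add, add_mul, Finset.sum_add_distrib]
    rw [this, map_add, map_add, map_add, hp, hq]
  | mul_X p i hp =>
    rw [cmtan_dv_mul_X, map_mul, Polynomial.derivative_mul, hp, map_add, map_mul, map_mul]
    simp [cmtan_ray]

theorem cmtan_dd (z v : σ → ℂ) (G : MvPolynomial σ ℂ) :
    (Polynomial.derivative (cmtan_ray z v G)).eval 0 = dd G z v := by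
  rw [cmtan_der, cmtan_eval, zero_smul, add_zero, eval_dv]

theorem cmtan_line (h : ∀ t : ℂ, On (z + t • v) U) : v ∈ tI U z := fun G hG => by
  have h0 : cmtan_ray z v G = 0 := Polynomial.funext fun t => by
    rw [cmtan_eval, h t G hG, Polynomial.eval_zero]
  rw [← cmtan_dd, h0, Polynomial.derivative_zero, Polynomial.eval_zero]

omit [Fintype σ] in
theorem Vx.shift (h : Vx p U) (hq : q - p ∈ Om U) : Vx q U := by
  intro z hz t
  have h1 := hq _ (h z hz t) (1 - t)
  have e : q + t • (z - q) = p + t • (z - p) + (1 - t) • (q - p) := by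
    funext l
    simp only [Pi.add_apply, Pi.smul_apply, Pi.sub_apply, smul_eq_mul]
    ring
  rwa [e]

omit [Fintype σ] in
/-- Two vertices differ by a translation which preserves the cone. -/
theorem Vx.sub_mem (h : Vx p U) (h' : Vx q U) : q - p ∈ Om U := by
  have key : ∀ z, On z U → ∀ t : ℂ, t + 1 ≠ 0 → On (z + t • (q - p)) U := fun z hz t ht => by
    have h1 := h _ (h' z hz (t + 1)⁻¹) (t + 1)
    have e : z + t • (q - p) = p + (t + 1) • (q + (t + 1)⁻¹ • (z - q) - p) := by
      funext l
      simp only [Pi.add_apply, Pi.smul_apply, Pi.sub_apply, smul_eq_mul]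
      field_simp
      ring
    rwa [e]
  intro z hz t
  by_cases ht : t + 1 = 0
  · have h2 : t / 2 + 1 ≠ 0 := by
      rw [eq_neg_of_add_eq_zero_left ht]
      norm_num
    have h1 := key _ (key z hz _ h2) _ h2
    rwa [add_assoc, ← add_smul, add_halves] at h1
  · exact key z hz t ht

theorem Om_le_tI (hz : On z U) : Om U ≤ tI U z := fun _ hv => cmtan_line (hv z hz)

theorem ray_mem_tI (h : Vx q U) (hz : On z U) : z - q ∈ tI U z := by
  refine cmtan_line fun t => ?_
  have e : z + t • (z - q) = q + (t + 1) • (z - q) := by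
    funext l
    simp only [Pi.add_apply, Pi.smul_apply, Pi.sub_apply, smul_eq_mul]
    ring
  rw [e]
  exact h z hz _

theorem cmtan_move (hU : U.IsPrime) (h : Vx q U) {θ : ℂ} (hθ : θ ≠ 0) {o : σ → ℂ}
    (ho : o ∈ Om U) (z : σ → ℂ) : tI U z ≤ tI U (q + θ • (z - q) + o) := by
  intro v hv G hG
  let φ : σ → MvPolynomial σ ℂ := fun l => C (q l) + C θ * (X l - C (q l)) + C (o l)
  have h1 : ∀ x, eval x (aeval φ G) = eval (q + θ • (x - q) + o) G := fun x => by
    have e : (fun l => eval x (φ l)) = q + θ • (x - q) + o := by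
      funext l
      simp [φ]
    rw [cf_eval_aeval, e]
  have h2 : aeval φ G ∈ U := cf_mem_of_on hU fun x hx => by
    have h3 := ho _ (h x hx θ) 1
    rw [one_smul] at h3
    rw [h1]
    exact h3 G hG
  have h3 : cmtan_ray z v (aeval φ G) = cmtan_ray (q + θ • (z - q) + o) (θ • v) G :=
    Polynomial.funext fun t => by
      have e : q + θ • (z + t • v - q) + o = q + θ • (z - q) + o + t • θ • v := by
        funext l
        simp only [Pi.add_apply, Pi.smul_apply, Pi.sub_apply, smul_eq_mul]
        ring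
      rw [cmtan_eval, cmtan_eval, h1, e]
  have h4 := hv _ h2
  rw [← cmtan_dd, h3, cmtan_dd, dd_smul] at h4
  exact (mul_eq_zero.1 h4).resolve_left hθ

/-- The tangent space is constant along rulings and translations. -/
theorem tI_move (hU : U.IsPrime) (h : Vx q U) {θ : ℂ} (hθ : θ ≠ 0) {o : σ → ℂ} (ho : o ∈ Om U)
    (z : σ → ℂ) : tI U (q + θ • (z - q) + o) = tI U z := by
  refine le_antisymm ?_ (cmtan_move hU h hθ ho z)
  have h1 := cmtan_move hU h (inv_ne_zero hθ) ((Om U).smul_mem (-θ⁻¹) ho) (q + θ • (z - q) + o)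
  have e : q + θ⁻¹ • (q + θ • (z - q) + o - q) + (-θ⁻¹) • o = z := by
    funext l
    simp only [Pi.add_apply, Pi.smul_apply, Pi.sub_apply, smul_eq_mul]
    field_simp
    ring
  rwa [e] at h1

theorem mem_Om_of_dv (h : ∀ G ∈ U, dv v G ∈ U) : v ∈ Om U := by
  intro z hz t G hG
  have h1 : ∀ n : ℕ, ∃ G' ∈ U,
      Polynomial.derivative^[n] (cmtan_ray z v G) = cmtan_ray z v G' := fun n => by
    induction n with
    | zero => exact ⟨G, hG, rfl⟩
    | succ n ih =>
      obtain ⟨G', h2, h3⟩ := ih
      exact ⟨dv v G', h G' h2, by rw [Function.iterate_succ_apply', h3, cmtan_der]⟩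
  have h2 : cmtan_ray z v G = 0 := Polynomial.ext fun n => by
    obtain ⟨G', h2, h3⟩ := h1 n
    have h4 : (Polynomial.derivative^[n] (cmtan_ray z v G)).coeff 0 = 0 := by
      rw [h3, Polynomial.coeff_zero_eq_eval_zero, cmtan_eval, zero_smul, add_zero]
      exact hz G' h2
    rw [Polynomial.coeff_iterate_derivative, zero_add, Nat.descFactorial_self, nsmul_eq_mul,
      mul_eq_zero] at h4
    rw [Polynomial.coeff_zero]
    exact h4.resolve_left (Nat.cast_ne_zero.2 n.factorial_ne_zero)
  rw [← cmtan_eval, h2, Polynomial.eval_zero]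

theorem finrank_Om_le {j : ℕ} (hU : PD j U) : finrank ℂ (Om U) ≤ j := by
  obtain ⟨z, hz, -⟩ := exists_on_ne hU.prime ((Ideal.ne_top_iff_one U).1 hU.prime.ne_top)
  refine hU.dim_le (flatI_pd z (Om U)).1 fun g hg x hx => ?_
  have h1 := (show x - z ∈ Om U from hx) z hz 1
  rw [one_smul, add_sub_cancel] at h1
  exact h1 g hg

/-- Flats with constant base point and stable direction are stable. -/
theorem stI_flatI {T : Set ℂ} {W : Submodule ℂ (σ → ℂ)} (hp : CsV T p) (hW : StW T W) :
    StI T (flatI p W) := by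
  intro D hD G hG x hx
  have hx' : x - p ∈ W := hx
  have h1 : vD D x ∈ W := by
    have h2 := hW D hD _ hx'
    rwa [vD_sub, hp D hD, sub_zero] at h2
  have h2 : vD D x ∈ tI (flatI p W) x := cmtan_line fun t => on_flatI.2 (by
    rw [add_sub_right_comm]
    exact W.add_mem hx' (W.smul_mem t h1))
  have h3 := der_eval D x G
  rw [hG x hx, h2 G hG, add_zero, map_zero] at h3
  exact h3.symm

end Vale.Agent.P054S
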