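import Vale.Agent.P054S.CMSum
import Vale.Agent.P054S.CMDeg

namespace Vale.Agent.P054S

open MvPolynomial Vale.Agent.P054A
open scoped Classical

/-- A variety which is not a flat is admissible for the points off its proper span. -/
theorem nfl_of_low {k w : ℕ} {V : Ideal (MvPolynomial (Fin (k + 1)) ℂ)} (hV : PD w V)
    (hF : ¬ Flat V) (hw : w + 1 ≤ k) {p : Pt (k + 1)}
    (h : low V 1 = ⊥ ∨ ¬ On (cx p) (low V 1)) : NFl w (cx p) V := by
  intro Θ hΘ
  by_contra hc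
  have hin : ∀ z, On z V → z - cx p ∈ Θ := fun z hz => not_not.1 fun hn => hc ⟨z, hz, hn⟩
  obtain ⟨z, hz⟩ := cf_exists_on hV.prime
  have h1 : flatI (cx p) Θ ≤ V := fun g hg => cf_mem_of_on hV.prime fun x hx => hg x (hin x hx)
  have h2 : flatI (cx p) Θ ≤ low V 1 :=
    (flat_flatI _ _).trans (Ideal.span_mono fun g hg => ⟨h1 hg.1, hg.2⟩)
  have h3 : spW V z ≤ Θ := fun v hv => by
    have h4 : On (z + v) (low V 1) := (on_low_iff hz).2 (by rwa [add_sub_cancel_left])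
    have h5 : z + v - cx p ∈ Θ := on_flatI.1 fun g hg => h4 g (h2 hg)
    have h6 := Θ.sub_mem h5 (hin z hz)
    rwa [show z + v - cx p - (z - cx p) = v by abel] at h6
  have h4 : w + 1 ≤ Module.finrank ℂ (spW V z) :=
    not_le.1 fun h5 => hF (flat_of_rank hV hz h5)
  have h5 : spW V z = Θ := Submodule.eq_of_le_of_finrank_le h3 (hΘ.trans h4)
  rcases h with h | h
  · have h6 : Θ = ⊤ := eq_top_iff.2 fun v _ => by
      rw [← h5, ← add_sub_cancel_left z v, ← on_low_iff hz, h]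
      intro g hg
      rw [Ideal.mem_bot.1 hg, map_zero]
    rw [h6, finrank_top, Module.finrank_fin_fun] at hΘ
    omega
  · refine h ((on_low_iff hz).2 ?_)
    rw [h5, ← neg_sub]
    exact Θ.neg_mem (hin z hz)

theorem cmain_inj {d : ℕ} : Function.Injective (cx : Pt d → Fin d → ℂ) := fun _ _ h =>
  funext fun l => Complex.ofReal_injective (congrFun h l)

theorem cmain_flat {d w : ℕ} {S S' : Finset (Pt d)} {r : ℕ → ℕ} (h : FlatB S w r) (hS : S' ⊆ S) :
    ∀ l < w, ∀ (z : Fin d → ℂ) (W : Submodule ℂ (Fin d → ℂ)), Module.finrank ℂ W ≤ l →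
      ((S'.image cx).filter fun q => q - z ∈ W).card ≤ r l := by
  intro l hl z W hW
  rw [Finset.filter_image]
  exact Finset.card_image_le.trans
    ((Finset.card_le_card (Finset.filter_subset_filter _ hS)).trans (h l hl z W hW))

theorem cmain_pos {σ : Type} [Fintype σ] {V : Ideal (MvPolynomial σ ℂ)} {p : σ → ℂ}
    (hV : PD 0 V) (h : NFl 0 p V) : False := by
  obtain ⟨z, hz⟩ := cf_exists_on hV.prime
  obtain ⟨y, hy, hn⟩ := h (Submodule.span ℂ {z - p})
    ((finrank_span_le_card _).trans (by simp))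
  have e : y = z := funext fun l => by
    have h1 : X l - C (z l) ∈ V := by
      rw [hV.eq_point hz]
      intro x hx
      rw [Set.mem_singleton_iff.1 hx]
      simp
    simpa [sub_eq_zero] using hy _ h1
  exact hn (e ▸ Submodule.mem_span_singleton_self _)

/-- The multiplicity lemma: few vertices see two different varieties on the same cone. -/
theorem ml (k : ℕ) : ∃ c : ℕ, ∀ (w s : ℕ) (V₀ V₁ : Ideal (MvPolynomial (Fin (k + 1)) ℂ))
    (f : Fin (k + 1 - w) → MvPolynomial (Fin (k + 1)) ℂ) (J : Fin (k + 1 - w) → Fin (k + 1))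
    (S : Finset (Pt (k + 1))) (r : ℕ → ℕ), 1 ≤ s → PD w V₀ → PD w V₁ → V₀ ≠ V₁ → Sys V₁ s f J →
    (∀ p ∈ S, GoodV w p V₀ ∧ GoodV w p V₁ ∧ ∃ Y, PD w Y ∧ InCone p V₀ Y ∧ InCone p V₁ Y) →
    FlatB S w r → S.card ≤ c * dg w V₁ * ∑ l ∈ Finset.range w, s ^ (w - l) * r l := by
  obtain ⟨c, hc⟩ := cm_count (Fin (k + 1))
  refine ⟨c, fun w s V₀ V₁ f J S r hs h0 h1 hne hf hS hB => ?_⟩
  have hw : w + (k + 1 - w) = Fintype.card (Fin (k + 1)) := by
    have := h1.1
    rw [Fintype.card_fin] at this ⊢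
    omega
  rw [← Finset.card_image_of_injective S cmain_inj]
  refine hc w s _ V₀ V₁ f J _ r h0 h1 hw hs hf (fun q hq => ?_) (cmain_flat hB subset_rfl)
  obtain ⟨p, hp, rfl⟩ := Finset.mem_image.1 hq
  obtain ⟨g0, g1, Y, hY, i0, i1⟩ := hS p hp
  obtain ⟨a1, a2, a3, a4, -⟩ := cone_data h0 hY g0 i0
  obtain ⟨-, -, b3, b4, -⟩ := cone_data h1 hY g1 i1
  obtain ⟨u, u1, u2⟩ := exists_not_vx a4
  obtain ⟨v, v1, v2⟩ := exists_not_vx b4
  refine ⟨coneI p Y, a1, a2, a3, b3, g0.2.2, u * v, ?_, fun q _ hq => ?_⟩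
  · rw [map_mul]; exact mul_ne_zero u1 v1
  · rw [map_mul] at hq
    exact ⟨u2 q (left_ne_zero_of_mul hq), v2 q (right_ne_zero_of_mul hq), Or.inl hne⟩

/-- Few vertices project a variety to one of much smaller degree. -/
theorem degml (k : ℕ) : ∃ c : ℕ, ∀ (w s h : ℕ) (V : Ideal (MvPolynomial (Fin (k + 1)) ℂ))
    (f : Fin (k + 1 - w) → MvPolynomial (Fin (k + 1)) ℂ) (J : Fin (k + 1 - w) → Fin (k + 1))
    (S : Finset (Pt (k + 1))) (r : ℕ → ℕ), 1 ≤ s → PD w V → Sys V s f J →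
    (∀ p ∈ S, GoodV w p V ∧ ∃ Y, PD w Y ∧ InCone p V Y ∧ c * dg w Y < dg w V) →
    FlatB S w r → HypB S h →
    S.card ≤ h + c * dg w V * ∑ l ∈ Finset.range w, s ^ (w - l) * r l := by
  obtain ⟨c, hc⟩ := cm_count (Fin (k + 1))
  obtain ⟨e, he⟩ := cm_deg (k + 1)
  refine ⟨c + e, fun w s h V f J S r hs hV hf hS hB hH => ?_⟩
  rcases S.eq_empty_or_nonempty with rfl | ⟨p₀, hp₀⟩
  · simp
  have hw1 : 1 ≤ w := by
    by_contra hw
    obtain rfl : w = 0 := by omega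
    exact cmain_pos hV (hS p₀ hp₀).1.2.2
  have hw2 : w + 1 ≤ k + 1 := by
    obtain ⟨g0, Y, hY, i0, -⟩ := hS p₀ hp₀
    have := (cone_data hV hY g0 i0).1.1
    rwa [Fintype.card_fin] at this
  have hw : w + (k + 1 - w) = Fintype.card (Fin (k + 1)) := by
    rw [Fintype.card_fin]
    omega
  obtain ⟨z, W, hW, hz⟩ := he w V hV hw1 hw2
  rw [← Finset.card_filter_add_card_filter_not (s := S) fun q => cx q - z ∈ W]
  refine Nat.add_le_add (hH z W hW) (le_trans ?_ (Nat.mul_le_mul_right _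
    (Nat.mul_le_mul_right _ (Nat.le_add_right c e))))
  rw [← Finset.card_image_of_injective _ cmain_inj]
  refine hc w s _ V V f J _ r hV hV hw hs hf (fun q hq => ?_)
    (cmain_flat hB (Finset.filter_subset _ _))
  obtain ⟨p, hp, rfl⟩ := Finset.mem_image.1 hq
  obtain ⟨hp, hpW⟩ := Finset.mem_filter.1 hp
  obtain ⟨g0, Y, hY, i0, hd⟩ := hS p hp
  obtain ⟨a1, a2, a3, a4, a5⟩ := cone_data hV hY g0 i0
  obtain ⟨u, u1, u2⟩ := exists_not_vx a4
  obtain ⟨L, l1, l2⟩ := Submodule.exists_le_ker_of_notMem hpW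
  have hL : ∀ x, eval x (aff (-L z) L) = L (x - z) := fun x => by
    rw [eval_aff, neg_add_eq_sub, ← map_sub]
  refine ⟨coneI p Y, a1, a2, a3, a3, g0.2.2, u * aff (-L z) L, ?_, fun q hO hq => ?_⟩
  · rw [map_mul, hL]; exact mul_ne_zero u1 l1
  · rw [map_mul, hL] at hq
    refine ⟨u2 q (left_ne_zero_of_mul hq), u2 q (left_ne_zero_of_mul hq), Or.inr fun hb => ?_⟩
    exact right_ne_zero_of_mul hq (l2 (hz q _ a1 (a2.shift hO) a3 hb
      (lt_of_le_of_lt (Nat.mul_le_mul (Nat.le_add_left e c) a5) hd)))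

end Vale.Agent.P054S
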