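import Vale.Agent.P054S.CCDef

/-!
The main claim for a class.
-/

namespace Vale.Agent.P054S

open MvPolynomial Vale.Agent.P054A
open scoped Classical

variable {k d : ℕ}

/-- The bracket of the bound. -/
noncomputable def Br (N n E L τ Z : ℕ) (x : ℝ) : ℝ := E + τ * n / N + L * τ / Z + x

/-- The main claim for classes of level `j`. -/
def MainAt (k j A τ₀ : ℕ) (β : ℝ) : Prop :=
  ∀ τ Z : ℕ, τ₀ ≤ τ → ∀ P T : Finset (Pt (k + 1)), Std P τ Z → T ⊆ P → Poor T τ →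
    ∀ η i s : ℕ, 2 ^ i ≤ 4 * τ + 2 → (2 ^ i) ^ j ≤ η → τ ^ j ≤ η ^ 2 →
      P.card ≤ η * 2 ^ (s * (k + 1 - j)) → Cap T j η (2 ^ i) →
      Cl P T j (fun w => A * η * ((2 : ℝ) ^ i) ^ (w - (j + 1))
          * Br P.card T.card (2 ^ i) ((i + 1) ^ (k + 1 - j)) τ Z (4 ^ s))
        β (A * ((i : ℝ) + 1) ^ (k + 1 - j) * (P.card : ℝ) ^ 2 / Z)

/-- The claim for a class of nodes inside a class of level `j`. -/
def SubAt (k c j A i₀ τ₀ : ℕ) (β : ℝ) : Prop :=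
  ∀ τ Z : ℕ, τ₀ ≤ τ → ∀ P Q : Finset (Pt (k + 1)), Std P τ Z → Q ⊆ P → Poor Q τ →
    ∀ (V : Pt (k + 1) → Id (k + 1)) (η i s u : ℕ), j < u → u ≤ k → i₀ ≤ i → s ≤ i →
      2 * 2 ^ i ≤ 4 * τ + 2 → (2 * 2 ^ i) ^ j ≤ η → τ ^ j ≤ η ^ 2 →
      P.card ≤ η * 2 ^ (s * (k + 1 - j)) → Cap Q u (η * (2 * 2 ^ i) ^ (u - j)) (2 * 2 ^ i) →
      Nodes c Q V u (η * (2 * 2 ^ i) ^ (u - j)) (2 ^ i) →
      Cl P Q j (fun w => A * η * ((2 : ℝ) ^ i) ^ (w - (j + 1))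
          * Br P.card Q.card (2 ^ i) ((i + 2) ^ (k - j)) τ Z
            (4 ^ s * (1 / 2) ^ ((i - s) / (k + 1))))
        β (A * ((i : ℝ) + 2) ^ (k - j) * (P.card : ℝ) ^ 2 / Z)

theorem Br_nonneg (N n E L τ Z : ℕ) {x : ℝ} (hx : 0 ≤ x) : 0 ≤ Br N n E L τ Z x := by
  unfold Br
  positivity

end Vale.Agent.P054S
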