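import Vale.Agent.P054S.CCov
import Vale.Agent.P054S.CFCone

/-!
Heavy nodes lie on the cones of the cover.
-/

namespace Vale.Agent.P054S

open MvPolynomial Vale.Agent.P054A
open scoped Classical

variable {k d : ℕ}

/-- The partners of `p` outside `B` whose node lies on a cone over a member of `𝒲`. -/
noncomputable def cin (p : Pt (k + 1)) (Q : Finset (Pt (k + 1))) (V : Pt (k + 1) → Id (k + 1))
    (B : Finset (Pt (k + 1) × Pt (k + 1))) (𝒲 : Finset (Id k)) : Finset (Pt (k + 1)) :=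
  Q.filter fun q => (p, q) ∉ B ∧ q ≠ p ∧ ∃ W ∈ 𝒲, InCone p (V q) W

theorem exists_pull (p : Pt (k + 1)) (g : MvPolynomial (Fin k) ℂ) {m : ℕ}
    (hm : g.totalDegree ≤ m) : ∃ G : MvPolynomial (Fin (k + 1)) ℂ, G.totalDegree ≤ m ∧
      ∀ x : Fin (k + 1) → ℂ, x 0 ≠ p 0 → eval x G = (x 0 - p 0) ^ m * eval (dirC p x) g := by
  have hd : ∀ (l : Fin (k + 1)) (r : ℂ),
      (X l - C r : MvPolynomial (Fin (k + 1)) ℂ).totalDegree ≤ 1 := fun l r =>
    (totalDegree_sub _ _).trans (max_le (totalDegree_X l).le (by rw [totalDegree_C]; omega))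
  obtain ⟨G, h1, h2⟩ := exists_clear (X 0 - C (p 0 : ℂ)) (fun i : Fin k => X i.succ - C (p i.succ : ℂ))
    (hd _ _) (fun l => hd _ _) g hm
  refine ⟨G, by simpa using h1, fun x hx => ?_⟩
  have h0 := sub_ne_zero.2 hx
  rw [h2 x (dirC p x) fun l => ?_]
  · simp
  · simp only [map_sub, eval_X, eval_C, dirC]
    field_simp

/-- Points in fibres with a small share. -/
theorem light_le {α β : Type} (Q S : Finset α) (hS : S ⊆ Q) (V : α → β) (b : ℕ) :
    b * (S.filter fun q => b * (S.filter fun q' => V q' = V q).card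
      ≤ (Q.filter fun q' => V q' = V q).card).card ≤ Q.card := by
  set L := S.filter fun q => b * (S.filter fun q' => V q' = V q).card
    ≤ (Q.filter fun q' => V q' = V q).card with hL
  have h1 : L.card = ∑ v ∈ L.image V, (L.filter fun q => V q = v).card :=
    Finset.card_eq_sum_card_image V L
  have h2 : ∑ v ∈ L.image V, (Q.filter fun q => V q = v).card ≤ Q.card := by
    rw [Finset.card_eq_sum_card_image V Q]
    exact Finset.sum_le_sum_of_subset
      (Finset.image_subset_image ((Finset.filter_subset _ _).trans hS))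
  rw [h1, Finset.mul_sum]
  refine le_trans (Finset.sum_le_sum fun v hv => ?_) h2
  obtain ⟨q, hq, rfl⟩ := Finset.mem_image.1 hv
  exact (Nat.mul_le_mul_left b (Finset.card_le_card
    (Finset.filter_subset_filter _ (Finset.filter_subset _ _)))).trans (Finset.mem_filter.1 hq).2

theorem step_comb (k : ℕ) : ∃ C : ℕ, 1 ≤ C ∧ ∀ (c b : ℕ) (P Q : Finset (Pt (k + 1)))
    (V : Pt (k + 1) → Id (k + 1)) (u η t e : ℕ) (B : Finset (Pt (k + 1) × Pt (k + 1))),
    Sep0 P → Q ⊆ P → Nodes c Q V u η t → 1 ≤ e → 1 ≤ t → c * C * b * e ≤ t → ∀ p ∈ P,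
    (∀ q ∈ Q, (p, q) ∉ B → ¬ Vert p (V q)) → ∀ (w : ℕ) (𝒴 : Finset (Id k)),
    (∀ Y ∈ 𝒴, PD w Y) → ∃ 𝒲 : ℕ → Finset (Id k), (∀ v, ∀ W ∈ 𝒲 v, PD v W) ∧
      (∀ v, tdg v (𝒲 v) * e ^ v ≤ C * tdg w 𝒴 * e ^ w) ∧
      b * (cvr p Q B 𝒴).card ≤ Q.card + b * ∑ v ∈ Finset.Icc u k, (cin p Q V B (𝒲 v)).card := by
  obtain ⟨C, hC, hcov⟩ := cover k
  refine ⟨C, hC, fun c b P Q V u η t e B hsep hQP hN he ht hct p hp hvert w 𝒴 h𝒴 => ?_⟩
  obtain ⟨𝒲, h1, h2, h3⟩ := hcov w e 𝒴 he h𝒴
  refine ⟨𝒲, h1, h2, ?_⟩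
  set S := cvr p Q B 𝒴 with hSdef
  have hSQ : S ⊆ Q := Finset.filter_subset _ _
  have hne : ∀ q ∈ S, cx q 0 ≠ (p 0 : ℂ) := fun q hq h =>
    hsep q (hQP (hSQ hq)) p hp (Finset.mem_filter.1 hq).2.2.1 (by
      simpa [cx] using h)
  have hlight := light_le Q S hSQ V b
  have hheavy : (S.filter fun q => ¬ b * (S.filter fun q' => V q' = V q).card
      ≤ (Q.filter fun q' => V q' = V q).card) ⊆
      (Finset.Icc u k).biUnion fun v => cin p Q V B (𝒲 v) := by
    intro q hq
    obtain ⟨hqS, hq1⟩ := Finset.mem_filter.1 hq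
    have hqQ := hSQ hqS
    obtain ⟨hqB, hqp, -⟩ := (Finset.mem_filter.1 hqS).2
    have h0 : X 0 - MvPolynomial.C (p 0 : ℂ) ∉ V q := fun h => by
      have h4 := hN.on q hqQ _ h
      rw [map_sub, eval_X, eval_C, sub_eq_zero] at h4
      exact hne q hqS h4
    obtain ⟨v, W, hW, hle⟩ := h3 (dirI p (V q)) (dirI_prime (hN.pd q hqQ).prime h0) fun g hg hd => by
      obtain ⟨G, g1, g2⟩ := exists_pull p g hd
      have hG : G ∈ V q := by
        by_contra hG
        have h4 := hN.rob q hqQ G hG (C * e) (Nat.mul_pos hC he) g1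
        have h5 : (S.filter fun q' => V q' = V q).card
            ≤ ((fib Q V q).filter fun q' => eval (cx q') G = 0).card := by
          refine Finset.card_le_card fun q' hq' => ?_
          obtain ⟨a1, a2⟩ := Finset.mem_filter.1 hq'
          obtain ⟨Y, hY, hon⟩ := (Finset.mem_filter.1 a1).2.2.2
          refine Finset.mem_filter.2 ⟨Finset.mem_filter.2 ⟨hSQ a1, a2⟩, ?_⟩
          rw [g2 _ (hne q' a1), dirC_cx, hon g (hg Y hY), mul_zero]
        have h6 : (fib Q V q).card < b * (S.filter fun q' => V q' = V q).card := not_le.1 hq1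
        have h7 : t * (fib Q V q).card < t * (b * (S.filter fun q' => V q' = V q).card) :=
          Nat.mul_lt_mul_of_pos_left h6 ht
        have h8 : t * (b * (S.filter fun q' => V q' = V q).card) ≤ t * (fib Q V q).card :=
          calc t * (b * (S.filter fun q' => V q' = V q).card)
              ≤ t * (b * ((fib Q V q).filter fun q' => eval (cx q') G = 0).card) := by gcongr
            _ = b * (t * ((fib Q V q).filter fun q' => eval (cx q') G = 0).card) := by ring
            _ ≤ b * (c * (C * e) * (fib Q V q).card) := Nat.mul_le_mul_left b h4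
            _ = c * C * b * e * (fib Q V q).card := by ring
            _ ≤ _ := Nat.mul_le_mul_right _ hct
        omega
      refine mem_dirI.2 fun x hx hx0 => ?_
      have h4 := hx G hG
      rw [g2 x hx0] at h4
      exact (mul_eq_zero.1 h4).resolve_left (pow_ne_zero _ (sub_ne_zero.2 hx0))
    have hin : InCone p (V q) W := inCone_iff.2 hle
    have hd := cone_dim (hN.pd q hqQ) (h1 v W hW) h0 hin
    have huv : u ≤ v := by
      by_contra hlt
      have e1 : u = v + 1 := by omega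
      exact hvert q hqQ hqB (cone_vert (e1 ▸ hN.pd q hqQ) (h1 v W hW) h0 hin)
    have hvk : v ≤ k := by simpa using (h1 v W hW).1
    exact Finset.mem_biUnion.2 ⟨v, Finset.mem_Icc.2 ⟨huv, hvk⟩,
      Finset.mem_filter.2 ⟨hqQ, hqB, hqp, W, hW, hin⟩⟩
  have h4 := (Finset.card_le_card hheavy).trans Finset.card_biUnion_le
  have h5 := Finset.card_filter_add_card_filter_not (s := S) fun q =>
    b * (S.filter fun q' => V q' = V q).card ≤ (Q.filter fun q' => V q' = V q).card
  rw [← h5, mul_add]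
  exact add_le_add hlight (Nat.mul_le_mul_left b h4)

end Vale.Agent.P054S
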