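import Vale.Agent.P054S.CCl
import Vale.Agent.P054S.CStepA

/-!
Terminal classes.
-/

namespace Vale.Agent.P054S

open MvPolynomial Vale.Agent.P054A
open scoped Classical

variable {k d : ℕ}

theorem cone_pd (p : Pt (k + 1)) {w : ℕ} {Y : Id k} (hY : PD w Y) :
    PD (w + 1) (coneI p Y) ∧ dg (w + 1) (coneI p Y) ≤ dg w Y := by
  refine ⟨?_, dg_le (H_coneI_le p hY)⟩
  obtain ⟨x, hx⟩ := exists_PD (coneI_prime p hY.prime)
  let φ : MvPolynomial (Fin (k + 1)) ℂ →ₐ[ℂ] MvPolynomial (Fin k) ℂ :=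
    aeval fun l => C (cx p l) + C 1 * (Fin.cons 1 X : Fin (k + 1) → _) l
  let ψ : MvPolynomial (Fin k) ℂ →ₐ[ℂ] MvPolynomial (Fin (k + 1)) ℂ :=
    aeval fun i => X i.succ - C (cx p i.succ)
  have hφ : ∀ g y, eval y (φ g) = eval (conePt p 1 y) g := fun g y => by
    obtain ⟨G, -, h1, h2⟩ := cone_slice p g 1
    rw [← h2, h1]
  have := hY.prime
  obtain ⟨x', hx'⟩ := exists_PD (Ideal.comap_isPrime φ Y)
  have h1 : w ≤ x' := by
    refine hY.le_of_H (I := (Y.comap φ).comap ψ) (a := dg x' (Y.comap φ))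
      (fun g hg => cf_mem_of_on hY.prime fun y hy => ?_) fun M => ?_
    · have h2 := hy _ (show φ (ψ g) ∈ Y from hg)
      rw [hφ, cf_eval_aeval] at h2
      rw [← h2]
      congr 2
      funext i
      simp [conePt]
    · refine (H_comap_le ψ (s := 1) (fun i => ?_) _ M).trans (by rw [one_mul]; exact hx'.H_le M)
      rw [aeval_X]
      exact (totalDegree_sub_C_le _ _).trans (totalDegree_X _).le
  have h2 : coneI p Y < Y.comap φ := by
    refine lt_of_le_of_ne (fun g hg => cf_mem_of_on hY.prime fun y hy => ?_) fun e => ?_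
    · rw [hφ]
      exact mem_coneI.1 hg 1 y hy
    · obtain ⟨y, hy⟩ := cf_exists_on hY.prime
      have h3 : X 0 - C (cx p 0 + 1) ∈ Y.comap φ := cf_mem_of_on hY.prime fun y _ => by
        rw [hφ]
        simp [conePt]
      have h4 := mem_coneI.1 (e ▸ h3) 0 y hy
      simp [conePt] at h4
  have h3 := hx.dim_lt hx' h2
  rwa [le_antisymm (hx.le_of_H le_rfl (H_coneI_le p hY)) (show w + 1 ≤ x by omega)] at hx

theorem cl_term {P T : Finset (Pt (k + 1))} {j η E : ℕ} (hP : Sep0 P) (hT : T ⊆ P)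
    (hc : Cap T j η E) : Cl P T j (fun w => η * (E : ℝ) ^ (w + 1 - j)) 0 0 := by
  refine ⟨∅, by simp, fun p hp w h1 _ 𝒴 hY => ?_⟩
  have h2 : cvr p T ∅ 𝒴 ⊆ 𝒴.biUnion fun Y => ptsOn T (coneI p Y) := fun q hq => by
    obtain ⟨a1, -, a2, Y, a3, a4⟩ := Finset.mem_filter.1 hq
    refine Finset.mem_biUnion.2 ⟨Y, a3, mem_ptsOn.2 ⟨a1, fun g hg => ?_⟩⟩
    have a5 : cx q 0 ≠ p 0 := fun e => hP q (hT a1) p hp a2 (Complex.ofReal_injective e)
    rw [← conePt_dirC a5]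
    exact mem_coneI.1 hg _ _ (dirC_cx p q ▸ a4)
  have h3 : (cvr p T ∅ 𝒴).card ≤ η * E ^ (w + 1 - j) * tdg w 𝒴 := by
    refine (Finset.card_le_card h2).trans (Finset.card_biUnion_le.trans ?_)
    rw [tdg, Finset.mul_sum]
    refine Finset.sum_le_sum fun Y hY' => ?_
    obtain ⟨b1, b2⟩ := cone_pd p (hY Y hY')
    rw [mul_comm]
    exact (hc (w + 1) (by omega) _ b1).trans (Nat.mul_le_mul_right _ b2)
  rw [zero_mul, add_zero]
  beta_reduce
  exact_mod_cast h3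

end Vale.Agent.P054S
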