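import Vale.Agent.P054S.CSub
import Vale.Agent.P054S.CExt
import Vale.Agent.P054S.CTerm

/-!
The recursion over the classes.
-/

namespace Vale.Agent.P054S

open MvPolynomial Vale.Agent.P054A
open scoped Classical

variable {k d : ℕ}

theorem MainAt.mono {j A A' τ₀ τ₁ : ℕ} {β β' : ℝ} (h : MainAt k j A τ₀ β) (hA : A ≤ A')
    (hτ : τ₀ ≤ τ₁) (hβ : β ≤ β') : MainAt k j A' τ₁ β' := by
  intro τ Z h0 P T h1 h2 h3 η i s h4 h5 h6 h7 h8
  have hA' : (A : ℝ) ≤ A' := by exact_mod_cast hA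
  refine (h τ Z (hτ.trans h0) P T h1 h2 h3 η i s h4 h5 h6 h7 h8).mono (fun w _ _ => ?_) hβ ?_
  · have := Br_nonneg P.card T.card (2 ^ i) ((i + 1) ^ (k + 1 - j)) τ Z (x := 4 ^ s)
      (by positivity)
    gcongr
  · gcongr

theorem main_triv {j A τ₀ : ℕ} {β : ℝ} (hj : k ≤ j + 1) (hβ : 0 ≤ β) : MainAt k j A τ₀ β :=
  fun _ _ _ _ _ _ _ _ _ _ _ _ _ _ _ _ => cl_triv hj hβ (by positivity)

theorem Br_ge (N n E L τ Z : ℕ) (x : ℝ) : x ≤ Br N n E L τ Z x := by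
  unfold Br
  have : (0 : ℝ) ≤ E + τ * n / N + L * τ / Z := by positivity
  linarith

theorem rec_term {P T : Finset (Pt (k + 1))} {j η i s i₀ A L τ Z : ℕ} {β γ x : ℝ} (hP : Sep0 P)
    (hT : T ⊆ P) (hc : Cap T j η (2 ^ i)) (hi : i ≤ i₀ + s) (hA : 4 ^ i₀ ≤ A) (hx : 4 ^ s ≤ x)
    (hβ : 0 ≤ β) (hγ : 0 ≤ γ) :
    Cl P T j (fun w => A * η * ((2 : ℝ) ^ i) ^ (w - (j + 1))
      * Br P.card T.card (2 ^ i) L τ Z x) β γ := by
  refine (cl_term hP hT hc).mono (fun w hw _ => ?_) hβ hγ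
  have h1 : (4 : ℝ) ^ i₀ ≤ A := by exact_mod_cast hA
  have h2 := hx.trans (Br_ge P.card T.card (2 ^ i) L τ Z x)
  have h3 : ((2 : ℝ) ^ i) ^ 2 ≤ 4 ^ i₀ * 4 ^ s := by
    rw [← pow_add, ← pow_mul, mul_comm i 2, pow_mul]
    norm_num
    exact pow_le_pow_right₀ (by norm_num) hi
  have h4 : ((2 : ℝ) ^ i) ^ 2 ≤ A * Br P.card T.card (2 ^ i) L τ Z x :=
    h3.trans (mul_le_mul h1 h2 (by positivity) (Nat.cast_nonneg _))
  rw [show w + 1 - j = w - (j + 1) + 2 by omega, pow_add]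
  push_cast
  calc (η : ℝ) * (((2 : ℝ) ^ i) ^ (w - (j + 1)) * ((2 : ℝ) ^ i) ^ 2)
      ≤ η * (((2 : ℝ) ^ i) ^ (w - (j + 1)) * (A * Br P.card T.card (2 ^ i) L τ Z x)) := by gcongr
    _ = _ := by ring

/-- The brackets add up. -/
theorem rec_br {N n r i τ Z m A A₂ : ℕ} {I : Finset ℕ} {q : ℕ → ℕ} {x y : ℝ} (hy : 0 ≤ y)
    (hn : r + ∑ u ∈ I, q u ≤ n) (hA : I.card * A ≤ A₂) :
    A₂ * Br N r (2 ^ i) ((i + 1) ^ (m + 1)) τ Z x
        + ∑ u ∈ I, A * Br N (q u) (2 ^ i) ((i + 2) ^ m) τ Z y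
      ≤ A₂ * Br N n (2 ^ (i + 1)) ((i + 1 + 1) ^ (m + 1)) τ Z (x + y) := by
  have hA' : (I.card : ℝ) * A ≤ A₂ := by exact_mod_cast hA
  have hn' : (r : ℝ) + ∑ u ∈ I, (q u : ℝ) ≤ n := by exact_mod_cast hn
  have h1 : ∑ u ∈ I, (A : ℝ) * Br N (q u) (2 ^ i) ((i + 2) ^ m) τ Z y
      = I.card * A * ((2 : ℝ) ^ i + ((i : ℝ) + 2) ^ m * τ / Z + y)
        + ∑ u ∈ I, (A : ℝ) * (τ / N * q u) := by
    rw [mul_assoc, ← nsmul_eq_mul, ← Finset.sum_const, ← Finset.sum_add_distrib]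
    refine Finset.sum_congr rfl fun u _ => ?_
    unfold Br
    push_cast
    ring
  have h2 : ∑ u ∈ I, (A : ℝ) * (τ / N * q u) ≤ A₂ * (τ / N * ∑ u ∈ I, (q u : ℝ)) := by
    rw [Finset.mul_sum, Finset.mul_sum]
    refine Finset.sum_le_sum fun u hu => mul_le_mul_of_nonneg_right ?_ (by positivity)
    have h3 : (1 : ℝ) ≤ I.card := by exact_mod_cast Finset.card_pos.2 ⟨u, hu⟩
    nlinarith [Nat.cast_nonneg (α := ℝ) A]
  have h3 : (I.card : ℝ) * A * ((2 : ℝ) ^ i + ((i : ℝ) + 2) ^ m * τ / Z + y)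
      ≤ A₂ * ((2 : ℝ) ^ i + ((i : ℝ) + 2) ^ m * τ / Z + y) :=
    mul_le_mul_of_nonneg_right hA' (by positivity)
  have h4 : Br N r (2 ^ i) ((i + 1) ^ (m + 1)) τ Z x
      + (((2 : ℝ) ^ i + ((i : ℝ) + 2) ^ m * τ / Z + y) + τ / N * ∑ u ∈ I, (q u : ℝ))
      ≤ Br N n (2 ^ (i + 1)) ((i + 1 + 1) ^ (m + 1)) τ Z (x + y) := by
    have h5 := mul_le_mul_of_nonneg_left hn' (show (0 : ℝ) ≤ τ / N by positivity)
    have h6 := mul_le_mul_of_nonneg_right (ar_lam i m) (show (0 : ℝ) ≤ τ / Z by positivity)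
    unfold Br
    push_cast
    rw [show (i : ℝ) + 1 + 1 = i + 2 by ring, pow_succ (2 : ℝ) i]
    have e1 : (τ : ℝ) * r / N = τ / N * r := by ring
    have e2 : (τ : ℝ) * n / N = τ / N * n := by ring
    have e3 : ∀ z : ℝ, z * τ / Z = z * (τ / Z) := fun z => by ring
    rw [e1, e2, e3, e3, e3]
    linarith
  have h7 := mul_le_mul_of_nonneg_left h4 (Nat.cast_nonneg (α := ℝ) A₂)
  rw [h1]
  linarith

/-- The induction over the scales. -/
theorem main_of_sub (k : ℕ) : ∃ c : ℕ, ∀ (j A i₀ τ₀ : ℕ) (β : ℝ), j + 2 ≤ k → 0 ≤ β →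
    SubAt k c j A i₀ τ₀ β → ∃ A' : ℕ, MainAt k j A' τ₀ β := by
  obtain ⟨c, hc⟩ := extract (k + 1)
  refine ⟨c, fun j A i₀ τ₀ β hj hβ hsub => ?_⟩
  obtain ⟨A₂, hA₂⟩ : ∃ A₂, A₂ = (k + 1) * A + 4 ^ i₀ := ⟨_, rfl⟩
  refine ⟨A₂ * (2 * (k + 1) + 1), fun τ Z hτ P T₀ hP hT₀ hp₀ η i₁ s a1 a2 a3 a4 a5 => ?_⟩
  let φ : ℕ → ℝ := fun n => 1 + ∑ m ∈ Finset.range n, (1 / 2 : ℝ) ^ (m / (k + 1))
  have hφ : ∀ n, (4 : ℝ) ^ s ≤ 4 ^ s * φ n := fun n =>
    le_mul_of_one_le_right (by positivity) (le_add_of_nonneg_right (by positivity))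
  have hm : k + 1 - j = k - j + 1 := by omega
  have key : ∀ i, ∀ T ⊆ P, Poor T τ → 2 ^ i ≤ 4 * τ + 2 → (2 ^ i) ^ j ≤ η → Cap T j η (2 ^ i) →
      Cl P T j (fun w => A₂ * η * ((2 : ℝ) ^ i) ^ (w - (j + 1))
          * Br P.card T.card (2 ^ i) ((i + 1) ^ (k - j + 1)) τ Z (4 ^ s * φ (i - s)))
        β (A₂ * ((i : ℝ) + 1) ^ (k - j + 1) * (P.card : ℝ) ^ 2 / Z) := by
    intro i
    induction i with
    | zero =>
      exact fun T hT _ _ _ b4 => rec_term (i₀ := i₀) (s := s) hP.sep hT b4 (by omega) (by omega)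
        (hφ _) hβ (by positivity)
    | succ i ih =>
      intro T hT b1 b2 b3 b4
      by_cases hi : i + 1 ≤ i₀ + s
      · exact rec_term hP.sep hT b4 hi (by omega) (hφ _) hβ (by positivity)
      have hsi : s ≤ i := by omega
      have hii : i₀ ≤ i := by omega
      have hcard : ∀ S : Finset (Pt (k + 1)), S ⊆ P → S.card ≤ P.card := fun S => Finset.card_le_card
      rw [pow_succ'] at b2 b3 b4
      obtain ⟨R, hR, Q, V, d1, d2, d3, d4⟩ := hc T j η (2 ^ i) Nat.one_le_two_pow b4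
        ((hcard T hT).trans (ar_ext a4 hsi))
      have d5 := ih R (hR.trans hT) (b1.mono hR) (by omega)
        (le_trans (Nat.pow_le_pow_left (by omega) _) b3) d1
      have d6 := cl_add d2 d3 hβ d5 fun u hu => hsub τ Z hτ P (Q u) hP ((d4 u hu).1.trans hT)
        (b1.mono (d4 u hu).1) V η i s u (Finset.mem_Ioo.1 hu).1
        (Nat.lt_succ_iff.1 (Finset.mem_Ioo.1 hu).2) hii hsi b2 b3 a3 a4
        (b4.sub (d4 u hu).1 (Finset.mem_Ioo.1 hu).1.le) (d4 u hu).2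
      have hI : (Finset.Ioo j (k + 1)).card * A ≤ A₂ := by
        rw [hA₂, Nat.card_Ioo]
        exact le_trans (Nat.mul_le_mul_right _ (by omega)) (Nat.le_add_right _ _)
      refine d6.mono (fun w _ _ => ?_) le_rfl ?_
      · have e1 := rec_br (N := P.card) (i := i) (τ := τ) (Z := Z) (m := k - j)
          (x := 4 ^ s * φ (i - s)) (y := 4 ^ s * (1 / 2) ^ ((i - s) / (k + 1))) (by positivity) d3 hI
        have e2 : (4 : ℝ) ^ s * φ (i - s) + 4 ^ s * (1 / 2) ^ ((i - s) / (k + 1))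
            = 4 ^ s * φ (i + 1 - s) := by
          simp only [φ]
          rw [show i + 1 - s = i - s + 1 by omega, Finset.sum_range_succ]
          ring
        rw [e2] at e1
        have e3 : ((2 : ℝ) ^ i) ^ (w - (j + 1)) ≤ ((2 : ℝ) ^ (i + 1)) ^ (w - (j + 1)) :=
          pow_le_pow_left₀ (by positivity) (pow_le_pow_right₀ (by norm_num) (by omega)) _
        have e4 := Br_nonneg P.card T.card (2 ^ (i + 1)) ((i + 1 + 1) ^ (k - j + 1)) τ Z
          (x := 4 ^ s * φ (i + 1 - s)) (le_trans (by positivity) (hφ _))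
        have e5 := mul_le_mul_of_nonneg_left e1
          (show (0 : ℝ) ≤ η * ((2 : ℝ) ^ i) ^ (w - (j + 1)) by positivity)
        rw [mul_add, Finset.mul_sum] at e5
        calc _ = _ := ?_
          _ ≤ _ := e5
          _ ≤ (η : ℝ) * ((2 : ℝ) ^ (i + 1)) ^ (w - (j + 1)) * (A₂ * Br P.card T.card (2 ^ (i + 1))
              ((i + 1 + 1) ^ (k - j + 1)) τ Z (4 ^ s * φ (i + 1 - s))) := by gcongr
          _ = _ := by ring
        congr 1
        · ring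
        · exact Finset.sum_congr rfl fun u _ => by ring
      · have hI' : ((Finset.Ioo j (k + 1)).card : ℝ) * A ≤ A₂ := by exact_mod_cast hI
        have e1 := mul_le_mul_of_nonneg_left (ar_lam i (k - j)) (Nat.cast_nonneg (α := ℝ) A₂)
        have e2 := mul_le_mul_of_nonneg_right hI' (show (0 : ℝ) ≤ ((i : ℝ) + 2) ^ (k - j) by positivity)
        have e3 : (0 : ℝ) ≤ (P.card : ℝ) ^ 2 / Z := by positivity
        have e4 := mul_le_mul_of_nonneg_right (show (A₂ : ℝ) * ((i : ℝ) + 1) ^ (k - j + 1)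
          + (Finset.Ioo j (k + 1)).card * A * ((i : ℝ) + 2) ^ (k - j)
          ≤ A₂ * ((i : ℝ) + 2) ^ (k - j + 1) by linarith) e3
        rw [Finset.sum_const, nsmul_eq_mul]
        push_cast
        rw [show (i : ℝ) + 1 + 1 = i + 2 by ring]
        calc _ = _ := by ring
          _ ≤ _ := e4
          _ = _ := by ring
  rw [hm]
  refine (key i₁ T₀ hT₀ hp₀ a1 a2 a5).mono (fun w _ _ => ?_) le_rfl ?_
  · have e1 := ar_phi (d := k + 1) (by omega) (i₁ - s)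
    have e2 : Br P.card T₀.card (2 ^ i₁) ((i₁ + 1) ^ (k - j + 1)) τ Z (4 ^ s * φ (i₁ - s))
        ≤ (2 * (k + 1) + 1) * Br P.card T₀.card (2 ^ i₁) ((i₁ + 1) ^ (k - j + 1)) τ Z (4 ^ s) := by
      have e3 : φ (i₁ - s) ≤ 2 * (k + 1) + 1 := by
        simp only [φ]
        push_cast at e1
        linarith
      have e4 := mul_le_mul_of_nonneg_left e3 (show (0 : ℝ) ≤ 4 ^ s by positivity)
      have e5 := Br_nonneg P.card T₀.card (2 ^ i₁) ((i₁ + 1) ^ (k - j + 1)) τ Z (x := 0) le_rfl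
      have e6 := mul_nonneg (show (0 : ℝ) ≤ 2 * (k + 1) by positivity) e5
      unfold Br at e5 e6 ⊢
      linarith
    push_cast
    calc _ ≤ (A₂ : ℝ) * η * ((2 : ℝ) ^ i₁) ^ (w - (j + 1)) * ((2 * (k + 1) + 1) *
          Br P.card T₀.card (2 ^ i₁) ((i₁ + 1) ^ (k - j + 1)) τ Z (4 ^ s)) := by gcongr
      _ = _ := by ring
  · have e1 : (A₂ : ℝ) ≤ (A₂ * (2 * (k + 1) + 1) : ℕ) := by
      exact_mod_cast Nat.le_mul_of_pos_right _ (by omega)
    gcongr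

theorem main_all (k j : ℕ) {β : ℝ} (hβ : 0 < β) :
    ∃ A τ₀ : ℕ, ∀ u, j ≤ u → MainAt k u A τ₀ β := by
  obtain ⟨c, hc⟩ := main_of_sub k
  have key : ∀ n j, k ≤ j + 1 + n → ∀ β : ℝ, 0 < β →
      ∃ A τ₀ : ℕ, ∀ u, j ≤ u → MainAt k u A τ₀ β := by
    intro n
    induction n with
    | zero => exact fun j hj β hβ => ⟨0, 0, fun u hu => main_triv (by omega) hβ.le⟩
    | succ n ih =>
      intro j hj β hβ
      by_cases h : j + 2 ≤ k
      · have hk : (0 : ℝ) < k + 2 := by positivity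
        obtain ⟨A, τ₀, h1⟩ := ih (j + 1) (by omega) (β / (k + 2)) (div_pos hβ hk)
        obtain ⟨A₁, i₀, τ₁, h2⟩ := cl_sub k c j A τ₀ h (div_pos hβ hk) fun u hu => h1 u hu
        rw [mul_div_cancel₀ _ hk.ne'] at h2
        obtain ⟨A', h3⟩ := hc j A₁ i₀ τ₁ β h hβ.le h2
        refine ⟨A + A', τ₀ + τ₁, fun u hu => ?_⟩
        rcases hu.eq_or_lt with rfl | hu
        · exact h3.mono (by omega) (by omega) le_rfl
        · refine (h1 u hu).mono (by omega) (by omega) ?_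
          rw [div_le_iff₀ hk]
          nlinarith [Nat.cast_nonneg (α := ℝ) k]
      · exact ⟨0, 0, fun u hu => main_triv (by omega) hβ.le⟩
  exact key k j (by omega) β hβ

end Vale.Agent.P054S
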