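import Vale.Agent.P054S.CRDef
import Vale.Agent.P054S.CFGreedy

/-!
The root class.
-/

namespace Vale.Agent.P054S

open MvPolynomial Vale.Agent.P054A
open scoped Classical

variable {k d : ℕ}

theorem root_cap {P : Finset (Pt d)} {τ E : ℕ} (h : nd2 P ≤ τ) (hE : 2 * τ + 1 ≤ E) :
    Cap P 0 1 E := by
  intro x _ X hX
  have hi : Function.Injective (cx : Pt d → Fin d → ℂ) := fun x y h =>
    funext fun l => Complex.ofReal_injective (congrFun h l)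
  have h1 := dens_of_sep (S := P.image cx) (M := 2 * τ) (fun p hp => by
    obtain ⟨y₀, hy₀, rfl⟩ := Finset.mem_image.1 hp
    obtain ⟨g, g1, -, g2, g3⟩ := sep_nc P h y₀ hy₀ Submodule.mem_top
    refine ⟨g, g1, g2, fun q hq hne => ?_⟩
    obtain ⟨y, hy, rfl⟩ := Finset.mem_image.1 hq
    exact g3 y hy Submodule.mem_top fun e => hne (congrArg cx e)) x x le_rfl X hX
  rw [zs, Finset.filter_image, Finset.card_image_of_injective _ hi] at h1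
  rw [one_mul, Nat.sub_zero]
  exact h1.trans (Nat.mul_le_mul_left _ (Nat.pow_le_pow_left hE x))

theorem root_i (τ : ℕ) (h : 1 ≤ τ) :
    ∃ i, 2 * τ + 1 ≤ 2 ^ i ∧ 2 ^ i ≤ 4 * τ + 2 ∧ i + 1 ≤ 4 * (Nat.log 2 τ + 1) := by
  have h1 := Nat.lt_pow_succ_log_self one_lt_two τ
  have h2 := Nat.pow_log_le_self 2 (by omega : τ ≠ 0)
  refine ⟨Nat.log 2 τ + 2, ?_, ?_, by omega⟩
  · rw [pow_succ] at h1
    rw [pow_add]
    omega
  · rw [pow_add]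
    omega

theorem root_s {N κ τ d : ℕ} (hd : 1 ≤ d) (hκ : 1 ≤ κ) (hτ : 1 ≤ τ)
    (h : N ^ 2 ≤ 16 * (κ ^ (4 * d) * τ ^ d)) :
    ∃ s, N ≤ 1 * 2 ^ (s * d) ∧ 4 ^ s ≤ 64 * κ ^ 4 * τ := by
  have h0 : 16 * κ ^ 4 * τ ≠ 0 := by positivity
  have h1 := Nat.lt_pow_succ_log_self (by norm_num : 1 < 4) (16 * κ ^ 4 * τ)
  have h2 := Nat.pow_log_le_self 4 h0
  refine ⟨Nat.log 4 (16 * κ ^ 4 * τ) + 1, ?_, ?_⟩
  · generalize Nat.log 4 (16 * κ ^ 4 * τ) = s at h1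
    rw [one_mul, ← Nat.pow_le_pow_iff_left two_ne_zero]
    have h3 : 16 ≤ 16 ^ d := Nat.le_self_pow (by omega) 16
    calc N ^ 2 ≤ 16 ^ d * (κ ^ (4 * d) * τ ^ d) := h.trans (Nat.mul_le_mul_right _ h3)
      _ = (16 * κ ^ 4 * τ) ^ d := by rw [mul_pow, mul_pow, pow_mul, mul_assoc]
      _ ≤ (4 ^ (s + 1)) ^ d := Nat.pow_le_pow_left h1.le d
      _ = (2 ^ ((s + 1) * d)) ^ 2 := by
        rw [← pow_mul, ← pow_mul, mul_comm _ 2, pow_mul 2 2]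
        rfl
  · rw [pow_succ]
    linarith

theorem root_Z (a d : ℕ) : ∃ τ₀ : ℕ, ∀ τ ≥ τ₀, ∃ Z, 1 ≤ Z ∧ Z ^ 200 ≤ τ ∧
    ∀ i, i + 1 ≤ 4 * (Nat.log 2 τ + 1) → a * (i + 1) ^ d ≤ Z := by
  obtain ⟨τ₀, h⟩ := log_small (4 * (a + 1)) ((d + 1) * 200)
  refine ⟨τ₀, fun τ hτ => ⟨(4 * (a + 1) * (Nat.log 2 τ + 1)) ^ (d + 1),
    Nat.one_le_iff_ne_zero.2 (by positivity), ?_, fun i hi => ?_⟩⟩
  · rw [← pow_mul]
    exact h τ hτ
  · rw [pow_succ']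
    exact Nat.mul_le_mul (by nlinarith) (Nat.pow_le_pow_left (hi.trans (by nlinarith)) d)

theorem root_G {N n A a D L κ τ Z i s w : ℕ} (hw : 1 ≤ w) (hκ : 1 ≤ κ) (hτ : 1 ≤ τ) (hn : n ≤ N)
    (hi : 2 ^ i ≤ 4 * τ + 2) (hs : 4 ^ s ≤ 64 * κ ^ 4 * τ) (hL : L ≤ Z)
    (hD : D * ((72 * (A * a) + 6) * κ ^ 4 * τ) ^ w ≤ N) :
    (a : ℝ) * (A * (1 : ℕ) * ((2 : ℝ) ^ i) ^ (w - (0 + 1)) * Br N n (2 ^ i) L τ Z (4 ^ s) * D)
      ≤ N := by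
  obtain ⟨v, rfl⟩ : ∃ v, w = v + 1 := ⟨w - 1, by omega⟩
  have k1 : (1 : ℝ) ≤ (κ : ℝ) ^ 4 := one_le_pow₀ (by exact_mod_cast hκ)
  have t1 : (1 : ℝ) ≤ τ := by exact_mod_cast hτ
  have i1 : (2 : ℝ) ^ i ≤ 4 * τ + 2 := by exact_mod_cast hi
  have s1 : (4 : ℝ) ^ s ≤ 64 * κ ^ 4 * τ := by exact_mod_cast hs
  have d1 : (D : ℝ) * ((72 * (A * a) + 6) * κ ^ 4 * τ) ^ (v + 1) ≤ N := by exact_mod_cast hD
  have n1 : (τ : ℝ) * n / N ≤ τ :=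
    div_le_of_le_mul₀ (by positivity) (by positivity) (by gcongr)
  have l1 : (L : ℝ) * τ / Z ≤ τ :=
    div_le_of_le_mul₀ (by positivity) (by positivity) (by rw [mul_comm]; gcongr)
  have k2 : (τ : ℝ) ≤ κ ^ 4 * τ := le_mul_of_one_le_left (by positivity) k1
  have b1 : Br N n (2 ^ i) L τ Z (4 ^ s) ≤ 72 * (κ ^ 4 * τ) := by
    unfold Br
    push_cast
    linarith
  have b0 := Br_nonneg N n (2 ^ i) L τ Z (x := 4 ^ s) (by positivity)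
  have p0 : (0 : ℝ) ≤ A * a * (κ ^ 4 * τ) := by positivity
  have i2 : (2 : ℝ) ^ i ≤ (72 * (A * a) + 6) * κ ^ 4 * τ := by nlinarith
  have b2 : (A : ℝ) * a * Br N n (2 ^ i) L τ Z (4 ^ s) ≤ (72 * (A * a) + 6) * κ ^ 4 * τ := by
    have := mul_le_mul_of_nonneg_left b1 (by positivity : (0 : ℝ) ≤ A * a)
    nlinarith
  refine le_trans ?_ d1
  rw [zero_add, Nat.add_sub_cancel, pow_succ]
  calc (a : ℝ) * (A * (1 : ℕ) * ((2 : ℝ) ^ i) ^ v * Br N n (2 ^ i) L τ Z (4 ^ s) * D)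
      = D * (((2 : ℝ) ^ i) ^ v * (A * a * Br N n (2 ^ i) L τ Z (4 ^ s))) := by
        push_cast
        ring
    _ ≤ _ := by gcongr

theorem cov_le (P T : Finset (Pt (k + 1))) (B : Finset (Pt (k + 1) × Pt (k + 1)))
    (𝒴 : Pt (k + 1) → Finset (Id k)) :
    (cov P 𝒴).card ≤ B.card + P.card * (P \ T).card + ∑ p ∈ P, (cvr p T B (𝒴 p)).card := by
  have h : cov P 𝒴 ⊆ B ∪ P ×ˢ (P \ T) ∪
      P.biUnion fun p => (cvr p T B (𝒴 p)).image fun q => (p, q) := by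
    intro z hz
    obtain ⟨h1, h2, h3⟩ := Finset.mem_filter.1 hz
    obtain ⟨h4, h5⟩ := Finset.mem_product.1 h1
    by_cases hB : z ∈ B
    · exact Finset.mem_union_left _ (Finset.mem_union_left _ hB)
    by_cases hT : z.2 ∈ T
    · exact Finset.mem_union_right _ (Finset.mem_biUnion.2 ⟨z.1, h4, Finset.mem_image.2
        ⟨z.2, Finset.mem_filter.2 ⟨hT, hB, h2.symm, h3⟩, rfl⟩⟩)
    · exact Finset.mem_union_left _ (Finset.mem_union_right _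
        (Finset.mem_product.2 ⟨h4, Finset.mem_sdiff.2 ⟨h5, hT⟩⟩))
  refine (Finset.card_le_card h).trans ((Finset.card_union_le _ _).trans (Nat.add_le_add
    ((Finset.card_union_le _ _).trans ?_) (Finset.card_biUnion_le.trans
      (Finset.sum_le_sum fun p _ => Finset.card_image_le))))
  rw [Finset.card_product]

end Vale.Agent.P054S
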