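import Vale.Agent.P054S.CStepA

/-!
The step for a class of nodes.
-/

namespace Vale.Agent.P054S

open MvPolynomial Vale.Agent.P054A
open scoped Classical

variable {k d : ℕ}

theorem CStep_ar {t m e x D C u v w n k : ℕ} (ht : 1 ≤ t) (hm : 1 ≤ m) (het : e ≤ t)
    (hte : t ≤ 2 * m * e) (hn : n ≤ u) (huv : u ≤ v) (hvk : v ≤ k) (hw : n ≤ w)
    (h : x * e ^ v ≤ C * D * e ^ w) : t ^ (v - n) * x ≤ (2 * m) ^ k * C * t ^ (w - n) * D := by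
  have h1 : t ^ v ≤ (2 * m) ^ k * e ^ v := by
    refine (Nat.pow_le_pow_left hte v).trans ?_
    rw [mul_pow (2 * m)]
    exact Nat.mul_le_mul_right _ (Nat.pow_le_pow_right (by omega) hvk)
  have h2 : t ^ v * x ≤ (2 * m) ^ k * (C * D * t ^ w) := by
    calc t ^ v * x ≤ (2 * m) ^ k * e ^ v * x := Nat.mul_le_mul_right _ h1
      _ = (2 * m) ^ k * (x * e ^ v) := by ring
      _ ≤ (2 * m) ^ k * (C * D * e ^ w) := Nat.mul_le_mul_left _ h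
      _ ≤ (2 * m) ^ k * (C * D * t ^ w) :=
        Nat.mul_le_mul_left _ (Nat.mul_le_mul_left _ (Nat.pow_le_pow_left het w))
  have h3 : t ^ v = t ^ (v - n) * t ^ n := by rw [← pow_add, Nat.sub_add_cancel (hn.trans huv)]
  have h4 : t ^ w = t ^ (w - n) * t ^ n := by rw [← pow_add, Nat.sub_add_cancel hw]
  refine Nat.le_of_mul_le_mul_right ?_ (Nat.pow_pos (n := n) (by omega : 0 < t))
  calc t ^ (v - n) * x * t ^ n = t ^ v * x := by rw [h3]; ring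
    _ ≤ (2 * m) ^ k * (C * D * t ^ w) := h2
    _ = (2 * m) ^ k * C * t ^ (w - n) * D * t ^ n := by rw [h4]; ring

theorem step (k c b : ℕ) : ∃ C t₀ : ℕ, ∀ (P Q : Finset (Pt (k + 1)))
    (V : Pt (k + 1) → Id (k + 1)) (u η t n : ℕ) (B : Finset (Pt (k + 1) × Pt (k + 1))),
    Sep0 P → Q ⊆ P → Nodes c Q V u η t → t₀ ≤ t → n ≤ u → ∀ p ∈ P,
    (∀ q ∈ Q, (p, q) ∉ B → ¬ Vert p (V q)) → ∀ g β : ℝ, 0 ≤ g → 0 ≤ β →
    (∀ v, u ≤ v → v ≤ k → ∀ 𝒲 : Finset (Id k), (∀ W ∈ 𝒲, PD v W) →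
      ((cin p Q V B 𝒲).card : ℝ) ≤ g * (t : ℝ) ^ (v - n) * tdg v 𝒲 + β * Q.card) →
    ∀ w, n ≤ w → ∀ 𝒴 : Finset (Id k), (∀ Y ∈ 𝒴, PD w Y) →
      ((cvr p Q B 𝒴).card : ℝ)
        ≤ C * g * (t : ℝ) ^ (w - n) * tdg w 𝒴 + ((k + 1) * β + 1 / (b + 1)) * Q.card := by
  obtain ⟨C, hC1, hC⟩ := step_comb k
  obtain ⟨m, hm⟩ : ∃ m, m = (c + 1) * C * (b + 1) := ⟨_, rfl⟩
  have hm1 : 1 ≤ m := by
    rw [hm]
    exact Nat.mul_pos (Nat.mul_pos (by omega) hC1) (by omega)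
  refine ⟨(k + 1) * ((2 * m) ^ k * C), m, ?_⟩
  intro P Q V u η t n B hP hQ hN ht hn p hp hV g β hg hβ hcin w hw 𝒴 h𝒴
  have he1 : 1 ≤ t / m := (Nat.le_div_iff_mul_le hm1).2 (by omega)
  have het : t / m ≤ t := Nat.div_le_self _ _
  have hme : m * (t / m) ≤ t := Nat.mul_div_le t m
  have hte : t ≤ 2 * m * (t / m) := by
    have h1 : t < m * (t / m + 1) := Nat.lt_mul_div_succ t hm1
    have h2 : m * 1 ≤ m * (t / m) := Nat.mul_le_mul_left _ he1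
    have h3 : 2 * m * (t / m) = m * (t / m) + m * (t / m) := by ring
    rw [mul_add] at h1
    omega
  have hce : c * C * (b + 1) * (t / m) ≤ t := by
    refine le_trans (Nat.mul_le_mul_right _ ?_) hme
    rw [hm]
    exact Nat.mul_le_mul_right _ (Nat.mul_le_mul_right _ (Nat.le_succ c))
  obtain ⟨𝒲, hW, hdeg, hcov⟩ := hC c (b + 1) P Q V u η t (t / m) B hP hQ hN he1 (hm1.trans ht)
    hce p hp hV w 𝒴 h𝒴
  obtain ⟨R, hR⟩ : ∃ R : ℝ, R = (((2 * m) ^ k * C : ℕ) : ℝ) * g * (t : ℝ) ^ (w - n) * tdg w 𝒴 +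
    β * Q.card := ⟨_, rfl⟩
  have hR0 : 0 ≤ R := by rw [hR]; positivity
  have h1 : ∀ v ∈ Finset.Icc u k, ((cin p Q V B (𝒲 v)).card : ℝ) ≤ R := by
    intro v hv
    rw [Finset.mem_Icc] at hv
    refine (hcin v hv.1 hv.2 (𝒲 v) (hW v)).trans ?_
    have h2 : ((t ^ (v - n) * tdg v (𝒲 v) : ℕ) : ℝ) ≤
        (((2 * m) ^ k * C * t ^ (w - n) * tdg w 𝒴 : ℕ) : ℝ) := by
      exact_mod_cast CStep_ar (hm1.trans ht) hm1 het hte hn hv.1 hv.2 hw (hdeg v)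
    have h3 := mul_le_mul_of_nonneg_left h2 hg
    rw [hR]
    push_cast at h3 ⊢
    linarith
  have h2 : ∑ v ∈ Finset.Icc u k, ((cin p Q V B (𝒲 v)).card : ℝ) ≤ (k + 1) * R := by
    refine (Finset.sum_le_card_nsmul _ _ _ h1).trans ?_
    rw [nsmul_eq_mul, Nat.card_Icc]
    refine mul_le_mul_of_nonneg_right ?_ hR0
    exact_mod_cast Nat.sub_le (k + 1) u
  have h3 : ((b : ℝ) + 1) * (cvr p Q B 𝒴).card ≤
      Q.card + (b + 1) * ∑ v ∈ Finset.Icc u k, ((cin p Q V B (𝒲 v)).card : ℝ) := by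
    exact_mod_cast hcov
  have hb : (0 : ℝ) < b + 1 := by positivity
  have h4 : ((cvr p Q B 𝒴).card : ℝ) ≤ 1 / (b + 1) * Q.card + (k + 1) * R := by
    refine le_of_mul_le_mul_left (h3.trans ?_) hb
    rw [mul_add, ← mul_assoc, mul_one_div_cancel hb.ne', one_mul]
    exact add_le_add le_rfl (mul_le_mul_of_nonneg_left h2 hb.le)
  refine h4.trans_eq ?_
  rw [hR]
  push_cast
  ring

end Vale.Agent.P054S
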