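import Vale.Agent.P054S.CSubA
import Vale.Agent.P054S.CStep
import Vale.Agent.P054S.CAr
import Vale.Agent.P054S.CML
import Vale.Agent.P054S.CCl

/-!
The claim for a class of nodes.
-/

namespace Vale.Agent.P054S

open MvPolynomial Vale.Agent.P054A
open scoped Classical

variable {k d : ℕ}

theorem cl_sub (k c j A τ₀ : ℕ) (hj : j + 2 ≤ k) {β : ℝ} (hβ : 0 < β)
    (h : ∀ u, j < u → MainAt k u A τ₀ β) :
    ∃ A₁ i₀ τ₁ : ℕ, SubAt k c j A₁ i₀ τ₁ ((k + 2) * β) := by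
  obtain ⟨b, hb⟩ := exists_nat_one_div_lt hβ
  obtain ⟨K, t₁, τ₁, hml⟩ := mlc k c b (by omega)
  obtain ⟨C, t₂, hst⟩ := step k c b
  obtain ⟨τ₂, hvp⟩ := vert_pairs k (by omega)
  refine ⟨C * (K * 2 ^ k + 3 * A * 2 ^ k + 1) + A + 2, t₁ + t₂, τ₀ + τ₁ + τ₂,
    fun τ Z hτ P Q hP hQ hp V η i s u hju huk hi hs h1 h2 h3 h4 h5 h6 => ?_⟩
  have e2 : 2 ^ (i + 1) = 2 * 2 ^ i := pow_succ' 2 i
  have hi2 : i < 2 ^ i := Nat.lt_two_pow_self
  have a1 := ar_pow h2 hju.le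
  have a2 := ar_tau hP.big h3 h4 hju (by omega) hs
  obtain ⟨B₁, b1, b2⟩ := h u hju τ Z (by omega) P Q hP hQ hp _ (i + 1) _ (e2 ▸ h1) (e2 ▸ a1) a2
    (ar_s h4 hju (by omega) hs) (e2 ▸ h5)
  obtain ⟨B₂, c1, c2⟩ : ∃ B : Finset (Pt (k + 1) × Pt (k + 1)),
      (B.card : ℝ) ≤ P.card * Q.card / (b + 1) + (P.card : ℝ) ^ 2 / Z ∧
        (u < k → MLB P Q V u (η * (2 * 2 ^ i) ^ (u - j)) (2 ^ i) τ Z K B) := by
    by_cases e : u < k
    · obtain ⟨B, d1, d2⟩ := hml τ Z (by omega) P Q hP hQ hp V u _ _ (by omega) e h6 (by omega)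
        ((Nat.pow_le_pow_left (by omega) u).trans a1) a2 (by omega)
      exact ⟨B, d1, fun _ => d2⟩
    · exact ⟨∅, by rw [Finset.card_empty, Nat.cast_zero]; positivity, fun e' => absurd e' e⟩
  obtain ⟨B₃, d1, d2⟩ := hvp τ Z (by omega) P Q hP hQ V u huk h6.pd
  set x : ℝ := 4 ^ s * (1 / 2) ^ ((i - s) / (k + 1)) with hx
  have x0 : 0 ≤ x := by positivity
  set R := Br P.card Q.card (2 ^ i) ((i + 2) ^ (k - j)) τ Z x with hR
  have R0 : 0 ≤ R := Br_nonneg _ _ _ _ _ _ x0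
  have xR : x ≤ R := le_add_of_nonneg_left (by positivity)
  have k0 : (0 : ℝ) ≤ k := Nat.cast_nonneg k
  refine ⟨B₁ ∪ B₂ ∪ B₃, ?_, fun p hp' w w1 w2 𝒴 h𝒴 => ?_⟩
  · have f1 : ((B₁ ∪ B₂ ∪ B₃).card : ℝ) ≤ B₁.card + B₂.card + B₃.card := by
      exact_mod_cast (Finset.card_union_le _ _).trans
        (Nat.add_le_add_right (Finset.card_union_le _ _) _)
    have f2 : (P.card : ℝ) * Q.card / (b + 1) ≤ β * P.card * Q.card := by
      rw [mul_assoc, div_eq_mul_one_div, mul_comm]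
      exact mul_le_mul_of_nonneg_right hb.le (by positivity)
    have f3 : (1 : ℝ) ≤ ((i : ℝ) + 2) ^ (k - j) := one_le_pow₀ (by linarith [Nat.cast_nonneg (α := ℝ) i])
    have f4 : (((i + 1 : ℕ) : ℝ) + 1) ^ (k + 1 - u) ≤ ((i : ℝ) + 2) ^ (k - j) := by
      rw [show ((i + 1 : ℕ) : ℝ) + 1 = i + 2 by push_cast; ring]
      exact pow_le_pow_right₀ (by linarith [Nat.cast_nonneg (α := ℝ) i]) (by omega)
    have f5 : (0 : ℝ) ≤ (P.card : ℝ) ^ 2 / Z := by positivity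
    have f6 : (0 : ℝ) ≤ β * P.card * Q.card := by positivity
    have f7 := mul_le_mul_of_nonneg_right (mul_le_mul_of_nonneg_left f4 (Nat.cast_nonneg A)) f5
    have f8 := mul_le_mul_of_nonneg_right f3 f5
    have f9 : (0 : ℝ) ≤ (C * (K * 2 ^ k + 3 * A * 2 ^ k + 1) : ℕ) * ((i : ℝ) + 2) ^ (k - j)
        * ((P.card : ℝ) ^ 2 / Z) := by positivity
    rw [mul_div_assoc] at b1
    rw [mul_div_assoc, Nat.cast_add, Nat.cast_add, Nat.cast_ofNat]
    linarith [mul_nonneg k0 f6]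
  have g0 : (0 : ℝ) ≤ (K * 2 ^ k + 3 * A * 2 ^ k + 1) * η * R := by positivity
  refine (hst P Q V u _ _ (j + 1) (B₁ ∪ B₂ ∪ B₃) hP.sep hQ h6 (by omega) hju p hp'
    (fun q hq e => d2 p hp' q hq fun e' => e (Finset.mem_union_right _ e')) _ β g0 hβ.le
    (fun v v1 v2 𝒲 h𝒲 => ?_) w w1 𝒴 h𝒴).trans (add_le_add ?_ ?_)
  · have q0 : (0 : ℝ) ≤ β * Q.card := by positivity
    have q1 : (0 : ℝ) ≤ η * R * ((2 ^ i : ℕ) : ℝ) ^ (v - (j + 1)) * tdg v 𝒲 := by positivity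
    have q2 : (0 : ℝ) ≤ K * 2 ^ k := by positivity
    have q3 : (0 : ℝ) ≤ 3 * A * 2 ^ k := by positivity
    rcases v2.eq_or_lt with rfl | v2
    · have r1 : ((cin p Q V (B₁ ∪ B₂ ∪ B₃) 𝒲).card : ℝ) ≤ P.card * tdg v 𝒲 := by
        exact_mod_cast (cin_mass p Q V _ 𝒲 h𝒲).trans
          (Nat.mul_le_mul_right _ (Finset.card_le_card hQ))
      have r2 := mul_le_mul_of_nonneg_right ((ar_mass h4 hs hj).trans
        (mul_le_mul_of_nonneg_left xR (by positivity))) (Nat.cast_nonneg (tdg v 𝒲))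
      push_cast at q1 ⊢
      linarith [mul_nonneg q2 q1, mul_nonneg q3 q1]
    rcases v1.eq_or_lt with rfl | v1
    · have r1 := cin_ml (c2 v2) (Finset.subset_union_right.trans Finset.subset_union_left :
        B₂ ⊆ B₁ ∪ B₂ ∪ B₃) hp' 𝒲 h𝒲
      have r2 := mul_le_mul_of_nonneg_right (br_ml (N := P.card) (n := Q.card) (τ := τ) (Z := Z)
        (K := K) (η := η) (i := i) x0 (Nat.one_le_pow (k - j) (i + 2) (by omega)) hju huk)
        (Nat.cast_nonneg (tdg u 𝒲))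
      rw [← hR] at r2
      linarith [mul_nonneg q3 q1]
    · have r1 := (Nat.cast_le.2 (Finset.card_le_card (cin_cvr hP.sep hQ h6.on
        (Finset.subset_union_left.trans Finset.subset_union_left : B₁ ⊆ B₁ ∪ B₂ ∪ B₃) hp' 𝒲))).trans
        (b2 p hp' v v1 v2 𝒲 h𝒲)
      have r2 := mul_le_mul_of_nonneg_right (br_main (N := P.card) (n := Q.card) (τ := τ) (Z := Z)
        (A := A) (η := η) (i := i) (s := s) hju v1 v2.le) (Nat.cast_nonneg (tdg v 𝒲))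
      rw [← hx, ← hR] at r2
      linarith [mul_nonneg q2 q1]
  · refine mul_le_mul_of_nonneg_right ?_ (Nat.cast_nonneg _)
    have q1 : (0 : ℝ) ≤ η * ((2 : ℝ) ^ i) ^ (w - (j + 1)) * R := by positivity
    push_cast
    linarith [mul_nonneg (Nat.cast_nonneg (α := ℝ) A) q1]
  · exact mul_le_mul_of_nonneg_right (by linarith) (Nat.cast_nonneg _)

end Vale.Agent.P054S
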