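import Vale.Agent.P054S.CRDef
import Vale.Agent.P054S.CStepA
import Vale.Agent.P054S.CFPt
import Vale.Agent.P054S.CFHom

/-!
The three bounds for a class of nodes.
-/

namespace Vale.Agent.P054S

open MvPolynomial Vale.Agent.P054A
open scoped Classical

variable {k d : ℕ}

/-- Pairs whose first point is a vertex of the node of the second. -/
theorem vert_pairs (k : ℕ) (hk : 2 ≤ k) : ∃ τ₀ : ℕ, ∀ τ Z : ℕ, τ₀ ≤ τ →
    ∀ P Q : Finset (Pt (k + 1)), Std P τ Z → Q ⊆ P → ∀ (V : Pt (k + 1) → Id (k + 1)) (u : ℕ),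
      u ≤ k → (∀ q ∈ Q, PD u (V q)) → ∃ B : Finset (Pt (k + 1) × Pt (k + 1)),
        (B.card : ℝ) ≤ (P.card : ℝ) ^ 2 / Z ∧ ∀ p ∈ P, ∀ q ∈ Q, (p, q) ∉ B → ¬ Vert p (V q) := by
  obtain ⟨τ₀, h⟩ := pts_vert k hk
  refine ⟨τ₀, fun τ Z hτ P Q hS hQ V u hu hV =>
    ⟨Q.biUnion fun q => (P.filter fun p => Vert p (V q)).image fun p => (p, q), ?_,
      fun p hp q hq hB hv => hB (Finset.mem_biUnion.2
        ⟨q, hq, Finset.mem_image.2 ⟨p, Finset.mem_filter.2 ⟨hp, hv⟩, rfl⟩⟩)⟩⟩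
  have hZ : (0 : ℝ) < Z := Nat.cast_pos.2 hS.zpos
  have h1 : ∀ q ∈ Q, ((P.filter fun p => Vert p (V q)).image fun p => (p, q)).card * Z ≤ P.card :=
    fun q hq => (Nat.mul_le_mul_right _ Finset.card_image_le).trans
      (h τ hτ P hS.nd hS.big Z ((Nat.pow_le_pow_right hS.zpos (by omega)).trans hS.zle) _ fun e => by
        have h2 := (hV q hq).unique (e ▸ PD_bot (σ := Fin (k + 1)))
        rw [Fintype.card_fin] at h2
        omega)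
  have h3 : (Q.biUnion fun q => (P.filter fun p => Vert p (V q)).image fun p => (p, q)).card * Z ≤
      P.card ^ 2 := by
    refine (Nat.mul_le_mul_right _ Finset.card_biUnion_le).trans ?_
    rw [Finset.sum_mul, sq]
    exact (Finset.sum_le_card_nsmul _ _ _ h1).trans
      (Nat.mul_le_mul_right _ (Finset.card_le_card hQ))
  rw [le_div_iff₀ hZ]
  exact_mod_cast h3

theorem cin_ml {P Q : Finset (Pt (k + 1))} {V : Pt (k + 1) → Id (k + 1)} {w η t τ Z K : ℕ}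
    {B B' : Finset (Pt (k + 1) × Pt (k + 1))} (h : MLB P Q V w η t τ Z K B) (hB : B ⊆ B')
    {p : Pt (k + 1)} (hp : p ∈ P) (𝒲 : Finset (Id k)) (h𝒲 : ∀ W ∈ 𝒲, PD w W) :
    ((cin p Q V B' 𝒲).card : ℝ)
      ≤ K * η * (1 + τ * Q.card / (t * P.card) + τ / (t * Z)) * tdg w 𝒲 := by
  have h1 : cin p Q V B' 𝒲 ⊆ 𝒲.biUnion fun W =>
      Q.filter fun q => (p, q) ∉ B ∧ q ≠ p ∧ InCone p (V q) W := fun q hq => by
    obtain ⟨a1, a2, a3, W, a4, a5⟩ := Finset.mem_filter.1 hq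
    exact Finset.mem_biUnion.2 ⟨W, a4, Finset.mem_filter.2 ⟨a1, fun e => a2 (hB e), a3, a5⟩⟩
  have h2 := (Finset.card_le_card h1).trans Finset.card_biUnion_le
  refine (Nat.cast_le.2 h2).trans ?_
  rw [tdg, Nat.cast_sum, Nat.cast_sum, Finset.mul_sum]
  exact Finset.sum_le_sum fun W hW => (h p hp W (h𝒲 W hW)).trans_eq (by ring)

theorem cin_cvr {P Q : Finset (Pt (k + 1))} {V : Pt (k + 1) → Id (k + 1)}
    {B B' : Finset (Pt (k + 1) × Pt (k + 1))} (hP : Sep0 P) (hQ : Q ⊆ P)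
    (hV : ∀ q ∈ Q, On (cx q) (V q)) (hB : B ⊆ B') {p : Pt (k + 1)} (hp : p ∈ P)
    (𝒲 : Finset (Id k)) : cin p Q V B' 𝒲 ⊆ cvr p Q B 𝒲 := by
  intro q hq
  obtain ⟨a1, a2, a3, W, a4, a5⟩ := Finset.mem_filter.1 hq
  refine Finset.mem_filter.2 ⟨a1, fun e => a2 (hB e), a3, W, a4, ?_⟩
  rw [← dirC_cx]
  exact a5 _ (hV q a1) fun e => hP q (hQ a1) p hp a3 (Complex.ofReal_injective e)

theorem cin_mass (p : Pt (k + 1)) (Q : Finset (Pt (k + 1))) (V : Pt (k + 1) → Id (k + 1))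
    (B : Finset (Pt (k + 1) × Pt (k + 1))) {v : ℕ} (𝒲 : Finset (Id k))
    (h𝒲 : ∀ W ∈ 𝒲, PD v W) : (cin p Q V B 𝒲).card ≤ Q.card * tdg v 𝒲 := by
  rcases (cin p Q V B 𝒲).eq_empty_or_nonempty with e | ⟨q, hq⟩
  · rw [e]
    exact Nat.zero_le _
  obtain ⟨-, -, -, W, a4, -⟩ := Finset.mem_filter.1 hq
  exact (Finset.card_filter_le _ _).trans (Nat.le_mul_of_pos_right _ ((h𝒲 W a4).one_le_dg.trans
    (Finset.single_le_sum (f := fun Y => dg v Y) (fun _ _ => Nat.zero_le _) a4)))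

theorem br_ml {N n L τ Z K η i j u k : ℕ} {x : ℝ} (hx : 0 ≤ x) (hL : 1 ≤ L) (hj : j < u)
    (hu : u ≤ k) : (K : ℝ) * (η * (2 * 2 ^ i) ^ (u - j) : ℕ)
        * (1 + τ * n / ((2 ^ i : ℕ) * N) + τ / ((2 ^ i : ℕ) * Z))
      ≤ K * 2 ^ k * η * Br N n (2 ^ i) L τ Z x * ((2 ^ i : ℕ) : ℝ) ^ (u - (j + 1)) := by
  obtain ⟨t, ht⟩ : ∃ t : ℕ, t = 2 ^ i := ⟨_, rfl⟩
  rw [← ht]
  have t0 : (0 : ℝ) < t := Nat.cast_pos.2 (ht ▸ Nat.two_pow_pos i)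
  obtain ⟨m, hm⟩ : ∃ m, u - j = m + 1 := ⟨u - (j + 1), by omega⟩
  rw [hm, show u - (j + 1) = m by omega]
  have h1 : (t : ℝ) * (1 + τ * n / (t * N) + τ / (t * Z)) ≤ Br N n t L τ Z x := by
    have a1 : (τ : ℝ) / Z ≤ L * τ / Z :=
      div_le_div_of_nonneg_right (le_mul_of_one_le_left (Nat.cast_nonneg _) (by exact_mod_cast hL))
        (Nat.cast_nonneg _)
    rw [mul_add, mul_add, mul_one, ← mul_div_assoc, ← mul_div_assoc, mul_div_mul_left _ _ t0.ne',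
      mul_div_mul_left _ _ t0.ne', Br]
    linarith
  have h2 : (2 : ℝ) ^ (m + 1) ≤ 2 ^ k := pow_le_pow_right₀ one_le_two (by omega)
  calc _ = (K : ℝ) * 2 ^ (m + 1) * η * (t * (1 + τ * n / (t * N) + τ / (t * Z))) * (t : ℝ) ^ m := by
        push_cast
        ring
    _ ≤ _ := by gcongr

theorem br_main {N n τ Z A η i j s u v k : ℕ} (hj : j < u) (hu : u < v) (hv : v ≤ k) :
    (A : ℝ) * (η * (2 * 2 ^ i) ^ (u - j) : ℕ) * ((2 : ℝ) ^ (i + 1)) ^ (v - (u + 1))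
        * Br N n (2 ^ (i + 1)) ((i + 1 + 1) ^ (k + 1 - u)) τ Z (4 ^ (s - (i - s) / (k + 1)))
      ≤ 3 * A * 2 ^ k * η * Br N n (2 ^ i) ((i + 2) ^ (k - j)) τ Z
          (4 ^ s * (1 / 2) ^ ((i - s) / (k + 1))) * ((2 ^ i : ℕ) : ℝ) ^ (v - (j + 1)) := by
  obtain ⟨m, hm⟩ : ∃ m, m = (i - s) / (k + 1) := ⟨_, rfl⟩
  rw [← hm]
  have t1 : (1 : ℝ) ≤ 2 ^ i := one_le_pow₀ one_le_two
  have h1 : (4 : ℝ) ^ (s - m) ≤ 4 ^ s * (1 / 2) ^ m + 2 ^ i := by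
    rcases le_total m s with h | h
    · obtain ⟨r, rfl⟩ := Nat.exists_eq_add_of_le h
      have a1 : (1 : ℝ) ≤ (4 * (1 / 2)) ^ m := one_le_pow₀ (by norm_num)
      have a2 : (4 : ℝ) ^ r ≤ (4 * (1 / 2)) ^ m * 4 ^ r := le_mul_of_one_le_left (by positivity) a1
      rw [Nat.add_sub_cancel_left, pow_add, mul_right_comm, ← mul_pow]
      linarith
    · rw [Nat.sub_eq_zero_of_le h, pow_zero]
      exact le_add_of_nonneg_of_le (by positivity) t1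
  have h2 : (((i + 1 + 1) ^ (k + 1 - u) : ℕ) : ℝ) * τ / Z ≤ ((i + 2) ^ (k - j) : ℕ) * τ / Z := by
    have a1 : (i + 1 + 1) ^ (k + 1 - u) ≤ (i + 2) ^ (k - j) :=
      Nat.pow_le_pow_right (by omega) (by omega)
    gcongr
  have h3 : Br N n (2 ^ (i + 1)) ((i + 1 + 1) ^ (k + 1 - u)) τ Z (4 ^ (s - m)) ≤
      3 * Br N n (2 ^ i) ((i + 2) ^ (k - j)) τ Z (4 ^ s * (1 / 2) ^ m) := by
    have a1 : (0 : ℝ) ≤ τ * n / N := by positivity
    have a2 : (0 : ℝ) ≤ ((i + 2) ^ (k - j) : ℕ) * τ / Z := by positivity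
    have a3 : (0 : ℝ) ≤ 4 ^ s * (1 / 2) ^ m := by positivity
    have a4 : ((2 ^ (i + 1) : ℕ) : ℝ) = 2 * 2 ^ i := by push_cast; ring
    have a5 : ((2 ^ i : ℕ) : ℝ) = 2 ^ i := by push_cast; ring
    unfold Br
    rw [a4, a5]
    linarith
  have h4 : (2 : ℝ) ^ (v - (j + 1)) ≤ 2 ^ k := pow_le_pow_right₀ one_le_two (by omega)
  have h5 := Br_nonneg N n (2 ^ (i + 1)) ((i + 1 + 1) ^ (k + 1 - u)) τ Z
    (show (0 : ℝ) ≤ 4 ^ (s - m) by positivity)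
  generalize Br N n (2 ^ (i + 1)) ((i + 1 + 1) ^ (k + 1 - u)) τ Z (4 ^ (s - m)) = X at h3 h5 ⊢
  generalize Br N n (2 ^ i) ((i + 2) ^ (k - j)) τ Z (4 ^ s * (1 / 2) ^ m) = Y at h3 ⊢
  calc _ = (A : ℝ) * 2 ^ (v - (j + 1)) * η * X * ((2 : ℝ) ^ i) ^ (v - (j + 1)) := by
        rw [show v - (j + 1) = (u - j) + (v - (u + 1)) by omega, pow_succ' (2 : ℝ) i]
        push_cast
        simp only [mul_pow, pow_add]
        ring
    _ ≤ (A : ℝ) * 2 ^ k * η * (3 * Y) * ((2 : ℝ) ^ i) ^ (v - (j + 1)) := by gcongr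
    _ = _ := by
        push_cast
        ring

end Vale.Agent.P054S
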