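import Vale.Agent.P054S.CRec
import Vale.Agent.P054S.CRoot
import Vale.Agent.P054S.CFRich

namespace Vale.Agent.P054S

open MvPolynomial Vale.Agent.P054A Sum
open scoped Classical

theorem cover_all (k : ℕ) (hk : 2 ≤ k) (j a : ℕ) (h1 : 1 ≤ j) (h2 : j + 1 ≤ k) : Cover k j a := by
  have hβ : (0 : ℝ) < 1 / (8 * (a + 1)) := by positivity
  obtain ⟨A, τ₁, hM⟩ := main_all k 0 hβ
  obtain ⟨τ₂, hpoor⟩ := exists_poor k (4 * a) hk
  obtain ⟨τ₃, hZ⟩ := root_Z (4 * a * A + 1) (k + 1)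
  refine ⟨72 * (A * (4 * a)) + 6, 1, fun κ hκ => ⟨τ₁ + τ₂ + τ₃ + 1, fun τ hτ P hW hS 𝒴 h𝒴 => ?_⟩⟩
  obtain ⟨Z, hZ1, hZ2, hZ3⟩ := hZ τ (by omega)
  obtain ⟨i, hi1, hi2, hi3⟩ := root_i τ (by omega)
  obtain ⟨s, hs1, hs2⟩ := root_s (d := k + 1) (by omega) hκ (by omega) hW.2.2
  have hstd : Std P τ Z := ⟨hW.1, le_trans (Nat.le_mul_of_pos_left _ (Nat.pow_pos hκ)) hW.2.1,
    hS, hZ1, hZ2⟩
  obtain ⟨T, hT, hT1, hT2⟩ := hpoor τ Z (by omega) P hstd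
  obtain ⟨B, hB, hcl⟩ := hM 0 le_rfl τ Z (by omega) P T hstd hT hT2 1 i s hi2 (by simp) (by simp)
    (by simpa using hs1) ((root_cap hW.1 hi1).mono hT)
  have hL := hZ3 i hi3
  have hL1 : (i + 1) ^ (k + 1 - 0) ≤ Z := le_trans (Nat.le_mul_of_pos_left _ (by omega)) hL
  have hn : T.card ≤ P.card := Finset.card_le_card hT
  have hnR : (T.card : ℝ) ≤ P.card := by exact_mod_cast hn
  have hN : (0 : ℝ) ≤ P.card := Nat.cast_nonneg _
  have ha : (0 : ℝ) ≤ a := Nat.cast_nonneg _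
  have hZR : (0 : ℝ) < Z := by exact_mod_cast hZ1
  have hb : (a : ℝ) * (1 / (8 * (a + 1))) ≤ 1 / 8 := by
    rw [mul_one_div, div_le_div_iff₀ (by positivity) (by norm_num)]
    linarith
  have e1 : ∀ p ∈ P, (a : ℝ) * (cvr p T B (𝒴 p)).card ≤ P.card / 4 + P.card / 8 := fun p hp => by
    have f1 := hcl p hp j (by omega) (by omega) (𝒴 p) (h𝒴 p hp).1
    have f2 := root_G (A := A) (a := 4 * a) (D := tdg j (𝒴 p)) h1 hκ (by omega) hn hi2 hs2 hL1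
      (h𝒴 p hp).2
    have f3 : (a : ℝ) * (1 / (8 * (a + 1)) * T.card) ≤ 1 / 8 * P.card := by
      rw [← mul_assoc]
      exact mul_le_mul hb hnR (Nat.cast_nonneg _) (by norm_num)
    have f4 := mul_le_mul_of_nonneg_left f1 ha
    rw [Nat.cast_mul, Nat.cast_ofNat, mul_assoc] at f2
    rw [mul_add] at f4
    exact f4.trans (add_le_add ((le_div_iff₀' (by norm_num)).2 f2) (by linarith))
  have e2 : (a : ℝ) * B.card ≤ P.card ^ 2 / 8 + P.card ^ 2 / 4 := by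
    have f1 : (a : ℝ) * (1 / (8 * (a + 1)) * P.card * T.card) ≤ 1 / 8 * P.card * P.card := by
      rw [← mul_assoc, ← mul_assoc]
      exact mul_le_mul (mul_le_mul_of_nonneg_right hb hN) hnR (Nat.cast_nonneg _) (by positivity)
    have f2 : (a : ℝ) * (A * ((i : ℝ) + 1) ^ (k + 1 - 0) * (P.card : ℝ) ^ 2 / Z)
        ≤ P.card ^ 2 / 4 := by
      have f3 : ((4 * a * A + 1 : ℕ) : ℝ) * ((i + 1 : ℕ) : ℝ) ^ (k + 1) ≤ Z := by exact_mod_cast hL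
      push_cast at f3
      have f4 : (0 : ℝ) ≤ ((i : ℝ) + 1) ^ (k + 1) := by positivity
      rw [← mul_div_assoc, div_le_div_iff₀ hZR (by norm_num), Nat.sub_zero]
      have f5 : (4 * a * A : ℝ) * ((i : ℝ) + 1) ^ (k + 1) ≤ Z := by nlinarith
      nlinarith [mul_le_mul_of_nonneg_left f5 (sq_nonneg (P.card : ℝ))]
    have f4 := mul_le_mul_of_nonneg_left hB ha
    rw [mul_add] at f4
    nlinarith
  have e3 : (a : ℝ) * (P.card * (P \ T).card) ≤ P.card ^ 2 / 4 := by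
    have f1 : (((P \ T).card * (4 * a) : ℕ) : ℝ) ≤ P.card := by exact_mod_cast hT1
    push_cast at f1
    nlinarith [mul_le_mul_of_nonneg_left f1 hN]
  have e4 : (a : ℝ) * ∑ p ∈ P, ((cvr p T B (𝒴 p)).card : ℝ)
      ≤ P.card * (P.card / 4 + P.card / 8) := by
    rw [Finset.mul_sum, ← nsmul_eq_mul]
    exact Finset.sum_le_card_nsmul _ _ _ e1
  have e5 : ((cov P 𝒴).card : ℝ)
      ≤ B.card + P.card * (P \ T).card + ∑ p ∈ P, ((cvr p T B (𝒴 p)).card : ℝ) := by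
    exact_mod_cast cov_le P T B 𝒴
  have e6 : (a : ℝ) * (cov P 𝒴).card ≤ (P.card : ℝ) ^ 2 := by
    have := mul_le_mul_of_nonneg_left e5 ha
    rw [mul_add, mul_add] at this
    nlinarith
  exact_mod_cast e6

/-- The cone lemma. -/
theorem cone (k : ℕ) (hk : 2 ≤ k) : ∃ c κ₀ : ℕ, ∀ κ ≥ κ₀, ∃ τ₀ : ℕ, ∀ τ ≥ τ₀,
    ∀ P : Finset (Pt (k + 1)), Win P κ τ → (∀ p ∈ P, ∀ q ∈ P, p ≠ q → p 0 ≠ q 0) →
      ∃ S₀ ⊆ P ×ˢ P, (∀ z ∈ S₀, z.1 ≠ z.2) ∧ P.card ^ 2 ≤ κ * S₀.card ∧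
        ConeOK S₀ (c * κ ^ 4 * τ) :=
  cone_of_cover k hk fun j h1 h2 => cover_all k hk j _ h1 h2

end Vale.Agent.P054S
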