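import Vale.Agent.P054S.DDef

/-!
Packing under a linear pattern bound.
-/

namespace Vale.Agent.P054S

open MvPolynomial Vale.Agent.P054A
open scoped Classical

theorem dpack_step {α κ : Type} (T : Finset κ) (t : κ → α → Prop) {q : ℕ} (hT : T.Nonempty)
    (P : Finset (α × α))
    (h : ∀ z ∈ P, T.card ≤ q * (T.filter fun k => ¬(t k z.1 ↔ t k z.2)).card) :
    ∃ k ∈ T, P.card ≤ q * (P.filter fun z => ¬(t k z.1 ↔ t k z.2)).card := by
  by_contra hc
  have h1 : ∑ k ∈ T, q * (P.filter fun z => ¬(t k z.1 ↔ t k z.2)).card < ∑ _k ∈ T, P.card :=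
    Finset.sum_lt_sum_of_nonempty hT fun k hk => not_le.1 fun h0 => hc ⟨k, hk, h0⟩
  have h2 : ∑ _z ∈ P, T.card ≤ ∑ z ∈ P, q * (T.filter fun k => ¬(t k z.1 ↔ t k z.2)).card :=
    Finset.sum_le_sum h
  have h3 : ∑ k ∈ T, q * (P.filter fun z => ¬(t k z.1 ↔ t k z.2)).card =
      ∑ z ∈ P, q * (T.filter fun k => ¬(t k z.1 ↔ t k z.2)).card := by
    simp only [Finset.card_filter, Finset.mul_sum]
    exact Finset.sum_comm
  rw [Finset.sum_const, smul_eq_mul] at h1 h2
  rw [h3, mul_comm] at h1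
  exact absurd h2 (not_le.2 h1)

theorem dpack_iter {α κ : Type} (T : Finset κ) (t : κ → α → Prop) {p : ℕ} (hT : T.Nonempty)
    (P : Finset (α × α))
    (h : ∀ z ∈ P, T.card ≤ (p + 1) * (T.filter fun k => ¬(t k z.1 ↔ t k z.2)).card) (j : ℕ) :
    ∃ K ⊆ T, K.card ≤ j ∧ ∃ U ⊆ P, U.card * (p + 1) ^ j ≤ P.card * p ^ j ∧
      ∀ z ∈ P, (∀ k ∈ K, (t k z.1 ↔ t k z.2)) → z ∈ U := by
  induction j with
  | zero => exact ⟨∅, Finset.empty_subset _, le_rfl, P, Finset.Subset.refl _, by simp,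
      fun z hz _ => hz⟩
  | succ j ih =>
    obtain ⟨K, hK, hj, U, hU, hc, hm⟩ := ih
    obtain ⟨k, hk, h1⟩ := dpack_step T t hT U fun z hz => h z (hU hz)
    have h2 := Finset.card_filter_add_card_filter_not (s := U) fun z => ¬(t k z.1 ↔ t k z.2)
    refine ⟨insert k K, Finset.insert_subset hk hK, (Finset.card_insert_le _ _).trans (by omega),
      U.filter fun z => ¬¬(t k z.1 ↔ t k z.2), (Finset.filter_subset _ _).trans hU, ?_,
      fun z hz h3 => Finset.mem_filter.2 ⟨hm z hz fun l hl => h3 l (Finset.mem_insert_of_mem hl),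
        not_not.2 (h3 k (Finset.mem_insert_self _ _))⟩⟩
    generalize (U.filter fun z => ¬¬(t k z.1 ↔ t k z.2)).card = x at h2 ⊢
    generalize (U.filter fun z => ¬(t k z.1 ↔ t k z.2)).card = y at h1 h2
    have h4 : x * (p + 1) ≤ U.card * p := by nlinarith
    calc x * (p + 1) ^ (j + 1) = x * (p + 1) * (p + 1) ^ j := by ring
      _ ≤ U.card * p * (p + 1) ^ j := Nat.mul_le_mul_right _ h4
      _ = U.card * (p + 1) ^ j * p := by ring
      _ ≤ P.card * p ^ j * p := Nat.mul_le_mul_right _ hc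
      _ = P.card * p ^ (j + 1) := by ring

theorem dpack_pow (p n : ℕ) : p ^ (n + 1) + (n + 1) * p ^ n ≤ (p + 1) ^ (n + 1) := by
  induction n with
  | zero => simp
  | succ n ih =>
    calc p ^ (n + 1 + 1) + (n + 1 + 1) * p ^ (n + 1)
        ≤ (p ^ (n + 1) + (n + 1) * p ^ n) * (p + 1) := by
          have e : (p ^ (n + 1) + (n + 1) * p ^ n) * (p + 1) =
            p ^ (n + 1 + 1) + (n + 1 + 1) * p ^ (n + 1) + (n + 1) * p ^ n := by ring
          omega
      _ ≤ (p + 1) ^ (n + 1) * (p + 1) := Nat.mul_le_mul_right _ ih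
      _ = (p + 1) ^ (n + 1 + 1) := by ring

theorem dpack_zero {p L u N : ℕ} (hN : N < 2 ^ L)
    (h : u * (p + 1) ^ ((p + 1) * L) ≤ N * p ^ ((p + 1) * L)) : u = 0 := by
  by_contra h0
  have h1 : 2 * p ^ (p + 1) ≤ (p + 1) ^ (p + 1) := by
    have h2 := dpack_pow p p
    have e : (p + 1) * p ^ p = p ^ (p + 1) + p ^ p := by ring
    omega
  have h2 := Nat.pow_le_pow_left h1 L
  rw [mul_pow, ← pow_mul, ← pow_mul] at h2
  have h3 : (p + 1) ^ ((p + 1) * L) ≤ N * p ^ ((p + 1) * L) :=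
    (Nat.le_mul_of_pos_left _ (Nat.pos_of_ne_zero h0)).trans h
  have h4 : 0 < (p + 1) ^ ((p + 1) * L) := by positivity
  have h5 : 0 < p ^ ((p + 1) * L) := Nat.pos_of_mul_pos_left (h4.trans_le h3)
  exact absurd (Nat.le_of_mul_le_mul_right (h2.trans h3) h5) (not_le.2 hN)

theorem dpack_cover {α : Type} (A₂ : Finset α) (r : α → α → Prop) (hr : ∀ a b, r a b → r b a)
    (h0 : ∀ a, r a a) : ∃ B ⊆ A₂, (∀ a ∈ B, ∀ b ∈ B, a ≠ b → ¬r a b) ∧ ∀ a ∈ A₂, ∃ b ∈ B, r b a := by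
  obtain ⟨S, hS⟩ : ∃ S : Finset α → Prop, ∀ B, S B ↔ ∀ a ∈ B, ∀ b ∈ B, a ≠ b → ¬r a b :=
    ⟨_, fun _ => Iff.rfl⟩
  obtain ⟨B, hB, hmax⟩ := Finset.exists_max_image (A₂.powerset.filter S) Finset.card
    ⟨∅, Finset.mem_filter.2 ⟨Finset.empty_mem_powerset _, (hS _).2 (by simp)⟩⟩
  obtain ⟨h1, h2⟩ := Finset.mem_filter.1 hB
  rw [Finset.mem_powerset] at h1
  rw [hS] at h2
  refine ⟨B, h1, h2, fun a ha => ?_⟩
  by_contra hc
  have h3 : ∀ b ∈ B, ¬r b a := fun b hb h => hc ⟨b, hb, h⟩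
  have h4 : a ∉ B := fun h => h3 a h (h0 a)
  have h5 := hmax (insert a B) (Finset.mem_filter.2
    ⟨Finset.mem_powerset.2 (Finset.insert_subset ha h1), (hS _).2 fun x hx y hy hxy => by
      rcases Finset.mem_insert.1 hx with rfl | hx' <;> rcases Finset.mem_insert.1 hy with rfl | hy'
      · exact absurd rfl hxy
      · exact fun h => h3 y hy' (hr _ _ h)
      · exact h3 x hx'
      · exact h2 x hx' y hy' hxy⟩)
  rw [Finset.card_insert_of_notMem h4] at h5
  omega

theorem d_pack {α κ : Type} (A : Finset α) (T : Finset κ) (t : κ → α → Prop) {a₀ b₀ q L β : ℕ}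
    (hT : T.Nonempty) (hq : 1 ≤ q) (hL : A.card ^ 2 < 2 ^ L)
    (hpat : ∀ K ⊆ T, (A.image fun a => K.filter fun k => t k a).card ≤ a₀ * (K.card + b₀)) :
    (A.filter fun a => (A.filter fun b =>
      q * (T.filter fun k => ¬(t k a ↔ t k b)).card < T.card).card ≤ β).card
      ≤ β * (a₀ * (q * L + b₀)) := by
  obtain ⟨p, rfl⟩ : ∃ p, q = p + 1 := ⟨q - 1, by omega⟩
  obtain ⟨B, hB, hsep, hcov⟩ := dpack_cover (A.filter fun a => (A.filter fun b =>
      (p + 1) * (T.filter fun k => ¬(t k a ↔ t k b)).card < T.card).card ≤ β)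
    (fun a b => (p + 1) * (T.filter fun k => ¬(t k a ↔ t k b)).card < T.card)
    (fun a b h => by
      rw [Finset.filter_congr fun k _ => not_congr (Iff.comm (a := t k b) (b := t k a))]
      exact h)
    (fun a => by simpa using hT)
  have hBA : B ⊆ A := hB.trans (Finset.filter_subset _ _)
  obtain ⟨K, hK, hj, U, -, hc, hm⟩ := dpack_iter T t hT B.offDiag (p := p) (fun z hz => by
    obtain ⟨h1, h2, h3⟩ := Finset.mem_offDiag.1 hz
    exact not_lt.1 (hsep _ h1 _ h2 h3)) ((p + 1) * L)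
  have hN : B.offDiag.card < 2 ^ L := by
    refine lt_of_le_of_lt ?_ hL
    rw [Finset.offDiag_card, sq]
    exact (Nat.sub_le _ _).trans
      (Nat.mul_le_mul (Finset.card_le_card hBA) (Finset.card_le_card hBA))
  have hU : U = ∅ := Finset.card_eq_zero.1 (dpack_zero hN hc)
  have hinj : Set.InjOn (fun a => K.filter fun k => t k a) (B : Set α) := by
    intro a ha b hb e
    by_contra hab
    have h1 := hm (a, b) (Finset.mem_offDiag.2 ⟨ha, hb, hab⟩) fun k hk => by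
      have h2 := Finset.ext_iff.1 e k
      simpa [Finset.mem_filter, hk] using h2
    rw [hU] at h1
    exact Finset.notMem_empty _ h1
  have hcard : B.card ≤ a₀ * ((p + 1) * L + b₀) := by
    rw [← Finset.card_image_of_injOn hinj]
    exact ((Finset.card_le_card (Finset.image_subset_image hBA)).trans (hpat K hK)).trans
      (Nat.mul_le_mul_left _ (Nat.add_le_add_right hj _))
  refine (Finset.card_le_card (t := B.biUnion fun a => A.filter fun b =>
      (p + 1) * (T.filter fun k => ¬(t k a ↔ t k b)).card < T.card) fun a ha => ?_).trans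
    (Finset.card_biUnion_le.trans ((Finset.sum_le_card_nsmul _ _ β fun b hb =>
      (Finset.mem_filter.1 (hB hb)).2).trans ?_))
  · obtain ⟨b, hb, h⟩ := hcov a ha
    exact Finset.mem_biUnion.2 ⟨b, hb, Finset.mem_filter.2 ⟨(Finset.mem_filter.1 ha).1, h⟩⟩
  · rw [smul_eq_mul, mul_comm]
    exact Nat.mul_le_mul_left _ hcard

end Vale.Agent.P054S
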