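import Vale.Agent.P054S.DPat
import Vale.Agent.P054S.DPack

/-!
Most points have close neighbours.
-/

namespace Vale.Agent.P054S

open MvPolynomial Vale.Agent.P054A
open scoped Classical

theorem dclu_eps (S : Finset ℝ) : ∃ ε : ℝ, 0 < ε ∧ ∀ ρ ∈ S, ∀ s ∈ S, ρ < s → ρ + ε < s := by
  have h : ∀ᶠ ε in nhdsWithin (0 : ℝ) (Set.Ioi 0), ∀ ρ ∈ S, ∀ s ∈ S, ρ < s → ρ + ε < s := by
    rw [Filter.eventually_all_finset]
    intro ρ _
    rw [Filter.eventually_all_finset]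
    intro s _
    by_cases h : ρ < s
    · filter_upwards [Ioo_mem_nhdsGT (sub_pos.2 h)] with ε hε _
      linarith [hε.2]
    · exact Filter.Eventually.of_forall fun ε h' => absurd h' h
  obtain ⟨ε, h1, h2⟩ := (h.and self_mem_nhdsWithin).exists
  exact ⟨ε, h2, h1⟩

theorem dclu_sph (p : Pt 3) (r : ℝ) : ∃ g : MvPolynomial (Fin 3) ℝ, g.totalDegree ≤ 2 ∧
    ∀ a : Pt 3, eval a g = d2 p a - r := by
  refine ⟨∑ i, (C (p i) - X i) ^ 2 - C r, (totalDegree_sub _ _).trans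
    (max_le (totalDegree_finsetSum_le fun i _ => (totalDegree_pow _ _).trans ?_) (by simp)),
    fun a => by simp [d2]⟩
  have h := totalDegree_sub (C (p i) : MvPolynomial (Fin 3) ℝ) (X i)
  rw [totalDegree_C, totalDegree_X] at h
  omega

theorem dclu_fib {α β : Type} [DecidableEq β] (Y : Finset α) (f : α → β) (p : α → Prop)
    [DecidablePred p] (h : ∀ y ∈ Y, (Y.filter fun z => f z = f y).card
      ≤ 2 * ((Y.filter fun z => f z = f y).filter p).card) :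
    Y.card ≤ 2 * (Y.filter p).card := by
  rw [Finset.card_eq_sum_card_image f Y, Finset.card_eq_sum_card_fiberwise (f := f)
    (s := Y.filter p) (t := Y.image f) fun y hy =>
      Finset.mem_coe.2 (Finset.mem_image_of_mem f (Finset.mem_filter.1 hy).1), Finset.mul_sum]
  refine Finset.sum_le_sum fun b hb => ?_
  obtain ⟨y, hy, rfl⟩ := Finset.mem_image.1 hb
  rw [Finset.filter_comm]
  exact h y hy

theorem d_clu : ∃ c : ℕ, 1 ≤ c ∧ ∀ (Y A : Finset (Pt 3)) (Γ : Ideal (MvPolynomial (Fin 3) ℂ))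
    (q L β : ℕ), A ⊆ Y → PD 1 Γ → (∀ a ∈ A, On (cx a) Γ) → c * dg 1 Γ ^ 2 < A.card → 1 ≤ q →
    A.card ^ 2 < 2 ^ L →
      (A.filter fun a => (nbh Y A q a).card ≤ β).card
        ≤ β * (c * dg 1 Γ * (q * L + dg 1 Γ)) := by
  obtain ⟨c, hc, h⟩ := d_pat
  refine ⟨c, hc, fun Y A Γ q L β hA hΓ hon hd hq hL => ?_⟩
  obtain ⟨y, hy⟩ := Finset.card_pos.1 (Nat.zero_lt_of_lt hd)
  obtain ⟨ε, e0, e1⟩ := dclu_eps (dset Y)
  choose g g1 g2 using fun k : Pt 3 × ℝ => dclu_sph k.1 (k.2 + ε)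
  have key : ∀ a ∈ A, ∀ k ∈ Y ×ˢ dset Y,
      eval a (g k) ≠ 0 ∧ (k.2 < d2 k.1 a ↔ 0 < eval a (g k)) := by
    intro a ha k hk
    obtain ⟨k1, k2⟩ := Finset.mem_product.1 hk
    have h1 := e1 _ k2 _ (mem_dset k1 (hA ha))
    rw [g2]
    by_cases h2 : k.2 < d2 k.1 a
    · have h3 := h1 h2
      exact ⟨by linarith |> ne_of_gt, fun _ => by linarith, fun _ => h2⟩
    · exact ⟨by linarith [not_lt.1 h2] |> ne_of_lt, fun h3 => absurd h3 h2,
        fun h3 => by linarith⟩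
  have h0 : ∀ K ⊆ Y ×ˢ dset Y, ∀ a ∈ A, ∀ i : DecidablePred fun k : Pt 3 × ℝ => k.2 < d2 k.1 a,
      @Finset.filter _ _ i K = K.filter fun k => 0 < eval a (g k) :=
    fun K hK a ha i => Finset.filter_congr fun k hk => (key a ha k (hK hk)).2
  have h1 := d_pack A (Y ×ˢ dset Y) (fun k a => k.2 < d2 k.1 a) (a₀ := c * dg 1 Γ)
    (b₀ := dg 1 Γ) (β := β)
    ⟨(y, d2 y y), Finset.mem_product.2 ⟨hA hy, mem_dset (hA hy) (hA hy)⟩⟩ hq hL fun K hK => by
      have h2 := h Γ A _ K g hΓ hon hd (fun k _ => g1 k) fun a ha k hk => (key a ha k (hK hk)).1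
      refine le_trans (le_of_eq (congrArg Finset.card ?_)) h2
      exact @Finset.image_congr _ _ (_) _ _ _ fun a ha => h0 K hK a ha _
  refine le_trans (le_of_eq (congrArg Finset.card (Finset.filter_congr fun a _ => ?_))) h1
  rw [nbh, Finset.card_product]
  refine iff_of_eq (congrArg (fun n => n ≤ β)
    (congrArg Finset.card (Finset.filter_congr fun b _ => ?_)))
  rw [sepn]

theorem d_good : ∃ c' : ℕ, ∀ (c w q₁ q₂ β L D : ℕ) (Y : Finset (Pt 3))
    (lab : Pt 3 → Ideal (MvPolynomial (Fin 3) ℂ)), Cur c w Y lab → 1 ≤ q₁ → 1 ≤ q₂ →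
    Y.card ^ 2 < 2 ^ L → c * Y.card ≤ w * D →
    2 * c * c' * (q₁ * L + D + β * (q₂ * L + D)) < w →
      Y.card ≤ 2 * (Y.filter fun a => 1 < (nbh Y Y q₁ a).card ∧ β < (nbh Y Y q₂ a).card).card := by
  obtain ⟨c', hc, h⟩ := d_clu
  refine ⟨c', fun c w q₁ q₂ β L D Y lab hY h1 h2 hL hD hw => dclu_fib Y lab _ fun y hy => ?_⟩
  obtain ⟨a1, -, a3⟩ := hY y hy
  have a4 := a1.one_le_dg
  obtain ⟨A, hA⟩ : ∃ A, A = Y.filter fun z => lab z = lab y := ⟨_, rfl⟩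
  rw [← hA] at a3 ⊢
  have b1 : A ⊆ Y := hA ▸ Finset.filter_subset _ _
  have b2 : ∀ a ∈ A, On (cx a) (lab y) := fun a ha => by
    obtain ⟨b3, b4⟩ := Finset.mem_filter.1 (hA ▸ ha)
    exact b4 ▸ (hY a b3).2.1
  have b3 := Finset.card_le_card b1
  have b4 : A.card ^ 2 < 2 ^ L := (Nat.pow_le_pow_left b3 2).trans_lt hL
  have b5 : dg 1 (lab y) ≤ D := Nat.le_of_mul_le_mul_right
    ((a3.trans ((Nat.mul_le_mul_left c b3).trans hD)).trans_eq (mul_comm _ _))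
    (Nat.zero_lt_of_lt hw)
  have b6 : 2 * (c' * dg 1 (lab y) * (q₁ * L + D + β * (q₂ * L + D))) < A.card := by
    refine Nat.lt_of_mul_lt_mul_left (a := c) (lt_of_lt_of_le ?_ a3)
    exact lt_of_eq_of_lt (by ring) (Nat.mul_lt_mul_of_pos_left hw a4)
  have b7 : c' * dg 1 (lab y) ^ 2 < A.card := by
    refine lt_of_le_of_lt ?_ b6
    rw [sq, ← mul_assoc]
    exact (Nat.mul_le_mul_left _ (by omega)).trans (Nat.le_mul_of_pos_left _ two_pos)
  have c1 := h Y A _ q₁ L 1 b1 a1 b2 b7 h1 b4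
  have c2 := h Y A _ q₂ L β b1 a1 b2 b7 h2 b4
  have c3 : ∀ q a, (nbh Y A q a).card ≤ (nbh Y Y q a).card := fun q a =>
    Finset.card_le_card (Finset.filter_subset_filter _ b1)
  have c4 : A ⊆ (A.filter fun a => 1 < (nbh Y Y q₁ a).card ∧ β < (nbh Y Y q₂ a).card) ∪
      ((A.filter fun a => (nbh Y A q₁ a).card ≤ 1) ∪ A.filter fun a => (nbh Y A q₂ a).card ≤ β) := by
    intro a ha
    have c5 := c3 q₁ a
    have c6 := c3 q₂ a
    simp only [Finset.mem_union, Finset.mem_filter, ha, true_and]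
    omega
  have c5 := (Finset.card_le_card c4).trans ((Finset.card_union_le _ _).trans
    (Nat.add_le_add_left ((Finset.card_union_le _ _).trans (Nat.add_le_add c1 c2)) _))
  have c6 : 1 * (c' * dg 1 (lab y) * (q₁ * L + dg 1 (lab y))) +
      β * (c' * dg 1 (lab y) * (q₂ * L + dg 1 (lab y)))
      ≤ c' * dg 1 (lab y) * (q₁ * L + D + β * (q₂ * L + D)) := by
    refine le_of_le_of_eq (Nat.add_le_add (Nat.mul_le_mul_left _ (Nat.mul_le_mul_left _
      (Nat.add_le_add_left b5 _))) (Nat.mul_le_mul_left _ (Nat.mul_le_mul_left _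
      (Nat.add_le_add_left b5 _)))) (by ring)
  omega

end Vale.Agent.P054S
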