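import Vale.Agent.P054S.DCircA

/-!
Few circles about an axis are rich on a surface through the axis.
-/

namespace Vale.Agent.P054S

open MvPolynomial Vale.Agent.P054A
open scoped Classical

theorem DCirc_eval (a : Fin 3 → ℂ) (N : Matrix (Fin 3) (Fin 3) ℂ) (x : Fin 3 → ℂ)
    (g : MvPolynomial (Fin 3) ℂ) :
    eval x (aeval (fun i => C (a i) + ∑ j, C (N i j) * X j : Fin 3 → MvPolynomial (Fin 3) ℂ) g) =
      eval (a + N.mulVec x) g := by
  induction g using MvPolynomial.induction_on with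
  | C a => simp
  | add p q hp hq => simp only [map_add, hp, hq]
  | mul_X p i hp =>
    simp only [map_mul, hp, aeval_X, eval_X, map_add, map_sum, eval_C, Pi.add_apply,
      Matrix.mulVec, dotProduct]

theorem DCirc_equiv {N N' : Matrix (Fin 3) (Fin 3) ℂ} (hN : N' * N = 1) (a : Fin 3 → ℂ)
    {h : MvPolynomial (Fin 3) ℂ} {d : ℕ} (hp : Prime h) (hd : h.totalDegree ≤ d) :
    ∃ g : MvPolynomial (Fin 3) ℂ, Prime g ∧ g.totalDegree ≤ d ∧
      ∀ x, eval x g = eval (a + N.mulVec x) h := by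
  have hN' : N * N' = 1 := mul_eq_one_comm.1 hN
  let φ : MvPolynomial (Fin 3) ℂ ≃ₐ[ℂ] MvPolynomial (Fin 3) ℂ := AlgEquiv.ofAlgHom
    (aeval fun i => C (a i) + ∑ j, C (N i j) * X j)
    (aeval fun i => C ((-N'.mulVec a) i) + ∑ j, C (N' i j) * X j)
    (AlgHom.ext fun g => MvPolynomial.funext fun x => by
      rw [AlgHom.comp_apply, DCirc_eval, DCirc_eval, Matrix.mulVec_add, Matrix.mulVec_mulVec, hN,
        Matrix.one_mulVec, neg_add_cancel_left, AlgHom.id_apply])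
    (AlgHom.ext fun g => MvPolynomial.funext fun x => by
      rw [AlgHom.comp_apply, DCirc_eval, DCirc_eval, Matrix.mulVec_add, Matrix.mulVec_neg,
        Matrix.mulVec_mulVec, Matrix.mulVec_mulVec, hN', Matrix.one_mulVec, Matrix.one_mulVec,
        add_neg_cancel_left, AlgHom.id_apply])
  refine ⟨φ h, (MulEquiv.prime_iff φ).2 hp, ?_, fun x => DCirc_eval a N x h⟩
  refine (totalDegree_aeval_le (s := 1) _ (fun i => ?_) h).trans (by rwa [one_mul])
  refine (totalDegree_add _ _).trans (max_le (by simp) ?_)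
  refine totalDegree_finsetSum_le fun l _ => (totalDegree_mul _ _).trans ?_
  simp

theorem DCirc_pos {v : Pt 3} (hv : v ≠ 0) : 0 < v ⬝ᵥ v :=
  lt_of_le_of_ne (Finset.sum_nonneg fun _ _ => mul_self_nonneg _)
    fun h => hv (dotProduct_self_eq_zero.1 h.symm)

theorem DCirc_frame {u : Pt 3} (hu : u ≠ 0) : ∃ (e f : Pt 3) (ρ : ℝ), 0 < ρ ∧ e ⬝ᵥ e = ρ ∧
    f ⬝ᵥ f = ρ ∧ e ⬝ᵥ f = 0 ∧ e ⬝ᵥ u = 0 ∧ f ⬝ᵥ u = 0 := by
  obtain ⟨e, he, h0⟩ : ∃ e : Pt 3, e ≠ 0 ∧ e ⬝ᵥ u = 0 := by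
    by_cases h : u 0 = 0
    · exact ⟨![1, 0, 0], fun e => by simpa using congrFun e 0,
        by simp [dotProduct, Fin.sum_univ_three, h]⟩
    · refine ⟨![u 1, -u 0, 0], fun e => h (by simpa using congrFun e 1), ?_⟩
      simp [dotProduct, Fin.sum_univ_three, mul_comm]
  have hμ := DCirc_pos hu
  refine ⟨e, (√(u ⬝ᵥ u))⁻¹ • crossProduct u e, e ⬝ᵥ e, DCirc_pos he, rfl, ?_, ?_, h0, ?_⟩
  · rw [smul_dotProduct, dotProduct_smul, cross_dot_cross, h0, smul_eq_mul, smul_eq_mul,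
      ← mul_assoc, ← mul_inv, Real.mul_self_sqrt hμ.le, mul_zero, sub_zero, ← mul_assoc,
      inv_mul_cancel₀ hμ.ne', one_mul]
  · rw [dotProduct_smul, dot_cross_self, smul_zero]
  · rw [smul_dotProduct, dotProduct_comm (crossProduct u e) u, dot_self_cross, smul_zero]

theorem DCirc_full {e f u : Pt 3} {ρ μ : ℝ} (hρ : 0 < ρ) (hμ : 0 < μ) (h1 : e ⬝ᵥ e = ρ)
    (h2 : f ⬝ᵥ f = ρ) (h3 : u ⬝ᵥ u = μ) (h4 : e ⬝ᵥ f = 0) (h5 : e ⬝ᵥ u = 0) (h6 : f ⬝ᵥ u = 0) :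
    ∃ M' : Matrix (Fin 3) (Fin 3) ℝ, M' * (Matrix.of fun i => ![e i, f i, u i]) = 1 := by
  refine ⟨Matrix.of ![ρ⁻¹ • e, ρ⁻¹ • f, μ⁻¹ • u], ?_⟩
  have k : ∀ (c : ℝ) (v w : Pt 3), ∑ l, c * v l * w l = c * (v ⬝ᵥ w) := fun c v w => by
    simp only [dotProduct, Finset.mul_sum, mul_assoc]
  ext i j
  fin_cases i <;> fin_cases j <;>
    simp [Matrix.mul_apply, k, h1, h2, h3, h4, h5, h6, dotProduct_comm f e, dotProduct_comm u e,
      dotProduct_comm u f, hρ.ne', hμ.ne']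

theorem DCirc_zero {x y : ℝ} (h : (x ^ 2 + y ^ 2) / 4 = 0) : x = 0 ∧ y = 0 :=
  ⟨pow_eq_zero_iff two_ne_zero |>.1 (by linarith [sq_nonneg x, sq_nonneg y]),
    pow_eq_zero_iff two_ne_zero |>.1 (by linarith [sq_nonneg x, sq_nonneg y])⟩

theorem DCirc_coord {a b : Pt 3} (hab : a ≠ b) :
    ∃ (N N' : Matrix (Fin 3) (Fin 3) ℂ) (Φ : ℝ × ℝ → ℂ × ℂ), N' * N = 1 ∧ Function.Injective Φ ∧
      (∀ z : ℝ, cx a + N.mulVec ![0, 0, (z : ℂ)] = cx (a + z • (b - a))) ∧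
      ∀ p, ∃ s t z : ℂ, cx a + N.mulVec ![s, t, z] = cx p ∧ Φ (cls a b p) = (s * t, z) ∧
        (s * t = 0 → s = 0 ∧ t = 0) := by
  obtain ⟨u, hu⟩ : ∃ u, u = b - a := ⟨_, rfl⟩
  have hu0 : u ≠ 0 := hu ▸ sub_ne_zero.2 hab.symm
  obtain ⟨e, f, ρ, hρ, h1, h2, h4, h5, h6⟩ := DCirc_frame hu0
  obtain ⟨μ, h3⟩ : ∃ μ, u ⬝ᵥ u = μ := ⟨_, rfl⟩
  have hμ : 0 < μ := h3 ▸ DCirc_pos hu0
  obtain ⟨M', hM⟩ := DCirc_full hρ hμ h1 h2 h3 h4 h5 h6
  obtain ⟨M, eM⟩ : ∃ M : Matrix (Fin 3) (Fin 3) ℝ, M = Matrix.of fun i => ![e i, f i, u i] :=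
    ⟨_, rfl⟩
  rw [← eM] at hM
  have hS : (!![1 / 2, -Complex.I / 2, 0; 1 / 2, Complex.I / 2, 0; 0, 0, 1] :
      Matrix (Fin 3) (Fin 3) ℂ) * !![1, 1, 0; Complex.I, -Complex.I, 0; 0, 0, 1] = 1 := by
    ext i j
    fin_cases i <;> fin_cases j <;> simp [Matrix.mul_apply, Fin.sum_univ_three] <;>
      first | linear_combination (-1 / 2 : ℂ) * Complex.I_mul_I |
        linear_combination (1 / 2 : ℂ) * Complex.I_mul_I
  have hv : ∀ x y z : ℝ, cx a + (M.map Complex.ofRealHom *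
      !![1, 1, 0; Complex.I, -Complex.I, 0; 0, 0, 1]).mulVec
        ![(x - Complex.I * y) / 2, (x + Complex.I * y) / 2, (z : ℂ)] =
      cx (a + (x • e + y • f + z • u)) := fun x y z => by
    funext i
    simp [eM, cx, Matrix.mulVec, dotProduct, Matrix.mul_apply, Fin.sum_univ_three]
    linear_combination (-(f i : ℂ) * y) * Complex.I_mul_I
  refine ⟨M.map Complex.ofRealHom * !![1, 1, 0; Complex.I, -Complex.I, 0; 0, 0, 1],
    !![1 / 2, -Complex.I / 2, 0; 1 / 2, Complex.I / 2, 0; 0, 0, 1] * M'.map Complex.ofRealHom,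
    fun r => ((((r.1 - μ * ((r.1 - r.2 + μ) / (2 * μ)) ^ 2) / (4 * ρ) : ℝ) : ℂ),
      (((r.1 - r.2 + μ) / (2 * μ) : ℝ) : ℂ)), ?_, fun r r' h => ?_, fun z => ?_, fun p => ?_⟩
  · rw [Matrix.mul_assoc, ← Matrix.mul_assoc (M'.map _), ← Matrix.map_mul, hM,
      Matrix.map_one _ (map_zero _) (map_one _), Matrix.one_mul, hS]
  · have k1 := Complex.ofReal_injective (congrArg Prod.fst h)
    have k2 := Complex.ofReal_injective (congrArg Prod.snd h)
    rw [k2, div_left_inj' (by positivity), sub_left_inj] at k1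
    rw [div_left_inj' (by positivity), k1] at k2
    exact Prod.ext k1 (by linarith)
  · have := hv 0 0 z
    simpa [hu] using this
  · obtain ⟨x, y, z, hp⟩ : ∃ x y z : ℝ, p = a + (x • e + y • f + z • u) := by
      refine ⟨M'.mulVec (p - a) 0, M'.mulVec (p - a) 1, M'.mulVec (p - a) 2, ?_⟩
      have k : M.mulVec (M'.mulVec (p - a)) = p - a := by
        rw [Matrix.mulVec_mulVec, mul_eq_one_comm.1 hM, Matrix.one_mulVec]
      generalize M'.mulVec (p - a) = w at k ⊢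
      funext i
      have k1 := congrFun k i
      simp [eM, Matrix.mulVec, dotProduct, Fin.sum_univ_three] at k1 ⊢
      linarith
    have hb : b = a + u := by rw [hu, add_sub_cancel]
    simp only [dotProduct, Fin.sum_univ_three] at h1 h2 h3 h4 h5 h6
    have d1 : d2 p a = ρ * (x ^ 2 + y ^ 2) + μ * z ^ 2 := by
      simp only [hp, d2, Fin.sum_univ_three, Pi.add_apply, Pi.smul_apply, smul_eq_mul]
      linear_combination x ^ 2 * h1 + y ^ 2 * h2 + z ^ 2 * h3 + 2 * x * y * h4 + 2 * x * z * h5 +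
        2 * y * z * h6
    have d3 : d2 p b = ρ * (x ^ 2 + y ^ 2) + μ * (z - 1) ^ 2 := by
      simp only [hp, hb, d2, Fin.sum_univ_three, Pi.add_apply, Pi.smul_apply, smul_eq_mul]
      linear_combination x ^ 2 * h1 + y ^ 2 * h2 + (z - 1) ^ 2 * h3 + 2 * x * y * h4 +
        2 * x * (z - 1) * h5 + 2 * y * (z - 1) * h6
    have d4 : (d2 p a - d2 p b + μ) / (2 * μ) = z := by
      rw [d1, d3, div_eq_iff (by positivity)]
      ring
    have d5 : ((x : ℂ) - Complex.I * y) / 2 * ((x + Complex.I * y) / 2) =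
        (((x ^ 2 + y ^ 2) / 4 : ℝ) : ℂ) := by
      push_cast
      linear_combination (-(y : ℂ) ^ 2 / 4) * Complex.I_mul_I
    refine ⟨_, _, _, (hv x y z).trans (by rw [← hp]), ?_, fun h => ?_⟩
    · simp only [cls]
      rw [d4, d5, d1, add_sub_cancel_right]
      congr 2
      field_simp
    · rw [d5, Complex.ofReal_eq_zero] at h
      obtain ⟨hx, hy⟩ := DCirc_zero h
      rw [hx, hy]
      simp

theorem DCirc_inj {p q : Pt 3} (h : cx p = cx q) : p = q :=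
  funext fun i => Complex.ofReal_injective (congrFun h i)

theorem d_circ : ∃ c : ℕ, ∀ (h : MvPolynomial (Fin 3) ℂ) (d : ℕ) (Y : Finset (Pt 3)) (a b : Pt 3),
    Prime h → h.totalDegree ≤ d → 1 ≤ d → (∀ y ∈ Y, eval (cx y) h = 0) → a ≠ b →
    d < (Y.filter fun y => OnL a b y).card →
      ((Y.image (cls a b)).filter fun r =>
        2 * d < (Y.filter fun p => cls a b p = r).card).card ≤ c * d ^ 2 := by
  obtain ⟨c, hc⟩ := d_circA
  refine ⟨c, fun h d Y a b hp hd h1 hY hab hL => ?_⟩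
  obtain ⟨N, N', Φ, hN, hΦ, k1, k2⟩ := DCirc_coord hab
  obtain ⟨g, g1, g2, g3⟩ := DCirc_equiv hN (cx a) hp hd
  choose s t z m1 m2 m3 using k2
  rw [← Finset.card_image_of_injective _ hΦ]
  refine hc g d g1 g2 ?_ _ fun r hr => ?_
  · choose! τ hτ using fun y (hy : y ∈ Y.filter fun y => OnL a b y) => (Finset.mem_filter.1 hy).2
    refine ⟨(Y.filter fun y => OnL a b y).image fun y => (τ y : ℂ), ?_, fun w hw => ?_⟩
    · rwa [Finset.card_image_of_injOn fun y hy y' hy' e => ?_]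
      rw [hτ y hy, hτ y' hy', Complex.ofReal_injective e]
    · obtain ⟨y, hy, rfl⟩ := Finset.mem_image.1 hw
      rw [g3, k1, ← hτ y hy]
      exact hY y (Finset.mem_filter.1 hy).1
  · obtain ⟨r, hr', rfl⟩ := Finset.mem_image.1 hr
    have h2 := (Finset.mem_filter.1 hr').2
    have e1 : ∀ p ∈ Y.filter fun p => cls a b p = r, s p * t p = (Φ r).1 ∧ z p = (Φ r).2 :=
      fun p hp => by
        rw [← (Finset.mem_filter.1 hp).2, m2]
        exact ⟨rfl, rfl⟩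
    have h0 : (Φ r).1 ≠ 0 := fun h0 => by
      have : (Y.filter fun p => cls a b p = r).card ≤ 1 :=
        Finset.card_le_one.2 fun p hp q hq => DCirc_inj (by
          obtain ⟨a1, a2⟩ := m3 p ((e1 p hp).1.trans h0)
          obtain ⟨a3, a4⟩ := m3 q ((e1 q hq).1.trans h0)
          rw [← m1 p, ← m1 q, a1, a2, a3, a4, (e1 p hp).2, (e1 q hq).2])
      omega
    have e2 : ∀ p ∈ Y.filter fun p => cls a b p = r, s p ≠ 0 ∧
        cx a + N.mulVec ![s p, (Φ r).1 / s p, (Φ r).2] = cx p := fun p hp => by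
      have a1 : s p ≠ 0 := fun e => h0 (by rw [← (e1 p hp).1, e, zero_mul])
      refine ⟨a1, ?_⟩
      rw [← (e1 p hp).1, ← (e1 p hp).2, mul_div_cancel_left₀ _ a1, m1]
    refine ⟨h0, (Y.filter fun p => cls a b p = r).image s, ?_, fun w hw => ?_⟩
    · rwa [Finset.card_image_of_injOn fun p hp q hq e => DCirc_inj ?_]
      rw [← (e2 p hp).2, ← (e2 q hq).2, e]
    · obtain ⟨p, hp, rfl⟩ := Finset.mem_image.1 hw
      refine ⟨(e2 p hp).1, ?_⟩
      rw [g3, (e2 p hp).2]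
      exact hY p (Finset.mem_filter.1 hp).1

end Vale.Agent.P054S
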