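import Vale.Agent.P054S.DDef

/-!
Three distances to points in general position leave two points.
-/

namespace Vale.Agent.P054S

open MvPolynomial Vale.Agent.P054A
open scoped Classical

/-- The triple product. -/
def dtri_tp (u v x : Pt 3) : ℝ :=
  (u 1 * v 2 - u 2 * v 1) * x 0 + (u 2 * v 0 - u 0 * v 2) * x 1 + (u 0 * v 1 - u 1 * v 0) * x 2

/-- The scalar product. -/
def dtri_sp (x y : Pt 3) : ℝ := x 0 * y 0 + x 1 * y 1 + x 2 * y 2

theorem dtri_sq {u v x y : Pt 3} (h1 : dtri_sp x x = dtri_sp y y) (h2 : dtri_sp x u = dtri_sp y u)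
    (h3 : dtri_sp x v = dtri_sp y v) : dtri_tp u v x ^ 2 = dtri_tp u v y ^ 2 := by
  have g : ∀ x : Pt 3, dtri_tp u v x ^ 2 =
      dtri_sp x x * (dtri_sp u u * dtri_sp v v - dtri_sp u v ^ 2) -
      dtri_sp x u * (dtri_sp x u * dtri_sp v v - dtri_sp u v * dtri_sp x v) +
      dtri_sp x v * (dtri_sp x u * dtri_sp u v - dtri_sp u u * dtri_sp x v) := fun x => by
    simp only [dtri_tp, dtri_sp]
    ring
  rw [g, g, h1, h2, h3]

theorem dtri_inj {u v x y : Pt 3} (hu : u ≠ 0) (hv : ∀ t : ℝ, v ≠ t • u)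
    (h1 : dtri_tp u v x = dtri_tp u v y) (h2 : dtri_sp x u = dtri_sp y u)
    (h3 : dtri_sp x v = dtri_sp y v) : x = y := by
  simp only [dtri_tp, dtri_sp] at h1 h2 h3
  obtain ⟨n0, e0⟩ : ∃ n, n = u 1 * v 2 - u 2 * v 1 := ⟨_, rfl⟩
  obtain ⟨n1, e1⟩ : ∃ n, n = u 2 * v 0 - u 0 * v 2 := ⟨_, rfl⟩
  obtain ⟨n2, e2⟩ : ∃ n, n = u 0 * v 1 - u 1 * v 0 := ⟨_, rfl⟩
  have hs : u 0 ^ 2 + u 1 ^ 2 + u 2 ^ 2 ≠ 0 := fun h => hu (by
    have a0 : u 0 = 0 := by nlinarith [sq_nonneg (u 0), sq_nonneg (u 1), sq_nonneg (u 2)]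
    have a1 : u 1 = 0 := by nlinarith [sq_nonneg (u 0), sq_nonneg (u 1), sq_nonneg (u 2)]
    have a2 : u 2 = 0 := by nlinarith [sq_nonneg (u 0), sq_nonneg (u 1), sq_nonneg (u 2)]
    funext i
    fin_cases i
    exacts [a0, a1, a2])
  have hn : n0 ^ 2 + n1 ^ 2 + n2 ^ 2 ≠ 0 := fun h => hv
      ((u 0 * v 0 + u 1 * v 1 + u 2 * v 2) / (u 0 ^ 2 + u 1 ^ 2 + u 2 ^ 2)) (by
    have a0 : n0 = 0 := by nlinarith [sq_nonneg n0, sq_nonneg n1, sq_nonneg n2]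
    have a1 : n1 = 0 := by nlinarith [sq_nonneg n0, sq_nonneg n1, sq_nonneg n2]
    have a2 : n2 = 0 := by nlinarith [sq_nonneg n0, sq_nonneg n1, sq_nonneg n2]
    rw [a0] at e0
    rw [a1] at e1
    rw [a2] at e2
    funext i
    rw [Pi.smul_apply, smul_eq_mul, div_mul_eq_mul_div, eq_div_iff hs]
    fin_cases i
    · show v 0 * _ = _ * u 0
      linear_combination u 1 * e2 - u 2 * e1
    · show v 1 * _ = _ * u 1
      linear_combination u 2 * e0 - u 0 * e2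
    · show v 2 * _ = _ * u 2
      linear_combination u 0 * e1 - u 1 * e0)
  funext i
  refine mul_left_cancel₀ hn ?_
  subst e0 e1 e2
  fin_cases i
  · show _ * x 0 = _ * y 0
    linear_combination (u 1 * v 2 - u 2 * v 1) * h1 +
      ((u 2 * v 0 - u 0 * v 2) * u 2 - (u 0 * v 1 - u 1 * v 0) * u 1) * h3 -
      ((u 2 * v 0 - u 0 * v 2) * v 2 - (u 0 * v 1 - u 1 * v 0) * v 1) * h2
  · show _ * x 1 = _ * y 1
    linear_combination (u 2 * v 0 - u 0 * v 2) * h1 +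
      ((u 0 * v 1 - u 1 * v 0) * u 0 - (u 1 * v 2 - u 2 * v 1) * u 2) * h3 -
      ((u 0 * v 1 - u 1 * v 0) * v 0 - (u 1 * v 2 - u 2 * v 1) * v 2) * h2
  · show _ * x 2 = _ * y 2
    linear_combination (u 0 * v 1 - u 1 * v 0) * h1 +
      ((u 1 * v 2 - u 2 * v 1) * u 1 - (u 2 * v 0 - u 0 * v 2) * u 0) * h3 -
      ((u 1 * v 2 - u 2 * v 1) * v 1 - (u 2 * v 0 - u 0 * v 2) * v 0) * h2

theorem dtri_fib {a b p q : Pt 3} (h1 : d2 p a = d2 q a) (h2 : d2 p b = d2 q b) :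
    dtri_sp (p - a) (p - a) = dtri_sp (q - a) (q - a) ∧
      dtri_sp (p - a) (b - a) = dtri_sp (q - a) (b - a) := by
  simp only [d2, Fin.sum_univ_three] at h1 h2
  simp only [dtri_sp, Pi.sub_apply]
  exact ⟨by linear_combination h1, by linear_combination (1 / 2) * h1 - (1 / 2) * h2⟩

theorem d_tri (Y : Finset (Pt 3)) {a b c : Pt 3} (hab : a ≠ b) (hc : ¬OnL a b c)
    (r : (ℝ × ℝ) × ℝ) : (Y.filter fun p => (cls a b p, d2 p c) = r).card ≤ 2 := by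
  rcases (Y.filter fun p => (cls a b p, d2 p c) = r).eq_empty_or_nonempty with h | ⟨q, hq⟩
  · rw [h]
    simp
  have k : ∀ p ∈ Y.filter fun p => (cls a b p, d2 p c) = r,
      ∀ p' ∈ Y.filter fun p => (cls a b p, d2 p c) = r,
      dtri_sp (p - a) (p - a) = dtri_sp (p' - a) (p' - a) ∧
      dtri_sp (p - a) (b - a) = dtri_sp (p' - a) (b - a) ∧
      dtri_sp (p - a) (c - a) = dtri_sp (p' - a) (c - a) := fun p hp p' hp' => by
    have e := (Finset.mem_filter.1 hp).2.trans (Finset.mem_filter.1 hp').2.symm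
    simp only [cls, Prod.mk.injEq] at e
    exact ⟨(dtri_fib e.1.1 e.1.2).1, (dtri_fib e.1.1 e.1.2).2, (dtri_fib e.1.1 e.2).2⟩
  refine (Finset.card_le_card_of_injOn (fun p => dtri_tp (b - a) (c - a) (p - a))
    (t := {dtri_tp (b - a) (c - a) (q - a), -dtri_tp (b - a) (c - a) (q - a)})
    (fun p hp => ?_) fun p hp p' hp' e => ?_).trans Finset.card_le_two
  · obtain ⟨k1, k2, k3⟩ := k p hp q hq
    simpa using sq_eq_sq_iff_eq_or_eq_neg.1 (dtri_sq k1 k2 k3)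
  · obtain ⟨-, k2, k3⟩ := k p hp p' hp'
    exact sub_left_injective (dtri_inj (sub_ne_zero.2 hab.symm)
      (fun t ht => hc ⟨t, by rw [← ht, add_sub_cancel]⟩) e k2 k3)

theorem d_line {Y : Finset (Pt 3)} {τ : ℕ} (hτ : nd2 Y ≤ τ) (a b : Pt 3) :
    (Y.filter fun c => OnL a b c).card ≤ 2 * τ + 2 := by
  exact modQ_col Y hτ (Finset.filter_subset _ _) ⟨a, b - a, fun q hq => (Finset.mem_filter.1 hq).2⟩

end Vale.Agent.P054S
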