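import Vale.Agent.P054S.DRank
import Vale.Agent.P054S.DTri
import Vale.Agent.P054S.DCirc

/-!
The counting contradiction on a surface.
-/

namespace Vale.Agent.P054S

open MvPolynomial Vale.Agent.P054A
open scoped Classical

/-- A set is covered by the part where two conditions hold and the two parts where one fails. -/
theorem dcore_cover {α : Type*} (Y : Finset α) (P Q P' Q' : α → Prop) [DecidablePred P']
    [DecidablePred Q'] [DecidablePred fun p => P p ∧ Q p] (hP : ∀ p, ¬P p → P' p)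
    (hQ : ∀ p, ¬Q p → Q' p) :
    Y.card ≤ (Y.filter fun p => P p ∧ Q p).card + (Y.filter P').card + (Y.filter Q').card := by
  refine le_trans (Finset.card_le_card (t := (Y.filter fun p => P p ∧ Q p) ∪ Y.filter P' ∪
    Y.filter Q') fun p hp => ?_) ((Finset.card_union_le _ _).trans
      (Nat.add_le_add_right (Finset.card_union_le _ _) _))
  simp only [Finset.mem_union, Finset.mem_filter]
  by_cases h1 : P p
  · by_cases h2 : Q p
    · exact Or.inl (Or.inl ⟨hp, h1, h2⟩)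
    · exact Or.inr ⟨hp, hQ p h2⟩
  · exact Or.inl (Or.inr ⟨hp, hP p h1⟩)

/-- Points close to `a` lie on the line through `a` and another close point. -/
theorem dcore_line {Y : Finset (Pt 3)} {τ q₁ q₂ g₁ g₂ : ℕ} (hτ : nd2 Y ≤ τ)
    (h1 : 8 * (τ + 1) ≤ q₁ * g₁) (h2 : 8 * (τ + 1) ≤ q₂ * g₂)
    (h3 : 4 * ((τ + 1) * (2 * g₁ + 1) * (2 * g₂ + 1)) < Y.card) {a b c : Pt 3} (ha : a ∈ Y)
    (hb : b ∈ nbh Y Y q₁ a) (hab : a ≠ b) (hc : c ∈ nbh Y Y q₂ a) : OnL a b c := by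
  by_contra hn
  have m1 := d_markov hτ h1 hb
  have m2 := d_markov hτ h2 hc
  have t := d_trip hτ ha (Finset.mem_filter.1 hb).1 (Finset.mem_filter.1 hc).1 g₁ g₂
  have k := dcore_cover Y (fun p => gap Y p a b ≤ g₁) (fun p => gap Y p a c ≤ g₂)
    (fun p => g₁ < gap Y p a b) (fun p => g₂ < gap Y p a c) (fun _ h => not_le.1 h)
    (fun _ h => not_le.1 h)
  have f := Finset.card_le_mul_card_image (f := fun p => (cls a b p, d2 p c))
    (Y.filter fun p => gap Y p a b ≤ g₁ ∧ gap Y p a c ≤ g₂) 2 fun r _ => d_tri _ hab hn r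
  omega

/-- Most points lie on few circles about the axis. -/
theorem dcore_rich {Y : Finset (Pt 3)} {τ d q g : ℕ} (hτ : nd2 Y ≤ τ)
    (h1 : 8 * (τ + 1) ≤ q * g) (h4 : 16 * d * ((τ + 1) * (2 * g + 1)) ≤ Y.card) {a b : Pt 3}
    (ha : a ∈ Y) (hb : b ∈ nbh Y Y q a) :
    4 * (Y.filter fun p => cls a b p ∉ (Y.image (cls a b)).filter fun r =>
      2 * d < (Y.filter fun p => cls a b p = r).card).card ≤ Y.card := by
  set R := (Y.image (cls a b)).filter fun r => 2 * d < (Y.filter fun p => cls a b p = r).card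
  have m1 := d_markov hτ h1 hb
  have t := d_pairs hτ ha (Finset.mem_filter.1 hb).1 g
  have k : (Y.filter fun p => cls a b p ∉ R).card ≤
      (Y.filter fun p => gap Y p a b ≤ g ∧ cls a b p ∉ R).card +
        (Y.filter fun p => g < gap Y p a b).card := by
    refine le_trans (Finset.card_le_card fun p hp => ?_) (Finset.card_union_le _ _)
    obtain ⟨hp1, hp2⟩ := Finset.mem_filter.1 hp
    rcases le_or_gt (gap Y p a b) g with h | h
    · exact Finset.mem_union_left _ (Finset.mem_filter.2 ⟨hp1, h, hp2⟩)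
    · exact Finset.mem_union_right _ (Finset.mem_filter.2 ⟨hp1, h⟩)
  have f := Finset.card_le_mul_card_image (f := cls a b)
    (Y.filter fun p => gap Y p a b ≤ g ∧ cls a b p ∉ R) (2 * d) fun r hr => by
      obtain ⟨p, hp, rfl⟩ := Finset.mem_image.1 hr
      obtain ⟨hp1, -, hp2⟩ := Finset.mem_filter.1 hp
      refine le_trans (Finset.card_le_card
        (Finset.filter_subset_filter _ (Finset.filter_subset _ _))) (not_lt.1 fun h => hp2 ?_)
      exact Finset.mem_filter.2 ⟨Finset.mem_image_of_mem _ hp1, h⟩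
  have s : ((Y.filter fun p => gap Y p a b ≤ g ∧ cls a b p ∉ R).image (cls a b)).card ≤
      (τ + 1) * (2 * g + 1) := by
    refine le_trans (Finset.card_le_card (Finset.image_subset_image fun p hp => ?_)) t
    obtain ⟨hp1, hp2, -⟩ := Finset.mem_filter.1 hp
    exact Finset.mem_filter.2 ⟨hp1, hp2⟩
  have e := f.trans (Nat.mul_le_mul_left _ s)
  have e2 : 16 * d * ((τ + 1) * (2 * g + 1)) = 8 * (2 * d * ((τ + 1) * (2 * g + 1))) := by ring
  omega

theorem d_core : ∃ c : ℕ, ∀ (Y : Finset (Pt 3)) (h : MvPolynomial (Fin 3) ℂ)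
    (τ d q₁ q₂ g₁ g₂ : ℕ), nd2 Y ≤ τ → Prime h → h.totalDegree ≤ d → 1 ≤ d →
    (∀ y ∈ Y, eval (cx y) h = 0) →
    Y.card ≤ 2 * (Y.filter fun a => 1 < (nbh Y Y q₁ a).card ∧ d < (nbh Y Y q₂ a).card).card →
    8 * (τ + 1) ≤ q₁ * g₁ → 8 * (τ + 1) ≤ q₂ * g₂ →
    4 * ((τ + 1) * (2 * g₁ + 1) * (2 * g₂ + 1)) < Y.card →
    16 * d * ((τ + 1) * (2 * g₁ + 1)) ≤ Y.card → 2 * (2 * τ + 2) < Y.card →
    c * d ^ 4 < Y.card → False := by
  obtain ⟨c, hc⟩ := d_circ
  refine ⟨4 * c ^ 2, fun Y h τ d q₁ q₂ g₁ g₂ hτ hp hd hd1 hY hG h1 h2 h3 h4 h5 h6 => ?_⟩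
  set G := Y.filter fun a => 1 < (nbh Y Y q₁ a).card ∧ d < (nbh Y Y q₂ a).card
  have key : ∀ a ∈ G, ∃ b, a ≠ b ∧ ∃ R : Finset (ℝ × ℝ), R.card ≤ c * d ^ 2 ∧
      4 * (Y.filter fun p => cls a b p ∉ R).card ≤ Y.card := by
    intro a ha
    obtain ⟨ha, ha1, ha2⟩ := Finset.mem_filter.1 ha
    obtain ⟨b, hb, hba⟩ := Finset.exists_mem_ne ha1 a
    refine ⟨b, hba.symm, _, hc h d Y a b hp hd hd1 hY hba.symm
      (ha2.trans_le (Finset.card_le_card fun z hz => ?_)), dcore_rich hτ h1 h4 ha hb⟩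
    exact Finset.mem_filter.2 ⟨(Finset.mem_filter.1 hz).1,
      dcore_line hτ h1 h2 h3 ha hb hba.symm hz⟩
  obtain ⟨a, ha⟩ : G.Nonempty := Finset.card_pos.1 (by omega)
  obtain ⟨b, hab, R, hR, hR'⟩ := key a ha
  have hl := d_line hτ a b
  obtain ⟨a', ha', hn⟩ := Finset.exists_mem_notMem_of_card_lt_card
    (s := Y.filter fun z => OnL a b z) (t := G) (by omega)
  have hn' : ¬OnL a b a' := fun h' => hn (Finset.mem_filter.2 ⟨(Finset.mem_filter.1 ha').1, h'⟩)
  obtain ⟨b', -, S, hS, hS'⟩ := key a' ha'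
  have k := dcore_cover Y (fun p => cls a b p ∈ R) (fun p => cls a' b' p ∈ S)
    (fun p => cls a b p ∉ R) (fun p => cls a' b' p ∉ S) (fun _ h => h) (fun _ h => h)
  have f := Finset.card_le_mul_card_image (f := fun p => (cls a b p, d2 p a'))
    (Y.filter fun p => cls a b p ∈ R ∧ cls a' b' p ∈ S) 2 fun r _ => d_tri _ hab hn' r
  have s : ((Y.filter fun p => cls a b p ∈ R ∧ cls a' b' p ∈ S).image
      fun p => (cls a b p, d2 p a')).card ≤ c * d ^ 2 * (c * d ^ 2) := by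
    refine le_trans (Finset.card_le_card (t := R ×ˢ S.image Prod.fst) fun r hr => ?_) ?_
    · obtain ⟨p, hp, rfl⟩ := Finset.mem_image.1 hr
      obtain ⟨-, hp1, hp2⟩ := Finset.mem_filter.1 hp
      exact Finset.mem_product.2 ⟨hp1, Finset.mem_image.2 ⟨_, hp2, rfl⟩⟩
    · rw [Finset.card_product]
      exact Nat.mul_le_mul hR (Finset.card_image_le.trans hS)
  have e : 4 * c ^ 2 * d ^ 4 = 4 * (c * d ^ 2 * (c * d ^ 2)) := by ring
  omega

end Vale.Agent.P054S
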