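import Vale.Agent.P054S.DDef

/-!
The curves lie on a surface of low degree.
-/

namespace Vale.Agent.P054S

open MvPolynomial Vale.Agent.P054A
open scoped Classical

theorem dsurf_deg {p : MvPolynomial (Fin 3) ℂ} (hp : Prime p) : 1 ≤ p.totalDegree := by
  by_contra h
  have h0 : p = C (coeff 0 p) := totalDegree_eq_zero_iff_eq_C.1 (by omega)
  refine hp.not_isUnit ?_
  rw [h0]
  refine (IsUnit.mk0 _ fun h1 => hp.ne_zero ?_).map C
  rw [h0, h1, map_zero]

theorem dsurf_fac {α : Type} (lab : α → Ideal (MvPolynomial (Fin 3) ℂ))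
    (g : MvPolynomial (Fin 3) ℂ) : g ≠ 0 → ∀ Z : Finset α, Z.Nonempty →
      (∀ y ∈ Z, (lab y).IsPrime ∧ g ∈ lab y) → ∃ h : MvPolynomial (Fin 3) ℂ, Prime h ∧
        h.totalDegree ≤ g.totalDegree ∧
        h.totalDegree * Z.card ≤ g.totalDegree * (Z.filter fun y => h ∈ lab y).card := by
  induction g using UniqueFactorizationMonoid.induction_on_prime with
  | h₁ => exact fun h => absurd rfl h
  | h₂ u hu =>
    rintro - Z ⟨y, hy⟩ h
    exact absurd (Ideal.eq_top_of_isUnit_mem _ (h y hy).2 hu) (h y hy).1.ne_top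
  | h₃ a p ha hp ih =>
    intro _ Z _ h
    rw [totalDegree_mul_of_isDomain hp.ne_zero ha]
    by_cases h1 : p.totalDegree * Z.card ≤
        (p.totalDegree + a.totalDegree) * (Z.filter fun y => p ∈ lab y).card
    · exact ⟨p, hp, Nat.le_add_right _ _, h1⟩
    have h2 := Finset.card_filter_add_card_filter_not (s := Z) fun y => p ∈ lab y
    rw [← h2, not_le, add_mul, mul_add, Nat.add_lt_add_iff_left] at h1
    obtain ⟨q, hq, h3, h4⟩ := ih ha (Z.filter fun y => ¬p ∈ lab y)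
      (Finset.card_pos.1 (Nat.pos_of_mul_pos_left (Nat.zero_le _ |>.trans_lt h1))) fun y hy => by
        obtain ⟨h5, h6⟩ := Finset.mem_filter.1 hy
        exact ⟨(h y h5).1, ((h y h5).1.mem_or_mem (h y h5).2).resolve_left h6⟩
    refine ⟨q, hq, h3.trans (Nat.le_add_left _ _), ?_⟩
    have h5 : ((Z.filter fun y => ¬p ∈ lab y).filter fun y => q ∈ lab y).card ≤
        (Z.filter fun y => q ∈ lab y).card :=
      Finset.card_le_card (Finset.filter_subset_filter _ (Finset.filter_subset _ _))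
    have h6 := h4.trans (Nat.mul_le_mul_left _ h5)
    have h7 : q.totalDegree * (Z.filter fun y => p ∈ lab y).card ≤
        p.totalDegree * (Z.filter fun y => q ∈ lab y).card := by
      refine Nat.le_of_mul_le_mul_left ?_ ((dsurf_deg hq).trans h3)
      have h8 := Nat.mul_le_mul_left q.totalDegree h1.le
      have h9 := Nat.mul_le_mul_left p.totalDegree h6
      nlinarith
    rw [← h2, mul_add, add_mul]
    exact Nat.add_le_add h7 h6

theorem d_surf {c w e : ℕ} {Y : Finset (Pt 3)} {lab : Pt 3 → Ideal (MvPolynomial (Fin 3) ℂ)}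
    (hY : Cur c w Y lab) (hne : Y.Nonempty) (he : 6 * c * Y.card < w * (e + 1) ^ 2) :
    ∃ h : MvPolynomial (Fin 3) ℂ, Prime h ∧ 1 ≤ h.totalDegree ∧ h.totalDegree ≤ e ∧
      h.totalDegree * Y.card ≤ e * (Y.filter fun y => h ∈ lab y).card := by
  have h1 : (∑ Γ ∈ Y.image lab, dg 1 Γ) * w ≤ c * Y.card := by
    rw [Finset.card_eq_sum_card_image lab Y, Finset.sum_mul, Finset.mul_sum]
    refine Finset.sum_le_sum fun Γ hΓ => ?_
    obtain ⟨y, hy, rfl⟩ := Finset.mem_image.1 hΓ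
    exact (hY y hy).2.2
  have h2 : 6 * ∑ Γ ∈ Y.image lab, dg 1 Γ < (e + 1) ^ 2 := by
    refine Nat.lt_of_mul_lt_mul_left (a := w) (lt_of_le_of_lt ?_ he)
    nlinarith
  have h3 : H ((Y.image lab).inf id) e ≤ (∑ Γ ∈ Y.image lab, dg 1 Γ) * (e + 1) := by
    refine (H_le_sum (Y.image lab) id (fun g hg => Submodule.mem_finsetInf.2 hg) e).trans ?_
    rw [Finset.sum_mul]
    refine Finset.sum_le_sum fun Γ hΓ => ?_
    obtain ⟨y, hy, rfl⟩ := Finset.mem_image.1 hΓ
    simpa using (hY y hy).1.H_le e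
  have h4 : H ((Y.image lab).inf id) e < H (⊥ : Ideal (MvPolynomial (Fin 3) ℂ)) e := by
    have h5 := projA_pow e 3
    rw [H_bot, Fintype.card_fin]
    have h6 : Nat.factorial 3 = 6 := rfl
    rw [h6, pow_succ] at h5
    have h7 := Nat.mul_lt_mul_of_pos_right h2 (Nat.succ_pos e)
    nlinarith
  obtain ⟨g, hg, hg0, hd⟩ := exists_notin_of_H_lt h4
  obtain ⟨h, hp, h5, h6⟩ := dsurf_fac lab g (fun h0 => hg0 (h0 ▸ Ideal.zero_mem _)) Y hne
    fun y hy => ⟨(hY y hy).1.prime,
      Submodule.mem_finsetInf.1 hg (lab y) (Finset.mem_image_of_mem lab hy)⟩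
  exact ⟨h, hp, dsurf_deg hp, h5.trans hd, h6.trans (Nat.mul_le_mul_right _ hd)⟩

end Vale.Agent.P054S
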