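import Vale.Agent.P054S.DExt
import Vale.Agent.P054S.DSurf
import Vale.Agent.P054S.DClu
import Vale.Agent.P054S.DCore

/-!
Dense curves are excluded (architect helper3).
-/

namespace Vale.Agent.P054S

open MvPolynomial Vale.Agent.P054A Sum
open Vale.Agent.P054 (V3 V6 Mot Fam ND RB GProp LogB Col Pins)
open scoped Classical

theorem dc_exp {x : ℕ} (hx : 608 * 610 ≤ x) : x ^ 304 < 2 ^ x := by
  have h1 : x ≤ (x / 608) ^ 2 := by
    have h2 : 610 ≤ x / 608 := by omega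
    have h3 : x ≤ 610 * (x / 608) := by omega
    calc x ≤ 610 * (x / 608) := h3
      _ ≤ (x / 608) * (x / 608) := Nat.mul_le_mul_right _ h2
      _ = _ := (sq _).symm
  calc x ^ 304 ≤ ((x / 608) ^ 2) ^ 304 := Nat.pow_le_pow_left h1 _
    _ = (x / 608) ^ 608 := by rw [← pow_mul]
    _ < (2 ^ (x / 608)) ^ 608 := Nat.pow_lt_pow_left Nat.lt_two_pow_self (by omega)
    _ = 2 ^ (x / 608 * 608) := by rw [← pow_mul]
    _ ≤ 2 ^ x := Nat.pow_le_pow_right (by norm_num) (Nat.div_mul_le_self _ _)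

theorem dc_root (τ : ℕ) : ∃ x : ℕ, x ^ 100 ≤ τ ∧ τ < (x + 1) ^ 100 := by
  have hex : ∃ x : ℕ, τ < (x + 1) ^ 100 :=
    ⟨τ, (Nat.lt_succ_self τ).trans_le (Nat.le_self_pow (by norm_num) _)⟩
  refine ⟨Nat.find hex, ?_, Nat.find_spec hex⟩
  rcases h : Nat.find hex with _ | y
  · simp
  · exact not_lt.1 (Nat.find_min hex (m := y) (by omega))

theorem dc_succ {x k : ℕ} (hx : 2 ^ k ≤ x) : (x + 1) ^ k ≤ x ^ (k + 1) := by
  have h1 : 1 ≤ x := Nat.one_le_two_pow.trans hx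
  calc (x + 1) ^ k ≤ (2 * x) ^ k := Nat.pow_le_pow_left (by omega) _
    _ = x ^ k * 2 ^ k := by rw [mul_pow, mul_comm]
    _ ≤ x ^ k * x := Nat.mul_le_mul_left _ hx
    _ = _ := (pow_succ _ _).symm

/-- `C * x ^ i < x ^ j` for large `x`. -/
theorem dc_lt {x C i j : ℕ} (hC : C < x) (h : i < j) : C * x ^ i < x ^ j := by
  have h1 : 0 < x := by omega
  calc C * x ^ i < x * x ^ i := Nat.mul_lt_mul_of_pos_right hC (Nat.pow_pos h1)
    _ = x ^ (i + 1) := (pow_succ' _ _).symm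
    _ ≤ x ^ j := Nat.pow_le_pow_right h1 h

theorem dc_surf : ∃ c₀ : ℕ, ∀ (Y : Finset (Pt 3)) (lab : Pt 3 → Ideal (MvPolynomial (Fin 3) ℂ))
    (h : MvPolynomial (Fin 3) ℂ) (c x τ d : ℕ), 10 ^ 4 + c₀ * (c + 1) ^ 2 < x → 608 * 610 ≤ x →
    nd2 Y ≤ τ → τ + 1 ≤ x ^ 101 → Cur c (x ^ 99) Y lab → Prime h → h.totalDegree = d → 1 ≤ d →
    d ≤ x ^ 27 → (∀ y ∈ Y, h ∈ lab y) → d * x ^ 122 ≤ 2 * Y.card → Y.card ≤ x ^ 152 → False := by
  obtain ⟨c₁, h₁⟩ := d_good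
  obtain ⟨c₂, h₂⟩ := d_core
  refine ⟨4 * c₁ + 2 * c₂, fun Y lab h c x τ d hx hx' hτ hτx hY hp hd hd1 hdx hh hn hN => ?_⟩
  have x1 : 1 ≤ x := by omega
  have hm : ∀ {i j : ℕ}, i ≤ j → x ^ i ≤ x ^ j := fun hij => Nat.pow_le_pow_right x1 hij
  have hp1 : ∀ i : ℕ, 1 ≤ x ^ i := fun i => Nat.pow_pos x1
  have hq : d * (x ^ 97 / d) ≤ x ^ 97 := Nat.mul_div_le _ _
  have hq1 : 1 ≤ x ^ 97 / d := Nat.div_pos (hdx.trans (hm (by norm_num))) hd1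
  have hq2 : x ^ 97 ≤ 2 * (d * (x ^ 97 / d)) := by
    have a1 := Nat.div_add_mod (x ^ 97) d
    have a2 := Nat.mod_lt (x ^ 97) hd1
    have a3 : d * 1 ≤ d * (x ^ 97 / d) := Nat.mul_le_mul_left _ hq1
    omega
  have hg := h₁ c (x ^ 99) (x ^ 97) (x ^ 97 / d) d x (c * x ^ 53) Y lab hY (hp1 _) hq1
    (((Nat.pow_le_pow_left hN 2).trans_eq (by rw [← pow_mul])).trans_lt (dc_exp hx'))
    ((Nat.mul_le_mul_left _ hN).trans_eq (by ring)) (by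
      have a1 : d * (x ^ 97 / d * x + c * x ^ 53) ≤ x ^ 98 + c * x ^ 98 :=
        calc _ = d * (x ^ 97 / d) * x + c * (d * x ^ 53) := by ring
          _ ≤ x ^ 97 * x + c * (x ^ 27 * x ^ 53) := by gcongr
          _ = x ^ 98 + c * x ^ 80 := by ring
          _ ≤ _ := by have := hm (show 80 ≤ 98 by norm_num); gcongr
      have a2 : x ^ 97 * x + c * x ^ 53 ≤ x ^ 98 + c * x ^ 98 := by
        have := hm (show 53 ≤ 98 by norm_num)
        rw [← pow_succ]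
        gcongr
      calc _ ≤ 2 * (c + 1) * c₁ * (x ^ 98 + c * x ^ 98 + (x ^ 98 + c * x ^ 98)) := by
            gcongr
            omega
        _ = 4 * c₁ * (c + 1) ^ 2 * x ^ 98 := by ring
        _ < x ^ 99 := dc_lt (by nlinarith [Nat.zero_le (c₂ * (c + 1) ^ 2)]) (by norm_num))
  have b1 : 2 * (8 * x ^ 4) + 1 ≤ 17 * x ^ 4 := by have := hp1 4; omega
  have b2 : 2 * (16 * d * x ^ 4) + 1 ≤ 33 * (d * x ^ 4) := by
    have := Nat.mul_pos hd1 (hp1 4)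
    rw [mul_assoc 16]
    omega
  have b3 : ∀ {C i : ℕ}, 2 * C < x → i < 122 → C * (d * x ^ i) < Y.card := fun {C i} hC hi => by
    have a1 := Nat.mul_lt_mul_of_pos_left (dc_lt hC hi) hd1
    have a2 : d * (2 * C * x ^ i) = 2 * (C * (d * x ^ i)) := by ring
    omega
  have b4 : x ^ 101 ≤ d * x ^ 101 := Nat.le_mul_of_pos_left _ hd1
  have b5 : 2 * c₂ < x := by
    have : (4 * c₁ + 2 * c₂) * 1 ≤ (4 * c₁ + 2 * c₂) * (c + 1) ^ 2 :=
      Nat.mul_le_mul_left _ (Nat.pow_pos (Nat.succ_pos c))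
    omega
  refine h₂ Y h τ d (x ^ 97) (x ^ 97 / d) (8 * x ^ 4) (16 * d * x ^ 4) hτ hp hd.le hd1
    (fun y hy => (hY y hy).2.1 h (hh y hy)) hg ?_ ?_ ?_ ?_ ?_ ?_
  · exact (Nat.mul_le_mul_left _ hτx).trans_eq (by ring)
  · calc 8 * (τ + 1) ≤ 8 * x ^ 101 := Nat.mul_le_mul_left _ hτx
      _ = x ^ 97 * (8 * x ^ 4) := by ring
      _ ≤ 2 * (d * (x ^ 97 / d)) * (8 * x ^ 4) := Nat.mul_le_mul_right _ hq2
      _ = _ := by ring
  · calc _ ≤ 4 * (x ^ 101 * (17 * x ^ 4) * (33 * (d * x ^ 4))) := by gcongr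
      _ = 2244 * (d * x ^ 109) := by ring
      _ < _ := b3 (by omega) (by norm_num)
  · calc _ ≤ 16 * d * (x ^ 101 * (17 * x ^ 4)) := by gcongr
      _ = 272 * (d * x ^ 105) := by ring
      _ ≤ _ := (b3 (by omega) (by norm_num)).le
  · have := b3 (C := 4) (i := 101) (by omega) (by norm_num)
    omega
  · calc c₂ * d ^ 4 = c₂ * (d * d ^ 3) := by ring
      _ ≤ c₂ * (d * (x ^ 27) ^ 3) := by gcongr
      _ = c₂ * (d * x ^ 81) := by rw [← pow_mul]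
      _ < _ := b3 b5 (by norm_num)

theorem dc : ∃ τ₀ : ℕ, ∀ (P : Finset (Fin 3 → ℝ)) (τ w : ℕ), τ₀ ≤ τ → nd2 P ≤ τ →
    τ ^ 149 ≤ P.card ^ 100 → P.card ^ 100 ≤ τ ^ 151 → τ ^ 99 ≤ w ^ 100 →
      ∃ P' ⊆ P, P.card ≤ 2 * P'.card ∧ CapT (P'.image cx) w 1 := by
  obtain ⟨c₀, h₀⟩ := dc_surf
  obtain ⟨c, -, h₁⟩ := d_ext
  obtain ⟨x₀, e₀⟩ : ∃ x₀, x₀ = 10 ^ 4 + c₀ * (c + 1) ^ 2 + 6 * c + 2 ^ 151 := ⟨_, rfl⟩
  refine ⟨(x₀ + 1) ^ 100, fun P τ w hτ₀ hτ hl hu hw => ?_⟩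
  obtain ⟨x, a1, a2⟩ := dc_root τ
  have hx : x₀ < x + 1 - 0 := by
    have := lt_of_pow_lt_pow_left₀ 100 (Nat.zero_le _) (hτ₀.trans_lt a2)
    omega
  have e1 : 608 * 610 < 2 ^ 100 := by norm_num
  have e2 : 2 ^ 100 ≤ 2 ^ 151 := Nat.pow_le_pow_right (by norm_num) (by norm_num)
  have x1 : 1 ≤ x := by omega
  have b1 : x ^ 99 ≤ w := le_of_pow_le_pow_left₀ (n := 100) (by norm_num) (Nat.zero_le _)
    (((pow_right_comm x 99 100).le.trans (Nat.pow_le_pow_left a1 99)).trans hw)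
  have b2 : x ^ 149 ≤ P.card := le_of_pow_le_pow_left₀ (n := 100) (by norm_num) (Nat.zero_le _)
    (((pow_right_comm x 149 100).le.trans (Nat.pow_le_pow_left a1 149)).trans hl)
  have b3 : P.card ≤ x ^ 152 := (le_of_pow_le_pow_left₀ (n := 100) (by norm_num) (Nat.zero_le _)
    ((hu.trans (Nat.pow_le_pow_left a2.le 151)).trans
      (pow_right_comm (x + 1) 100 151).le)).trans (dc_succ (by omega))
  have b4 : τ + 1 ≤ x ^ 101 := (Nat.succ_le_of_lt a2).trans (dc_succ (by omega))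
  by_contra hc
  obtain ⟨Y, c1, lab, c2, c3⟩ := h₁ P (x ^ 99)
    ((Nat.mul_le_mul_left _ b3).trans_lt ((dc_lt (by omega) (by norm_num)).trans_eq
      (pow_mul x 99 2)))
    fun ⟨P', d1, d2, d3⟩ => hc ⟨P', d1, d2, fun j j1 j2 Q hQ =>
      (d3 j j1 j2 Q hQ).imp fun _ hg => ⟨hg.1, hg.2.1.trans b1, hg.2.2⟩⟩
  have c4 : Y.card ≤ x ^ 152 := (Finset.card_le_card c1).trans b3
  have c5 : 1 ≤ x ^ 149 := Nat.pow_pos x1
  obtain ⟨h, d1, d2, d3, d4⟩ := d_surf (e := x ^ 27) c3 (Finset.card_pos.1 (by omega))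
    (calc 6 * c * Y.card ≤ 6 * c * x ^ 152 := Nat.mul_le_mul_left _ c4
      _ < x ^ 153 := dc_lt (by omega) (by norm_num)
      _ = x ^ 99 * (x ^ 27) ^ 2 := by ring
      _ ≤ _ := by gcongr; omega)
  refine h₀ _ lab h c x τ _ (by omega) (by omega)
    ((nd2_mono ((Finset.filter_subset _ _).trans c1)).trans hτ) b4 (c3.filter h) d1 rfl d2 d3
    (fun y hy => (Finset.mem_filter.1 hy).2) ?_ ((Finset.card_filter_le _ _).trans c4)
  refine Nat.le_of_mul_le_mul_left ?_ (Nat.pow_pos (n := 27) x1)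
  calc x ^ 27 * (h.totalDegree * x ^ 122) = h.totalDegree * x ^ 149 := by ring
    _ ≤ h.totalDegree * (2 * Y.card) := Nat.mul_le_mul_left _ (b2.trans c2)
    _ = 2 * (h.totalDegree * Y.card) := by ring
    _ ≤ 2 * (x ^ 27 * _) := Nat.mul_le_mul_left _ d4
    _ = _ := by ring

end Vale.Agent.P054S
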