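import Vale.Agent.P054S.DDef

/-!
Few conics about an axis lie on a surface through the axis.
-/

namespace Vale.Agent.P054S

open MvPolynomial Vale.Agent.P054A
open scoped Classical

/-- The restriction of `h` to the conics, cleared of denominators. -/
noncomputable def cnc (h : MvPolynomial (Fin 3) ℂ) (d : ℕ) :
    Polynomial (MvPolynomial (Fin 2) ℂ) :=
  ∑ m ∈ h.support, Polynomial.monomial (m 0 + d - m 1) (C (coeff m h) * (X 0 ^ m 1 * X 1 ^ m 2))

theorem cnc_sup {h : MvPolynomial (Fin 3) ℂ} {d : ℕ} (hd : h.totalDegree ≤ d) {m : Fin 3 →₀ ℕ}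
    (hm : m ∈ h.support) : m 0 + m 1 + m 2 ≤ d := by
  have h1 := (le_totalDegree hm).trans hd
  rwa [Finsupp.sum_fintype _ _ (fun _ => rfl), Fin.sum_univ_three] at h1

theorem cnc_deg {h : MvPolynomial (Fin 3) ℂ} {d : ℕ} (hd : h.totalDegree ≤ d) :
    (cnc h d).natDegree ≤ 2 * d := by
  refine Polynomial.natDegree_sum_le_of_forall_le _ _ fun m hm => ?_
  have h1 := cnc_sup hd hm
  exact (Polynomial.natDegree_monomial_le _).trans (by omega)

theorem cnc_coeff {h : MvPolynomial (Fin 3) ℂ} {d : ℕ} (hd : h.totalDegree ≤ d) (k : ℕ) :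
    ((cnc h d).coeff k).totalDegree ≤ d := by
  rw [cnc, Polynomial.finsetSum_coeff]
  refine totalDegree_finsetSum_le fun m hm => ?_
  have h1 := cnc_sup hd hm
  rw [Polynomial.coeff_monomial]
  split_ifs
  · refine (totalDegree_mul _ _).trans ?_
    rw [totalDegree_C, zero_add]
    refine (totalDegree_mul _ _).trans ?_
    rw [totalDegree_X_pow, totalDegree_X_pow]
    omega
  · simp

theorem cnc_eval {h : MvPolynomial (Fin 3) ℂ} {d : ℕ} (hd : h.totalDegree ≤ d) {A : Type}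
    [CommRing A] [Algebra ℂ A] (a b c : A) :
    Polynomial.eval₂ (aeval ![a * b, c] : MvPolynomial (Fin 2) ℂ →ₐ[ℂ] A).toRingHom a (cnc h d)
      = a ^ d * aeval ![a, b, c] h := by
  rw [cnc, Polynomial.eval₂_finsetSum, aeval_def, eval₂_eq', Finset.mul_sum]
  refine Finset.sum_congr rfl fun m hm => ?_
  have h1 := cnc_sup hd hm
  obtain ⟨e, he⟩ : ∃ e, d = m 1 + e := ⟨d - m 1, by omega⟩
  rw [Polynomial.eval₂_monomial, Fin.prod_univ_three, show m 0 + d - m 1 = m 0 + e by omega, he]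
  simp only [AlgHom.toRingHom_eq_coe, RingHom.coe_coe, map_mul, map_pow, aeval_X, aeval_C,
    Matrix.cons_val_zero, Matrix.cons_val_one, Matrix.cons_val_two, Matrix.tail_cons,
    Matrix.head_cons]
  ring

theorem cnc_zero {h : MvPolynomial (Fin 3) ℂ} {d : ℕ} (hd : h.totalDegree ≤ d) {u z : ℂ}
    {U : Finset ℂ} (hU : 2 * d < U.card) (hs : ∀ s ∈ U, s ≠ 0 ∧ eval ![s, u / s, z] h = 0)
    (k : ℕ) : eval ![u, z] ((cnc h d).coeff k) = 0 := by
  have h1 : (cnc h d).map (eval ![u, z]) = 0 := by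
    refine Polynomial.eq_zero_of_natDegree_lt_card_of_eval_eq_zero' _ U (fun s hm => ?_)
      ((Polynomial.natDegree_map_le.trans (cnc_deg hd)).trans_lt hU)
    have h2 := cnc_eval hd s (u / s) z
    rw [mul_div_cancel₀ _ (hs s hm).1, aeval_eq_eval, (hs s hm).2, mul_zero] at h2
    rw [Polynomial.eval_map]
    exact h2
  rw [← Polynomial.coeff_map, h1, Polynomial.coeff_zero]

theorem cnc_axis {h : MvPolynomial (Fin 3) ℂ} {d : ℕ} (hd : h.totalDegree ≤ d) {Z : Finset ℂ}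
    (hZ : d < Z.card) (hz : ∀ z ∈ Z, eval ![0, 0, z] h = 0) (z : ℂ) : eval ![0, 0, z] h = 0 := by
  have h0 : ∀ w : ℂ, Polynomial.eval w (aeval ![0, 0, Polynomial.X] h) = eval ![0, 0, w] h := by
    intro w
    rw [← Polynomial.coe_aeval_eq_eval, ← AlgHom.comp_apply, comp_aeval, aeval_eq_eval]
    congr 2
    funext i
    fin_cases i <;> simp
  have h1 : (aeval ![0, 0, Polynomial.X] h : Polynomial ℂ) = 0 := by
    refine Polynomial.eq_zero_of_natDegree_lt_card_of_eval_eq_zero' _ Z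
      (fun w hw => (h0 w).trans (hz w hw)) (lt_of_le_of_lt ?_ hZ)
    have h2 := aeval_natDegree_le (n := 1) h hd ![0, 0, Polynomial.X] fun i => by
      fin_cases i <;> simp
    rwa [mul_one] at h2
  rw [← h0, h1, Polynomial.eval_zero]

theorem cnc_pd : PD (1 + 1) (⊥ : Ideal (MvPolynomial (Fin 2) ℂ)) := by
  have h := PD_bot (σ := Fin 2)
  rwa [Fintype.card_fin] at h

/-- A plane curve has one equation. -/
theorem cnc_prin {Q : Ideal (MvPolynomial (Fin 2) ℂ)} (hQ : PD 1 Q) {g : MvPolynomial (Fin 2) ℂ}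
    (h0 : g ≠ 0) (hg : g ∈ Q) : ∃ q, Prime q ∧ Ideal.span {q} = Q := by
  have hP := hQ.prime
  obtain ⟨q, h1, h2⟩ :=
    Ideal.IsPrime.exists_mem_prime_of_ne_bot hP fun e => h0 (by rwa [e] at hg)
  have h3 : Ideal.span {q} ≤ Q := (Ideal.span_singleton_le_iff_mem _).2 h1
  obtain ⟨j, hj⟩ := exists_PD ((Ideal.span_singleton_prime h2.ne_zero).2 h2)
  have h4 := hj.dim_le hQ h3
  have h5 := cnc_pd.dim_lt hj (bot_lt_iff_ne_bot.2 fun e =>
    h2.ne_zero (Ideal.span_singleton_eq_bot.1 e))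
  obtain rfl : j = 1 := by omega
  exact ⟨q, h2, hj.eq_of_le hQ h3⟩

/-- A curve of conics on the surface does not occur. -/
theorem cnc_key {h : MvPolynomial (Fin 3) ℂ} {d : ℕ} (hp : Prime h) (hd : h.totalDegree ≤ d)
    (hz : ∀ z, eval ![0, 0, z] h = 0) {q : MvPolynomial (Fin 2) ℂ} (hq : Prime q)
    (hk : ∀ k, q ∣ (cnc h d).coeff k) {p : Fin 2 → ℂ} (h0 : eval p q = 0) : p 0 = 0 := by
  obtain ⟨t, ht⟩ := (Polynomial.C_dvd_iff_dvd_coeff _ _).2 hk
  have h1 := cnc_eval hd (X 0 : MvPolynomial (Fin 3) ℂ) (X 1) (X 2)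
  have h2 : (![X 0, X 1, X 2] : Fin 3 → MvPolynomial (Fin 3) ℂ) = X := by
    funext i
    fin_cases i <;> rfl
  rw [h2, aeval_X_left_apply, ht, Polynomial.eval₂_mul, Polynomial.eval₂_C] at h1
  have h3 : ∀ a b c : ℂ, eval ![a, b, c] ((aeval ![X 0 * X 1, X 2] : MvPolynomial (Fin 2) ℂ →ₐ[ℂ]
      MvPolynomial (Fin 3) ℂ).toRingHom q) = eval ![a * b, c] q := by
    intro a b c
    rw [AlgHom.toRingHom_eq_coe, RingHom.coe_coe, ← aeval_eq_eval, ← AlgHom.comp_apply, comp_aeval,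
      aeval_eq_eval]
    congr 2
    funext i
    fin_cases i <;> simp
  generalize Polynomial.eval₂ _ (X 0 : MvPolynomial (Fin 3) ℂ) t = t' at h1
  generalize (aeval ![X 0 * X 1, X 2] : MvPolynomial (Fin 2) ℂ →ₐ[ℂ]
      MvPolynomial (Fin 3) ℂ).toRingHom q = q' at h1 h3
  rcases hp.dvd_or_dvd (show h ∣ q' * t' from h1 ▸ Dvd.intro_left _ rfl) with ⟨v, rfl⟩ | ⟨v, rfl⟩
  · have h4 : q ∈ Ideal.span {(X 0 : MvPolynomial (Fin 2) ℂ)} := by
      by_contra hn
      obtain ⟨w, b1, b2⟩ := exists_on_ne ((Ideal.span_singleton_prime (X_ne_zero 0)).2 X_prime) hn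
      have b3 : w 0 = 0 := by simpa using b1 _ (Ideal.mem_span_singleton_self _)
      have b4 := h3 0 0 (w 1)
      rw [map_mul, hz, zero_mul, mul_zero] at b4
      refine b2 (Eq.trans ?_ b4.symm)
      congr 2
      funext i
      fin_cases i <;> simp [b3]
    obtain ⟨w, hw⟩ := ((X_prime.irreducible.associated_of_dvd hq.irreducible
      (Ideal.mem_span_singleton.1 h4)).symm).dvd
    have b1 := congrArg (eval p) hw
    rwa [map_mul, h0, zero_mul, eval_X] at b1
  · rw [mul_comm h, ← mul_assoc] at h1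
    have b1 := congrArg (eval ![1, p 0, p 1]) (mul_right_cancel₀ hp.ne_zero h1)
    have b2 : (![p 0, p 1] : Fin 2 → ℂ) = p := by
      funext i
      fin_cases i <;> rfl
    rw [map_mul, h3, one_mul, b2, h0] at b1
    simp at b1

theorem d_circA : ∃ c : ℕ, ∀ (h : MvPolynomial (Fin 3) ℂ) (d : ℕ), Prime h → h.totalDegree ≤ d →
    (∃ Z : Finset ℂ, d < Z.card ∧ ∀ z ∈ Z, eval ![0, 0, z] h = 0) →
    ∀ R : Finset (ℂ × ℂ), (∀ r ∈ R, r.1 ≠ 0 ∧ ∃ U : Finset ℂ, 2 * d < U.card ∧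
      ∀ s ∈ U, s ≠ 0 ∧ eval ![s, r.1 / s, r.2] h = 0) → R.card ≤ c * d ^ 2 := by
  refine ⟨cB 2 * (cB 2 * dg (1 + 1) (⊥ : Ideal (MvPolynomial (Fin 2) ℂ))),
    fun h d hp hd ⟨Z, hZ, hz⟩ R hR => ?_⟩
  have hax := cnc_axis hd hZ hz
  have h1 : 1 ≤ d := by
    by_contra hn
    have b1 := totalDegree_eq_zero_iff_eq_C.1 (show h.totalDegree = 0 by omega)
    have b2 := hax 0
    rw [b1, eval_C] at b2
    exact hp.ne_zero (by rw [b1, b2, C_0])
  obtain ⟨k, hk⟩ : ∃ k, (cnc h d).coeff k ≠ 0 := by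
    by_contra hn
    push Not at hn
    have b1 := cnc_eval hd (X 0 : MvPolynomial (Fin 3) ℂ) (X 1) (X 2)
    have b2 : (![X 0, X 1, X 2] : Fin 3 → MvPolynomial (Fin 3) ℂ) = X := by
      funext i
      fin_cases i <;> rfl
    rw [b2, aeval_X_left_apply, show cnc h d = 0 from Polynomial.ext hn,
      Polynomial.eval₂_zero] at b1
    exact mul_ne_zero (pow_ne_zero _ (X_ne_zero 0)) hp.ne_zero b1.symm
  obtain ⟨T, hT⟩ : ∃ T : Finset (Fin 2 → ℂ), T = R.image fun r => ![r.1, r.2] := ⟨_, rfl⟩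
  have hc : T.card = R.card := by
    rw [hT]
    refine Finset.card_image_of_injective _ fun r r' e => Prod.ext ?_ ?_
    · simpa using congrFun e 0
    · simpa using congrFun e 1
  have hT' : ∀ p ∈ T, p 0 ≠ 0 ∧ ∀ l, eval p ((cnc h d).coeff l) = 0 := by
    intro p hm
    rw [hT] at hm
    obtain ⟨r, hr, rfl⟩ := Finset.mem_image.1 hm
    obtain ⟨b1, U, b2, b3⟩ := hR r hr
    exact ⟨b1, cnc_zero hd b2 b3⟩
  have h2 := cnc_pd.var.card_sec (v := 1) (g := (cnc h d).coeff k) hk (cnc_coeff hd k) h1 T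
    (a := cB 2 * d) (b := 1) fun Q hQ _ hg => by
      by_cases hl : ∀ l, (cnc h d).coeff l ∈ Q
      · obtain ⟨q, b1, rfl⟩ := cnc_prin hQ.pd hk hg
        rw [Finset.card_eq_zero.2, zero_mul]
        · exact Nat.zero_le _
        refine Finset.eq_empty_of_forall_notMem fun p hm => (hT' p (mem_onT.1 hm).1).1 ?_
        exact cnc_key hp hd hax b1 (fun l => Ideal.mem_span_singleton.1 (hl l))
          ((mem_onT.1 hm).2 _ (Ideal.mem_span_singleton_self _))
      push Not at hl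
      obtain ⟨l, hl⟩ := hl
      have b1 := hQ.card_sec (v := 0) hl (cnc_coeff hd l) h1 T (a := 1) (b := 1)
        fun Q' hQ' _ _ => by simpa using (hQ'.card_le_one T).trans hQ'.one_le_dg
      rw [Finset.filter_true_of_mem fun p hm => (hT' p (mem_onT.1 hm).1).2 l,
        Fintype.card_fin] at b1
      refine b1.trans (le_of_eq ?_)
      ring
  rw [Finset.filter_true_of_mem fun p hm => (hT' p (mem_onT.1 hm).1).2 k, onT,
    Finset.filter_true_of_mem fun p _ g hg => by rw [Ideal.mem_bot.1 hg, map_zero],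
    Fintype.card_fin, mul_one, hc] at h2
  refine h2.trans (le_of_eq ?_)
  ring

end Vale.Agent.P054S
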