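import Vale.Agent.P054S.DLag

/-!
Every sign cell on a real curve holds a critical point.
-/

namespace Vale.Agent.P054S

open MvPolynomial Vale.Agent.P054A
open scoped Classical

theorem DCrit_cont (q : MvPolynomial (Fin 3) ℂ) : Continuous fun y : Pt 3 => eval (cx y) q :=
  (MvPolynomial.continuous_eval q).comp
    (continuous_pi fun l => Complex.continuous_ofReal.comp (continuous_apply l))

theorem d_near {Γ : Ideal (MvPolynomial (Fin 3) ℂ)} (hΓ : PD 1 Γ) {s : ℕ}
    {f : Fin 2 → MvPolynomial (Fin 3) ℝ} {J : Fin 2 → Fin 3} (hf : Sys Γ s (fun i => cm (f i)) J)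
    {x : Pt 3} (hx : On (cx x) Γ) (hm : eval x (minor f J) ≠ 0) :
    ∀ᶠ y in nhds x, (∀ i, eval y (f i) = 0) → On (cx y) Γ := by
  have h1 : eval (cx x) (minor (fun i => cm (f i)) J) ≠ 0 := by
    rw [← map_minor, eval_cm]
    exact_mod_cast hm
  have h2 := (hΓ.locP_eq (by simp) (fun i => (hf.1 i).1) hx h1).2
  obtain ⟨T, hT⟩ := IsNoetherian.noetherian Γ
  have h3 : ∀ g ∈ T, ∀ᶠ y in nhds x, (∀ i, eval y (f i) = 0) → eval (cx y) g = 0 := by
    intro g hg
    have h4 : g ∈ locP (fun i => cm (f i)) (cx x) := by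
      rw [h2, ← hT]
      exact Submodule.subset_span hg
    obtain ⟨q, h5, h6⟩ := h4
    filter_upwards [(DCrit_cont q).continuousAt.eventually_ne h5] with y h7 h8
    have h9 : Ideal.span (Set.range fun i => cm (f i)) ≤ RingHom.ker (eval (cx y)) :=
      Ideal.span_le.2 (Set.range_subset_iff.2 fun i => by
        show eval (cx y) (cm (f i)) = 0
        rw [eval_cm, h8 i, Complex.ofReal_zero])
    have h10 : eval (cx y) (q * g) = 0 := h9 h6
    rw [map_mul] at h10
    exact (mul_eq_zero.1 h10).resolve_left h7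
  filter_upwards [(Filter.eventually_all_finset T).2 h3] with y h4 h5
  have h6 : Γ ≤ RingHom.ker (eval (cx y)) := by
    rw [← hT]
    exact Submodule.span_le.2 fun g hg => h4 g hg h5
  exact fun g hg => h6 hg

theorem d_crit {Γ : Ideal (MvPolynomial (Fin 3) ℂ)} (hΓ : PD 1 Γ) {s : ℕ}
    {f : Fin 2 → MvPolynomial (Fin 3) ℝ} {J : Fin 2 → Fin 3} (hf : Sys Γ s (fun i => cm (f i)) J)
    (l : Fin 3) {κ : Type} (K : Finset κ) (g : κ → MvPolynomial (Fin 3) ℝ)
    (u : MvPolynomial (Fin 3) ℝ) (R : ℝ) {a : Pt 3} (ha : On (cx a) Γ) (hR : 0 < eval a (bal R))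
    (hu : eval a u ≠ 0) (hg : ∀ k ∈ K, eval a (g k) ≠ 0) :
    ∃ x : Pt 3, On (cx x) Γ ∧ (∀ k ∈ K, (0 < eval x (g k) ↔ 0 < eval a (g k))) ∧
      eval x (minor f J * Dk f J l (bal R * u * ∏ k ∈ K, g k)) = 0 := by
  set F := bal R * u * ∏ k ∈ K, g k with hF
  have hev : ∀ y : Pt 3, eval y F = eval y (bal R) * eval y u * ∏ k ∈ K, eval y (g k) :=
    fun y => by rw [hF, map_mul, map_mul, map_prod]
  let S : Set (Pt 3) := {x | On (cx x) Γ ∧ 0 ≤ eval x (bal R) ∧
    ∀ k ∈ K, 0 ≤ eval x (g k) * eval a (g k)}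
  have haS : a ∈ S := ⟨ha, hR.le, fun k _ => mul_self_nonneg _⟩
  have hcl : IsClosed S := by
    have e : S = (⋂ q ∈ Γ, {x : Pt 3 | eval (cx x) q = 0}) ∩ ({x | 0 ≤ eval x (bal R)} ∩
        ⋂ k ∈ K, {x | 0 ≤ eval x (g k) * eval a (g k)}) := by
      ext y
      simp only [S, On, Set.mem_ofPred_eq, Set.mem_inter_iff, Set.mem_iInter]
    rw [e]
    exact (isClosed_biInter fun q _ => isClosed_eq (DCrit_cont q) continuous_const).inter
      ((isClosed_le continuous_const (MvPolynomial.continuous_eval _)).inter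
        (isClosed_biInter fun k _ => isClosed_le continuous_const
          ((MvPolynomial.continuous_eval _).mul continuous_const)))
  have hbd : S ⊆ Metric.closedBall 0 (Real.sqrt R) := by
    intro y hy
    have h1 := hy.2.1
    simp only [bal, map_sub, eval_C, map_sum, map_pow, eval_X, sub_nonneg] at h1
    rw [mem_closedBall_zero_iff, pi_norm_le_iff_of_nonneg (Real.sqrt_nonneg _)]
    intro i
    exact Real.abs_le_sqrt ((Finset.single_le_sum (f := fun i => y i ^ 2)
      (fun j _ => sq_nonneg _) (Finset.mem_univ i)).trans h1)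
  have hc : IsCompact S := (isCompact_closedBall _ _).of_isClosed_subset hcl hbd
  obtain ⟨x, hx, hmax⟩ := hc.exists_isMaxOn ⟨a, haS⟩
    (MvPolynomial.continuous_eval (F * F)).continuousOn
  have hFa : eval a F ≠ 0 := by
    rw [hev]
    exact mul_ne_zero (mul_ne_zero hR.ne' hu) (Finset.prod_ne_zero_iff.2 hg)
  have hFx : eval x F ≠ 0 := by
    intro h0
    have h1 : eval a (F * F) ≤ eval x (F * F) := hmax haS
    rw [map_mul (eval a) F F, map_mul (eval x) F F, h0, mul_zero] at h1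
    exact absurd (mul_self_pos.2 hFa) (not_lt.2 h1)
  have h1 := hFx
  rw [hev] at h1
  have h2 : 0 < eval x (bal R) :=
    lt_of_le_of_ne hx.2.1 (left_ne_zero_of_mul (left_ne_zero_of_mul h1)).symm
  have h3 : ∀ k ∈ K, 0 < eval x (g k) * eval a (g k) := fun k hk =>
    lt_of_le_of_ne (hx.2.2 k hk) (mul_ne_zero
      (Finset.prod_ne_zero_iff.1 (right_ne_zero_of_mul h1) k hk) (hg k hk)).symm
  refine ⟨x, hx.1, fun k hk => ⟨fun h => (mul_pos_iff_of_pos_left h).1 (h3 k hk),
    fun h => (mul_pos_iff_of_pos_right h).1 (h3 k hk)⟩, ?_⟩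
  rw [map_mul]
  by_cases hm : eval x (minor f J) = 0
  · rw [hm, zero_mul]
  have h4 : ∀ i, eval x (f i) = 0 := fun i => by
    have h5 := hx.1 _ (hf.1 i).1
    rw [eval_cm] at h5
    exact_mod_cast h5
  have h5 : ∀ᶠ y in nhds x, (∀ i, eval y (f i) = 0) → y ∈ S := by
    have e1 : ∀ᶠ y in nhds x, 0 < eval y (bal R) :=
      continuousAt_const.eventually_lt (MvPolynomial.continuous_eval _).continuousAt h2
    have e2 : ∀ k ∈ K, ∀ᶠ y in nhds x, 0 < eval y (g k) * eval a (g k) := fun k hk =>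
      continuousAt_const.eventually_lt
        ((MvPolynomial.continuous_eval _).mul continuous_const).continuousAt (h3 k hk)
    filter_upwards [d_near hΓ hf hx.1 hm, e1, (Filter.eventually_all_finset K).2 e2]
      with y b1 b2 b3 b4
    exact ⟨b1 b4, b2.le, fun k hk => (b3 k hk).le⟩
  have h6 : IsLocalMaxOn (fun y : Pt 3 => eval y (F * F)) {y | ∀ i, eval y (f i) = 0} x := by
    have e : ∀ᶠ y in nhdsWithin x {y | ∀ i, eval y (f i) = 0},
        eval y (F * F) ≤ eval x (F * F) := by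
      rw [eventually_nhdsWithin_iff]
      filter_upwards [h5] with y b1 b2
      exact hmax (b1 b2)
    exact e
  have h7 := d_lag f J l (F * F) h4 h6
  rw [Dk_mul, map_add, map_mul, ← two_mul] at h7
  rw [(mul_eq_zero.1 ((mul_eq_zero.1 h7).resolve_left two_ne_zero)).resolve_left hFx, mul_zero]

end Vale.Agent.P054S
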