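import Vale.Agent.P054S.Alg

/-!
Definitions for the exclusion of dense curves.
-/

namespace Vale.Agent.P054S

open MvPolynomial Vale.Agent.P054A
open scoped Classical

/-- The points of `Y` are labelled by curves through them, each holding many points. -/
def Cur (c w : ℕ) (Y : Finset (Pt 3)) (lab : Pt 3 → Ideal (MvPolynomial (Fin 3) ℂ)) : Prop :=
  ∀ y ∈ Y, PD 1 (lab y) ∧ On (cx y) (lab y) ∧
    dg 1 (lab y) * w ≤ c * (Y.filter fun z => lab z = lab y).card

/-- All squared distances, zero included. -/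
noncomputable def dset (Y : Finset (Pt 3)) : Finset ℝ := (Y ×ˢ Y).image fun z => d2 z.1 z.2

/-- The number of squared distances between those from `p` to `a` and to `b`. -/
noncomputable def gap (Y : Finset (Pt 3)) (p a b : Pt 3) : ℕ :=
  ((dset Y).filter fun ρ => ¬(ρ < d2 p a ↔ ρ < d2 p b)).card

/-- The number of spheres separating `a` from `b`. -/
noncomputable def sepn (Y : Finset (Pt 3)) (a b : Pt 3) : ℕ :=
  ((Y ×ˢ dset Y).filter fun k => ¬(k.2 < d2 k.1 a ↔ k.2 < d2 k.1 b)).card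

/-- The points of `A` separated from `a` by less than a fraction `1 / q` of the spheres. -/
noncomputable def nbh (Y A : Finset (Pt 3)) (q : ℕ) (a : Pt 3) : Finset (Pt 3) :=
  A.filter fun b => q * sepn Y a b < Y.card * (dset Y).card

/-- `c` lies on the line through `a` and `b`. -/
def OnL (a b c : Pt 3) : Prop := ∃ t : ℝ, c = a + t • (b - a)

/-- The circle about the axis `a b` through `p`. -/
def cls (a b p : Pt 3) : ℝ × ℝ := (d2 p a, d2 p b)

/-- Complexification of a real polynomial. -/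
noncomputable abbrev cm (g : MvPolynomial (Fin 3) ℝ) : MvPolynomial (Fin 3) ℂ :=
  map (algebraMap ℝ ℂ) g

/-- The equation of a ball. -/
noncomputable def bal (R : ℝ) : MvPolynomial (Fin 3) ℝ := C R - ∑ i, X i ^ 2

theorem eval_cm (x : Pt 3) (g : MvPolynomial (Fin 3) ℝ) :
    eval (cx x) (cm g) = ((eval x g : ℝ) : ℂ) := by
  have h := map_eval (algebraMap ℝ ℂ) x g
  exact h.symm

theorem Cur.filter {c w : ℕ} {Y : Finset (Pt 3)} {lab : Pt 3 → Ideal (MvPolynomial (Fin 3) ℂ)}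
    (hY : Cur c w Y lab) (h : MvPolynomial (Fin 3) ℂ) :
    Cur c w (Y.filter fun y => h ∈ lab y) lab := by
  intro y hy
  obtain ⟨h1, h2⟩ := Finset.mem_filter.1 hy
  refine ⟨(hY y h1).1, (hY y h1).2.1, (hY y h1).2.2.trans (Nat.mul_le_mul_left _
    (Finset.card_le_card fun z hz => ?_))⟩
  obtain ⟨h3, h4⟩ := Finset.mem_filter.1 hz
  exact Finset.mem_filter.2 ⟨Finset.mem_filter.2 ⟨h3, h4 ▸ h2⟩, h4⟩

theorem card_dset {Y : Finset (Pt 3)} {τ : ℕ} (h : nd2 Y ≤ τ) : (dset Y).card ≤ τ + 1 := by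
  have h0 : dset Y ⊆ insert 0 (Y.offDiag.image fun z => d2 z.1 z.2) := by
    intro ρ hρ
    obtain ⟨⟨p, q⟩, h1, rfl⟩ := Finset.mem_image.1 hρ
    obtain ⟨h2, h3⟩ := Finset.mem_product.1 h1
    rw [Finset.mem_insert]
    by_cases e : p = q
    · left
      simp [d2, e]
    · right
      exact Finset.mem_image.2 ⟨(p, q), Finset.mem_offDiag.2 ⟨h2, h3, e⟩, rfl⟩
  exact (Finset.card_le_card h0).trans ((Finset.card_insert_le _ _).trans (Nat.succ_le_succ h))

theorem mem_dset {Y : Finset (Pt 3)} {p q : Pt 3} (hp : p ∈ Y) (hq : q ∈ Y) : d2 p q ∈ dset Y :=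
  Finset.mem_image.2 ⟨(p, q), Finset.mem_product.2 ⟨hp, hq⟩, rfl⟩

/-- Bezout on a curve. -/
theorem d_sec {Γ : Ideal (MvPolynomial (Fin 3) ℂ)} (hΓ : PD 1 Γ) {g : MvPolynomial (Fin 3) ℂ}
    (hg : g ∉ Γ) {m : ℕ} (hm : g.totalDegree ≤ m) (h1 : 1 ≤ m) (T : Finset (Fin 3 → ℂ))
    (hT : ∀ p ∈ T, On p Γ ∧ eval p g = 0) : T.card ≤ cB 3 * dg 1 Γ * m := by
  have h := hΓ.var.card_sec (v := 0) hg hm h1 T (a := 1) (b := 1) fun Q hQ _ _ => by
    simpa using (hQ.card_le_one T).trans hQ.one_le_dg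
  rw [Finset.filter_true_of_mem fun p hp => (hT p (mem_onT.1 hp).1).2, onT,
    Finset.filter_true_of_mem fun p hp => (hT p hp).1] at h
  simpa using h

end Vale.Agent.P054S
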