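import Vale.Agent.P054S.DDef

/-!
Extraction of uncaptured curves.
-/

namespace Vale.Agent.P054S

open MvPolynomial Vale.Agent.P054A
open scoped Classical

theorem dext_curve : ∃ c : ℕ, 1 ≤ c ∧ ∀ (Γ : Ideal (MvPolynomial (Fin 3) ℂ)) (w a N : ℕ), PD 1 Γ →
    H Γ w ≤ a → a ≤ N → c * N < w ^ 2 → 1 ≤ a ∧ dg 1 Γ * w ≤ c * a := by
  obtain ⟨c, h⟩ := walsh 3
  obtain ⟨K, hK⟩ : ∃ K : ℕ, K = 8 ^ 6 := ⟨_, rfl⟩
  have hK1 : 1 ≤ K := hK ▸ Nat.pow_pos (by omega)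
  obtain ⟨l, hl⟩ : ∃ l, l = 6 * c + 1 := ⟨_, rfl⟩
  have hl1 : 1 ≤ l := by omega
  have hL : 1 ≤ l ^ 5 := Nat.pow_pos hl1
  refine ⟨(2 * l ^ 5) ^ 2 * K, Nat.mul_pos (Nat.pow_pos (by omega)) hK1,
    fun Γ w a N hΓ ha haN hw => ?_⟩
  have a0 : 1 ≤ a := (((one_pow 1).ge.trans (hΓ.pow_le 0)).trans (H_mono _ (by omega))).trans ha
  refine ⟨a0, ?_⟩
  have w0 : 2 * l ^ 5 < w := by
    refine lt_of_pow_lt_pow_left₀ 2 (Nat.zero_le _) (lt_of_le_of_lt ?_ hw)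
    rw [mul_assoc]
    exact Nat.le_mul_of_pos_right _ (Nat.mul_pos hK1 (by omega))
  obtain ⟨M, hM⟩ : ∃ M, M = w / l ^ 5 := ⟨_, rfl⟩
  have m1 : 1 ≤ M := hM ▸ Nat.div_pos (by omega) hL
  have m2 : l ^ 5 * M ≤ w := hM ▸ Nat.mul_div_le _ _
  have m3 : w ≤ 2 * l ^ 5 * M := by
    have h1 : w < l ^ 5 * (M + 1) := hM ▸ Nat.lt_mul_div_succ w hL
    have h2 : l ^ 5 * (M + 1) ≤ l ^ 5 * (2 * M) := Nat.mul_le_mul_left _ (by omega)
    linarith
  obtain ⟨s, v, Q, a1, a2, a3, a4, a5, f, J, a6⟩ := h l hl1 (Fin 3) (by simp) Γ M hΓ.prime m1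
  have b1 := a3.dim_le hΓ a4
  have b2 : v ≤ 3 := by simpa using a3.1
  have b3 := a3.dg_le_H (by simp; omega) a6 (M := l * s) (by
    calc 2 * ((3 - v) * (c * s)) = 2 * (3 - v) * c * s := by ring
      _ ≤ 2 * 3 * c * s := by gcongr; omega
      _ ≤ _ := Nat.mul_le_mul_right _ (by omega))
  have b4 : H Q (l * s) ≤ H Γ (l * s) := by
    by_contra h0
    obtain ⟨g, d1, d2, d3⟩ := exists_notin_of_H_lt (not_le.1 h0)
    exact d2 (a5 g d1 d3)
  have b5 : l * s ≤ w := by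
    refine (Nat.mul_le_mul_left l a2).trans (le_trans (le_of_eq ?_) m2)
    ring
  have b6 : (2 * v + 2) ^ (2 * v) ≤ K := hK ▸
    (Nat.pow_le_pow_left (by omega) _).trans (Nat.pow_le_pow_right (by omega) (by omega))
  have b7 := b3.trans (Nat.mul_le_mul b6 ((b4.trans (H_mono _ b5)).trans ha))
  have b8 : M ≤ l * s + 1 := (a1.trans (Nat.le_mul_of_pos_left _ hl1)).trans (Nat.le_succ _)
  obtain rfl : v = 1 := by
    by_contra h0
    refine absurd hw (not_lt.2 ?_)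
    calc w ^ 2 ≤ (2 * l ^ 5 * M) ^ 2 := Nat.pow_le_pow_left m3 2
      _ = (2 * l ^ 5) ^ 2 * M ^ 2 := mul_pow _ _ _
      _ ≤ (2 * l ^ 5) ^ 2 * (K * N) := Nat.mul_le_mul_left _ ((((Nat.pow_le_pow_left b8 2).trans
          (Nat.pow_le_pow_right (by omega) (by omega))).trans
          (Nat.le_mul_of_pos_left _ a3.one_le_dg)).trans (b7.trans (Nat.mul_le_mul_left _ haN)))
      _ = _ := (mul_assoc _ _ _).symm
  rw [a3.eq_of_le hΓ a4, pow_one] at b7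
  calc dg 1 Γ * w ≤ dg 1 Γ * (2 * l ^ 5 * (l * s + 1)) :=
        Nat.mul_le_mul_left _ (m3.trans (Nat.mul_le_mul_left _ b8))
    _ = 2 * l ^ 5 * (dg 1 Γ * (l * s + 1)) := by ring
    _ ≤ (2 * l ^ 5) ^ 2 * (K * a) := Nat.mul_le_mul (Nat.le_self_pow (by omega) _) b7
    _ = _ := (mul_assoc _ _ _).symm

theorem d_ext : ∃ c : ℕ, 1 ≤ c ∧ ∀ (P : Finset (Pt 3)) (w : ℕ), c * P.card < w ^ 2 →
    (¬∃ P' ⊆ P, P.card ≤ 2 * P'.card ∧ CapT (P'.image cx) w 1) →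
      ∃ Y ⊆ P, ∃ lab, P.card ≤ 2 * Y.card ∧ Cur c w Y lab := by
  obtain ⟨c, hc, h⟩ := dext_curve
  refine ⟨c, hc, fun P w hw hP => ?_⟩
  have key : ∀ R : Finset (Pt 3), R ⊆ P →
      ∃ Y ⊆ R, ∃ lab, Cur c w Y lab ∧ 2 * (R \ Y).card < P.card := fun R => by
    induction R using Finset.strongInduction with
    | H R ih =>
    intro hR
    by_cases h0 : 2 * R.card < P.card
    · exact ⟨∅, Finset.empty_subset _, fun _ => ⊥, fun y hy => absurd hy (Finset.notMem_empty y),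
        by rwa [Finset.sdiff_empty]⟩
    obtain ⟨Γ, hΓ, hg⟩ : ∃ Γ : Ideal (MvPolynomial (Fin 3) ℂ), PD 1 Γ ∧ ∀ g, g.totalDegree ≤ w →
        (∀ p ∈ R.image cx, On p Γ → eval p g = 0) → g ∈ Γ := by
      by_contra h1
      refine hP ⟨R, hR, not_lt.1 h0, fun j j1 j2 Γ hΓ => ?_⟩
      obtain rfl : j = 1 := le_antisymm j2 j1
      by_contra h2
      refine h1 ⟨Γ, hΓ, fun g g1 g2 => ?_⟩
      by_contra g3
      exact h2 ⟨g, g3, g1, g2⟩
    obtain ⟨A, hA⟩ : ∃ A, A = R.filter fun y => On (cx y) Γ := ⟨_, rfl⟩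
    have hAR : A ⊆ R := hA ▸ Finset.filter_subset _ _
    have h1 : H Γ w ≤ A.card := by
      refine le_trans (not_lt.1 fun h2 => ?_)
        ((H_vanI_le_card (A.image cx) w).trans Finset.card_image_le)
      obtain ⟨g, d1, d2, d3⟩ := exists_notin_of_H_lt h2
      refine d2 (hg g d3 fun p hp hq => d1 p ?_)
      obtain ⟨y, hy, rfl⟩ := Finset.mem_image.1 hp
      exact Finset.mem_coe.2 (Finset.mem_image_of_mem _ (hA ▸ Finset.mem_filter.2 ⟨hy, hq⟩))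
    obtain ⟨h2, h3⟩ := h Γ w _ _ hΓ h1 (Finset.card_le_card (hAR.trans hR)) hw
    obtain ⟨Y, y1, lab, y2, y3⟩ := ih (R \ A) (Finset.sdiff_ssubset hAR (Finset.card_pos.1 h2))
      (Finset.sdiff_subset.trans hR)
    have hY : ∀ z ∈ Y, z ∉ A := fun z hz => (Finset.mem_sdiff.1 (y1 hz)).2
    refine ⟨A ∪ Y, Finset.union_subset hAR (y1.trans Finset.sdiff_subset),
      fun y => if y ∈ A then Γ else lab y, fun y hy => ?_, by rwa [sdiff_sdiff_left, Finset.sup_eq_union] at y3⟩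
    by_cases hyA : y ∈ A
    · simp only [if_pos hyA]
      have hyB := hyA
      rw [hA] at hyB
      refine ⟨hΓ, (Finset.mem_filter.1 hyB).2, h3.trans (Nat.mul_le_mul_left _
        (Finset.card_le_card fun z hz => ?_))⟩
      exact Finset.mem_filter.2 ⟨Finset.mem_union_left _ hz, if_pos hz⟩
    · have hy' := (Finset.mem_union.1 hy).resolve_left hyA
      simp only [if_neg hyA]
      refine ⟨(y2 y hy').1, (y2 y hy').2.1, (y2 y hy').2.2.trans (Nat.mul_le_mul_left _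
        (Finset.card_le_card fun z hz => ?_))⟩
      obtain ⟨z1, z2⟩ := Finset.mem_filter.1 hz
      exact Finset.mem_filter.2 ⟨Finset.mem_union_right _ z1, (if_neg (hY z z1)).trans z2⟩
  obtain ⟨Y, y1, lab, y2, y3⟩ := key P subset_rfl
  have h4 := Finset.card_sdiff_add_card_eq_card y1
  exact ⟨Y, y1, lab, by omega, y2⟩

end Vale.Agent.P054S
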