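import Vale.Agent.P054S.DFDim

/-!
The axis is determined by the surface.  srf_lin: a polynomial of degree at most 1 is C μ + sum C (λ i) * X i (as a function:
eval z f = μ + sum λ i z i; prove it from the support, or with homogeneousComponent).  With v = q - o, μ' = μ + λ . o the identity
μ' (1 + u² α) + λ . ((1 - u² α) v + 2 u a × v + 2 u² (a . v) a) = 0 at u = 0, 1, -1 gives λ . (a × v) = 0 and λ . (α v - (a . v) a) = 0, so
λ is a multiple ν a (a × v ≠ 0; do it for the real and the imaginary part, or in coordinates); s = 0, 1 at u = 0 give λ . b = 0, so ν = 0.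
srf_quad: c = a . b, t = a . v + s c on the line, β = |b|² / c²; rot_dist, rot_ht.  axis_eq: second differences in a direction v give
c (|v|² - β₁ (a₁ . v)²) = |v|² - β₂ (a₂ . v)²; a vector v ≠ 0 orthogonal to a₁ and a₂ gives c = 1; then a₁ . v = 0 implies a₂ . v = 0; first
differences (x + v against x - v) give (o₁ - o₂) . v = 0 for such v; a vector orthogonal to all v with a₁ . v = 0 is a multiple of a₁
(use v = α y - (a₁ . y) a₁).  srf_axis: srf_pd, srf_lin, srf_quad, prop_of_pd2 (Q₁ ≠ 0 since qv is not the zero function: second difference).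
-/

namespace Vale.Agent.P054S

open MvPolynomial Vale.Agent.P054A Sum
open Vale.Agent.P054 (Col Copl)
open scoped Classical

theorem DFAx_rep {f : MvPolynomial (Fin 3) ℂ} (hd : f.totalDegree ≤ 1) :
    ∃ (μ : ℂ) (l : Fin 3 → ℂ), f = C μ + ∑ i, l i • X i := by
  have h1 := homogeneousComponent_mem 1 f
  rw [homogeneousSubmodule_one_eq_span_X, Submodule.mem_span_range_iff_exists_fun] at h1
  obtain ⟨l, hl⟩ := h1
  refine ⟨coeff 0 f, l, ?_⟩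
  rw [hl, ← homogeneousComponent_zero]
  ext d
  rw [coeff_add, coeff_homogeneousComponent, coeff_homogeneousComponent]
  by_cases h0 : d.degree = 0
  · simp [h0]
  by_cases h1 : d.degree = 1
  · simp [h1]
  rw [if_neg h0, if_neg h1, add_zero]
  exact coeff_eq_zero_of_totalDegree_lt (hd.trans_lt (show 1 < d.degree by omega))

theorem DFAx_nn (a : Pt 3) : 0 ≤ a ⬝ᵥ a := Finset.sum_nonneg fun i _ => mul_self_nonneg (a i)

theorem DFAx_real {o a q b : Pt 3} (ha : a ≠ 0) (hq : Off o a q) (hb : a ⬝ᵥ b ≠ 0) {μ : ℝ}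
    {l : Pt 3} (h : ∀ s u : ℝ, μ + l ⬝ᵥ rot o a u (q + s • b) = 0) : μ = 0 ∧ l = 0 := by
  have hw := hq.cross_ne ha
  have e : ∀ u : ℝ, (μ + l ⬝ᵥ o) * (1 + u ^ 2 * (a ⬝ᵥ a)) + ((1 - u ^ 2 * (a ⬝ᵥ a)) * l ⬝ᵥ (q - o) +
      2 * u * l ⬝ᵥ crossProduct a (q - o) + 2 * u ^ 2 * (a ⬝ᵥ (q - o)) * l ⬝ᵥ a) = 0 := fun u => by
    have h1 := h 0 u
    have h2 : 0 < 1 + u ^ 2 * (a ⬝ᵥ a) :=
      add_pos_of_pos_of_nonneg one_pos (mul_nonneg (sq_nonneg u) (DFAx_nn a))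
    simp only [zero_smul, add_zero, rot, dotProduct_add, dotProduct_smul, smul_eq_mul] at h1
    field_simp at h1
    linear_combination h1
  have e1 : l ⬝ᵥ crossProduct a (q - o) = 0 := by linear_combination (e 1 - e (-1)) / 4
  have e2 : (a ⬝ᵥ (q - o)) * l ⬝ᵥ a - (a ⬝ᵥ a) * l ⬝ᵥ (q - o) = 0 := by
    linear_combination (e 1 + e (-1)) / 4 - (1 + a ⬝ᵥ a) / 2 * e 0
  have h0 := h 0 0
  have h1 := h 1 0
  simp only [rot_zero, zero_smul, add_zero, one_smul, dotProduct_add] at h0 h1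
  have e3 : l ⬝ᵥ b = 0 := by linear_combination h1 - h0
  have e4 : crossProduct a (q - o) ⬝ᵥ crossProduct l a = 0 := by
    rw [triple_product_permutation, cross_cross_eq_smul_sub_smul', dotProduct_sub, dotProduct_smul,
      dotProduct_smul]
    exact e2
  have e5 : crossProduct (crossProduct a (q - o)) (crossProduct l a) = 0 := by
    rw [cross_cross_eq_smul_sub_smul', e1, dotProduct_comm, dot_self_cross, zero_smul, zero_smul,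
      sub_zero]
  have e6 := cross_cross_eq_smul_sub_smul' (crossProduct a (q - o)) (crossProduct a (q - o))
    (crossProduct l a)
  rw [e5, e4, map_zero, zero_smul, zero_sub, eq_comm, neg_eq_zero, smul_eq_zero,
    dotProduct_self_eq_zero] at e6
  have e7 := cross_cross_eq_smul_sub_smul' b l a
  rw [e6.resolve_left hw, e3, map_zero, zero_smul, sub_zero, eq_comm, smul_eq_zero,
    dotProduct_comm] at e7
  have e8 := e7.resolve_left hb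
  exact ⟨by simpa [e8] using h0, e8⟩

theorem srf_lin {o a q b : Pt 3} (ha : a ≠ 0) (hq : Off o a q) (hb : a ⬝ᵥ b ≠ 0)
    {f : MvPolynomial (Fin 3) ℂ} (hf : f ∈ vanI (srf o a q b)) (hd : f.totalDegree ≤ 1) :
    f = 0 := by
  obtain ⟨μ, l, rfl⟩ := DFAx_rep hd
  have h : ∀ s u : ℝ, μ + ∑ i, l i * (rot o a u (q + s • b) i : ℝ) = 0 := fun s u => by
    simpa [cx] using hf _ ⟨s, u, rfl⟩
  have h1 := DFAx_real ha hq hb (μ := μ.re) (l := fun i => (l i).re) fun s u => by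
    simpa [dotProduct] using congrArg Complex.re (h s u)
  have h2 := DFAx_real ha hq hb (μ := μ.im) (l := fun i => (l i).im) fun s u => by
    simpa [dotProduct] using congrArg Complex.im (h s u)
  have e1 : μ = 0 := Complex.ext h1.1 h2.1
  have e2 : ∀ i, l i = 0 := fun i => Complex.ext (congrFun h1.2 i) (congrFun h2.2 i)
  simp [e1, e2]

theorem DFAx_Q (o a : Pt 3) (β γ δ : ℝ) : ∃ Q : MvPolynomial (Fin 3) ℂ, Q.totalDegree ≤ 2 ∧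
    ∀ x : Pt 3, eval (cx x) Q = (qv o a β γ δ x : ℝ) := by
  have h1 : ∀ i, (X i - C (o i : ℂ) : MvPolynomial (Fin 3) ℂ).totalDegree ≤ 1 := fun i =>
    (totalDegree_sub_C_le _ _).trans (totalDegree_X i).le
  have h2 : ∀ (c : ℂ) (p : MvPolynomial (Fin 3) ℂ), (C c * p).totalDegree ≤ p.totalDegree :=
    fun c p => (totalDegree_mul _ _).trans (by rw [totalDegree_C, zero_add])
  have h3 : (∑ i, C (a i : ℂ) * (X i - C (o i : ℂ)) : MvPolynomial (Fin 3) ℂ).totalDegree ≤ 1 :=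
    totalDegree_finsetSum_le fun i _ => (h2 _ _).trans (h1 i)
  refine ⟨∑ i, (X i - C (o i : ℂ)) * (X i - C (o i : ℂ)) -
    C (β : ℂ) * (∑ i, C (a i : ℂ) * (X i - C (o i : ℂ))) ^ 2 -
    C (γ : ℂ) * (∑ i, C (a i : ℂ) * (X i - C (o i : ℂ))) - C (δ : ℂ), ?_, fun x => ?_⟩
  · refine (totalDegree_sub_C_le _ _).trans ((totalDegree_sub _ _).trans (max_le
      ((totalDegree_sub _ _).trans (max_le (totalDegree_finsetSum_le fun i _ => ?_) ?_)) ?_))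
    · exact (totalDegree_mul _ _).trans (add_le_add (h1 i) (h1 i))
    · exact (h2 _ _).trans ((totalDegree_pow _ _).trans (by omega))
    · exact (h2 _ _).trans (h3.trans (by omega))
  · simp [qv, cx, dotProduct]

theorem srf_quad {o a q b : Pt 3} (hb : a ⬝ᵥ b ≠ 0) : ∃ (β γ δ : ℝ) (Q : MvPolynomial (Fin 3) ℂ),
    0 < β ∧ Q.totalDegree ≤ 2 ∧ Q ∈ vanI (srf o a q b) ∧
      ∀ x : Pt 3, eval (cx x) Q = (qv o a β γ δ x : ℝ) := by
  have hb0 : b ⬝ᵥ b ≠ 0 := fun e => hb (by rw [dotProduct_self_eq_zero.1 e, dotProduct_zero])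
  obtain ⟨Q, h1, h2⟩ := DFAx_Q o a (b ⬝ᵥ b / (a ⬝ᵥ b) ^ 2)
    (2 * (b ⬝ᵥ (q - o)) / a ⬝ᵥ b - 2 * (b ⬝ᵥ b / (a ⬝ᵥ b) ^ 2) * a ⬝ᵥ (q - o))
    ((q - o) ⬝ᵥ (q - o) - 2 * (b ⬝ᵥ (q - o)) / a ⬝ᵥ b * a ⬝ᵥ (q - o) +
      b ⬝ᵥ b / (a ⬝ᵥ b) ^ 2 * (a ⬝ᵥ (q - o)) ^ 2)
  refine ⟨_, _, _, Q, div_pos ((DFAx_nn b).lt_of_ne' hb0) (by positivity), h1, ?_,
    h2⟩
  rintro _ ⟨s, u, rfl⟩
  rw [h2, qv, rot_dist, rot_ht, Complex.ofReal_eq_zero, add_sub_right_comm]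
  generalize q - o = v
  simp only [dotProduct_add, add_dotProduct, dotProduct_smul, smul_dotProduct, smul_eq_mul,
    dotProduct_comm v b]
  field_simp
  ring

theorem DFAx_orth (a a' : Pt 3) : ∃ v : Pt 3, v ≠ 0 ∧ a ⬝ᵥ v = 0 ∧ a' ⬝ᵥ v = 0 := by
  obtain ⟨v, h1, h2⟩ := (Submodule.ne_bot_iff _).1 (LinearMap.ker_ne_bot_of_finrank_lt
    (f := (Matrix.of ![a, a']).mulVecLin) (by simp))
  exact ⟨v, h2, congrFun h1 0, congrFun h1 1⟩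

theorem DFAx_d2 (o a : Pt 3) (β γ δ : ℝ) (v : Pt 3) : qv o a β γ δ v + qv o a β γ δ (-v) -
    2 * qv o a β γ δ 0 = 2 * (v ⬝ᵥ v - β * (a ⬝ᵥ v) ^ 2) := by
  simp only [qv, dotProduct_sub, sub_dotProduct, dotProduct_neg, neg_dotProduct, dotProduct_zero,
    zero_dotProduct]
  ring

theorem DFAx_d1 (o a : Pt 3) (β γ δ : ℝ) {v : Pt 3} (hv : a ⬝ᵥ v = 0) :
    qv o a β γ δ (-v) - qv o a β γ δ v = 4 * o ⬝ᵥ v := by
  simp only [qv, dotProduct_sub, sub_dotProduct, dotProduct_neg, neg_dotProduct, hv,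
    dotProduct_comm v o]
  ring

theorem DFAx_span {a z : Pt 3} (ha : a ≠ 0) (h : ∀ v, a ⬝ᵥ v = 0 → z ⬝ᵥ v = 0) :
    z ∈ Submodule.span ℝ {a} := by
  have h0 : a ⬝ᵥ a ≠ 0 := fun e => ha (dotProduct_self_eq_zero.1 e)
  have h1 : a ⬝ᵥ (z - (a ⬝ᵥ z / a ⬝ᵥ a) • a) = 0 := by
    rw [dotProduct_sub, dotProduct_smul, smul_eq_mul, div_mul_cancel₀ _ h0, sub_self]
  have h2 : z - (a ⬝ᵥ z / a ⬝ᵥ a) • a = 0 := dotProduct_self_eq_zero.1 (by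
    rw [sub_dotProduct, smul_dotProduct, h1, h _ h1, smul_zero, sub_zero])
  exact Submodule.mem_span_singleton.2 ⟨_, (sub_eq_zero.1 h2).symm⟩

theorem axis_eq {o₁ a₁ o₂ a₂ : Pt 3} {β₁ γ₁ δ₁ β₂ γ₂ δ₂ : ℝ} (ha : a₁ ≠ 0) (hβ : 0 < β₂) {c : ℂ}
    (h : ∀ x, ((qv o₂ a₂ β₂ γ₂ δ₂ x : ℝ) : ℂ) = c * (qv o₁ a₁ β₁ γ₁ δ₁ x : ℝ)) {y : Pt 3}
    (hy : y - o₂ ∈ Submodule.span ℝ {a₂}) : y - o₁ ∈ Submodule.span ℝ {a₁} := by
  have hc : c = 1 := by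
    obtain ⟨v, h0, h1, h2⟩ := DFAx_orth a₁ a₂
    have e1 := congrArg (fun r : ℝ => (r : ℂ)) (DFAx_d2 o₁ a₁ β₁ γ₁ δ₁ v)
    have e2 := congrArg (fun r : ℝ => (r : ℂ)) (DFAx_d2 o₂ a₂ β₂ γ₂ δ₂ v)
    have h3 : ((v ⬝ᵥ v : ℝ) : ℂ) ≠ 0 :=
      Complex.ofReal_ne_zero.2 fun e => h0 (dotProduct_self_eq_zero.1 e)
    rw [h1] at e1
    rw [h2] at e2
    push_cast at e1 e2
    refine mul_left_cancel₀ h3 ?_
    linear_combination (e2 - c * e1 - h v - h (-v) + 2 * h 0) / 2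
  have hq : ∀ x, qv o₂ a₂ β₂ γ₂ δ₂ x = qv o₁ a₁ β₁ γ₁ δ₁ x := fun x =>
    Complex.ofReal_injective (by rw [h x, hc, one_mul])
  obtain ⟨r, hr⟩ := Submodule.mem_span_singleton.1 hy
  refine DFAx_span ha fun v hv => ?_
  have e1 := DFAx_d2 o₁ a₁ β₁ γ₁ δ₁ v
  have e2 := DFAx_d2 o₂ a₂ β₂ γ₂ δ₂ v
  rw [hq, hq, hq, e1, hv] at e2
  have e3 : a₂ ⬝ᵥ v = 0 :=
    pow_eq_zero_iff two_ne_zero |>.1 (mul_left_cancel₀ hβ.ne' (by linear_combination e2 / 2))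
  have e4 := DFAx_d1 o₂ a₂ β₂ γ₂ δ₂ e3
  rw [hq, hq, DFAx_d1 o₁ a₁ β₁ γ₁ δ₁ hv] at e4
  have e5 := congrArg (· ⬝ᵥ v) hr
  simp only [smul_dotProduct, sub_dotProduct, e3, smul_zero] at e5
  rw [sub_dotProduct]
  linarith

theorem srf_axis {o₁ a₁ q₁ b₁ o₂ a₂ q₂ b₂ : Pt 3} (ha : a₁ ≠ 0) (hq : Off o₁ a₁ q₁)
    (hb₁ : a₁ ⬝ᵥ b₁ ≠ 0) (hb₂ : a₂ ⬝ᵥ b₂ ≠ 0) {h : MvPolynomial (Fin 3) ℂ} (h0 : h ≠ 0)
    (hh : h ∈ vanI (srf o₁ a₁ q₁ b₁)) (he : vanI (srf o₁ a₁ q₁ b₁) = vanI (srf o₂ a₂ q₂ b₂))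
    {y : Pt 3} (hy : y - o₂ ∈ Submodule.span ℝ {a₂}) : y - o₁ ∈ Submodule.span ℝ {a₁} := by
  obtain ⟨β₁, γ₁, δ₁, Q₁, -, d1, m1, e1⟩ := srf_quad (o := o₁) (q := q₁) hb₁
  obtain ⟨β₂, γ₂, δ₂, Q₂, p2, d2, m2, e2⟩ := srf_quad (o := o₂) (q := q₂) hb₂
  have n1 : Q₁ ≠ 0 := fun e => by
    obtain ⟨v, h0, h1, -⟩ := DFAx_orth a₁ a₁
    have h2 : ∀ x, qv o₁ a₁ β₁ γ₁ δ₁ x = 0 := fun x =>
      Complex.ofReal_eq_zero.1 (by rw [← e1, e, map_zero])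
    have h3 := DFAx_d2 o₁ a₁ β₁ γ₁ δ₁ v
    rw [h2, h2, h2, h1] at h3
    exact h0 (dotProduct_self_eq_zero.1 (by linarith))
  obtain ⟨c, hc⟩ := prop_of_pd2 (srf_pd ha (fun e => hb₁ (by rw [e, dotProduct_zero])) hq h0 hh)
    (fun f hf hd => srf_lin ha hq hb₁ hf hd) m1 (he ▸ m2) d1 d2 n1
  exact axis_eq ha p2 (c := c) (fun x => by rw [← e1, ← e2, hc, map_mul, eval_C]) hy

end Vale.Agent.P054S
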