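import Vale.Agent.P054S.Alg

namespace Vale.Agent.P054S

open MvPolynomial Vale.Agent.P054A Sum
open Vale.Agent.P054 (Col Copl)
open scoped Classical

noncomputable section

/-- The rotation with parameter `u` about the axis through `o` with direction `a`. -/
def rot (o a : Pt 3) (u : ℝ) (q : Pt 3) : Pt 3 :=
  o + (1 + u ^ 2 * (a ⬝ᵥ a))⁻¹ • ((1 - u ^ 2 * (a ⬝ᵥ a)) • (q - o) +
    (2 * u) • crossProduct a (q - o) + (2 * u ^ 2 * (a ⬝ᵥ (q - o))) • a)

/-- The surface swept out by a line under the rotations. -/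
def srf (o a q b : Pt 3) : Set (Fin 3 → ℂ) := {z | ∃ s u : ℝ, z = cx (rot o a u (q + s • b))}

/-- The polynomial vanishes on the circle of `q`. -/
def Full (h : MvPolynomial (Fin 3) ℂ) (o a q : Pt 3) : Prop :=
  ∀ u : ℝ, eval (cx (rot o a u q)) h = 0

/-- The point is not on the axis. -/
def Off (o a q : Pt 3) : Prop := q - o ∉ Submodule.span ℝ {a}

/-- The equation of a quadric of revolution. -/
def qv (o a : Pt 3) (β γ δ : ℝ) (x : Pt 3) : ℝ :=
  (x - o) ⬝ᵥ (x - o) - β * (a ⬝ᵥ (x - o)) ^ 2 - γ * (a ⬝ᵥ (x - o)) - δ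

end

end Vale.Agent.P054S
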