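import Vale.Agent.P054S.DFVan

/-!
Dimension two.  srf_pd: exists_PD gives j ≤ 3; j = 3 gives P = ⊥ (PD_bot, PD.eq_of_le).  Let j ≤ 1.  L = vanI (srf o 0 q b) is prime
(rot_axis_zero: the line), P ≤ L (rot_zero); its dimension j' ≤ j (PD.dim_le) is not 0 (cx q and cx (q + b) lie on it, PD.eq_point or
PD.card_zs_le_one); so P = L.  The forms (X i - C (q i)) * C (b l) - (X l - C (q l)) * C (b i) lie in L, so rot o a u q - q is in the span of b;
the three points u = 0, 1, 2 are distinct (rot_inj), collinear and on a sphere (rot_dist): P054.sphere.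
count_pd2: H_sec with I = ⊥ (H_le_pow), sum_dg_of_H, PD.one_le_dg.  prop_of_pd2: an irreducible factor f of Q₁ lies in P (induction_on_irreducible
or Ideal.IsPrime with factors); span {f} is prime, not ⊥, so of dimension at most 2 (PD.dim_lt), at least 2 (PD.dim_le); P = span {f};
f has degree at least 2, totalDegree_mul_of_isDomain makes the cofactors constants (totalDegree_eq_zero_iff_eq_C).
-/

namespace Vale.Agent.P054S

open MvPolynomial Vale.Agent.P054A Sum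
open Vale.Agent.P054 (Col Copl)
open scoped Classical

theorem dfdim_le (o a q b : Pt 3) : vanI (srf o a q b) ≤ vanI (srf o 0 q b) := by
  rintro g hg _ ⟨s, u, rfl⟩
  rw [rot_axis_zero]
  have := hg _ ⟨s, 0, rfl⟩
  rwa [rot_zero] at this

theorem dfdim_form (o q b : Pt 3) (i l : Fin 3) :
    ((X i - C (q i : ℂ)) * C (b l : ℂ) - (X l - C (q l : ℂ)) * C (b i : ℂ) :
      MvPolynomial (Fin 3) ℂ) ∈ vanI (srf o 0 q b) := by
  rintro _ ⟨s, u, rfl⟩
  rw [rot_axis_zero]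
  simp only [map_sub, map_mul, eval_X, eval_C, cx, Pi.add_apply, Pi.smul_apply, smul_eq_mul]
  push_cast
  ring

theorem dfdim_line {o q b : Pt 3} (hb : b ≠ 0) : ¬ PD 0 (vanI (srf o 0 q b)) := by
  intro h
  obtain ⟨l, hl⟩ : ∃ l, b l ≠ 0 := Function.ne_iff.1 hb
  have h1 : On (cx (rot o 0 0 (q + (0 : ℝ) • b))) (vanI (srf o 0 q b)) :=
    fun _ hg => hg _ ⟨0, 0, rfl⟩
  have h2 : (X l - C (cx (rot o 0 0 (q + (0 : ℝ) • b)) l) : MvPolynomial (Fin 3) ℂ) ∈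
      vanI (srf o 0 q b) := by
    rw [h.eq_point h1]
    rintro _ rfl
    simp
  have h3 := h2 _ ⟨1, 0, rfl⟩
  rw [rot_axis_zero, rot_axis_zero] at h3
  simp only [map_sub, eval_X, eval_C, cx, Pi.add_apply, Pi.smul_apply, smul_eq_mul] at h3
  have h4 : ((b l : ℝ) : ℂ) = 0 := by
    push_cast at h3
    linear_combination h3
  exact hl (by exact_mod_cast h4)

theorem dfdim_ne {o a q b : Pt 3} (ha : a ≠ 0) (hb : b ≠ 0) (hq : Off o a q) :
    vanI (srf o a q b) ≠ vanI (srf o 0 q b) := by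
  intro e
  obtain ⟨l, hl⟩ : ∃ l, b l ≠ 0 := Function.ne_iff.1 hb
  have h1 : ∀ u : ℝ, ∃ r : ℝ, rot o a u q = q + r • b := fun u => by
    refine ⟨(rot o a u q l - q l) / b l, funext fun i => ?_⟩
    have h2 := (e ▸ dfdim_form o q b i l :
      ((X i - C (q i : ℂ)) * C (b l : ℂ) - (X l - C (q l : ℂ)) * C (b i : ℂ) :
        MvPolynomial (Fin 3) ℂ) ∈ vanI (srf o a q b)) _ ⟨0, u, rfl⟩
    rw [zero_smul, add_zero] at h2
    simp only [map_sub, map_mul, eval_X, eval_C, cx] at h2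
    have h3 : (rot o a u q i - q i) * b l - (rot o a u q l - q l) * b i = 0 := by
      exact_mod_cast h2
    simp only [Pi.add_apply, Pi.smul_apply, smul_eq_mul]
    field_simp
    linear_combination h3
  have h4 := P054.sphere (T := ({0, 1, 2} : Finset ℝ).image fun u => rot o a u q)
    ⟨q, b, fun x hx => by
      obtain ⟨u, -, rfl⟩ := Finset.mem_image.1 hx
      exact h1 u⟩ o ((q - o) ⬝ᵥ (q - o)) fun x hx => by
      obtain ⟨u, -, rfl⟩ := Finset.mem_image.1 hx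
      exact rot_dist o a q u
  rw [Finset.card_image_of_injective _ (rot_inj ha hq),
    Finset.card_eq_three.2 ⟨0, 1, 2, by norm_num, by norm_num, by norm_num, rfl⟩] at h4
  omega

theorem dfdim_bot : PD 3 (⊥ : Ideal (MvPolynomial (Fin 3) ℂ)) := by
  simpa using PD_bot (σ := Fin 3)

theorem dfdim_factor {P : Ideal (MvPolynomial (Fin 3) ℂ)} (hP : P.IsPrime)
    (Q : MvPolynomial (Fin 3) ℂ) : Q ≠ 0 → Q ∈ P → ∃ f, Irreducible f ∧ f ∈ P ∧ f ∣ Q := by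
  induction Q using WfDvdMonoid.induction_on_irreducible with
  | zero => exact fun h => absurd rfl h
  | unit u hu => exact fun _ h => absurd (Ideal.eq_top_of_isUnit_mem _ h hu) hP.ne_top
  | mul a i ha hi ih =>
    intro _ h
    rcases hP.mem_or_mem h with h | h
    · exact ⟨i, hi, h, dvd_mul_right _ _⟩
    · obtain ⟨f, h1, h2, h3⟩ := ih ha h
      exact ⟨f, h1, h2, h3.mul_left _⟩

theorem dfdim_const {f Q : MvPolynomial (Fin 3) ℂ} (hf : 2 ≤ f.totalDegree)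
    (hQ : Q.totalDegree ≤ 2) (h : f ∣ Q) : ∃ c : ℂ, Q = C c * f := by
  obtain ⟨g, rfl⟩ := h
  by_cases hg : g = 0
  · exact ⟨0, by simp [hg]⟩
  have hf0 : f ≠ 0 := by
    rintro rfl
    simp at hf
  rw [totalDegree_mul_of_isDomain hf0 hg] at hQ
  exact ⟨_, by rw [mul_comm, ← totalDegree_eq_zero_iff_eq_C.1 (by omega : g.totalDegree = 0)]⟩

theorem srf_pd {o a q b : Pt 3} (ha : a ≠ 0) (hb : b ≠ 0) (hq : Off o a q)
    {h : MvPolynomial (Fin 3) ℂ} (h0 : h ≠ 0) (hh : h ∈ vanI (srf o a q b)) :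
    PD 2 (vanI (srf o a q b)) := by
  obtain ⟨j, hj⟩ := exists_PD (srf_prime o a q b)
  obtain ⟨j', hj'⟩ := exists_PD (srf_prime o 0 q b)
  have h1 : j < 3 := dfdim_bot.dim_lt hj (bot_lt_iff_ne_bot.2 fun e => h0 (by
    rw [e] at hh
    exact Ideal.mem_bot.1 hh))
  have h2 : j' < j := hj.dim_lt hj' (lt_of_le_of_ne (dfdim_le o a q b) (dfdim_ne ha hb hq))
  have h3 : j' ≠ 0 := fun e => dfdim_line hb (e ▸ hj')
  rwa [show j = 2 by omega] at hj

theorem count_pd2 : ∃ c : ℕ, 1 ≤ c ∧ ∀ (h : MvPolynomial (Fin 3) ℂ) (e : ℕ), h ≠ 0 →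
    h.totalDegree ≤ e → 1 ≤ e → ∀ 𝒬 : Finset (Ideal (MvPolynomial (Fin 3) ℂ)),
      (∀ Q ∈ 𝒬, PD 2 Q ∧ h ∈ Q) → 𝒬.card ≤ c * e := by
  refine ⟨(2 * 2 + 2) ^ (3 * 2) * (3 ^ (2 + 1) * 1), by norm_num, fun h e h0 he h1 𝒬 hQ => ?_⟩
  have h2 := sum_dg_of_H (H_sec (I := ⊥) (v := 2) (a := 1) Ideal.isPrime_bot
    (fun M => by simpa using H_le_pow (⊥ : Ideal (MvPolynomial (Fin 3) ℂ)) M)
    (fun e => h0 (Ideal.mem_bot.1 e)) he h1) 𝒬 fun Q hm => ⟨(hQ Q hm).1,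
      sup_le bot_le ((Ideal.span_singleton_le_iff_mem _).2 (hQ Q hm).2)⟩
  rw [mul_assoc]
  refine le_trans ?_ h2
  rw [Finset.card_eq_sum_ones]
  exact Finset.sum_le_sum fun Q hm => (hQ Q hm).1.one_le_dg

theorem prop_of_pd2 {P : Ideal (MvPolynomial (Fin 3) ℂ)} (hP : PD 2 P)
    (hl : ∀ f ∈ P, f.totalDegree ≤ 1 → f = 0) {Q₁ Q₂ : MvPolynomial (Fin 3) ℂ} (h1 : Q₁ ∈ P)
    (h2 : Q₂ ∈ P) (d1 : Q₁.totalDegree ≤ 2) (d2 : Q₂.totalDegree ≤ 2) (n1 : Q₁ ≠ 0) :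
    ∃ c : ℂ, Q₂ = C c * Q₁ := by
  obtain ⟨f, a1, a2, a3⟩ := dfdim_factor hP.prime Q₁ n1 h1
  have a4 : (Ideal.span {f}).IsPrime :=
    (Ideal.span_singleton_prime a1.ne_zero).2 a1.prime
  obtain ⟨j, hj⟩ := exists_PD a4
  have a5 : Ideal.span {f} ≤ P := (Ideal.span_singleton_le_iff_mem _).2 a2
  have b1 : j < 3 := dfdim_bot.dim_lt hj
    (bot_lt_iff_ne_bot.2 fun e => a1.ne_zero (Ideal.span_singleton_eq_bot.1 e))
  have b2 : 2 ≤ j := hj.dim_le hP a5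
  obtain rfl : j = 2 := by omega
  have b3 := hj.eq_of_le hP a5
  have b4 : 2 ≤ f.totalDegree := by
    by_contra hc
    exact a1.ne_zero (hl f a2 (by omega))
  obtain ⟨c₁, e₁⟩ := dfdim_const b4 d1 a3
  obtain ⟨c₂, e₂⟩ := dfdim_const b4 d2 (Ideal.mem_span_singleton.1 (b3 ▸ h2))
  have b5 : c₁ ≠ 0 := by
    rintro rfl
    exact n1 (by simpa using e₁)
  refine ⟨c₂ / c₁, ?_⟩
  rw [e₁, e₂, ← mul_assoc, ← map_mul, div_mul_cancel₀ _ b5]

end Vale.Agent.P054S
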