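import Vale.Agent.P054S.DFDim

/-!
One axis.  few_nonfull: fibres of q ↦ (d2 q o, d2 q o'); equal values give equal (q - o) . (q - o) and equal a . (q - o) with a = o' - o; a fibre
with more than 2 e + 1 points has full members (circ_param, full_of_many); card_le_mul_card_image.  few_heights: choose for each height
t a surface; its ideal contains sum C (a i) * (X i - C (o i)) - C t (rot_ht, a . b = 0), so different heights give different primes (else a nonzero
constant lies in a prime); srf_pd, count_pd2.  copl_ht: take v ≠ 0 orthogonal to a and w = a × v.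
one_axis: R₃ = points of R off the axis (at most l on it, P054.col_of_span), full, not at a bad height (at most c e heights, each holds at most π points).
|R₃| > e |L|, so a line z' of L holds more than e points of R₃ (Finset.exists_lt_card_fiber_of_mul_lt_card_of_maps_to with a chosen line for each point);
q = one of them, b = z'.2 - z'.1, the points are q + s b with distinct s; line_full; a . b = 0 would make the height of q bad.
-/

namespace Vale.Agent.P054S

open MvPolynomial Vale.Agent.P054A Sum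
open Vale.Agent.P054 (Col Copl)
open scoped Classical

theorem few_nonfull {h : MvPolynomial (Fin 3) ℂ} {e : ℕ} (he : h.totalDegree ≤ e) {o o' : Pt 3}
    (hne : o ≠ o') (R : Finset (Pt 3)) (hR : ∀ q ∈ R, eval (cx q) h = 0) :
    (R.filter fun q => Off o (o' - o) q ∧ ¬ Full h o (o' - o) q).card
      ≤ (2 * e + 1) * (R.image fun q => (d2 q o, d2 q o')).card := by
  refine (Finset.card_le_mul_card_image (f := fun q => (d2 q o, d2 q o')) _ (2 * e + 1)
    fun y hy => ?_).trans (Nat.mul_le_mul_left _ (Finset.card_le_card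
      (Finset.image_subset_image (Finset.filter_subset _ _))))
  obtain ⟨q, hq, rfl⟩ := Finset.mem_image.1 hy
  obtain ⟨-, hq1, hq2⟩ := Finset.mem_filter.1 hq
  have key : ∀ T : Finset (Pt 3), (∀ x ∈ T, x ∈ R ∧ (d2 x o, d2 x o') = (d2 q o, d2 q o')) →
      T.card ≤ 2 * e + 1 := fun T hT => by
    by_contra hc
    obtain ⟨U, hU, hU'⟩ := circ_param (sub_ne_zero.2 hne.symm) hq1 T fun q' hq' => by
      have h1 := (hT q' hq').2
      rw [Prod.mk.injEq] at h1
      obtain ⟨h1, h2⟩ := h1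
      simp only [d2, Fin.sum_univ_three] at h1 h2
      simp only [P054.dot3, Pi.sub_apply]
      exact ⟨by linear_combination h1, by linear_combination (1 / 2) * h1 - (1 / 2) * h2⟩
    exact hq2 (full_of_many he o _ q U (by omega) fun u hu => hR _ (hT _ (hU' u hu)).1)
  exact key _ fun x hx =>
    ⟨(Finset.mem_filter.1 (Finset.mem_filter.1 hx).1).1, (Finset.mem_filter.1 hx).2⟩

theorem one_ht {o a q b : Pt 3} (hb : a ⬝ᵥ b = 0) {z : Fin 3 → ℂ} (hz : z ∈ srf o a q b) :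
    eval z (∑ i, C (a i : ℂ) * (X i - C (o i : ℂ))) = ((a ⬝ᵥ (q - o) : ℝ) : ℂ) := by
  obtain ⟨s, u, rfl⟩ := hz
  have e1 : q + s • b - o = (q - o) + s • b := by abel
  have e2 : a ⬝ᵥ (rot o a u (q + s • b) - o) = a ⬝ᵥ (q - o) := by
    rw [rot_ht, e1, dotProduct_add, dotProduct_smul, hb, smul_zero, add_zero]
  rw [← e2]
  simp [cx, dotProduct]

theorem few_heights : ∃ c : ℕ, ∀ (h : MvPolynomial (Fin 3) ℂ) (e : ℕ), h ≠ 0 →
    h.totalDegree ≤ e → 1 ≤ e → ∀ o a : Pt 3, a ≠ 0 → ∀ Θ : Finset ℝ,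
      (∀ t ∈ Θ, ∃ q b, Off o a q ∧ b ≠ 0 ∧ a ⬝ᵥ b = 0 ∧ a ⬝ᵥ (q - o) = t ∧
        h ∈ vanI (srf o a q b)) → Θ.card ≤ c * e := by
  obtain ⟨c, -, hc⟩ := count_pd2
  refine ⟨c, fun h e h0 he he1 o a ha Θ hΘ => ?_⟩
  choose! q b h1 h2 h3 h4 h5 using hΘ
  have hinj : Set.InjOn (fun t => vanI (srf o a (q t) (b t))) Θ := fun t ht t' ht' e => by
    have m : (∑ i, C (a i : ℂ) * (X i - C (o i : ℂ)) - C (t : ℂ) : MvPolynomial (Fin 3) ℂ) ∈
        vanI (srf o a (q t) (b t)) := fun z hz => by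
      rw [map_sub, one_ht (h3 t ht) hz, h4 t ht, eval_C, sub_self]
    have e' : vanI (srf o a (q t) (b t)) = vanI (srf o a (q t') (b t')) := e
    rw [e'] at m
    have hz : cx (rot o a 0 (q t' + (0 : ℝ) • b t')) ∈ srf o a (q t') (b t') := ⟨0, 0, rfl⟩
    have := m _ hz
    rw [map_sub, one_ht (h3 t' ht') hz, h4 t' ht', eval_C, sub_eq_zero] at this
    exact (Complex.ofReal_injective this).symm
  rw [← Finset.card_image_of_injOn hinj]
  refine hc h e h0 he he1 _ fun Q hQ => ?_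
  obtain ⟨t, ht, rfl⟩ := Finset.mem_image.1 hQ
  exact ⟨srf_pd ha (h2 t ht) (h1 t ht) h0 (h5 t ht), h5 t ht⟩

theorem copl_ht {o a : Pt 3} (ha : a ≠ 0) {t : ℝ} {T : Finset (Pt 3)}
    (hT : ∀ q ∈ T, a ⬝ᵥ (q - o) = t) : Copl T := by
  have hT' : ∀ q ∈ T, a 0 * (q 0 - o 0) + a 1 * (q 1 - o 1) + a 2 * (q 2 - o 2) = t :=
    fun q hq => by simpa only [P054.dot3, Pi.sub_apply] using hT q hq
  by_cases h0 : a 0 = 0
  · by_cases h1 : a 1 = 0
    · have h2 : a 2 ≠ 0 := fun h2 => ha (funext fun i => by fin_cases i <;> assumption)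
      refine ⟨![o 0, o 1, o 2 + t / a 2], ![1, 0, -a 0 / a 2], ![0, 1, -a 1 / a 2], fun q hq =>
        ⟨q 0 - o 0, q 1 - o 1, funext fun i => ?_⟩⟩
      fin_cases i
      · simp
      · simp
      · simp
        field_simp
        linear_combination hT' q hq
    · refine ⟨![o 0, o 1 + t / a 1, o 2], ![1, -a 0 / a 1, 0], ![0, -a 2 / a 1, 1], fun q hq =>
        ⟨q 0 - o 0, q 2 - o 2, funext fun i => ?_⟩⟩
      fin_cases i
      · simp
      · simp
        field_simp
        linear_combination hT' q hq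
      · simp
  · refine ⟨![o 0 + t / a 0, o 1, o 2], ![-a 1 / a 0, 1, 0], ![-a 2 / a 0, 0, 1], fun q hq =>
      ⟨q 1 - o 1, q 2 - o 2, funext fun i => ?_⟩⟩
    fin_cases i
    · simp
      field_simp
      linear_combination hT' q hq
    · simp
    · simp

theorem one_line {h : MvPolynomial (Fin 3) ℂ} {e : ℕ} (he : h.totalDegree ≤ e) (o a p b q₀ : Pt 3)
    (T : Finset (Pt 3)) (hq₀ : q₀ ∈ T) (hT : ∀ q ∈ T, q - p ∈ Submodule.span ℝ {b})
    (hF : ∀ q ∈ T, Full h o a q) (hc : e < T.card) : h ∈ vanI (srf o a q₀ b) := by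
  have h1 : ∀ q ∈ T, ∃ s : ℝ, q₀ + s • b = q := fun q hq => by
    obtain ⟨r, hr⟩ := Submodule.mem_span_singleton.1 (sub_mem (hT q hq) (hT q₀ hq₀))
    exact ⟨r, by rw [hr]; abel⟩
  choose! s hs using h1
  have hinj : Set.InjOn s T := fun q hq q' hq' e => by rw [← hs q hq, ← hs q' hq', e]
  refine line_full he o a q₀ b (T.image s) (by rwa [Finset.card_image_of_injOn hinj]) fun u hu => ?_
  obtain ⟨q, hq, rfl⟩ := Finset.mem_image.1 hu
  rw [hs q hq]
  exact hF q hq

theorem one_axis : ∃ c : ℕ, ∀ (P₁ R : Finset (Pt 3)) (L : Finset (Pt 3 × Pt 3))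
    (h : MvPolynomial (Fin 3) ℂ) (e a l π : ℕ) (o o' : Pt 3), h ≠ 0 → h.totalDegree ≤ e → 1 ≤ e →
    (∀ q ∈ P₁, eval (cx q) h = 0) → (∀ z ∈ L, z.1 ≠ z.2) →
    (∀ q ∈ P₁, ∃ z ∈ L, q - z.1 ∈ Submodule.span ℝ {z.2 - z.1}) → o ≠ o' → R ⊆ P₁ →
    P₁.card ≤ 2 * R.card → (R.image fun q => (d2 q o, d2 q o')).card ≤ a →
    (∀ T ⊆ P₁, Col T → T.card ≤ l) → (∀ T ⊆ P₁, Copl T → T.card ≤ π) →
    c * e * (l + a + π + L.card) < P₁.card →
      ∃ q b, Off o (o' - o) q ∧ (o' - o) ⬝ᵥ b ≠ 0 ∧ h ∈ vanI (srf o (o' - o) q b) := by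
  obtain ⟨c, hc⟩ := few_heights
  refine ⟨2 * (3 + c), fun P₁ R L h e a l π o o' h0 he he1 hP hL hPL hne hR hPR ha hl hπ hbig => ?_⟩
  by_contra hcon
  have ha0 : o' - o ≠ 0 := sub_ne_zero.2 hne.symm
  obtain ⟨Bad, hBad⟩ : ∃ Bad : ℝ → Prop, ∀ t, Bad t ↔ ∃ q b, Off o (o' - o) q ∧ b ≠ 0 ∧
      (o' - o) ⬝ᵥ b = 0 ∧ (o' - o) ⬝ᵥ (q - o) = t ∧ h ∈ vanI (srf o (o' - o) q b) :=
    ⟨_, fun _ => Iff.rfl⟩
  have n1 : (R.filter fun q => ¬ Off o (o' - o) q).card ≤ l :=
    hl _ ((Finset.filter_subset _ _).trans hR) (P054.col_of_span (p := o) (v := o' - o)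
      fun q hq => not_not.1 (Finset.mem_filter.1 hq).2)
  have n2 := (few_nonfull he hne R fun q hq => hP q (hR hq)).trans (Nat.mul_le_mul_left _ ha)
  have n3 : (R.filter fun q => Bad ((o' - o) ⬝ᵥ (q - o))).card ≤ π * (c * e) := by
    refine (Finset.card_le_mul_card_image (f := fun q => (o' - o) ⬝ᵥ (q - o)) _ π
      fun t _ => ?_).trans (Nat.mul_le_mul_left _ (hc h e h0 he he1 o _ ha0 _ fun t ht => ?_))
    · exact hπ _ ((Finset.filter_subset _ _).trans ((Finset.filter_subset _ _).trans hR))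
        (copl_ht ha0 fun q hq => (Finset.mem_filter.1 hq).2)
    · obtain ⟨q, hq, rfl⟩ := Finset.mem_image.1 ht
      exact (hBad _).1 (Finset.mem_filter.1 hq).2
  choose! g hg hg' using hPL
  have n4 : (R.filter fun q => Off o (o' - o) q ∧ Full h o (o' - o) q ∧
      ¬ Bad ((o' - o) ⬝ᵥ (q - o))).card ≤ e * L.card := by
    refine (Finset.card_le_mul_card_image (f := g) _ e fun z hz => ?_).trans
      (Nat.mul_le_mul_left _ (Finset.card_le_card fun z hz => ?_))
    · obtain ⟨q₀, hq₀, rfl⟩ := Finset.mem_image.1 hz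
      obtain ⟨m0, m1, -, m3⟩ := Finset.mem_filter.1 hq₀
      have key : ∀ T : Finset (Pt 3), q₀ ∈ T →
          (∀ q ∈ T, q ∈ R ∧ Full h o (o' - o) q ∧ g q = g q₀) → T.card ≤ e := fun T h1 hT => by
        by_contra hc'
        have k := one_line he o (o' - o) (g q₀).1 ((g q₀).2 - (g q₀).1) q₀ T h1
          (fun q hq => (hT q hq).2.2 ▸ hg' q (hR (hT q hq).1)) (fun q hq => (hT q hq).2.1)
          (not_le.1 hc')
        by_cases hb : (o' - o) ⬝ᵥ ((g q₀).2 - (g q₀).1) = 0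
        · exact m3 ((hBad _).2 ⟨q₀, _, m1, sub_ne_zero.2 (hL _ (hg _ (hR m0))).symm, hb, rfl, k⟩)
        · exact hcon ⟨q₀, _, m1, hb, k⟩
      refine key _ (Finset.mem_filter.2 ⟨hq₀, rfl⟩) fun q hq => ?_
      obtain ⟨k1, k2⟩ := Finset.mem_filter.1 hq
      exact ⟨(Finset.mem_filter.1 k1).1, (Finset.mem_filter.1 k1).2.2.1, k2⟩
    · obtain ⟨q, hq, rfl⟩ := Finset.mem_image.1 hz
      exact hg q (hR (Finset.mem_filter.1 hq).1)
  have n5 : R.card ≤ l + (2 * e + 1) * a + π * (c * e) + e * L.card := by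
    refine le_trans (Finset.card_le_card (t := _ ∪ _ ∪ _ ∪ _) fun q hq => ?_)
      ((Finset.card_union_le _ _).trans (Nat.add_le_add ((Finset.card_union_le _ _).trans
        (Nat.add_le_add ((Finset.card_union_le _ _).trans (Nat.add_le_add n1 n2)) n3)) n4))
    simp only [Finset.mem_union, Finset.mem_filter]
    tauto
  have n6 : l + (2 * e + 1) * a + π * (c * e) + e * L.card ≤
      (3 + c) * e * (l + a + π + L.card) := by
    have k1 : l ≤ (3 + c) * e * l := Nat.le_mul_of_pos_left _ (by positivity)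
    have k2 : (2 * e + 1) * a ≤ (3 + c) * e * a := Nat.mul_le_mul_right _ (by nlinarith)
    have k3 : π * (c * e) ≤ (3 + c) * e * π := by
      rw [mul_comm]
      exact Nat.mul_le_mul_right _ (by nlinarith)
    have k4 : e * L.card ≤ (3 + c) * e * L.card := Nat.mul_le_mul_right _ (by nlinarith)
    rw [mul_add, mul_add, mul_add]
    omega
  have n7 : 2 * (3 + c) * e * (l + a + π + L.card) = 2 * ((3 + c) * e * (l + a + π + L.card)) := by
    ring
  omega

end Vale.Agent.P054S
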