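import Vale.Agent.P054S.DFDef

/-!
Rotations.  Work in coordinates (P054.dot3, cross_apply, funext, fin_cases, field_simp, ring).  Put α = a . a, v = q - o, w = a × v,
n = α v - (a . v) a.  Off gives w ≠ 0 (if a × v = 0 then α v = (a . v) a).  rot_inj: the dot product of rot - o with w is
2 u |w|² / (1 + u² α), with n it is (1 - u² α) |w|² / (1 + u² α) (|w|² = α |v|² - (a . v)²); so the denominators agree, then u = u'.
rot_surj: v' = q' - o, x = (n . v') / |w|², y = (w . v') / |w|²; v' = ((a . v) / α) a + (x / α) n + y w (a, n, w is an orthogonal basis),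
x² + α y² = 1; if x ≠ -1 take u = y / (1 + x); if x = -1 then y = 0.  circ_param: remove the antipode, choose u for the others.
-/

namespace Vale.Agent.P054S

open MvPolynomial Vale.Agent.P054A Sum
open Vale.Agent.P054 (Col Copl)
open scoped Classical

theorem DFRot_nn (a : Pt 3) : 0 ≤ a ⬝ᵥ a :=
  Finset.sum_nonneg fun i _ => mul_self_nonneg (a i)

theorem DFRot_pos {a : Pt 3} (ha : a ≠ 0) : 0 < a ⬝ᵥ a :=
  lt_of_le_of_ne (DFRot_nn a) fun h => ha (dotProduct_self_eq_zero.1 h.symm)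

theorem DFRot_den (a : Pt 3) (u : ℝ) : 0 < 1 + u ^ 2 * (a ⬝ᵥ a) := by
  have := DFRot_nn a
  positivity

theorem DFRot_sub (o a q : Pt 3) (u : ℝ) : rot o a u q - o =
    (1 + u ^ 2 * (a ⬝ᵥ a))⁻¹ • ((1 - u ^ 2 * (a ⬝ᵥ a)) • (q - o) +
      (2 * u) • crossProduct a (q - o) + (2 * u ^ 2 * (a ⬝ᵥ (q - o))) • a) :=
  add_sub_cancel_left _ _

theorem DFRot_ww (a v : Pt 3) : crossProduct a v ⬝ᵥ crossProduct a v =
    (a ⬝ᵥ a) * (v ⬝ᵥ v) - (a ⬝ᵥ v) ^ 2 := by
  rw [cross_dot_cross, dotProduct_comm v a]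
  ring

theorem DFRot_dot (o a q z : Pt 3) (u : ℝ) : z ⬝ᵥ (rot o a u q - o) =
    (1 + u ^ 2 * (a ⬝ᵥ a))⁻¹ * ((1 - u ^ 2 * (a ⬝ᵥ a)) * (z ⬝ᵥ (q - o)) +
      (2 * u) * (z ⬝ᵥ crossProduct a (q - o)) + (2 * u ^ 2 * (a ⬝ᵥ (q - o))) * (z ⬝ᵥ a)) := by
  rw [DFRot_sub]
  simp only [dotProduct_smul, dotProduct_add, smul_eq_mul]

theorem DFRot_basis (a v z : Pt 3) :
    ((a ⬝ᵥ a) * (crossProduct a v ⬝ᵥ crossProduct a v)) • z =
      ((crossProduct a v ⬝ᵥ crossProduct a v) * (a ⬝ᵥ z)) • a +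
      ((a ⬝ᵥ a) * (v ⬝ᵥ z) - (a ⬝ᵥ v) * (a ⬝ᵥ z)) • ((a ⬝ᵥ a) • v - (a ⬝ᵥ v) • a) +
      ((a ⬝ᵥ a) * (crossProduct a v ⬝ᵥ z)) • crossProduct a v := by
  funext i
  fin_cases i <;>
    simp [cross_apply, dotProduct, Fin.sum_univ_three] <;> ring

theorem rot_zero (o a q : Pt 3) : rot o a 0 q = q := by
  simp [rot]

theorem rot_axis_zero (o q : Pt 3) (u : ℝ) : rot o 0 u q = q := by
  simp [rot]

theorem rot_dist (o a q : Pt 3) (u : ℝ) :
    (rot o a u q - o) ⬝ᵥ (rot o a u q - o) = (q - o) ⬝ᵥ (q - o) := by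
  have h0 := (DFRot_den a u).ne'
  have h1 : a ⬝ᵥ crossProduct a (q - o) = 0 := dot_self_cross _ _
  have h2 : (q - o) ⬝ᵥ crossProduct a (q - o) = 0 := dot_cross_self _ _
  have h3 := DFRot_ww a (q - o)
  rw [DFRot_dot, dotProduct_comm (rot o a u q - o) (q - o),
    dotProduct_comm (rot o a u q - o) (crossProduct a (q - o)),
    dotProduct_comm (rot o a u q - o) a, DFRot_dot, DFRot_dot, DFRot_dot,
    dotProduct_comm (crossProduct a (q - o)) (q - o),
    dotProduct_comm (crossProduct a (q - o)) a, h1, h2, h3, dotProduct_comm (q - o) a]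
  field_simp
  ring

theorem rot_ht (o a q : Pt 3) (u : ℝ) : a ⬝ᵥ (rot o a u q - o) = a ⬝ᵥ (q - o) := by
  have h0 := (DFRot_den a u).ne'
  rw [DFRot_dot, dot_self_cross]
  field_simp
  ring

theorem rot_aff (o a q b : Pt 3) (u s : ℝ) :
    rot o a u (q + s • b) = rot o a u q + s • (rot o a u (o + b) - o) := by
  rw [DFRot_sub, rot, rot, show q + s • b - o = (q - o) + s • b by abel, add_sub_cancel_left,
    map_add, map_smul, dotProduct_add, dotProduct_smul, smul_eq_mul]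
  module

theorem Off.cross_ne {o a q : Pt 3} (ha : a ≠ 0) (h : Off o a q) : crossProduct a (q - o) ≠ 0 := by
  intro h0
  have h1 := cross_cross_eq_smul_sub_smul' a a (q - o)
  rw [h0, map_zero] at h1
  have h2 := (DFRot_pos ha).ne'
  refine h (Submodule.mem_span_singleton.2 ⟨(a ⬝ᵥ (q - o)) / (a ⬝ᵥ a), ?_⟩)
  have h3 : (a ⬝ᵥ a) • (q - o) = (a ⬝ᵥ (q - o)) • a := (sub_eq_zero.1 h1.symm).symm
  rw [div_eq_inv_mul, mul_smul, ← h3, smul_smul, inv_mul_cancel₀ h2, one_smul]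

theorem rot_inj {o a q : Pt 3} (ha : a ≠ 0) (h : Off o a q) :
    Function.Injective fun u => rot o a u q := by
  intro u u' e
  have e' : rot o a u q - o = rot o a u' q - o := congrArg (· - o) e
  have h0 := (DFRot_den a u).ne'
  have h0' := (DFRot_den a u').ne'
  have hw := (DFRot_pos (h.cross_ne ha)).ne'
  have h1 : a ⬝ᵥ crossProduct a (q - o) = 0 := dot_self_cross _ _
  have h2 : (q - o) ⬝ᵥ crossProduct a (q - o) = 0 := dot_cross_self _ _
  have h3 := DFRot_ww a (q - o)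
  have a1 := congrArg ((q - o) ⬝ᵥ ·) e'
  have a2 := congrArg (crossProduct a (q - o) ⬝ᵥ ·) e'
  simp only [DFRot_dot] at a1 a2
  rw [h2, dotProduct_comm (q - o) a] at a1
  rw [dotProduct_comm (crossProduct a (q - o)) (q - o), dotProduct_comm (crossProduct a (q - o)) a,
    h1, h2] at a2
  obtain ⟨W, hW⟩ : ∃ W, W = crossProduct a (q - o) ⬝ᵥ crossProduct a (q - o) := ⟨_, rfl⟩
  rw [← hW] at hw h3 a2
  have a3 : u ^ 2 = u' ^ 2 := by
    refine mul_left_cancel₀ hw ?_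
    rw [inv_mul_eq_div, inv_mul_eq_div, div_eq_div_iff h0 h0'] at a1
    rw [h3]
    linear_combination (-1 / 2) * a1
  rw [a3] at a2
  have a4 := mul_left_cancel₀ (inv_ne_zero h0') a2
  refine mul_left_cancel₀ hw ?_
  linear_combination (1 / 2) * a4

theorem rot_surj {o a q q' : Pt 3} (ha : a ≠ 0) (h : Off o a q)
    (h1 : (q' - o) ⬝ᵥ (q' - o) = (q - o) ⬝ᵥ (q - o)) (h2 : a ⬝ᵥ (q' - o) = a ⬝ᵥ (q - o)) :
    (∃ u, q' = rot o a u q) ∨ q' = o + (2 * (a ⬝ᵥ (q - o)) / (a ⬝ᵥ a)) • a - (q - o) := by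
  have hα := DFRot_pos ha
  have hw := DFRot_pos (h.cross_ne ha)
  have h3 := DFRot_ww a (q - o)
  have hb := DFRot_basis a (q - o) (q' - o)
  have hd := congrArg ((q' - o) ⬝ᵥ ·) hb
  simp only [dotProduct_smul, dotProduct_add, dotProduct_sub (q' - o) ((a ⬝ᵥ a) • (q - o)),
    smul_eq_mul] at hd
  rw [dotProduct_comm (q' - o) a, dotProduct_comm (q' - o) (q - o),
    dotProduct_comm (q' - o) (crossProduct a (q - o)), h1] at hd
  rw [h2] at hb hd
  have hr := fun u => DFRot_sub o a q u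
  generalize crossProduct a (q - o) = w at hw h3 hb hd hr
  generalize w ⬝ᵥ w = W at hw h3 hb hd
  generalize a ⬝ᵥ a = α at hα h3 hb hd hr ⊢
  generalize a ⬝ᵥ (q - o) = η at h3 hb hd hr ⊢
  obtain ⟨x, hx⟩ : ∃ x, α * ((q - o) ⬝ᵥ (q' - o)) - η * η = W * x :=
    ⟨_, (mul_div_cancel₀ _ hw.ne').symm⟩
  obtain ⟨y, hy⟩ : ∃ y, w ⬝ᵥ (q' - o) = W * y := ⟨_, (mul_div_cancel₀ _ hw.ne').symm⟩
  have hxy : x ^ 2 + α * y ^ 2 = 1 := by
    refine mul_left_cancel₀ (pow_ne_zero 2 hw.ne') ?_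
    rw [hy] at hd
    have : α * ((q - o) ⬝ᵥ (q' - o)) - η * η = W * x := hx
    rw [this] at hd
    linear_combination (-1) * hd - W * h3
  rw [hx, hy] at hb
  have key : q' - o = x • (q - o) + y • w + ((1 - x) * η / α) • a := by
    have b1 : α * W ≠ 0 := (mul_pos hα hw).ne'
    have b2 : α * W * ((1 - x) * η / α) = W * η - W * x * η := by
      field_simp
    refine smul_right_injective _ b1 ?_
    simp only [hb, smul_add, smul_smul, b2]
    module
  by_cases hx1 : x = -1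
  · right
    have hy0 : y = 0 := by
      rw [hx1] at hxy
      have : α * y ^ 2 = 0 := by linarith
      exact pow_eq_zero_iff (two_ne_zero) |>.1 ((mul_eq_zero.1 this).resolve_left hα.ne')
    rw [hx1, hy0, show (1 - -1) * η / α = 2 * η / α by ring] at key
    rw [← sub_add_cancel q' o, key]
    module
  · left
    have b1 : 1 + x ≠ 0 := fun e => hx1 (by linarith)
    have b2 : 1 + (y / (1 + x)) ^ 2 * α = 2 / (1 + x) := by
      field_simp
      linear_combination hxy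
    refine ⟨y / (1 + x), sub_left_injective (b := o) ?_⟩
    have c1 : (2 / (1 + x))⁻¹ * (1 - (y / (1 + x)) ^ 2 * α) = x := by
      rw [show 1 - (y / (1 + x)) ^ 2 * α = 2 - 2 / (1 + x) by linarith]
      field_simp
      ring
    have c2 : (2 / (1 + x))⁻¹ * (2 * (y / (1 + x))) = y := by field_simp
    have c3 : (2 / (1 + x))⁻¹ * (2 * (y / (1 + x)) ^ 2 * η) = (1 - x) * η / α := by
      field_simp
      linear_combination η * hxy
    show q' - o = rot o a (y / (1 + x)) q - o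
    rw [hr, b2, smul_add, smul_add, smul_smul, smul_smul, smul_smul, c1, c2, c3, key]

theorem circ_param {o a q : Pt 3} (ha : a ≠ 0) (h : Off o a q) (T : Finset (Pt 3))
    (hT : ∀ q' ∈ T, (q' - o) ⬝ᵥ (q' - o) = (q - o) ⬝ᵥ (q - o) ∧ a ⬝ᵥ (q' - o) = a ⬝ᵥ (q - o)) :
    ∃ U : Finset ℝ, T.card ≤ U.card + 1 ∧ ∀ u ∈ U, rot o a u q ∈ T := by
  obtain ⟨z, hz⟩ : ∃ z, z = o + (2 * (a ⬝ᵥ (q - o)) / (a ⬝ᵥ a)) • a - (q - o) := ⟨_, rfl⟩
  have h1 : ∀ q' ∈ T.erase z, ∃ u, q' = rot o a u q := fun q' hq' =>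
    (rot_surj ha h (hT q' (Finset.mem_of_mem_erase hq')).1
      (hT q' (Finset.mem_of_mem_erase hq')).2).resolve_right (hz ▸ Finset.ne_of_mem_erase hq')
  choose! f hf using h1
  refine ⟨(T.erase z).image f, ?_, fun u hu => ?_⟩
  · rw [Finset.card_image_of_injOn fun x hx y hy e => by rw [hf x hx, hf y hy, e]]
    have := Finset.pred_card_le_card_erase (s := T) (a := z)
    omega
  · obtain ⟨x, hx, rfl⟩ := Finset.mem_image.1 hu
    rw [← hf x hx]
    exact Finset.mem_of_mem_erase hx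

end Vale.Agent.P054S
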