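import Vale.Agent.P054S.DFRot

/-!
Vanishing on circles and surfaces.  df_roots: aeval (fun l => C (P l) + C (Q l) * X) F in Polynomial ℂ has natDegree at most D
(Polynomial.eq_zero_of_natDegree_lt_card_of_eval_eq_zero'), the real numbers are mapped injectively to ℂ.
srf_clear: exists_clear with r = 3, Δ = 1 + (X 1)² α, Z l = C (o l) Δ + numerator of rot at q + (X 0) b (write it with C and X, eval by simp),
Δ ≠ 0 at real points.  full_of_many: the same with r = 2 in one variable (or Fin 2 with b = 0 and an own degree count), then df_roots.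
line_full: for fixed u use rot_aff and df_roots in s.  srf_prime: 1 is not in the ideal; if g g' vanishes on the surface then G G' vanishes
at all real points, so G G' = 0 (exists_real_ne), so G = 0 or G' = 0.
-/

namespace Vale.Agent.P054S

open MvPolynomial Vale.Agent.P054A Sum
open Vale.Agent.P054 (Col Copl)
open scoped Classical

theorem DFVan_poly {σ : Type} {F : MvPolynomial σ ℂ} {D : ℕ} (hF : F.totalDegree ≤ D)
    (P Q : σ → ℝ) :
    ∃ p : Polynomial ℂ, p.natDegree ≤ D ∧ ∀ t : ℝ, p.eval (t : ℂ) = eval (cx (P + t • Q)) F := by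
  refine ⟨aeval (fun l => Polynomial.C (Q l : ℂ) * Polynomial.X + Polynomial.C (P l : ℂ)) F, ?_,
    fun t => ?_⟩
  · have h := aeval_natDegree_le F hF
      (fun l => Polynomial.C (Q l : ℂ) * Polynomial.X + Polynomial.C (P l : ℂ)) (n := 1)
      fun _ => Polynomial.natDegree_linear_le
    rwa [mul_one] at h
  · clear hF
    induction F using MvPolynomial.induction_on with
    | C a => simp
    | add p q hp hq => simp only [map_add, Polynomial.eval_add, hp, hq]
    | mul_X p i hp =>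
      simp only [map_mul, Polynomial.eval_mul, hp, aeval_X, eval_X, Polynomial.eval_add,
        Polynomial.eval_C, Polynomial.eval_X, Pi.add_apply, Pi.smul_apply, smul_eq_mul, cx]
      push_cast
      ring

theorem df_roots {σ : Type} {F : MvPolynomial σ ℂ} {D : ℕ} (hF : F.totalDegree ≤ D) (P Q : σ → ℝ)
    (U : Finset ℝ) (hU : D < U.card) (h : ∀ t ∈ U, eval (cx (P + t • Q)) F = 0) (t : ℝ) :
    eval (cx (P + t • Q)) F = 0 := by
  obtain ⟨p, hp, he⟩ := DFVan_poly hF P Q
  have h0 : p = 0 := by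
    refine Polynomial.eq_zero_of_natDegree_lt_card_of_eval_eq_zero' p
      (U.image ((↑) : ℝ → ℂ)) (fun s hs => ?_) ?_
    · obtain ⟨r, hr, rfl⟩ := Finset.mem_image.1 hs
      exact (he r).trans (h r hr)
    · rw [Finset.card_image_of_injective _ Complex.ofReal_injective]
      exact hp.trans_lt hU
  rw [← he t, h0, Polynomial.eval_zero]

theorem DFVan_pos (a : Pt 3) (u : ℝ) : 0 < 1 + u ^ 2 * (a ⬝ᵥ a) := by
  have : 0 ≤ a ⬝ᵥ a := Finset.sum_nonneg fun i _ => mul_self_nonneg _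
  positivity

theorem DFVan_ne (a : Pt 3) (u : ℝ) : (1 : ℂ) + (u : ℂ) ^ 2 * ((a ⬝ᵥ a : ℝ) : ℂ) ≠ 0 := by
  exact_mod_cast (DFVan_pos a u).ne'

/-- the numerator of the rotation -/
theorem DFVan_num (o a q b : Pt 3) (s u : ℝ) (l : Fin 3) :
    (1 + u ^ 2 * (a ⬝ᵥ a)) * rot o a u (q + s • b) l =
      (q l + s * b l) + (2 * crossProduct a (q - o) l + s * (2 * crossProduct a b l)) * u +
        (((a ⬝ᵥ a) * (2 * o l - q l) + 2 * (a ⬝ᵥ (q - o)) * a l) +
          s * (2 * (a ⬝ᵥ b) * a l - (a ⬝ᵥ a) * b l)) * u ^ 2 := by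
  have h := (DFVan_pos a u).ne'
  have e : q + s • b - o = (q - o) + s • b := by abel
  unfold rot
  rw [e, map_add, map_smul, dotProduct_add, dotProduct_smul]
  simp only [Pi.add_apply, Pi.smul_apply, Pi.sub_apply, smul_eq_mul]
  rw [mul_add, ← mul_assoc, mul_inv_cancel₀ h]
  ring

theorem srf_clear (o a q b : Pt 3) (g : MvPolynomial (Fin 3) ℂ) :
    ∃ G : MvPolynomial (Fin 2) ℂ, ∀ s u : ℝ,
      (eval (cx ![s, u]) G = 0 ↔ eval (cx (rot o a u (q + s • b))) g = 0) := by
  obtain ⟨G, M, h⟩ := exists_clear' (τ := Fin 2) (1 + X 1 ^ 2 * C ((a ⬝ᵥ a : ℝ) : ℂ))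
    (fun l => (C (q l : ℂ) + X 0 * C (b l : ℂ)) +
      (C ((2 * crossProduct a (q - o) l : ℝ) : ℂ) + X 0 * C ((2 * crossProduct a b l : ℝ) : ℂ)) * X 1 +
      (C (((a ⬝ᵥ a) * (2 * o l - q l) + 2 * (a ⬝ᵥ (q - o)) * a l : ℝ) : ℂ) +
        X 0 * C ((2 * (a ⬝ᵥ b) * a l - (a ⬝ᵥ a) * b l : ℝ) : ℂ)) * X 1 ^ 2) g
  refine ⟨G, fun s u => ?_⟩
  have h1 := h ℂ (cx ![s, u]) (cx (rot o a u (q + s • b))) fun l => by
    simp only [map_add, map_mul, map_pow, map_one, aeval_X, aeval_C, Algebra.algebraMap_self,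
      RingHom.id_apply, cx, Matrix.cons_val_zero, Matrix.cons_val_one]
    exact_mod_cast (DFVan_num o a q b s u l).symm
  simp only [map_add, map_mul, map_pow, map_one, aeval_X, aeval_C, Algebra.algebraMap_self,
    RingHom.id_apply] at h1
  change eval _ G = (1 + (u : ℂ) ^ 2 * _) ^ M * eval _ g at h1
  rw [h1, mul_eq_zero, or_iff_right (pow_ne_zero _ (DFVan_ne a u))]

theorem DFVan_quad (A B E : ℂ) :
    (C A + C B * X () + C E * X () ^ 2 : MvPolynomial Unit ℂ).totalDegree ≤ 2 := by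
  refine (totalDegree_add _ _).trans (max_le ((totalDegree_add _ _).trans (max_le ?_ ?_)) ?_)
  · rw [totalDegree_C]
    omega
  · refine (totalDegree_mul _ _).trans ?_
    rw [totalDegree_C, totalDegree_X]
    omega
  · refine (totalDegree_mul _ _).trans ?_
    rw [totalDegree_C, totalDegree_X_pow]

theorem full_of_many {h : MvPolynomial (Fin 3) ℂ} {e : ℕ} (he : h.totalDegree ≤ e) (o a q : Pt 3)
    (U : Finset ℝ) (hU : 2 * e < U.card) (h0 : ∀ u ∈ U, eval (cx (rot o a u q)) h = 0) :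
    Full h o a q := by
  obtain ⟨G, hG, k⟩ := exists_clear _ _ (DFVan_quad 1 0 ((a ⬝ᵥ a : ℝ) : ℂ))
    (fun l => DFVan_quad (q l) ((2 * crossProduct a (q - o) l : ℝ) : ℂ)
      (((a ⬝ᵥ a) * (2 * o l - q l) + 2 * (a ⬝ᵥ (q - o)) * a l : ℝ) : ℂ)) h he
  have k1 : ∀ u : ℝ, eval (cx ((0 : Unit → ℝ) + u • (1 : Unit → ℝ))) G =
      (1 + (u : ℂ) ^ 2 * ((a ⬝ᵥ a : ℝ) : ℂ)) ^ e * eval (cx (rot o a u q)) h := fun u => by
    have e1 : cx ((0 : Unit → ℝ) + u • (1 : Unit → ℝ)) () = u := by simp [cx]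
    rw [k _ (cx (rot o a u q)) fun l => ?_]
    · simp only [map_add, map_mul, map_pow, eval_C, eval_X, e1]
      ring
    · have e2 := DFVan_num o a q 0 0 u l
      rw [zero_smul, add_zero] at e2
      simp only [zero_mul, add_zero] at e2
      simp only [map_add, map_mul, map_pow, eval_C, eval_X, e1, zero_mul, add_zero]
      rw [mul_comm _ ((u : ℂ) ^ 2)]
      unfold cx
      rw [mul_comm ((u : ℂ) ^ 2), mul_comm ((a ⬝ᵥ a : ℝ) : ℂ)]
      exact_mod_cast e2.symm
  intro u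
  have k2 := df_roots hG 0 1 U hU (fun t ht => by rw [k1, h0 t ht, mul_zero]) u
  rw [k1] at k2
  exact (mul_eq_zero.1 k2).resolve_left (pow_ne_zero _ (DFVan_ne a u))

theorem line_full {h : MvPolynomial (Fin 3) ℂ} {e : ℕ} (he : h.totalDegree ≤ e) (o a q b : Pt 3)
    (U : Finset ℝ) (hU : e < U.card) (h0 : ∀ s ∈ U, Full h o a (q + s • b)) :
    h ∈ vanI (srf o a q b) := by
  rintro _ ⟨s, u, rfl⟩
  rw [rot_aff]
  exact df_roots he _ _ U hU (fun t ht => by rw [← rot_aff]; exact h0 t ht u) s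

theorem srf_prime (o a q b : Pt 3) : (vanI (srf o a q b)).IsPrime := by
  refine ⟨(Ideal.ne_top_iff_one _).2 fun h => ?_, fun {g g'} h => ?_⟩
  · have := h _ ⟨0, 0, rfl⟩
    rw [map_one] at this
    exact one_ne_zero this
  · obtain ⟨G, hG⟩ := srf_clear o a q b g
    obtain ⟨G', hG'⟩ := srf_clear o a q b g'
    have h1 : G * G' = 0 := by
      by_contra h1
      obtain ⟨z, hz⟩ := exists_real_ne {()} (fun _ => G * G') fun _ _ => h1
      have e : z = ![z 0, z 1] := by
        funext i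
        fin_cases i <;> rfl
      refine hz () (Finset.mem_singleton_self _) ?_
      have h2 := h _ ⟨z 0, z 1, rfl⟩
      rw [map_mul, mul_eq_zero, ← hG, ← hG', ← e] at h2
      rw [map_mul, mul_eq_zero]
      exact h2
    rcases mul_eq_zero.1 h1 with rfl | rfl
    · left
      rintro _ ⟨s, u, rfl⟩
      exact (hG s u).1 (map_zero _)
    · right
      rintro _ ⟨s, u, rfl⟩
      exact (hG' s u).1 (map_zero _)

end Vale.Agent.P054S
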