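import Vale.Agent.P054S.DFAx
import Vale.Agent.P054S.DFOne

/-!
The end of the exclusion of dense curves.
-/

namespace Vale.Agent.P054S

open MvPolynomial Vale.Agent.P054A Sum
open Vale.Agent.P054 (Col Copl)
open scoped Classical

theorem dfin : ∃ c : ℕ, ∀ (P₁ : Finset (Pt 3)) (L : Finset (Pt 3 × Pt 3))
    (h : MvPolynomial (Fin 3) ℂ) (e a l π : ℕ), h ≠ 0 → h.totalDegree ≤ e → 1 ≤ e →
    (∀ q ∈ P₁, eval (cx q) h = 0) → (∀ z ∈ L, z.1 ≠ z.2) →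
    (∀ q ∈ P₁, ∃ z ∈ L, q - z.1 ∈ Submodule.span ℝ {z.2 - z.1}) →
    (∀ z ∈ L, ∃ R ⊆ P₁, P₁.card ≤ 2 * R.card ∧
      (R.image fun q => (d2 q z.1, d2 q z.2)).card ≤ a) →
    (∀ T ⊆ P₁, Col T → T.card ≤ l) → (∀ T ⊆ P₁, Copl T → T.card ≤ π) →
      P₁.card ≤ c * e * (l + a + π + L.card) := by
  obtain ⟨c₁, h1⟩ := one_axis
  obtain ⟨c₂, -, h2⟩ := count_pd2
  refine ⟨c₁ + c₂, fun P₁ L h e a l π h0 he he1 hz hL hcov hR hl hπ => ?_⟩
  by_contra hc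
  push Not at hc
  have hc1 : c₁ * e * (l + a + π + L.card) < P₁.card :=
    lt_of_le_of_lt (Nat.mul_le_mul_right _ (Nat.mul_le_mul_right _ (by omega))) hc
  have key : ∀ z ∈ L, ∃ q b, Off z.1 (z.2 - z.1) q ∧ (z.2 - z.1) ⬝ᵥ b ≠ 0 ∧
      h ∈ vanI (srf z.1 (z.2 - z.1) q b) := by
    intro z hzL
    obtain ⟨R, r1, r2, r3⟩ := hR z hzL
    exact h1 P₁ R L h e a l π z.1 z.2 h0 he he1 hz hL hcov (hL z hzL) r1 r2 r3 hl hπ hc1
  choose! q b hq hb hh using key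
  choose! ln hln hln' using hcov
  have ha : ∀ z ∈ L, z.2 - z.1 ≠ 0 := fun z hz => sub_ne_zero.2 (hL z hz).symm
  set pr : Pt 3 → Ideal (MvPolynomial (Fin 3) ℂ) := fun y =>
    vanI (srf (ln y).1 ((ln y).2 - (ln y).1) (q (ln y)) (b (ln y))) with hpr
  have h3 : (P₁.image pr).card ≤ c₂ * e := by
    refine h2 h e h0 he he1 _ fun Q hQ => ?_
    obtain ⟨y, hy, rfl⟩ := Finset.mem_image.1 hQ
    have hy' := hln y hy
    refine ⟨srf_pd (ha _ hy') (fun e0 => hb _ hy' ?_) (hq _ hy') h0 (hh _ hy'), hh _ hy'⟩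
    rw [e0, dotProduct_zero]
  have h4 : P₁.card ≤ l * (P₁.image pr).card := by
    refine Finset.card_le_mul_card_image P₁ l fun Q hQ => ?_
    obtain ⟨y, hy, rfl⟩ := Finset.mem_image.1 hQ
    have hy' := hln y hy
    refine hl _ (Finset.filter_subset _ _) (P054.col_of_span (p := (ln y).1)
      (v := (ln y).2 - (ln y).1) fun y' hy'' => ?_)
    obtain ⟨m1, m2⟩ := Finset.mem_filter.1 hy''
    exact srf_axis (ha _ hy') (hq _ hy') (hb _ hy') (hb _ (hln y' m1)) h0 (hh _ hy') m2.symm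
      (hln' y' m1)
  have h5 : l * (c₂ * e) ≤ (c₁ + c₂) * e * (l + a + π + L.card) := by
    rw [mul_comm l]
    exact Nat.mul_le_mul (Nat.mul_le_mul_right _ (by omega)) (by omega)
  have h6 := h4.trans (Nat.mul_le_mul_left l h3)
  omega

end Vale.Agent.P054S
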