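import Vale.Agent.P054S.DDef

/-!
Lagrange multipliers.
-/

namespace Vale.Agent.P054S

open MvPolynomial Vale.Agent.P054A
open scoped Classical

theorem dlag_deriv (g : MvPolynomial (Fin 3) ℝ) (x : Pt 3) :
    ∃ D : Pt 3 →L[ℝ] ℝ, HasStrictFDerivAt (fun y : Pt 3 => eval y g) D x ∧
      ∀ k, D (Pi.single k 1) = eval x (pderiv k g) := by
  induction g using MvPolynomial.induction_on with
  | C a => exact ⟨0, by simpa using hasStrictFDerivAt_const a x, by simp⟩
  | add p q hp hq =>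
    obtain ⟨D, h1, h2⟩ := hp
    obtain ⟨D', h3, h4⟩ := hq
    exact ⟨D + D', by simpa using h1.fun_add h3, fun k => by simp [h2, h4]⟩
  | mul_X p i hp =>
    obtain ⟨D, h1, h2⟩ := hp
    refine ⟨_, by simpa using h1.fun_mul (hasStrictFDerivAt_apply (𝕜 := ℝ) i x), fun k => ?_⟩
    by_cases e : i = k
    · simp [h2, e, mul_comm]
    · simp [h2, e, mul_comm, pderiv_X_of_ne e]

theorem d_lag (f : Fin 2 → MvPolynomial (Fin 3) ℝ) (J : Fin 2 → Fin 3) (l : Fin 3)
    (F : MvPolynomial (Fin 3) ℝ) {x : Pt 3} (hx : ∀ i, eval x (f i) = 0)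
    (h : IsLocalMaxOn (fun y : Pt 3 => eval y F) {y | ∀ i, eval y (f i) = 0} x) :
    eval x (Dk f J l F) = 0 := by
  choose D h1 h2 using fun g => dlag_deriv g x
  have h3 : IsLocalExtrOn (fun y : Pt 3 => eval y F)
      {y | ∀ i, (fun i y => eval y (f i)) i y = (fun i y => eval y (f i)) i x} x := by
    simp only [hx]
    exact h.isExtr
  obtain ⟨Λ, Λ₀, h4, h5⟩ := h3.exists_multipliers_of_hasStrictFDerivAt (fun i => h1 (f i)) (h1 F)
  rw [Dk, minor, RingHom.map_det]
  refine Matrix.exists_vecMul_eq_zero_iff.1 ⟨fun o => o.elim Λ₀ Λ, fun e => h4 ?_, funext fun k => ?_⟩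
  · exact Prod.ext (funext fun i => congrFun e (some i)) (congrFun e none)
  · have h6 := congrArg (fun L : Pt 3 →L[ℝ] ℝ => L (Pi.single (k.elim l J) 1)) h5
    simpa [Matrix.vecMul, dotProduct, h2, add_comm] using h6

end Vale.Agent.P054S
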