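import Vale.Agent.P054S.DDef

/-!
Real equations for a curve with many real points.
-/

namespace Vale.Agent.P054S

open MvPolynomial Vale.Agent.P054A
open scoped Classical

theorem d_sys : ∃ c : ℕ, 1 ≤ c ∧ ∀ Γ : Ideal (MvPolynomial (Fin 3) ℂ), PD 1 Γ →
    ∃ (f : Fin 2 → MvPolynomial (Fin 3) ℂ) (J : Fin 2 → Fin 3), Sys Γ (c * dg 1 Γ) f J := by
  obtain ⟨B, hB, h⟩ := walshN 3
  refine ⟨2 * B ^ 2, Nat.mul_pos (by omega) (Nat.pow_pos hB), fun Γ hΓ => ?_⟩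
  have hd := hΓ.one_le_dg
  obtain ⟨w, c, f, J, Q, a1, a2, a3, a4, a5, a6, -, -, -, a10⟩ :=
    h (Fin 3) (Fintype.card_fin 3) 1 Γ (B * dg 1 Γ + 1) hΓ.var (by omega)
  have hw : w = 1 := by
    by_contra hw
    have b1 : B * dg 1 Γ + 1 ≤ (B * dg 1 Γ + 1) ^ (w - 1) := Nat.le_self_pow (by omega) _
    have b2 := Nat.mul_le_mul a6.one_le_dg b1
    omega
  rw [Fintype.card_fin] at a1
  obtain rfl : c = 2 := by omega
  refine ⟨f, J, fun i => ⟨a3 i, (a5 i).trans ?_⟩, a4⟩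
  have b3 : 1 ≤ B * dg 1 Γ := Nat.mul_pos hB hd
  calc B * (B * dg 1 Γ + 1) ≤ B * (B * dg 1 Γ + B * dg 1 Γ) := by gcongr
    _ = _ := by ring

theorem DReal_coef (f : MvPolynomial (Fin 3) ℂ) (φ : ℂ → ℝ) (h0 : φ 0 = 0) :
    ∃ r : MvPolynomial (Fin 3) ℝ, (∀ m, coeff m (cm r) = φ (coeff m f)) ∧
      (cm r).totalDegree ≤ f.totalDegree := by
  have h1 : ∀ m, coeff m (cm (∑ m ∈ f.support, monomial m (φ (coeff m f)))) = φ (coeff m f) := by
    intro m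
    rw [coeff_map, coeff_sum]
    simp only [coeff_monomial, Finset.sum_ite_eq']
    split_ifs with hm
    · rfl
    · rw [notMem_support_iff.1 hm, h0]
      rfl
  refine ⟨_, h1, totalDegree_le_of_support_subset fun m hm => ?_⟩
  rw [mem_support_iff] at hm ⊢
  intro e
  rw [h1, e, h0] at hm
  exact hm Complex.ofReal_zero

theorem DReal_split (f : MvPolynomial (Fin 3) ℂ) : ∃ r m : MvPolynomial (Fin 3) ℝ,
    f = cm r + C Complex.I * cm m ∧ (cm r).totalDegree ≤ f.totalDegree ∧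
      (cm m).totalDegree ≤ f.totalDegree := by
  obtain ⟨r, a1, a2⟩ := DReal_coef f Complex.re rfl
  obtain ⟨m, b1, b2⟩ := DReal_coef f Complex.im rfl
  refine ⟨r, m, MvPolynomial.ext _ _ fun k => ?_, a2, b2⟩
  rw [coeff_add, coeff_C_mul, a1, b1, mul_comm, Complex.re_add_im]

theorem DReal_minor (g : Fin 2 → MvPolynomial (Fin 3) ℂ) (J : Fin 2 → Fin 3) :
    minor g J = pderiv (J 0) (g 0) * pderiv (J 1) (g 1) -
      pderiv (J 1) (g 0) * pderiv (J 0) (g 1) := by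
  simp [minor, Matrix.det_fin_two]

theorem d_real : ∃ c : ℕ, 1 ≤ c ∧ ∀ (Γ : Ideal (MvPolynomial (Fin 3) ℂ)) (A : Finset (Pt 3)),
    PD 1 Γ → (∀ a ∈ A, On (cx a) Γ) → c * dg 1 Γ ^ 2 < A.card →
      ∃ (f : Fin 2 → MvPolynomial (Fin 3) ℝ) (J : Fin 2 → Fin 3),
        Sys Γ (c * dg 1 Γ) (fun i => cm (f i)) J := by
  obtain ⟨c, hc, h⟩ := d_sys
  have hB := one_le_cB 3
  refine ⟨cB 3 * c, Nat.mul_pos hB hc, fun Γ A hΓ hA hcard => ?_⟩
  obtain ⟨f, J, hf, hJ⟩ := h Γ hΓ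
  have hd := hΓ.one_le_dg
  have key : ∀ g : MvPolynomial (Fin 3) ℝ, (cm g).totalDegree ≤ c * dg 1 Γ →
      (∀ a ∈ A, eval a g = 0) → cm g ∈ Γ := fun g hg hz => by
    by_contra hn
    have b1 := d_sec hΓ hn hg (Nat.mul_pos hc hd) (A.image cx) fun p hp => by
      obtain ⟨a, ha, rfl⟩ := Finset.mem_image.1 hp
      exact ⟨hA a ha, by rw [eval_cm, hz a ha, Complex.ofReal_zero]⟩
    have hi : Function.Injective (cx : Pt 3 → Fin 3 → ℂ) := fun x y e =>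
      funext fun l => Complex.ofReal_injective (congrFun e l)
    rw [Finset.card_image_of_injective _ hi] at b1
    have b2 : cB 3 * dg 1 Γ * (c * dg 1 Γ) = cB 3 * c * dg 1 Γ ^ 2 := by ring
    omega
  choose r m e hr hm using fun i => DReal_split (f i)
  have hz : ∀ i, ∀ a ∈ A, eval a (r i) = 0 ∧ eval a (m i) = 0 := fun i a ha => by
    have b1 := hA a ha (f i) (hf i).1
    rw [e i, map_add, map_mul, eval_C, eval_cm, eval_cm] at b1
    have b2 := congrArg Complex.re b1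
    have b3 := congrArg Complex.im b1
    simp at b2 b3
    exact ⟨b2, b3⟩
  have hle : c * dg 1 Γ ≤ cB 3 * c * dg 1 Γ :=
    Nat.mul_le_mul_right _ (Nat.le_mul_of_pos_left _ hB)
  have gr : ∀ i, cm (r i) ∈ Γ ∧ (cm (r i)).totalDegree ≤ cB 3 * c * dg 1 Γ := fun i =>
    ⟨key _ ((hr i).trans (hf i).2) fun a ha => (hz i a ha).1, ((hr i).trans (hf i).2).trans hle⟩
  have gm : ∀ i, cm (m i) ∈ Γ ∧ (cm (m i)).totalDegree ≤ cB 3 * c * dg 1 Γ := fun i =>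
    ⟨key _ ((hm i).trans (hf i).2) fun a ha => (hz i a ha).2, ((hm i).trans (hf i).2).trans hle⟩
  by_contra hn
  have two : ∀ x y : MvPolynomial (Fin 3) ℝ,
      cm x ∈ Γ ∧ (cm x).totalDegree ≤ cB 3 * c * dg 1 Γ →
      cm y ∈ Γ ∧ (cm y).totalDegree ≤ cB 3 * c * dg 1 Γ →
      pderiv (J 0) (cm x) * pderiv (J 1) (cm y) - pderiv (J 1) (cm x) * pderiv (J 0) (cm y) ∈ Γ :=
    fun x y hx hy => by
      by_contra h0
      refine hn ⟨![x, y], J, Fin.forall_fin_two.2 ⟨hx, hy⟩, ?_⟩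
      rw [DReal_minor]
      exact h0
  refine hJ ?_
  rw [DReal_minor, e 0, e 1]
  simp only [map_add, pderiv_C_mul]
  have := Γ.add_mem (Γ.add_mem (two _ _ (gr 0) (gr 1))
    (Γ.mul_mem_left (C Complex.I) (two _ _ (gr 0) (gm 1))))
    (Γ.add_mem (Γ.mul_mem_left (C Complex.I) (two _ _ (gm 0) (gr 1)))
    (Γ.mul_mem_left (C Complex.I * C Complex.I) (two _ _ (gm 0) (gm 1))))
  refine (congrArg (· ∈ Γ) ?_).mp this
  ring

end Vale.Agent.P054S
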