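import Vale.Agent.P054S.DCrit
import Vale.Agent.P054S.DReal

/-!
Sign patterns on a real curve.
-/

namespace Vale.Agent.P054S

open MvPolynomial Vale.Agent.P054A
open scoped Classical

theorem dpat_l (J : Fin 2 → Fin 3) : ∃ l, l ∉ Set.range J := by
  by_contra h
  push Not at h
  have h1 := Fintype.card_le_of_surjective J h
  simp at h1

theorem dpat_R (A : Finset (Pt 3)) : ∃ R : ℝ, ∀ a ∈ A, 0 < eval a (bal R) := by
  obtain ⟨R, hR⟩ := (A.image fun a => ∑ i, a i ^ 2).bddAbove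
  refine ⟨R + 1, fun a ha => ?_⟩
  have h1 := hR (Finset.mem_coe.2 (Finset.mem_image_of_mem _ ha))
  simp only [bal, map_sub, eval_C, map_sum, map_pow, eval_X]
  linarith

theorem dpat_t (A : Finset (Pt 3)) (l : Fin 3) :
    ∃ t : ℝ, ∀ a ∈ A, eval a (X l + C t : MvPolynomial (Fin 3) ℝ) ≠ 0 := by
  obtain ⟨t, ht⟩ := Infinite.exists_notMem_finset (A.image fun a => -a l)
  refine ⟨t, fun a ha h => ht (Finset.mem_image.2 ⟨a, ha, ?_⟩)⟩
  simp only [map_add, eval_X, eval_C] at h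
  linarith

theorem dpat_bal (R : ℝ) : (bal R).totalDegree ≤ 2 := by
  refine (totalDegree_sub _ _).trans (max_le (by simp) (totalDegree_finsetSum_le fun i _ => ?_))
  rw [totalDegree_X_pow]

theorem dpat_u {Γ : Ideal (MvPolynomial (Fin 3) ℂ)} (hΓ : Γ.IsPrime)
    {f : Fin 2 → MvPolynomial (Fin 3) ℝ} {J : Fin 2 → Fin 3} (hm : cm (minor f J) ∉ Γ)
    {l : Fin 3} (hl : l ∉ Set.range J) (A : Finset (Pt 3)) {B P : MvPolynomial (Fin 3) ℝ}
    (hF : cm (B * P) ∉ Γ) :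
    ∃ u : MvPolynomial (Fin 3) ℝ, u.totalDegree ≤ 1 ∧ (∀ a ∈ A, eval a u ≠ 0) ∧
      cm (Dk f J l (B * u * P)) ∉ Γ := by
  by_cases h : cm (Dk f J l (B * P)) ∈ Γ
  · obtain ⟨t, ht⟩ := dpat_t A l
    refine ⟨X l + C t, (totalDegree_add _ _).trans (by simp), ht, fun h1 => ?_⟩
    have e : Dk f J l (B * (X l + C t) * P) =
        (X l + C t) * Dk f J l (B * P) + B * P * minor f J := by
      rw [show B * (X l + C t) * P = (X l + C t) * (B * P) by ring, Dk_mul, Dk_add, Dk_C,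
        Dk_X f J hl, if_pos rfl, add_zero]
    rw [e, cm, map_add, map_mul, map_mul (map (algebraMap ℝ ℂ)) (B * P)] at h1
    have h2 := (Γ.add_mem_iff_right (Γ.mul_mem_left _ h)).1 h1
    exact (hΓ.mem_or_mem h2).elim hF hm
  · exact ⟨1, by simp, by simp, by rwa [mul_one]⟩

theorem d_pat : ∃ c : ℕ, 1 ≤ c ∧ ∀ (Γ : Ideal (MvPolynomial (Fin 3) ℂ)) (A : Finset (Pt 3))
    (κ : Type) (K : Finset κ) (g : κ → MvPolynomial (Fin 3) ℝ), PD 1 Γ → (∀ a ∈ A, On (cx a) Γ) →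
    c * dg 1 Γ ^ 2 < A.card → (∀ k ∈ K, (g k).totalDegree ≤ 2) →
    (∀ a ∈ A, ∀ k ∈ K, eval a (g k) ≠ 0) →
      (A.image fun a => K.filter fun k => 0 < eval a (g k)).card
        ≤ c * dg 1 Γ * (K.card + dg 1 Γ) := by
  obtain ⟨c0, hc0, H0⟩ := d_real
  have hB := one_le_cB 3
  refine ⟨cB 3 * (4 * c0 + 3), by nlinarith, fun Γ A κ K g hΓ hA hc hK hg => ?_⟩
  have hd := hΓ.one_le_dg
  have hcc : c0 ≤ cB 3 * (4 * c0 + 3) := by nlinarith
  obtain ⟨f, J, hf⟩ := H0 Γ A hΓ hA ((Nat.mul_le_mul_right _ hcc).trans_lt hc)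
  obtain ⟨a0, ha0⟩ := Finset.card_pos.1 ((Nat.zero_le _).trans_lt hc)
  obtain ⟨l, hl⟩ := dpat_l J
  obtain ⟨R, hR⟩ := dpat_R A
  have hm : cm (minor f J) ∉ Γ := by
    rw [cm, map_minor]
    exact hf.2
  have hF : cm (bal R * ∏ k ∈ K, g k) ∉ Γ := fun h => by
    have h1 := hA a0 ha0 _ h
    rw [eval_cm, Complex.ofReal_eq_zero, map_mul, map_prod] at h1
    exact mul_ne_zero (hR a0 ha0).ne' (Finset.prod_ne_zero_iff.2 (hg a0 ha0)) h1
  obtain ⟨u, hu1, hu2, hu3⟩ := dpat_u hΓ.prime hm hl A hF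
  obtain ⟨F, hFe⟩ : ∃ F, F = bal R * u * ∏ k ∈ K, g k := ⟨_, rfl⟩
  have hFd : F.totalDegree ≤ 3 + 2 * K.card := by
    have h1 : (∏ k ∈ K, g k).totalDegree ≤ 2 * K.card := by
      refine (totalDegree_finsetProd _ _).trans ((Finset.sum_le_card_nsmul _ _ 2 hK).trans ?_)
      rw [smul_eq_mul, mul_comm]
    have h2 := totalDegree_mul (bal R * u) (∏ k ∈ K, g k)
    have h3 := totalDegree_mul (bal R) u
    have h4 := dpat_bal R
    rw [hFe]
    omega
  have hG : cm (minor f J * Dk f J l F) ∉ Γ := fun h => by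
    rw [cm, map_mul] at h
    exact (hΓ.prime.mem_or_mem h).elim hm (hFe ▸ hu3)
  have hGd : (cm (minor f J * Dk f J l F)).totalDegree ≤ (4 * c0 + 3) * (K.card + dg 1 Γ) := by
    rw [cm, map_mul, map_minor, map_Dk]
    have h1 := totalDegree_minor_le (fun i => (hf.1 i).2) J
    have h2 := totalDegree_Dk_le (fun i => (hf.1 i).2) J l (cm F)
    have h3 := low_deg_map (algebraMap ℝ ℂ) F
    refine (totalDegree_mul _ _).trans
      ((add_le_add h1 (h2.trans (add_le_add (h3.trans hFd) le_rfl))).trans ?_)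
    simp only [Fintype.card_fin]
    nlinarith
  have hx : ∀ a : Pt 3, ∃ x : Pt 3, a ∈ A → On (cx x) Γ ∧
      (∀ k ∈ K, (0 < eval x (g k) ↔ 0 < eval a (g k))) ∧
      eval x (minor f J * Dk f J l F) = 0 := fun a => by
    by_cases ha : a ∈ A
    · obtain ⟨x, h⟩ := d_crit hΓ hf l K g u R (hA a ha) (hR a ha) (hu2 a ha) (hg a ha)
      exact ⟨x, fun _ => hFe ▸ h⟩
    · exact ⟨a, fun h => absurd h ha⟩
  choose x hx using hx
  have h1 := d_sec hΓ hG hGd (by nlinarith) (A.image fun a => cx (x a)) fun p hp => by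
    obtain ⟨a, ha, rfl⟩ := Finset.mem_image.1 hp
    refine ⟨(hx a ha).1, ?_⟩
    rw [eval_cm, (hx a ha).2.2, Complex.ofReal_zero]
  have h2 : (A.image fun a => K.filter fun k => 0 < eval a (g k)) ⊆
      (A.image fun a => cx (x a)).image fun p =>
        K.filter fun k => 0 < eval (fun i => (p i).re) (g k) := by
    intro S hS
    obtain ⟨a, ha, rfl⟩ := Finset.mem_image.1 hS
    refine Finset.mem_image.2 ⟨_, Finset.mem_image_of_mem _ ha, ?_⟩
    exact Finset.filter_congr fun k hk => (hx a ha).2.1 k hk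
  refine (Finset.card_le_card h2).trans (Finset.card_image_le.trans (h1.trans (le_of_eq ?_)))
  ring

end Vale.Agent.P054S
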