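import Vale.Agent.P054S.DDef

/-!
Counting distance vectors with small gaps.
-/

namespace Vale.Agent.P054S

open MvPolynomial Vale.Agent.P054A
open scoped Classical

theorem drank_sum (Y : Finset (Pt 3)) (a b : Pt 3) : sepn Y a b = ∑ p ∈ Y, gap Y p a b := by
  simp only [sepn, gap, Finset.card_filter]
  rw [Finset.sum_product]

theorem d_markov {Y : Finset (Pt 3)} {τ q g : ℕ} (hτ : nd2 Y ≤ τ) (hg : 8 * (τ + 1) ≤ q * g)
    {a b : Pt 3} (hb : b ∈ nbh Y Y q a) :
    8 * (Y.filter fun p => g < gap Y p a b).card ≤ Y.card := by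
  have h1 : q * sepn Y a b < Y.card * (dset Y).card := (Finset.mem_filter.1 hb).2
  have h2 : (Y.filter fun p => g < gap Y p a b).card * g ≤ sepn Y a b := by
    rw [drank_sum]
    refine le_trans ?_ (Finset.sum_le_sum_of_subset
      (Finset.filter_subset (fun p => g < gap Y p a b) Y))
    exact Finset.card_nsmul_le_sum _ _ _ fun p hp => (Finset.mem_filter.1 hp).2.le
  have h3 := Nat.mul_le_mul_left Y.card (card_dset hτ)
  have h4 := Nat.mul_le_mul_left (Y.filter fun p => g < gap Y p a b).card hg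
  have h5 := Nat.mul_le_mul_left q h2
  refine Nat.le_of_mul_le_mul_right (c := τ + 1) ?_ (Nat.succ_pos τ)
  nlinarith

theorem drank_le (D : Finset ℝ) (s t : ℝ) : (D.filter (· < t)).card ≤ (D.filter (· < s)).card +
      (D.filter fun ρ => ¬(ρ < s ↔ ρ < t)).card ∧ (D.filter (· < s)).card ≤
      (D.filter (· < t)).card + (D.filter fun ρ => ¬(ρ < s ↔ ρ < t)).card := by
  constructor <;>
  · refine le_trans (Finset.card_le_card fun ρ h => ?_) (Finset.card_union_le _ _)
    simp only [Finset.mem_union, Finset.mem_filter] at h ⊢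
    tauto

theorem drank_lt {D : Finset ℝ} {s t : ℝ} (hs : s ∈ D) (h : s < t) :
    (D.filter (· < s)).card < (D.filter (· < t)).card := by
  refine Finset.card_lt_card ⟨fun ρ hρ => ?_, fun h' => ?_⟩
  · exact Finset.mem_filter.2 ⟨(Finset.mem_filter.1 hρ).1, (Finset.mem_filter.1 hρ).2.trans h⟩
  · exact lt_irrefl s (Finset.mem_filter.1 (h' (Finset.mem_filter.2 ⟨hs, h⟩))).2

/-- The values close to `s` in rank. -/
noncomputable def drankN (D : Finset ℝ) (g : ℕ) (s : ℝ) : Finset ℝ :=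
  D.filter fun t => (D.filter fun ρ => ¬(ρ < s ↔ ρ < t)).card ≤ g

theorem drank_card (D : Finset ℝ) (g : ℕ) (s : ℝ) : (drankN D g s).card ≤ 2 * g + 1 := by
  have h := Finset.card_le_card_of_injOn (s := drankN D g s)
    (t := Finset.Icc ((D.filter (· < s)).card - g) ((D.filter (· < s)).card + g))
    (fun t => (D.filter (· < t)).card) (fun t ht => by
      have h1 := (Finset.mem_filter.1 (Finset.mem_coe.1 ht)).2
      obtain ⟨h2, h3⟩ := drank_le D s t
      simp only [Finset.coe_Icc, Set.mem_Icc]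
      omega) fun t ht t' ht' e => by
      have h1 := (Finset.mem_filter.1 (Finset.mem_coe.1 ht)).1
      have h2 := (Finset.mem_filter.1 (Finset.mem_coe.1 ht')).1
      rcases lt_trichotomy t t' with h | h | h
      · exact absurd e (drank_lt h1 h).ne
      · exact h
      · exact absurd e (drank_lt h2 h).ne'
  rw [Nat.card_Icc] at h
  omega

theorem d_pairs {Y : Finset (Pt 3)} {τ : ℕ} (hτ : nd2 Y ≤ τ) {a b : Pt 3} (ha : a ∈ Y)
    (hb : b ∈ Y) (g : ℕ) :
    ((Y.filter fun p => gap Y p a b ≤ g).image (cls a b)).card ≤ (τ + 1) * (2 * g + 1) := by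
  have h : (Y.filter fun p => gap Y p a b ≤ g).image (cls a b) ⊆
      (dset Y).biUnion fun s => (drankN (dset Y) g s).image fun t => (s, t) := by
    intro z hz
    obtain ⟨p, hp, rfl⟩ := Finset.mem_image.1 hz
    obtain ⟨h1, h2⟩ := Finset.mem_filter.1 hp
    exact Finset.mem_biUnion.2 ⟨d2 p a, mem_dset h1 ha, Finset.mem_image.2
      ⟨d2 p b, Finset.mem_filter.2 ⟨mem_dset h1 hb, h2⟩, rfl⟩⟩
  refine (Finset.card_le_card h).trans ((Finset.card_biUnion_le_card_mul _ _ (2 * g + 1)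
    fun s _ => Finset.card_image_le.trans (drank_card _ g s)).trans ?_)
  exact Nat.mul_le_mul_right _ (card_dset hτ)

theorem d_trip {Y : Finset (Pt 3)} {τ : ℕ} (hτ : nd2 Y ≤ τ) {a b c : Pt 3} (ha : a ∈ Y)
    (hb : b ∈ Y) (hc : c ∈ Y) (g₁ g₂ : ℕ) :
    ((Y.filter fun p => gap Y p a b ≤ g₁ ∧ gap Y p a c ≤ g₂).image
      fun p => (cls a b p, d2 p c)).card ≤ (τ + 1) * (2 * g₁ + 1) * (2 * g₂ + 1) := by
  have h : ((Y.filter fun p => gap Y p a b ≤ g₁ ∧ gap Y p a c ≤ g₂).image
      fun p => (cls a b p, d2 p c)) ⊆ (dset Y).biUnion fun s =>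
        (drankN (dset Y) g₁ s ×ˢ drankN (dset Y) g₂ s).image fun t => ((s, t.1), t.2) := by
    intro z hz
    obtain ⟨p, hp, rfl⟩ := Finset.mem_image.1 hz
    obtain ⟨h1, h2, h3⟩ := Finset.mem_filter.1 hp
    exact Finset.mem_biUnion.2 ⟨d2 p a, mem_dset h1 ha, Finset.mem_image.2
      ⟨(d2 p b, d2 p c), Finset.mem_product.2 ⟨Finset.mem_filter.2 ⟨mem_dset h1 hb, h2⟩,
        Finset.mem_filter.2 ⟨mem_dset h1 hc, h3⟩⟩, rfl⟩⟩
  refine (Finset.card_le_card h).trans ((Finset.card_biUnion_le_card_mul _ _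
    ((2 * g₁ + 1) * (2 * g₂ + 1)) fun s _ => Finset.card_image_le.trans ?_).trans ?_)
  · rw [Finset.card_product]
    exact Nat.mul_le_mul (drank_card _ g₁ s) (drank_card _ g₂ s)
  · rw [mul_assoc]
    exact Nat.mul_le_mul_right _ (card_dset hτ)

end Vale.Agent.P054S
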