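import Vale.Agent.P054A.Final

/-!
Definitions for the sharp bound.
-/

namespace Vale.Agent.P054S

open MvPolynomial Vale.Agent.P054A Sum
open scoped Classical

noncomputable section

section Alg

variable {σ : Type} [Fintype σ]

/-- `P` is a prime ideal of dimension `j`. -/
def PD (j : ℕ) (P : Ideal (MvPolynomial σ ℂ)) : Prop :=
  j ≤ Fintype.card σ ∧ ∃ p, IsComp (Fintype.card σ - j) p P

/-- The points of `S` on the zero set of `P`. -/
def zs (S : Finset (σ → ℂ)) (P : Ideal (MvPolynomial σ ℂ)) : Finset (σ → ℂ) :=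
  S.filter fun p => On p P

/-- Varieties of dimension `j ≤ j₀` hold at most `M ^ j` points of `S` per degree. -/
def Dens (S : Finset (σ → ℂ)) (M j₀ : ℕ) : Prop :=
  ∀ j ≤ j₀, ∀ P : Ideal (MvPolynomial σ ℂ), PD j P → (zs S P).card ≤ dg j P * M ^ j

/-- On varieties of dimension `1 ≤ j ≤ j₀` the points of `S` are captured in degree `M`. -/
def CapT (S : Finset (σ → ℂ)) (M j₀ : ℕ) : Prop :=
  ∀ j, 1 ≤ j → j ≤ j₀ → ∀ P : Ideal (MvPolynomial σ ℂ), PD j P →
    ∃ g, g ∉ P ∧ g.totalDegree ≤ M ∧ ∀ p ∈ S, On p P → eval p g = 0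

/-- The ideal generated by the members of `P` of degree at most `s`. -/
def low (P : Ideal (MvPolynomial σ ℂ)) (s : ℕ) : Ideal (MvPolynomial σ ℂ) :=
  Ideal.span {g | g ∈ P ∧ g.totalDegree ≤ s}

/-- `f` is a system in `P` of degree at most `s` which is simple at the generic point of `P`. -/
def Sys {c : ℕ} (P : Ideal (MvPolynomial σ ℂ)) (s : ℕ) (f : Fin c → MvPolynomial σ ℂ)
    (J : Fin c → σ) : Prop :=
  (∀ i, f i ∈ P ∧ (f i).totalDegree ≤ s) ∧ minor f J ∉ P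

end Alg

section Model

variable {k : ℕ}

/-- Positions above the diagonal. -/
abbrev Pr (d : ℕ) : Type := {p : Fin d × Fin d // p.1 < p.2}

/-- The isotropic projection `(s, w) ↦ s - A w`. -/
def prj {A : Type} [CommRing A] (a : Pr (k + 1) → A) (x : Tx k → A) : Fin (k + 1) → A :=
  fun i => x (inl i) - ∑ j, skw a i j * x (inr j)

/-- The twist `(s, w) ↦ (s - A w, w)`. -/
def tw {A : Type} [CommRing A] (a : Pr (k + 1) → A) (x : Tx k → A) : Tx k → A :=
  Sum.elim (prj a x) fun j => x (inr j)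

/-- The family `a` is generic over the numbers in `T`. -/
def GenA {ι : Type} (T : Set ℂ) (a : ι → ℂ) : Prop :=
  ∀ c : ι → ℂ, ∃ D : Derivation ℚ ℂ ℂ, (∀ t ∈ T, D t = 0) ∧ ∀ q, D (a q) = c q

/-- The coordinates of the points of `S`. -/
def crd {τ : Type} (S : Finset (τ → ℂ)) : Set ℂ := {t | ∃ x ∈ S, ∃ l, x l = t}

/-- Pairwise null subsets of `S` have at most `E` members. -/
def NulB (S : Finset (Tx k → ℂ)) (E : ℕ) : Prop :=
  ∀ T ⊆ S, (∀ x ∈ T, ∀ y ∈ T, nul x y) → T.card ≤ E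

/-- Real points. -/
abbrev Pt (d : ℕ) : Type := Fin d → ℝ

/-- The direction from `p` to `q` in the affine chart of the first coordinate. -/
def dir (p q : Pt (k + 1)) : Fin k → ℂ := fun i => ((q i.succ - p i.succ) / (q 0 - p 0) : ℝ)

/-- The good partners of `p`. -/
def nbr {d : ℕ} (S₀ : Finset (Pt d × Pt d)) (p : Pt d) : Finset (Pt d) :=
  (S₀.filter fun z => z.1 = p).image Prod.snd

/-- Seen from each point, the good partners have distinct directions of density `T`. -/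
def ConeOK (S₀ : Finset (Pt (k + 1) × Pt (k + 1))) (T : ℕ) : Prop :=
  ∀ p, Set.InjOn (dir p) (nbr S₀ p : Set (Pt (k + 1))) ∧ Dens ((nbr S₀ p).image (dir p)) T k

/-- A set of pairs defining a partial isometry. -/
def Cong {d : ℕ} (T : Finset (Pt d × Pt d)) : Prop :=
  ∀ x ∈ T, ∀ y ∈ T, d2 x.1 y.1 = d2 x.2 y.2

/-- Edges inside partial isometries with at least `r` pairs. -/
def bad {d : ℕ} (P : Finset (Pt d)) (r : ℕ) : Finset ((Pt d × Pt d) × (Pt d × Pt d)) :=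
  ((P ×ˢ P) ×ˢ (P ×ˢ P)).filter fun e =>
    ∃ T ⊆ P ×ˢ P, e.1 ∈ T ∧ e.2 ∈ T ∧ r ≤ T.card ∧ Cong T

/-- The size window `|P| ~ κ ^ (2 d) τ ^ (d / 2)`. -/
def Win {d : ℕ} (P : Finset (Pt d)) (κ τ : ℕ) : Prop :=
  nd2 P ≤ τ ∧ κ ^ (4 * d) * τ ^ d ≤ P.card ^ 2 ∧ P.card ^ 2 ≤ 16 * (κ ^ (4 * d) * τ ^ d)

end Model

end

end Vale.Agent.P054S
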