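import Vale.Agent.P054S.GRk

/-!
No base points.  ai_hom: induction on N; Euler (IsHomogeneous.sum_X_mul_pderiv) and gder_eval give c = 0 for c i = eval y (pderiv i F);
IsHomogeneous.pderiv, cD_pderiv, induction: all pderiv i F = 0, Euler again.  exists_const: F ≠ 0 in V with least support card, scaled so
that one coefficient is 1; cD F is in V with smaller support.  bpf: if v ≠ 0 take S from rk_cols, V = P.comap (rename S) is stable
(cD_rename), F from exists_const, ai_hom for its top component (cD_hom, rename_homogeneousComponent, totalDegree_rename_le, eval_rename).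
-/

namespace Vale.Agent.P054S

open MvPolynomial Vale.Agent.P054A Vale.Agent.P271 Sum
open scoped Classical

variable {k : ℕ} {a : Pr (k + 1) → ℂ} {D : Ders k}

theorem ai_hom {n : ℕ} {ι : Type} (E : ι → ι → Derivation ℚ ℂ ℂ) (y : Fin n → ℂ)
    (hy : ∀ c : Fin n → ℂ, ∑ i, c i * y i = 0 → (∀ p q, ∑ i, c i * E p q (y i) = 0) → c = 0)
    (N : ℕ) : ∀ F : MvPolynomial (Fin n) ℂ, F.IsHomogeneous N → (∀ p q, cD (E p q) F = 0) →
      eval y F = 0 → F = 0 := by
  induction N with
  | zero =>
    intro F hF _ h0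
    rw [← totalDegree_zero_iff_isHomogeneous, totalDegree_eq_zero_iff_eq_C] at hF
    rw [hF, eval_C] at h0
    rw [hF, h0, C_0]
  | succ N ih =>
    intro F hF hc h0
    have eu := hF.sum_X_mul_pderiv
    have h1 := hy (fun i => eval y (pderiv i F)) (by
      have := congrArg (eval y) eu
      simp only [map_sum, map_mul, eval_X, map_nsmul, h0, smul_zero] at this
      simpa only [mul_comm] using this) fun p q => by
      have := gder_eval (E p q) y F
      rw [h0, hc, map_zero, map_zero, zero_add] at this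
      exact this.symm
    have h2 : ∀ i, pderiv i F = 0 := fun i =>
      ih _ hF.pderiv (fun p q => by rw [cD_pderiv, hc, map_zero]) (congrFun h1 i)
    simp only [h2, mul_zero, Finset.sum_const_zero] at eu
    exact (smul_eq_zero.1 eu.symm).resolve_left (Nat.succ_ne_zero N)

theorem exists_const {σ ι : Type} {E : ι → ι → Derivation ℚ ℂ ℂ} {V : Ideal (MvPolynomial σ ℂ)}
    (hV : Stab E V) (h : V ≠ ⊥) : ∃ F ∈ V, F ≠ 0 ∧ ∀ p q, cD (E p q) F = 0 := by
  have ex : ∃ n, ∃ F ∈ V, F ≠ 0 ∧ F.support.card = n := by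
    obtain ⟨F, h1, h2⟩ := Submodule.exists_mem_ne_zero_of_ne_bot h
    exact ⟨_, F, h1, h2, rfl⟩
  obtain ⟨F, hF, h0, hn⟩ := Nat.find_spec ex
  obtain ⟨α, hα⟩ := ne_zero_iff.1 h0
  have h1 : coeff α (C (coeff α F)⁻¹ * F) = 1 := by rw [coeff_C_mul, inv_mul_cancel₀ hα]
  have h2 : C (coeff α F)⁻¹ * F ∈ V := V.mul_mem_left _ hF
  refine ⟨_, h2, ne_zero_iff.2 ⟨α, by rw [h1]; exact one_ne_zero⟩, fun p q => ?_⟩
  by_contra h3
  have h4 := Nat.find_min' ex ⟨_, hV p q _ h2, h3, rfl⟩
  rw [← hn] at h4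
  refine absurd h4 (not_le.2 (Finset.card_lt_card ⟨fun β hβ => ?_, fun hs => ?_⟩))
  · have := mem_support_iff.1 (cD_support _ _ hβ)
    rw [coeff_C_mul] at this
    exact mem_support_iff.2 (right_ne_zero_of_mul this)
  · refine mem_support_iff.1 (hs (mem_support_iff.2 hα)) ?_
    rw [coeff_cD, h1, Derivation.map_one_eq_zero]

theorem bpf (hD : DirD a D) {P : Ideal (Px k)} (hP : Stab D P)
    (hdim : ∀ S : Fin (k + 1) → Tx k, Function.Injective S →
      ∃ F : MvPolynomial (Fin (k + 1)) ℂ, F ≠ 0 ∧ rename S F ∈ P)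
    {v : Tx k → ℂ} (h0 : prj a v = 0)
    (h : ∀ F ∈ P, ∀ N, F.totalDegree ≤ N → eval v (homogeneousComponent N F) = 0) : v = 0 := by
  by_contra hv
  obtain ⟨S, hS, hc⟩ := rk_cols hD hv h0
  have hV : Stab D (P.comap (rename S : Pz k →ₐ[ℂ] Px k)) := fun p q F hF => by
    rw [Ideal.mem_comap, ← cD_rename]
    exact hP p q _ hF
  obtain ⟨F, hF, hF0, hFc⟩ := exists_const hV (by
    obtain ⟨F, h1, h2⟩ := hdim S hS
    exact (Submodule.ne_bot_iff _).2 ⟨F, h2, h1⟩)
  have h1 := ai_hom D (fun i => v (S i)) hc F.totalDegree _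
    (homogeneousComponent_isHomogeneous F.totalDegree F)
    (fun p q => by rw [cD_hom, hFc, map_zero]) (by
      have := h _ hF _ (totalDegree_rename_le S F)
      rwa [← rename_homogeneousComponent, eval_rename] at this)
  obtain ⟨α, hα, hd⟩ := Finset.exists_mem_eq_sup F.support (support_nonempty.2 hF0)
    fun s => s.sum fun _ e => e
  have h2 := congrArg (coeff α) h1
  have h3 : Finsupp.degree α = F.totalDegree := hd.symm
  rw [coeff_homogeneousComponent, if_pos h3, coeff_zero] at h2
  exact mem_support_iff.1 hα h2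

end Vale.Agent.P054S
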