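import Vale.Agent.P054S.GDef

/-!
Degree bound.  finrank_le_two: adjoin K {t} = ⊤ (restrictScalars contains all ξ l), minpoly.degree_le_of_ne_zero,
IntermediateField.adjoin.finrank.  deg_up: P271.fn y gives d, y' independent in the span of y with FInt; FInt.trans; Up_fin, deg_trdeg give
trdeg L = d; PD.trdeg (hp.pd) and trdeg_add_eq give trdeg L = j; H_le_of_norm; finrank K' L = relfinrank K' K * finrank K L
(IntermediateField.relfinrank_mul_finrank_top), and a basis of extendScalars over K' with finrank_le_of_H (B = 1, A i of degree ≤ 1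
from FInt_lin_poly, IsVar.H_le) bounds the first factor by dg * (j + 1) ^ j.
-/

namespace Vale.Agent.P054S

open MvPolynomial Vale.Agent.P054A Vale.Agent.P271 Sum
open scoped Classical

theorem finrank_le_two {σ L : Type} [Field L] [Algebra ℂ L] (ξ : σ → L)
    (hL : IntermediateField.adjoin ℂ (Set.range ξ) = ⊤) (K : IntermediateField ℂ L) (t : L)
    {a₂ a₁ a₀ : L} (h₂ : a₂ ∈ K) (h₁ : a₁ ∈ K) (h₀ : a₀ ∈ K) (hne : a₂ ≠ 0)
    (ht : a₂ * t ^ 2 + a₁ * t + a₀ = 0) (hξ : ∀ l, ∃ u ∈ K, ∃ v ∈ K, ξ l = u * t + v) :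
    FiniteDimensional K L ∧ Module.finrank K L ≤ 2 := by
  have htop : IntermediateField.adjoin K {t} = ⊤ := by
    have h1 : IntermediateField.adjoin ℂ (Set.range ξ) ≤
        (IntermediateField.adjoin K {t}).restrictScalars ℂ := by
      rw [IntermediateField.adjoin_le_iff]
      rintro _ ⟨l, rfl⟩
      obtain ⟨u, hu, v, hv, e⟩ := hξ l
      rw [e]
      change _ ∈ IntermediateField.adjoin K {t}
      exact add_mem (mul_mem (IntermediateField.algebraMap_mem _ (⟨u, hu⟩ : K))
        (IntermediateField.mem_adjoin_simple_self K t))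
        (IntermediateField.algebraMap_mem _ (⟨v, hv⟩ : K))
    rw [hL] at h1
    exact eq_top_iff.2 fun z _ => h1 IntermediateField.mem_top
  obtain ⟨q, hq⟩ : ∃ q : Polynomial K, q = Polynomial.C (⟨a₂, h₂⟩ : K) * Polynomial.X ^ 2 +
    Polynomial.C (⟨a₁, h₁⟩ : K) * Polynomial.X + Polynomial.C (⟨a₀, h₀⟩ : K) := ⟨_, rfl⟩
  have ha : (⟨a₂, h₂⟩ : K) ≠ 0 := fun h => hne (congrArg Subtype.val h)
  have hd : q.natDegree = 2 := by
    rw [hq]
    exact Polynomial.natDegree_quadratic ha
  have hq0 : q ≠ 0 := by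
    rintro rfl
    simp at hd
  have hz : Polynomial.aeval t q = 0 := by
    rw [hq]
    simp only [map_add, map_mul, map_pow, Polynomial.aeval_C, Polynomial.aeval_X]
    exact ht
  have hi : IsIntegral K t := IsAlgebraic.isIntegral ⟨q, hq0, hz⟩
  have hf := IntermediateField.adjoin.finiteDimensional hi
  have hr := IntermediateField.adjoin.finrank hi
  rw [htop] at hf hr
  refine ⟨IntermediateField.topEquiv.toLinearEquiv.finiteDimensional, ?_⟩
  rw [← IntermediateField.finrank_top', hr, ← hd]
  exact Polynomial.natDegree_le_natDegree (minpoly.degree_le_of_ne_zero K t hq0 hz)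

theorem trdeg_up {r j : ℕ} {L : Type} [Field L] [Algebra ℂ L] (y : Fin r → L)
    (hp : IsVar j (kr y)) (hfin : FiniteDimensional (IntermediateField.adjoin ℂ (Set.range y)) L) :
    Algebra.trdeg ℂ L = (j : Cardinal) := by
  have h1 := hp.pd.trdeg y fun G => (RingHom.mem_ker (r := G)).symm
  have h2 := trdeg_add_eq ℂ (IntermediateField.adjoin ℂ (Set.range y)) (A := L)
  have h3 : Algebra.trdeg (IntermediateField.adjoin ℂ (Set.range y)) L = 0 := trdeg_eq_zero
  rw [h1, h3, add_zero] at h2
  exact h2.symm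

theorem gdeg_int {ι L : Type} [Field L] [Algebra ℂ L] {y : ι → L} {m : ℕ} {f : L}
    (hf : FInt (lin y) m f) : IsIntegral (IntermediateField.adjoin ℂ (Set.range y)) f :=
  IsIntegral.map_of_comp_eq (T := IntermediateField.adjoin ℂ (Set.range y))
    (Subalgebra.inclusion (IntermediateField.algebra_adjoin_le_adjoin ℂ (Set.range y))).toRingHom
    (RingHom.id L) (RingHom.ext fun _ => rfl) hf.isIntegral

theorem gdeg_rel {r j δ : ℕ} {L : Type} [Field L] [Algebra ℂ L] (y : Fin r → L) (y' : Fin j → L)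
    (hy' : AlgebraicIndependent ℂ y') (hs : ∀ i, y' i ∈ lin y)
    (hH : ∀ M, H (kr y) M ≤ δ * (M + 1) ^ j)
    (hle : IntermediateField.adjoin ℂ (Set.range y') ≤ IntermediateField.adjoin ℂ (Set.range y))
    (hfin : FiniteDimensional (IntermediateField.adjoin ℂ (Set.range y')) L) :
    IntermediateField.relfinrank (IntermediateField.adjoin ℂ (Set.range y'))
      (IntermediateField.adjoin ℂ (Set.range y)) ≤ δ * (j + 1) ^ j := by
  rw [IntermediateField.relfinrank_eq_finrank_of_le hle]
  choose A hA hA' using fun i => FInt_lin_poly (hs i)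
  have e : (fun i => aeval y (A i) / aeval y (1 : MvPolynomial (Fin r) ℂ)) = y' := by
    funext i
    rw [map_one, div_one, hA']
  let b := Module.finBasis (IntermediateField.adjoin ℂ (Set.range y'))
    (IntermediateField.extendScalars hle)
  have hl : LinearIndependent (IntermediateField.adjoin ℂ (Set.range y')) fun i => (b i : L) :=
    b.linearIndependent.map' (IntermediateField.extendScalars hle).val.toLinearMap
      (LinearMap.ker_eq_bot.2 Subtype.val_injective)
  refine finrank_le_of_H y hH A 1 hA (by simp) (by simp) (by rw [e]; exact hy') _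
    (fun i => (b i : L)) (fun i => (b i).2) ?_
  rw [e]
  exact hl

theorem deg_up {σ L : Type} [Fintype σ] [Field L] [Algebra ℂ L] (ξ : σ → L)
    (hL : IntermediateField.adjoin ℂ (Set.range ξ) = ⊤) {r j : ℕ} (y : Fin r → L)
    (hint : ∀ l, FInt (lin y) 1 (ξ l)) (hp : IsVar j (kr y))
    (hfin : FiniteDimensional (IntermediateField.adjoin ℂ (Set.range y)) L)
    (h2 : Module.finrank (IntermediateField.adjoin ℂ (Set.range y)) L ≤ 2) (M : ℕ) :
    H (kr ξ) M ≤ 2 * (j + 1) ^ (2 * j) * dg j (kr y) * (M + 1) ^ j := by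
  obtain ⟨d, y', -, hy', hs, hF⟩ := fn y
  have hx : ∀ l, FInt (lin y') 1 (ξ l) := fun l => FInt.trans hF (hint l)
  have hL' : IntermediateField.adjoin ℂ (Set.range ξ ∪ Set.range y') = ⊤ :=
    eq_top_iff.2 (hL ▸ IntermediateField.adjoin.mono ℂ _ _ Set.subset_union_left)
  have hfin' : FiniteDimensional (IntermediateField.adjoin ℂ (Set.range y')) L :=
    Up_fin ξ y' (fun l => gdeg_int (hx l))
      (fun i => ⟨⟨y' i, IntermediateField.subset_adjoin ℂ _ ⟨i, rfl⟩⟩, rfl⟩) hL'
  have hd : d = j := by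
    have h1 := (deg_trdeg hy' hfin').trans (trdeg_up y hp hfin)
    exact_mod_cast h1
  subst hd
  have hle : IntermediateField.adjoin ℂ (Set.range y') ≤
      IntermediateField.adjoin ℂ (Set.range y) := by
    rw [IntermediateField.adjoin_le_iff]
    rintro _ ⟨i, rfl⟩
    have h1 : Submodule.span ℂ (Set.range y) ≤
        (IntermediateField.adjoin ℂ (Set.range y)).toSubalgebra.toSubmodule :=
      Submodule.span_le.2 (IntermediateField.subset_adjoin ℂ _)
    exact h1 (hs i)
  have h3 := gdeg_rel y y' hy' (fun i => Submodule.span_mono (Set.subset_insert _ _) (hs i))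
    hp.H_le hle hfin'
  have h4 := IntermediateField.relfinrank_mul_finrank_top hle
  have h5 := (H_le_of_norm ξ y' hy' hx hL' h4.symm M).trans (Nat.mul_le_mul_right _
    (Nat.mul_le_mul_left _ (Nat.mul_le_mul h3 h2)))
  refine h5.trans (le_of_eq ?_)
  ring

end Vale.Agent.P054S
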