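import Vale.Agent.P054S.GIntA

/-!
From no base points to integrality.  I = span of the ℓ i and the top forms.  Nullstellensatz (vanishingIdeal_zeroLocus_eq_radical):
X l ^ n l is in I.  W = lin ξ, W' = lin y.  top_mem: for G in I and all c, N: aeval ξ (homogeneousComponent (N + 1) (c * G)) is in W' * W ^ N
(span induction; for a generator g homogeneous of degree n the component is homogeneousComponent (N + 1 - n) c * g or 0, hc_mul;
for a top form g of F replace g by g - F, of degree < n or zero; mem_lin_pow_iff).  For N = ∑ n l every monomial of degree N + 1 is in I, so the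
top component of any polynomial of degree ≤ N + 1 is in I, hence W ^ (N + 1) ≤ W' * W ^ N; fint_of_pow_le.
-/

namespace Vale.Agent.P054S

open MvPolynomial Vale.Agent.P054A Vale.Agent.P271 Sum
open scoped Classical

theorem hc_mul {σ : Type} {g : MvPolynomial σ ℂ} {n : ℕ} (hg : g.IsHomogeneous n)
    (c : MvPolynomial σ ℂ) (N : ℕ) : homogeneousComponent N (c * g)
      = if n ≤ N then homogeneousComponent (N - n) c * g else 0 := by
  induction c using MvPolynomial.induction_on' with
  | monomial d r =>
    have h1 : (monomial d r : MvPolynomial σ ℂ).IsHomogeneous d.degree :=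
      isHomogeneous_monomial r rfl
    rw [homogeneousComponent_of_mem (h1.mul hg), homogeneousComponent_of_mem h1]
    by_cases h2 : N = d.degree + n
    · rw [if_pos h2, if_pos (by omega), if_pos (by omega)]
    · rw [if_neg h2]
      split_ifs with h3 h4
      · omega
      · rw [zero_mul]
      · rfl
  | add p q hp hq =>
    rw [add_mul, map_add, hp, hq]
    split_ifs
    · rw [map_add, add_mul]
    · rw [add_zero]

theorem gint_low {σ : Type} {P : MvPolynomial σ ℂ} {m : ℕ} (h : P.totalDegree ≤ m + 1) :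
    (P - homogeneousComponent (m + 1) P).totalDegree ≤ m := by
  refine Finset.sup_le fun d hd => ?_
  rw [mem_support_iff, coeff_sub, coeff_homogeneousComponent] at hd
  have h1 : d.degree ≠ m + 1 := fun e => hd (by rw [if_pos e, sub_self])
  rw [if_neg h1, sub_zero] at hd
  have h2 : d.degree ≤ m + 1 := (le_totalDegree (mem_support_iff.2 hd)).trans h
  change d.degree ≤ m
  omega

theorem gint_hc_mem {σ L : Type} [Field L] [Algebra ℂ L] (ξ : σ → L) (c : MvPolynomial σ ℂ)
    (m : ℕ) : aeval ξ (homogeneousComponent m c) ∈ lin ξ ^ m :=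
  mem_lin_pow_iff.2 ⟨_, (homogeneousComponent_isHomogeneous m c).totalDegree_le, rfl⟩

theorem gint_mono {σ : Type} [Fintype σ] {I : Ideal (MvPolynomial σ ℂ)} {n : σ → ℕ}
    (hn : ∀ l, X l ^ n l ∈ I) (P : MvPolynomial σ ℂ) :
    homogeneousComponent (∑ l, n l + 1) P ∈ I := by
  rw [homogeneousComponent_apply]
  refine I.sum_mem fun d hd => ?_
  have h1 : d.degree = ∑ l, n l + 1 := (Finset.mem_filter.1 hd).2
  obtain ⟨l, hl⟩ : ∃ l, n l ≤ d l := by
    by_contra h2
    push Not at h2
    have h3 : ∑ l, d l ≤ ∑ l, n l := Finset.sum_le_sum fun l _ => (h2 l).le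
    rw [Finsupp.degree_eq_sum] at h1
    omega
  have h4 : Finsupp.single l (n l) ≤ d := Finsupp.single_le_iff.2 hl
  have h5 : (monomial d (coeff d P) : MvPolynomial σ ℂ) =
      monomial (d - Finsupp.single l (n l)) (coeff d P) * X l ^ n l := by
    rw [X_pow_eq_monomial, monomial_mul, mul_one, tsub_add_cancel_of_le h4]
  rw [h5]
  exact I.mul_mem_left _ (hn l)

theorem fint_of_top {σ ι L : Type} [Fintype σ] [Fintype ι] [Field L] [Algebra ℂ L] (ξ : σ → L)
    (ℓ : ι → MvPolynomial σ ℂ) (hℓ : ∀ i, (ℓ i).IsHomogeneous 1)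
    (h : ∀ v : σ → ℂ, (∀ i, eval v (ℓ i) = 0) →
      (∀ F ∈ kr ξ, ∀ N, F.totalDegree ≤ N → eval v (homogeneousComponent N F) = 0) → v = 0)
    (l : σ) : FInt (lin fun i => aeval ξ (ℓ i)) 1 (ξ l) := by
  set W' : Submodule ℂ L := lin fun i => aeval ξ (ℓ i) with hW'
  let S : Set (MvPolynomial σ ℂ) := Set.range ℓ ∪
    {g | ∃ F ∈ kr ξ, ∃ N, F.totalDegree ≤ N ∧ g = homogeneousComponent N F}
  have hrad : ∀ l, ∃ n, X l ^ n ∈ Ideal.span S := by
    intro l
    have h1 : X l ∈ vanishingIdeal ℂ (zeroLocus ℂ (Ideal.span S)) := by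
      rw [mem_vanishingIdeal_iff]
      intro v hv
      rw [mem_zeroLocus_iff] at hv
      have h2 : v = 0 := h v (fun i => hv _ (Ideal.subset_span (Or.inl ⟨i, rfl⟩)))
        fun F hF N hN => hv _ (Ideal.subset_span (Or.inr ⟨F, hF, N, hN, rfl⟩))
      rw [aeval_X, h2, Pi.zero_apply]
    rw [vanishingIdeal_zeroLocus_eq_radical] at h1
    exact h1
  choose n hn using hrad
  have up : ∀ {N : ℕ} {x : L}, x ∈ lin ξ ^ N → x ∈ W' * lin ξ ^ N := fun {N x} hx => by
    rw [← one_mul x]
    exact Submodule.mul_mem_mul (FInt_one_mem_lin _) hx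
  have top : ∀ G ∈ Ideal.span S, ∀ (c : MvPolynomial σ ℂ) (N : ℕ),
      aeval ξ (homogeneousComponent (N + 1) (c * G)) ∈ W' * lin ξ ^ N := by
    intro G hG
    induction hG using Submodule.span_induction with
    | mem g hg =>
      intro c N
      rcases hg with ⟨i, rfl⟩ | ⟨F, hF, m, hm, rfl⟩
      · rw [hc_mul (hℓ i), if_pos (by omega), Nat.add_sub_cancel, mul_comm _ (ℓ i), map_mul]
        exact Submodule.mul_mem_mul (FInt_mem_lin (fun i => aeval ξ (ℓ i)) i) (gint_hc_mem ξ c N)
      · have hF0 : aeval ξ F = 0 := hF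
        rw [hc_mul (homogeneousComponent_isHomogeneous m F)]
        split_ifs with h1
        · rw [map_mul]
          rcases m with _ | m
          · have h2 : F.IsHomogeneous 0 :=
              (totalDegree_zero_iff_isHomogeneous σ).1 (Nat.le_zero.1 hm)
            rw [homogeneousComponent_eq_self h2, hF0, mul_zero]
            exact Submodule.zero_mem _
          · have h2 : aeval ξ (F - homogeneousComponent (m + 1) F) ∈ lin ξ ^ m :=
              mem_lin_pow_iff.2 ⟨_, gint_low hm, rfl⟩
            rw [map_sub, hF0, zero_sub, Submodule.neg_mem_iff] at h2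
            have h3 := Submodule.mul_mem_mul (gint_hc_mem ξ c (N + 1 - (m + 1))) h2
            rw [← pow_add, show N + 1 - (m + 1) + m = N by omega] at h3
            exact up h3
        · rw [map_zero]
          exact Submodule.zero_mem _
    | zero =>
      intro c N
      rw [mul_zero, map_zero, map_zero]
      exact Submodule.zero_mem _
    | add x y _ _ hx hy =>
      intro c N
      rw [mul_add, map_add, map_add]
      exact Submodule.add_mem _ (hx c N) (hy c N)
    | smul a x _ hx =>
      intro c N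
      rw [smul_eq_mul, ← mul_assoc]
      exact hx _ N
  have : FiniteDimensional ℂ (lin ξ) :=
    FiniteDimensional.span_of_finite ℂ ((Set.finite_range ξ).insert 1)
  refine fint_of_pow_le (W := lin ξ) (FInt_one_mem_lin ξ) (N := ∑ l, n l) (fun x hx => ?_)
    (FInt_mem_lin ξ l)
  obtain ⟨P, hP, rfl⟩ := mem_lin_pow_iff.1 hx
  have h1 := top _ (gint_mono hn P) 1 (∑ l, n l)
  rw [one_mul, homogeneousComponent_eq_self (homogeneousComponent_isHomogeneous _ P)] at h1
  have h2 : aeval ξ (P - homogeneousComponent (∑ l, n l + 1) P) ∈ lin ξ ^ (∑ l, n l) :=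
    mem_lin_pow_iff.2 ⟨_, gint_low hP, rfl⟩
  have h3 := Submodule.add_mem _ h1 (up h2)
  rwa [map_sub, add_sub_cancel] at h3

end Vale.Agent.P054S
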