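import Vale.Agent.P054S.GBpf
import Vale.Agent.P054S.GInt
import Vale.Agent.P054S.GDeg

/-!
The degree upstairs.  deg_pres_top: K = adjoin ℂ (range (prL a ξ)), t = aeval ξ R.τ; eqn (some l) gives ξ (inr l) = u t + v over K,
prL_apply gives the same for ξ (inl i); finrank_le_two, trdeg_up.  k + 1 coordinates are dependent (AlgebraicIndependent.cardinalMk_le_trdeg,
algebraicIndependent_iff, aeval_rename), bpf, fint_of_top with ℓ i = io a (X i) (aeval_io, eval_io), deg_up.  exists_isVar and IsVar.trdeg give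
the dimension, dg_le the degree.  deg_pres: lowj_top (P054A/LowJ.lean) replaces L by the field generated by ξ; kr does not change.
-/

namespace Vale.Agent.P054S

open MvPolynomial Vale.Agent.P054A Vale.Agent.P271 Sum
open scoped Classical

variable {k : ℕ} {a : Pr (k + 1) → ℂ} {D : Ders k}

theorem gup_mem {σ L : Type} [Field L] [Algebra ℂ L] {ξ : σ → L} {g : MvPolynomial σ ℂ} :
    g ∈ kr ξ ↔ aeval ξ g = 0 := RingHom.mem_ker

theorem deg_pres_top (hD : DirD a D) {L : Type} [Field L] [Algebra ℂ L] (ξ : Tx k → L)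
    (hL : IntermediateField.adjoin ℂ (Set.range ξ) = ⊤) {j : ℕ} (hj : j ≤ k)
    (hp : IsVar j (kr (prL a ξ))) (hS : Stab D (kr ξ)) (R : Pres k) (hh : R.h ∉ kr (prL a ξ))
    (hA : R.A₂ ∉ kr (prL a ξ)) (he : ∀ o, aeval ξ (R.eqn a o) = 0) :
    IsVar j (kr ξ) ∧ dg j (kr ξ) ≤ cG k * dg j (kr (prL a ξ)) := by

  have mem : ∀ g : Pz k, aeval (prL a ξ) g ∈ IntermediateField.adjoin ℂ (Set.range (prL a ξ)) :=
    fun g => IntermediateField.algebra_adjoin_le_adjoin ℂ _ (by
      rw [Algebra.adjoin_range_eq_range_aeval]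
      exact ⟨g, rfl⟩)
  have h0 : aeval (prL a ξ) R.h ≠ 0 := fun h => hh (gup_mem.2 h)
  have e2 := he none
  simp only [Pres.eqn, map_add, map_mul, map_pow, aeval_io] at e2
  have e1 : ∀ l, ∃ u ∈ IntermediateField.adjoin ℂ (Set.range (prL a ξ)),
      ∃ v ∈ IntermediateField.adjoin ℂ (Set.range (prL a ξ)),
        ξ (inr l) = u * aeval ξ R.τ + v := fun l => by
    have h := he (some l)
    simp only [Pres.eqn, map_sub, map_mul, aeval_io, aeval_X] at h
    refine ⟨_, div_mem (mem (R.u l)) (mem R.h), _, div_mem (mem (R.v l)) (mem R.h), ?_⟩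
    rw [div_mul_eq_mul_div, ← add_div, eq_div_iff h0]
    linear_combination h
  obtain ⟨hfin, h2⟩ := finrank_le_two ξ hL _ (aeval ξ R.τ) (mem R.A₂) (mem R.A₁) (mem R.A₀)
    (fun h => hA (gup_mem.2 h)) e2 (by
      rintro (i | l)
      · choose u hu v hv e using e1
        refine ⟨∑ l, algebraMap ℂ L (skw a i l) * u l,
          sum_mem fun l _ => mul_mem (IntermediateField.algebraMap_mem _ _) (hu l),
          prL a ξ i + ∑ l, algebraMap ℂ L (skw a i l) * v l,
          add_mem (IntermediateField.subset_adjoin _ _ ⟨i, rfl⟩)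
            (sum_mem fun l _ => mul_mem (IntermediateField.algebraMap_mem _ _) (hv l)), ?_⟩
        rw [prL_apply]
        simp only [e, mul_add, Finset.sum_add_distrib, Finset.sum_mul, mul_assoc]
        ring
      · exact e1 l)
  have ht := trdeg_up (prL a ξ) hp hfin
  have hdim : ∀ S : Fin (k + 1) → Tx k, Function.Injective S →
      ∃ F : MvPolynomial (Fin (k + 1)) ℂ, F ≠ 0 ∧ rename S F ∈ kr ξ := fun S _ => by
    by_contra hc
    have hi : AlgebraicIndependent ℂ (ξ ∘ S) := algebraicIndependent_iff.2 fun F hF => by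
      by_contra h
      exact hc ⟨F, h, gup_mem.2 (by rwa [aeval_rename])⟩
    have h3 := hi.cardinalMk_le_trdeg
    rw [ht, Cardinal.mk_fin, Nat.cast_le] at h3
    omega
  have hint : ∀ l, FInt (lin (prL a ξ)) 1 (ξ l) := fun l => by
    have h := fint_of_top ξ (fun i => io a (X i)) (io_X_hom a) (fun v h1 h3 =>
      bpf hD hS hdim (funext fun i => by simpa only [eval_io, eval_X, Pi.zero_apply] using h1 i) h3) l
    simp only [aeval_io, aeval_X] at h
    exact h
  have hP : (kr ξ).IsPrime := RingHom.ker_isPrime _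
  obtain ⟨v, hv⟩ := exists_isVar hP
  have h3 := hv.trdeg ξ (fun G => gup_mem.symm) hL
  rw [ht, Nat.cast_inj] at h3
  subst h3
  refine ⟨hv, (dg_le (deg_up ξ hL (prL a ξ) hint hp hfin h2)).trans
    (Nat.mul_le_mul_right _ (Nat.mul_le_mul_left _ ?_))⟩
  exact (Nat.pow_le_pow_left (Nat.succ_le_succ hj) _).trans
    (Nat.pow_le_pow_right k.succ_pos (Nat.mul_le_mul_left _ hj))

theorem deg_pres (hD : DirD a D) {L : Type} [Field L] [Algebra ℂ L] (ξ : Tx k → L) {j : ℕ}
    (hj : j ≤ k) (hp : IsVar j (kr (prL a ξ))) (hS : Stab D (kr ξ)) (R : Pres k)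
    (hh : R.h ∉ kr (prL a ξ)) (hA : R.A₂ ∉ kr (prL a ξ)) (he : ∀ o, aeval ξ (R.eqn a o) = 0) :
    IsVar j (kr ξ) ∧ dg j (kr ξ) ≤ cG k * dg j (kr (prL a ξ)) := by

  obtain ⟨ζ, -, h1, h2⟩ := lowj_top ξ
  have e0 : ∀ G, aeval ζ G = 0 ↔ aeval ξ G = 0 := fun G => by
    rw [← h1]
    exact ZeroMemClass.coe_eq_zero.symm
  have e1 : kr ξ = kr ζ := Ideal.ext fun G => by rw [gup_mem, gup_mem, e0]
  have e2 : kr (prL a ξ) = kr (prL a ζ) := Ideal.ext fun G => by
    rw [gup_mem, gup_mem, ← aeval_io, ← aeval_io, e0]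
  rw [e1] at hS ⊢
  rw [e2] at hp hh hA ⊢
  exact deg_pres_top hD ζ h2 hj hp hS R hh hA fun o => (e0 _).2 (he o)

end Vale.Agent.P054S
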