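import Vale.Agent.P054S.GStab
import Vale.Agent.P054S.GUp

/-!
up_of_points: stab_pres, stab_split for the points where h A₂ does not vanish, deg_pres.  gen_closed: lowa_generic and AlgebraicClosure.
core_rat: R = ⟨0, h, 1, 0, 0, 0, v⟩, ξ₁ = ξ₂ = lift a ζ (v l / h), Ideal.mem_map_of_mem.
-/

namespace Vale.Agent.P054S

open MvPolynomial Vale.Agent.P054A Vale.Agent.P271 Sum
open scoped Classical

variable {k : ℕ} {a : Pr (k + 1) → ℂ} {D : Ders k} {T : Finset (Tx k → ℂ)} {p : Ideal (Pz k)}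
  {c d j : ℕ} {f : Fin c → Pz k}

theorem gen_closed {σ : Type} [Fintype σ] {P : Ideal (MvPolynomial σ ℂ)} (hP : P.IsPrime) :
    ∃ (Ω : Type) (_ : Field Ω) (_ : Algebra ℂ Ω) (_ : IsAlgClosed Ω) (ζ : σ → Ω), kr ζ = P := by
  obtain ⟨L, _, _, ζ, hζ, -⟩ := lowa_generic hP
  refine ⟨AlgebraicClosure L, inferInstance, inferInstance, inferInstance,
    fun l => algebraMap L (AlgebraicClosure L) (ζ l), Ideal.ext fun G => ?_⟩
  have e : aeval (fun l => algebraMap L (AlgebraicClosure L) (ζ l)) G =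
      algebraMap L (AlgebraicClosure L) (aeval ζ G) := by
    have h := DFunLike.congr_fun
      (comp_aeval ζ (IsScalarTower.toAlgHom ℂ L (AlgebraicClosure L))) G
    exact h.symm
  rw [kr, RingHom.mem_ker, ← hζ]
  show aeval _ G = 0 ↔ _
  rw [e, map_eq_zero_iff _ (algebraMap L (AlgebraicClosure L)).injective]

theorem up_of_points (hB : Base a D T p f d) (hj : j ≤ k) (hp : IsVar j p) {R : Pres k}
    (hR : R.Deg d) (hh : R.h ∉ p) (hA : R.A₂ ∉ p) (hT : ∀ x ∈ T, ∀ o, eval x (R.eqn a o) = 0)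
    (hV : ∀ α β : Pz k, α.totalDegree ≤ 7 * d → β.totalDegree ≤ 7 * d →
      (∀ x ∈ T, eval x (io a α * R.τ + io a β) = 0) → io a α * R.τ + io a β ∈ p.map (io a))
    {Ω : Type} [Field Ω] [Algebra ℂ Ω] {ξ₁ ξ₂ : Tx k → Ω} (h₁ : kr (prL a ξ₁) = p)
    (h₂ : kr (prL a ξ₂) = p) (e₁ : ∀ o, aeval ξ₁ (R.eqn a o) = 0)
    (e₂ : ∀ o, aeval ξ₂ (R.eqn a o) = 0)
    (hN : ∀ α β : Pz k, aeval ξ₁ (io a α * R.τ + io a β) = 0 →
      aeval ξ₂ (io a α * R.τ + io a β) = 0 → io a α * R.τ + io a β ∈ p.map (io a)) :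
    Up a T p j (R.h * R.A₂) := by
  obtain ⟨hS, hOn⟩ := stab_pres hB hR hh hA hT hV h₁ h₂ e₁ e₂ hN
  have key : ∀ ξ : Tx k → Ω, kr (prL a ξ) = p → (∀ o, aeval ξ (R.eqn a o) = 0) →
      Stab D (kr ξ) → (T.filter fun x => eval (prj a x) (R.h * R.A₂) ≠ 0).card ≤
        2 * (zs (T.filter fun x => eval (prj a x) (R.h * R.A₂) ≠ 0) (kr ξ)).card →
      Up a T p j (R.h * R.A₂) := by
    intro ξ h e hs hc
    subst h
    obtain ⟨h1, h2⟩ := deg_pres hB.dir ξ hj hp hs R hh hA e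
    exact ⟨kr ξ, h1, h2, hc.trans (Nat.mul_le_mul_left _ (Finset.card_le_card
      (Finset.filter_subset_filter _ (Finset.filter_subset _ _))))⟩
  rcases stab_split (kr_prime ξ₁) (kr_prime ξ₂) hS
    (T.filter fun x => eval (prj a x) (R.h * R.A₂) ≠ 0)
    (fun x hx => hOn x (Finset.mem_filter.1 hx).1 (Finset.mem_filter.1 hx).2) with h | h
  · exact key ξ₁ h₁ e₁ h.1 h.2
  · exact key ξ₂ h₂ e₂ h.1 h.2

theorem core_rat (hB : Base a D T p f d) (hj : j ≤ k) (hp : IsVar j p) (hW : WR a T p (7 * d))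
    {h : Pz k} {v : Fin (k + 1) → Pz k} (hh : h ∉ p) (hd : h.totalDegree ≤ d)
    (hv : ∀ l, (v l).totalDegree ≤ d)
    (he : ∀ x ∈ T, ∀ l, eval (prj a x) h * x (inr l) = eval (prj a x) (v l)) : Up a T p j h := by
  obtain ⟨Ω, _, _, -, ζ, hζ⟩ := gen_closed hB.prime
  have hm : ∀ g, g ∈ p ↔ aeval ζ g = 0 := fun g => by rw [← hζ]; rfl
  have h0 : aeval ζ h ≠ 0 := mt (hm h).2 hh
  let R : Pres k := ⟨0, h, 1, 0, 0, 0, v⟩
  let ξ : Tx k → Ω := lift a ζ fun l => aeval ζ (v l) / aeval ζ h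
  have hξ : prL a ξ = ζ := prL_lift _ _ _
  have hR : R.Deg d := ⟨Or.inl rfl, hd, by simp [R], by simp [R], by simp [R],
    fun l => by simp [R], hv⟩
  have h1 : (1 : Pz k) ∉ p := fun h1 => hB.prime.ne_top ((Ideal.eq_top_iff_one p).2 h1)
  have e : ∀ o, aeval ξ (R.eqn a o) = 0 := by
    rintro (_ | l)
    · simp [R, Pres.eqn]
    · simp only [R, Pres.eqn, map_sub, map_mul, aeval_io, hξ, aeval_X, map_zero, mul_zero,
        sub_zero]
      rw [show ξ (inr l) = aeval ζ (v l) / aeval ζ h from lift_inr _ _ _ l, mul_div_cancel₀ _ h0,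
        sub_self]
  have := up_of_points hB hj hp hR hh h1 (fun x hx o => ?_) (fun α β _ hβ hT => ?_)
    (ξ₁ := ξ) (ξ₂ := ξ) (hξ ▸ hζ) (hξ ▸ hζ) e e fun α β hz _ => ?_
  · simpa only [R, mul_one] using this
  · rcases o with _ | l
    · simp [R, Pres.eqn]
    · simp only [R, Pres.eqn, map_sub, map_mul, eval_io, eval_X, map_zero, mul_zero, sub_zero]
      rw [he x hx l, sub_self]
  · simp only [R, mul_zero, zero_add, eval_io] at hT ⊢
    exact Ideal.mem_map_of_mem _ (hW β hβ hT)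
  · simp only [R, mul_zero, zero_add, aeval_io, hξ] at hz ⊢
    exact Ideal.mem_map_of_mem _ ((hm β).2 hz)

end Vale.Agent.P054S
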