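import Vale.Agent.P054S.GCoreA

/-!
The quadratic case.  NLin and WR give hV (α ∈ p, then β vanishes on T).  From eqn (some o): h - u o ∈ p and v o ∈ p.  The discriminant
A₁ ^ 2 - 4 A₂ A₀ is not in p, else 2 A₂ w + A₁ = 0 on T.  gen_closed, two different roots t₁, t₂ in Ω (IsAlgClosed.exists_pow_nat_eq),
ξ i = lift a ζ ((u l t i + v l) / h), aeval (ξ i) τ = t i; up_of_points.
-/

namespace Vale.Agent.P054S

open MvPolynomial Vale.Agent.P054A Vale.Agent.P271 Sum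
open scoped Classical

variable {k : ℕ} {a : Pr (k + 1) → ℂ} {D : Ders k} {T : Finset (Tx k → ℂ)} {p : Ideal (Pz k)}
  {c d j : ℕ} {f : Fin c → Pz k}

theorem gcoreb_roots {Ω : Type} [Field Ω] [IsAlgClosed Ω] [CharZero Ω] {a₂ a₁ a₀ : Ω}
    (h2 : a₂ ≠ 0) (hδ : a₁ ^ 2 - 4 * a₂ * a₀ ≠ 0) : ∃ t₁ t₂ : Ω, t₁ ≠ t₂ ∧
      a₂ * t₁ ^ 2 + a₁ * t₁ + a₀ = 0 ∧ a₂ * t₂ ^ 2 + a₁ * t₂ + a₀ = 0 := by
  obtain ⟨s, hs⟩ := IsAlgClosed.exists_pow_nat_eq (a₁ ^ 2 - 4 * a₂ * a₀) (n := 2) two_pos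
  have hs0 : s ≠ 0 := fun h0 => hδ (by rw [← hs, h0]; simp)
  refine ⟨(-a₁ + s) / (2 * a₂), (-a₁ - s) / (2 * a₂), fun h => hs0 ?_, ?_, ?_⟩
  · rw [div_left_inj' (mul_ne_zero two_ne_zero h2)] at h
    have h3 : 2 * s = 0 := by linear_combination h
    exact (mul_eq_zero.1 h3).resolve_left two_ne_zero
  · field_simp
    linear_combination hs
  · field_simp
    linear_combination hs

theorem core_quad (hB : Base a D T p f d) (hj : j ≤ k) (hp : IsVar j p) (hW : WR a T p (7 * d))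
    {R : Pres k} (hR : R.Deg d) {o : Fin (k + 1)} (hτ : R.τ = X (inr o))
    (hN : NLin a T p o (7 * d)) (hh : R.h ∉ p) (hA : R.A₂ ∉ p)
    (hT : ∀ x ∈ T, ∀ o, eval x (R.eqn a o) = 0) : Up a T p j (R.h * R.A₂) := by
  have d7 : d ≤ 7 * d := by omega
  have key : ∀ α β : Pz k, α.totalDegree ≤ 7 * d → β.totalDegree ≤ 7 * d →
      (∀ x ∈ T, eval (prj a x) α * x (inr o) + eval (prj a x) β = 0) → α ∈ p ∧ β ∈ p := by
    intro α β h1 h2 h3
    have h4 := hN α β h1 h2 h3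
    refine ⟨h4, hW β h2 fun x hx => ?_⟩
    have := h3 x hx
    rwa [hB.on x hx α h4, zero_mul, zero_add] at this
  have mem : ∀ α β : Pz k, α ∈ p → β ∈ p → io a α * R.τ + io a β ∈ p.map (io a) :=
    fun α β h1 h2 => Ideal.add_mem _ (Ideal.mul_mem_right _ _ (Ideal.mem_map_of_mem _ h1))
      (Ideal.mem_map_of_mem _ h2)
  have hu : R.h - R.u o ∈ p ∧ -R.v o ∈ p := by
    refine key _ _ ((totalDegree_sub _ _).trans (max_le (hR.h.trans d7) ((hR.u o).trans d7)))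
      (by rw [totalDegree_neg]; exact (hR.v o).trans d7) fun x hx => ?_
    have := hT x hx (some o)
    simp only [Pres.eqn, hτ, map_sub, map_mul, eval_io, eval_X] at this
    simp only [map_sub, map_neg]
    linear_combination this
  obtain ⟨Ω, _, _, _, ζ, hζ⟩ := gen_closed hB.prime
  haveI : CharZero Ω := charZero_of_injective_algebraMap (algebraMap ℂ Ω).injective
  have mζ : ∀ g : Pz k, g ∈ p ↔ aeval ζ g = 0 := fun g => by rw [← hζ, mem_kr]
  have a2 : aeval ζ R.A₂ ≠ 0 := fun h0 => hA ((mζ _).2 h0)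
  have h0 : aeval ζ R.h ≠ 0 := fun h0 => hh ((mζ _).2 h0)
  have hδ : aeval ζ R.A₁ ^ 2 - 4 * aeval ζ R.A₂ * aeval ζ R.A₀ ≠ 0 := by
    intro hδ
    have h1 : R.A₁ ^ 2 - 4 * R.A₂ * R.A₀ ∈ p := by
      rw [mζ]
      simpa only [map_sub, map_mul, map_pow, map_ofNat] using hδ
    have h2 := (key (R.A₂ + R.A₂) R.A₁
      ((totalDegree_add _ _).trans (max_le (hR.A₂.trans d7) (hR.A₂.trans d7))) (hR.A₁.trans d7)
      fun x hx => ?_).1
    · rw [mζ, map_add, ← two_mul] at h2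
      exact a2 ((mul_eq_zero.1 h2).resolve_left two_ne_zero)
    · have h3 := hT x hx none
      have h4 := hB.on x hx _ h1
      simp only [Pres.eqn, hτ, map_add, map_mul, map_pow, eval_io, eval_X] at h3
      simp only [map_sub, map_mul, map_pow, map_ofNat] at h4
      rw [map_add]
      refine pow_eq_zero_iff (n := 2) two_ne_zero |>.1 ?_
      linear_combination 4 * eval (prj a x) R.A₂ * h3 + h4
  obtain ⟨t₁, t₂, ht, r₁, r₂⟩ := gcoreb_roots a2 hδ
  have u1 : aeval ζ (R.u o) = aeval ζ R.h := by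
    have := (mζ _).1 hu.1
    rw [map_sub] at this
    linear_combination -this
  have v1 : aeval ζ (R.v o) = 0 := by
    have := (mζ _).1 hu.2
    rwa [map_neg, neg_eq_zero] at this
  let ξ : Ω → Tx k → Ω := fun t =>
    lift a ζ fun l => (aeval ζ (R.u l) * t + aeval ζ (R.v l)) / aeval ζ R.h
  have x1 : ∀ t, prL a (ξ t) = ζ := fun t => prL_lift a ζ _
  have x2 : ∀ t l, ξ t (inr l) = (aeval ζ (R.u l) * t + aeval ζ (R.v l)) / aeval ζ R.h :=
    fun t l => lift_inr a ζ _ l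
  have x3 : ∀ t, aeval (ξ t) R.τ = t := fun t => by
    rw [hτ, aeval_X, x2, u1, v1, add_zero, mul_div_cancel_left₀ _ h0]
  have x4 : ∀ t, aeval ζ R.A₂ * t ^ 2 + aeval ζ R.A₁ * t + aeval ζ R.A₀ = 0 →
      ∀ o', aeval (ξ t) (R.eqn a o') = 0 := by
    intro t r o'
    cases o' with
    | none => simpa only [Pres.eqn, map_add, map_mul, map_pow, aeval_io, x1, x3] using r
    | some l =>
      simp only [Pres.eqn, map_sub, map_mul, aeval_io, aeval_X, x1, x2, x3]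
      field_simp
      ring
  refine up_of_points hB hj hp hR hh hA hT (fun α β h1 h2 h3 => ?_) (ξ₁ := ξ t₁) (ξ₂ := ξ t₂)
    (by rw [x1, hζ]) (by rw [x1, hζ]) (x4 _ r₁) (x4 _ r₂) fun α β h1 h2 => ?_
  · obtain ⟨k1, k2⟩ := key α β h1 h2 fun x hx => by
      simpa only [hτ, map_add, map_mul, eval_io, eval_X] using h3 x hx
    exact mem α β k1 k2
  · simp only [map_add, map_mul, aeval_io, x1, x3] at h1 h2
    have h3 : aeval ζ α * (t₁ - t₂) = 0 := by linear_combination h1 - h2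
    have h4 := (mul_eq_zero.1 h3).resolve_right (sub_ne_zero.2 ht)
    rw [h4, zero_mul, zero_add] at h1
    exact mem α β ((mζ _).2 h4) ((mζ _).2 h1)

end Vale.Agent.P054S
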