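import Vale.Agent.P054S.Alg

/-!
Definitions for the generic projection theorem.
-/

namespace Vale.Agent.P054S

open MvPolynomial Vale.Agent.P054A Sum
open scoped Classical

noncomputable section

/-- The derivation `D` applied to the coefficients. -/
def cD {σ : Type} (D : Derivation ℚ ℂ ℂ) (F : MvPolynomial σ ℂ) : MvPolynomial σ ℂ :=
  ∑ α ∈ F.support, monomial α (D (coeff α F))

/-- Ideals that are stable under a family of derivations. -/
def Stab {σ ι : Type} (D : ι → ι → Derivation ℚ ℂ ℂ) (P : Ideal (MvPolynomial σ ℂ)) : Prop :=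
  ∀ p q, ∀ F ∈ P, cD (D p q) F ∈ P

/-- Points with constant coordinates. -/
def Cst {σ ι : Type} (D : ι → ι → Derivation ℚ ℂ ℂ) (x : σ → ℂ) : Prop :=
  ∀ p q l, D p q (x l) = 0

/-- The ideal of a point with coordinates in an extension. -/
def kr {σ L : Type} [Field L] [Algebra ℂ L] (ξ : σ → L) : Ideal (MvPolynomial σ ℂ) :=
  RingHom.ker (aeval ξ : MvPolynomial σ ℂ →ₐ[ℂ] L)

/-- The second fundamental form of the hypersurface `g = 0`. -/
def sff {σ : Type} (g : MvPolynomial σ ℂ) (o b d : σ) : MvPolynomial σ ℂ :=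
  pderiv o (pderiv o g) * pderiv b g * pderiv d g - pderiv d (pderiv o g) * pderiv o g * pderiv b g
    - pderiv o (pderiv b g) * pderiv d g * pderiv o g + pderiv d (pderiv b g) * pderiv o g ^ 2

variable {k : ℕ}

/-- Polynomials downstairs. -/
abbrev Pz (k : ℕ) : Type := MvPolynomial (Fin (k + 1)) ℂ

/-- Polynomials upstairs. -/
abbrev Px (k : ℕ) : Type := MvPolynomial (Tx k) ℂ

/-- Families of derivations. -/
abbrev Ders (k : ℕ) : Type := Fin (k + 1) → Fin (k + 1) → Derivation ℚ ℂ ℂ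

/-- Pull back along the projection. -/
def io (a : Pr (k + 1) → ℂ) : Pz k →ₐ[ℂ] Px k := aeval (prj (fun q => C (a q)) X)

/-- The projection of a point with coordinates in an algebra. -/
def prL {L : Type} [CommRing L] [Algebra ℂ L] (a : Pr (k + 1) → ℂ) (ξ : Tx k → L) :
    Fin (k + 1) → L :=
  prj (fun q => algebraMap ℂ L (a q)) ξ

/-- The point with projection `ζ` and second half `ω`. -/
def lift {L : Type} [CommRing L] [Algebra ℂ L] (a : Pr (k + 1) → ℂ) (ζ ω : Fin (k + 1) → L) :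
    Tx k → L :=
  Sum.elim (fun i => ζ i + ∑ j, algebraMap ℂ L (skw a i j) * ω j) ω

/-- `D p q` moves the skew matrix in the direction `E p q - E q p`. -/
def DirD (a : Pr (k + 1) → ℂ) (D : Ders k) : Prop :=
  ∀ p q i j, D p q (skw a i j) = (if i = p ∧ j = q then 1 else 0) - if i = q ∧ j = p then 1 else 0

/-- Degree at most `t` in `w` and at most `d` in the projected coordinates. -/
inductive BV (a : Pr (k + 1) → ℂ) (d : ℕ) : ℕ → Px k → Prop
  | z (g : Pz k) (h : g.totalDegree ≤ d) : BV a d 0 (io a g)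
  | up {t : ℕ} {F : Px k} (h : BV a d t F) : BV a d (t + 1) F
  | w {t : ℕ} {F : Px k} (l : Fin (k + 1)) (h : BV a d t F) : BV a d (t + 1) (F * X (inr l))
  | add {t : ℕ} {F G : Px k} (h : BV a d t F) (h' : BV a d t G) : BV a d t (F + G)

/-- Polynomials of degree at most `d` vanishing on the projection of `T` lie in `p`. -/
def WR (a : Pr (k + 1) → ℂ) (T : Finset (Tx k → ℂ)) (p : Ideal (Pz k)) (d : ℕ) : Prop :=
  ∀ g : Pz k, g.totalDegree ≤ d → (∀ x ∈ T, eval (prj a x) g = 0) → g ∈ p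

/-- No linear relation of degree `d` for the coordinate `w o` holds on `T`. -/
def NLin (a : Pr (k + 1) → ℂ) (T : Finset (Tx k → ℂ)) (p : Ideal (Pz k)) (o : Fin (k + 1))
    (d : ℕ) : Prop :=
  ∀ α β : Pz k, α.totalDegree ≤ d → β.totalDegree ≤ d →
    (∀ x ∈ T, eval (prj a x) α * x (inr o) + eval (prj a x) β = 0) → α ∈ p

/-- The situation downstairs. -/
structure Base (a : Pr (k + 1) → ℂ) (D : Ders k) (T : Finset (Tx k → ℂ)) (p : Ideal (Pz k))
    {c : ℕ} (f : Fin c → Pz k) (d : ℕ) : Prop where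
  dir : DirD a D
  cst : ∀ x ∈ T, Cst D x
  prime : p.IsPrime
  on : ∀ x ∈ T, On (prj a x) p
  mem : ∀ i, f i ∈ p
  deg : ∀ i, (f i).totalDegree ≤ d
  loc : ∀ g ∈ p, ∃ q, q ∉ p ∧ q * g ∈ Ideal.span (Set.range f)

/-- A presentation of `w` over the projected coordinates with one parameter `τ`. -/
structure Pres (k : ℕ) where
  τ : Px k
  h : Pz k
  A₂ : Pz k
  A₁ : Pz k
  A₀ : Pz k
  u : Fin (k + 1) → Pz k
  v : Fin (k + 1) → Pz k

/-- The equations of a presentation. -/
def Pres.eqn (R : Pres k) (a : Pr (k + 1) → ℂ) : Option (Fin (k + 1)) → Px k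
  | none => io a R.A₂ * R.τ ^ 2 + io a R.A₁ * R.τ + io a R.A₀
  | some l => io a R.h * X (inr l) - io a (R.u l) * R.τ - io a (R.v l)

/-- The degrees of a presentation. -/
structure Pres.Deg (R : Pres k) (d : ℕ) : Prop where
  τ : R.τ = 0 ∨ ∃ o, R.τ = X (inr o)
  h : R.h.totalDegree ≤ d
  A₂ : R.A₂.totalDegree ≤ d
  A₁ : R.A₁.totalDegree ≤ d
  A₀ : R.A₀.totalDegree ≤ d
  u : ∀ l, (R.u l).totalDegree ≤ d
  v : ∀ l, (R.v l).totalDegree ≤ d

/-- The constant of the degree lemma. -/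
def cG (k : ℕ) : ℕ := 2 * (k + 1) ^ (2 * k)

/-- A variety upstairs of small degree holds half of the points where `H` does not vanish. -/
def Up (a : Pr (k + 1) → ℂ) (T : Finset (Tx k → ℂ)) (p : Ideal (Pz k)) (j : ℕ) (H : Pz k) : Prop :=
  ∃ P : Ideal (Px k), IsVar j P ∧ dg j P ≤ cG k * dg j p ∧
    (T.filter fun x => eval (prj a x) H ≠ 0).card ≤ 2 * (zs T P).card

end

end Vale.Agent.P054S
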