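import Vale.Agent.P054S.GDef

/-!
Calculus of cD.  coeff_cD: coeff_sum, coeff_monomial.  Then ext and coefficient formulas (coeff_mul with
Derivation.leibniz, coeff_pderiv, coeff_homogeneousComponent).  cD_rename, gder_eval, cD_aeval: MvPolynomial.induction_on
with cD_C, cD_add, cD_mul, cD_X (pderiv_mul, pderiv_X, Pi.single_apply).
-/

namespace Vale.Agent.P054S

open MvPolynomial Vale.Agent.P054A Vale.Agent.P271 Sum
open scoped Classical

variable {σ τ ι : Type} (D : Derivation ℚ ℂ ℂ)

theorem coeff_cD (F : MvPolynomial σ ℂ) (α : σ →₀ ℕ) : coeff α (cD D F) = D (coeff α F) := by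
  rw [cD, coeff_sum]
  simp only [coeff_monomial]
  rw [Finset.sum_ite_eq']
  split_ifs with h
  · rfl
  · rw [notMem_support_iff.1 h, map_zero]

theorem cD_zero : cD D (0 : MvPolynomial σ ℂ) = 0 := by
  ext α
  simp [coeff_cD]

theorem cD_add (F G : MvPolynomial σ ℂ) : cD D (F + G) = cD D F + cD D G := by
  ext α
  simp only [coeff_cD, coeff_add, map_add]

theorem cD_neg (F : MvPolynomial σ ℂ) : cD D (-F) = -cD D F := by
  ext α
  simp only [coeff_cD, coeff_neg, map_neg]

theorem cD_sub (F G : MvPolynomial σ ℂ) : cD D (F - G) = cD D F - cD D G := by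
  ext α
  simp only [coeff_cD, coeff_sub, map_sub]

theorem cD_sum (s : Finset ι) (F : ι → MvPolynomial σ ℂ) :
    cD D (∑ i ∈ s, F i) = ∑ i ∈ s, cD D (F i) := by
  ext α
  simp only [coeff_cD, coeff_sum, map_sum]

theorem cD_mul (F G : MvPolynomial σ ℂ) : cD D (F * G) = cD D F * G + F * cD D G := by
  ext α
  simp only [coeff_cD, coeff_add, coeff_mul, map_sum, Derivation.leibniz, smul_eq_mul,
    ← Finset.sum_add_distrib]
  exact Finset.sum_congr rfl fun x _ => by ring

theorem cD_C (c : ℂ) : cD D (C c : MvPolynomial σ ℂ) = C (D c) := by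
  ext α
  simp only [coeff_cD, coeff_C]
  split_ifs
  · rfl
  · exact map_zero D

theorem cD_X (l : σ) : cD D (X l : MvPolynomial σ ℂ) = 0 := by
  ext α
  simp only [coeff_cD, coeff_X', coeff_zero]
  split_ifs
  · exact D.map_one_eq_zero
  · exact map_zero D

theorem cD_support (F : MvPolynomial σ ℂ) : (cD D F).support ⊆ F.support := by
  intro α h
  rw [mem_support_iff] at h ⊢
  intro h0
  rw [coeff_cD, h0, map_zero] at h
  exact h rfl

theorem cD_deg (F : MvPolynomial σ ℂ) : (cD D F).totalDegree ≤ F.totalDegree := by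
  exact Finset.sup_mono (cD_support D F)

theorem cD_pderiv (l : σ) (F : MvPolynomial σ ℂ) : cD D (pderiv l F) = pderiv l (cD D F) := by
  ext α
  have h : D ((α l : ℂ) + 1) = 0 := by
    rw [map_add, D.map_one_eq_zero, D.map_natCast, add_zero]
  simp only [coeff_cD, coeff_pderiv, Derivation.leibniz, h, smul_eq_mul, mul_zero, zero_add]
  ring

theorem cD_hom (n : ℕ) (F : MvPolynomial σ ℂ) :
    cD D (homogeneousComponent n F) = homogeneousComponent n (cD D F) := by
  ext α
  simp only [coeff_cD, coeff_homogeneousComponent]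
  split_ifs
  · rfl
  · exact map_zero D

theorem cD_rename (S : σ → τ) (F : MvPolynomial σ ℂ) : cD D (rename S F) = rename S (cD D F) := by
  induction F using MvPolynomial.induction_on with
  | C c => rw [rename_C, cD_C, cD_C, rename_C]
  | add p q hp hq => rw [map_add, cD_add, cD_add, map_add, hp, hq]
  | mul_X p i hp =>
    rw [map_mul, rename_X, cD_mul, cD_mul, cD_X, cD_X, hp, mul_zero, mul_zero, add_zero, add_zero,
      map_mul, rename_X]

theorem gder_sum [Fintype σ] {R : Type} [CommRing R] (ψ : MvPolynomial σ ℂ →+* R) (u : σ → R)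
    (p : MvPolynomial σ ℂ) (i : σ) : ∑ l, ψ (pderiv l (p * X i)) * u l =
      (∑ l, ψ (pderiv l p) * u l) * ψ (X i) + ψ p * u i := by
  have e : ∀ l, ψ (pderiv l (p * X i)) * u l =
      ψ (pderiv l p) * u l * ψ (X i) + if i = l then ψ p * u l else 0 := fun l => by
    rw [pderiv_mul, pderiv_X, Pi.single_apply, map_add, map_mul, map_mul]
    split_ifs
    · rw [map_one]
      ring
    · rw [map_zero]
      ring
  simp only [e, Finset.sum_add_distrib, Finset.sum_ite_eq, Finset.mem_univ, if_true,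
    Finset.sum_mul]

theorem gder_eval [Fintype σ] (x : σ → ℂ) (F : MvPolynomial σ ℂ) :
    D (eval x F) = eval x (cD D F) + ∑ l, eval x (pderiv l F) * D (x l) := by
  induction F using MvPolynomial.induction_on with
  | C c => simp [cD_C]
  | add p q hp hq =>
    simp only [map_add, cD_add, hp, hq, add_mul, Finset.sum_add_distrib]
    ring
  | mul_X p i hp =>
    rw [gder_sum (eval x), cD_mul, cD_X, mul_zero, add_zero, eval_mul, eval_mul, eval_X,
      Derivation.leibniz, hp, smul_eq_mul, smul_eq_mul]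
    ring

theorem cD_aeval [Fintype σ] (φ : σ → MvPolynomial τ ℂ) (g : MvPolynomial σ ℂ) :
    cD D (aeval φ g) = aeval φ (cD D g) + ∑ i, aeval φ (pderiv i g) * cD D (φ i) := by
  induction g using MvPolynomial.induction_on with
  | C c => simp [cD_C]
  | add p q hp hq =>
    simp only [map_add, cD_add, hp, hq, add_mul, Finset.sum_add_distrib]
    ring
  | mul_X p i hp =>
    have h := gder_sum (aeval φ : MvPolynomial σ ℂ →ₐ[ℂ] MvPolynomial τ ℂ).toRingHom
      (fun l => cD D (φ l)) p i
    simp only [AlgHom.toRingHom_eq_coe, RingHom.coe_coe, aeval_X] at h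
    rw [h, cD_mul, cD_X, mul_zero, add_zero, map_mul, map_mul, aeval_X, cD_mul, hp]
    ring

theorem Cst.van [Fintype σ] {E : ι → ι → Derivation ℚ ℂ ℂ} {x : σ → ℂ} (hx : Cst E x)
    {F : MvPolynomial σ ℂ} (h : eval x F = 0) (p q : ι) : eval x (cD (E p q) F) = 0 := by
  have h1 := gder_eval (E p q) x F
  simp only [h, map_zero, hx p q, mul_zero, Finset.sum_const_zero, add_zero] at h1
  exact h1.symm

/-- An ideal is mapped into `P` if its generators are. -/
theorem cD_span {s : Set (MvPolynomial σ ℂ)} {P : Ideal (MvPolynomial σ ℂ)}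
    (h : ∀ F ∈ s, F ∈ P ∧ cD D F ∈ P) {F : MvPolynomial σ ℂ} (hF : F ∈ Ideal.span s) :
    cD D F ∈ P := by
  have key : F ∈ P ∧ cD D F ∈ P := by
    induction hF using Submodule.span_induction with
    | mem G hG => exact h G hG
    | zero => exact ⟨P.zero_mem, by rw [cD_zero]; exact P.zero_mem⟩
    | add G G' _ _ h1 h2 => exact ⟨P.add_mem h1.1 h2.1, by rw [cD_add]; exact P.add_mem h1.2 h2.2⟩
    | smul c G _ h1 =>
      refine ⟨P.mul_mem_left c h1.1, ?_⟩
      rw [smul_eq_mul, cD_mul]
      exact P.add_mem (P.mul_mem_left _ h1.1) (P.mul_mem_left _ h1.2)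
  exact key.2

theorem mem_kr {L : Type} [Field L] [Algebra ℂ L] {ξ : σ → L} {F : MvPolynomial σ ℂ} :
    F ∈ kr ξ ↔ aeval ξ F = 0 := by
  exact RingHom.mem_ker

theorem kr_prime {L : Type} [Field L] [Algebra ℂ L] (ξ : σ → L) : (kr ξ).IsPrime := by
  exact RingHom.ker_isPrime _

theorem deg_pderiv (l : σ) (F : MvPolynomial σ ℂ) : (pderiv l F).totalDegree ≤ F.totalDegree := by
  refine Finset.sup_le fun α hα => ?_
  rw [mem_support_iff, coeff_pderiv] at hα
  refine le_trans ?_ (le_totalDegree (mem_support_iff.2 (left_ne_zero_of_mul hα)))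
  rw [Finsupp.sum_add_index' (fun _ => rfl) fun _ _ _ => rfl]
  exact Nat.le_add_right _ _

end Vale.Agent.P054S
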