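import Vale.Agent.P054S.GDef

/-!
Flats are varieties of degree at most one.
-/

namespace Vale.Agent.P054S

open MvPolynomial Vale.Agent.P054A Vale.Agent.P271 Sum
open scoped Classical

theorem gflat_deg {τ : Type} [Fintype τ] (c : ℂ) (b : τ → ℂ) :
    (C c + ∑ i, C (b i) * X i : MvPolynomial τ ℂ).totalDegree ≤ 1 := by
  refine (totalDegree_add _ _).trans (max_le (by simp) ?_)
  refine totalDegree_finsetSum_le fun i _ => (totalDegree_mul _ _).trans ?_
  simp

theorem gflat_hom {σ τ : Type} [Fintype τ] (c : σ → ℂ) (b : σ → τ → ℂ) :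
    ∃ φ : MvPolynomial σ ℂ →ₐ[ℂ] MvPolynomial τ ℂ, ∀ l, φ (X l) = C (c l) + ∑ i, C (b l i) * X i :=
  ⟨aeval fun l => (C (c l) + ∑ i, C (b l i) * X i : MvPolynomial τ ℂ), fun l => aeval_X _ l⟩

theorem flat_var {σ : Type} [Fintype σ] (x₀ : σ → ℂ) (U : Submodule ℂ (σ → ℂ)) :
    ∃ P : Ideal (MvPolynomial σ ℂ), IsVar (Module.finrank ℂ U) P ∧
      dg (Module.finrank ℂ U) P ≤ 1 ∧ ∀ x, x - x₀ ∈ U → On x P := by
  obtain ⟨r, hr⟩ : ∃ r, r = Module.finrank ℂ U := ⟨_, rfl⟩
  have b : Module.Basis (Fin r) ℂ U := hr ▸ Module.finBasis ℂ U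
  rw [← hr]
  obtain ⟨L, hL⟩ := LinearMap.exists_leftInverse_of_injective U.subtype U.ker_subtype
  have hL' : ∀ u : U, L u = u := fun u => LinearMap.congr_fun hL u
  obtain ⟨φ, hφ⟩ := gflat_hom x₀ fun l i => (b i : σ → ℂ) l
  obtain ⟨ψ, hψ⟩ := gflat_hom (fun i => -b.repr (L x₀) i) fun i l => b.repr (L (Pi.single l 1)) i
  have hlin : ∀ (y : σ → ℂ) i, ∑ l, b.repr (L (Pi.single l 1)) i * y l = b.repr (L y) i :=
    fun y i => by
      conv_rhs => rw [pi_eq_sum_univ' y]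
      simp only [map_sum, map_smul, Finsupp.coe_finsetSum, Finset.sum_apply, Finsupp.smul_apply,
        smul_eq_mul, mul_comm]
  have hev : ∀ (t : Fin r → ℂ) g, eval t (φ g) = eval (x₀ + (b.equivFun.symm t).1) g :=
    fun t g => by
      have h : (aeval t).comp φ = aeval (x₀ + (b.equivFun.symm t).1) := by
        ext l
        simp [hφ, mul_comm]
      exact AlgHom.congr_fun h g
  have hid : ∀ g, φ (ψ g) = g := fun g => by
    have h : φ.comp ψ = AlgHom.id ℂ _ := by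
      refine algHom_ext fun i => MvPolynomial.funext fun t => ?_
      rw [AlgHom.comp_apply, hev, hψ, AlgHom.id_apply, eval_X]
      simp only [map_add, map_sum, map_mul, eval_C, eval_X]
      rw [hlin, map_add, hL', map_add, Finsupp.add_apply, ← b.equivFun_apply (b.equivFun.symm t),
        LinearEquiv.apply_symm_apply, neg_add_cancel_left]
    exact AlgHom.congr_fun h g
  have hP : ((⊥ : Ideal (MvPolynomial (Fin r) ℂ)).comap φ).IsPrime := Ideal.comap_isPrime _ _
  have hH : ∀ M, H ((⊥ : Ideal (MvPolynomial (Fin r) ℂ)).comap φ) M ≤ 1 * (M + 1) ^ r := fun M => by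
    refine (H_comap_le φ (s := 1) (fun l => by rw [hφ]; exact gflat_deg _ _) ⊥ M).trans ?_
    simpa using H_le_pow (⊥ : Ideal (MvPolynomial (Fin r) ℂ)) M
  obtain ⟨j, hj⟩ := exists_isVar hP
  have hb : ((⊥ : Ideal (MvPolynomial (Fin r) ℂ)).comap φ).comap ψ = ⊥ := by
    ext g
    rw [Ideal.mem_comap, Ideal.mem_comap, hid]
  have h1 : Fintype.card (Fin r) ≤ j := by
    refine isVar_bot.le_of_H (a := dg j ((⊥ : Ideal (MvPolynomial (Fin r) ℂ)).comap φ)) fun M => ?_
    rw [← hb]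
    refine (H_comap_le ψ (s := 1) (fun i => by rw [hψ]; exact gflat_deg _ _) _ M).trans ?_
    rw [one_mul, hb]
    exact hj.H_le M
  rw [Fintype.card_fin] at h1
  obtain rfl : j = r := le_antisymm (hj.le_of_H hH) h1
  refine ⟨_, hj, dg_le hH, fun x hx g hg => ?_⟩
  have h2 := hev (b.equivFun ⟨_, hx⟩) g
  rw [LinearEquiv.symm_apply_apply, add_sub_cancel, Ideal.mem_bot.1 (Ideal.mem_comap.1 hg),
    map_zero] at h2
  exact h2.symm

end Vale.Agent.P054S
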