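import Vale.Agent.P054S.GDef

/-!
Vanishing second fundamental form: a hyperplane.  lowa_generic gives L, ζ; T = tan f ζ, exists_der gives Φ (for G in locP: q G = c g, differentiate),
Φ is injective, finrank_tan and lowj_trdeg, der_surj with Unit and CritB_const: an element killed by all Φ θ is a complex number
(see P054A/CritB.lean).  g = f 0, o = J 0, minor f J = pderiv o g (Matrix.det_unique).  der_aeval and ∑ l, sff g o b l * θ l =
n o * (n o * Φ θ (n b) - n b * Φ θ (n o)) for θ in T; so n b / n o = ν b is a number, ν o = 1, and ∑ ν l ζ l is killed by all Φ θ.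
-/

namespace Vale.Agent.P054S

open MvPolynomial Vale.Agent.P054A Vale.Agent.P271 Sum
open scoped Classical

theorem ghyp_mul {σ L : Type} [Fintype σ] [Field L] [Algebra ℂ L] (ζ θ : σ → L)
    (A B : MvPolynomial σ ℂ) : ∑ l, aeval ζ (pderiv l (A * B)) * θ l =
      aeval ζ A * ∑ l, aeval ζ (pderiv l B) * θ l + aeval ζ B * ∑ l, aeval ζ (pderiv l A) * θ l := by
  simp only [Derivation.leibniz, smul_eq_mul, map_add, map_mul, Finset.mul_sum,
    ← Finset.sum_add_distrib]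
  exact Finset.sum_congr rfl fun l _ => by ring

theorem ghyp_tan {σ L : Type} [Fintype σ] [Field L] [Algebra ℂ L] {f : Fin 1 → MvPolynomial σ ℂ}
    {p₀ : σ → ℂ} (h : ∀ i, eval p₀ (f i) = 0) {ζ : σ → L}
    (hk : ∀ G, aeval ζ G = 0 ↔ G ∈ locP f p₀) : ∀ θ ∈ tan f ζ, ∀ G : MvPolynomial σ ℂ,
      aeval ζ G = 0 → ∑ l, aeval ζ (pderiv l G) * θ l = 0 := by
  intro θ hθ G hG
  obtain ⟨q, hq, hs⟩ := (hk G).1 hG
  obtain ⟨c, hc⟩ := Ideal.mem_span_range_iff_exists_fun.1 hs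
  rw [Fin.sum_univ_one] at hc
  have h0 : aeval ζ (f 0) = 0 :=
    (hk _).2 ⟨1, by simp, by rw [one_mul]; exact Ideal.subset_span ⟨0, rfl⟩⟩
  have h1 := ghyp_mul ζ θ q G
  rw [← hc, ghyp_mul, h0, hθ 0, hG, mul_zero, zero_mul, zero_mul, add_zero, add_zero] at h1
  exact (mul_eq_zero.1 h1.symm).resolve_left fun e => hq (on_locP h _ ((hk q).1 e))

theorem hyp_lin {σ : Type} [Fintype σ] {f : Fin 1 → MvPolynomial σ ℂ} {J : Fin 1 → σ} {p₀ : σ → ℂ}
    (h : Simple f J p₀) (hs : ∀ b d, sff (f 0) (J 0) b d ∈ locP f p₀) :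
    ∃ (ν : σ → ℂ) (c : ℂ), ν ≠ 0 ∧ ∑ l, C (ν l) * X l - C c ∈ locP f p₀ := by
  obtain ⟨L, _, _, ζ, hk, hL⟩ := lowa_generic (locP_prime h)
  obtain ⟨Φ, hΦ⟩ := exists_der ζ hL _ (ghyp_tan h.1 hk)
  have hinj : Function.Injective Φ := by
    rw [injective_iff_map_eq_zero]
    intro θ hθ
    refine Subtype.ext (funext fun l => ?_)
    rw [← hΦ θ l, hθ]
    rfl
  have hm : aeval ζ (minor f J) ≠ 0 := fun e => h.2 (on_locP h.1 _ ((hk _).1 e))
  have htr : Algebra.trdeg ℂ L = (Module.finrank L (tan f ζ) : Cardinal) := by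
    rw [lowj_trdeg h ζ hk hL, ← finrank_tan hm, Nat.add_sub_cancel]
  have hc : ∀ v : L, (∀ θ, Φ θ v = 0) → ∃ c : ℂ, v = algebraMap ℂ L c := fun v hv => by
    refine CritB_const ?_
    by_contra hn
    obtain ⟨θ, hθ⟩ := der_surj Φ hinj htr (fun _ : Unit => v)
      (algebraicIndependent_unique_type_iff.2 hn) fun _ => 1
    exact one_ne_zero ((hθ ()).symm.trans (hv θ))
  have ho : aeval ζ (pderiv (J 0) (f 0)) ≠ 0 := by
    rwa [minor, Matrix.det_unique] at hm
  have hν : ∀ b, ∃ c : ℂ, aeval ζ (pderiv b (f 0)) / aeval ζ (pderiv (J 0) (f 0)) =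
      algebraMap ℂ L c := fun b => hc _ fun θ => by
    have h1 : ∑ d, aeval ζ (sff (f 0) (J 0) b d) * (θ : σ → L) d = 0 :=
      Finset.sum_eq_zero fun d _ => by rw [(hk _).2 (hs b d), zero_mul]
    have h2 := θ.2 0
    have h3 := der_aeval (Φ θ) ζ (pderiv b (f 0))
    have h4 := der_aeval (Φ θ) ζ (pderiv (J 0) (f 0))
    simp only [hΦ] at h3 h4
    have h5 : ∑ d, aeval ζ (sff (f 0) (J 0) b d) * (θ : σ → L) d =
        (aeval ζ (pderiv (J 0) (pderiv (J 0) (f 0))) * aeval ζ (pderiv b (f 0)) -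
          aeval ζ (pderiv (J 0) (pderiv b (f 0))) * aeval ζ (pderiv (J 0) (f 0))) *
          ∑ d, aeval ζ (pderiv d (f 0)) * (θ : σ → L) d +
        aeval ζ (pderiv (J 0) (f 0)) ^ 2 * ∑ d, aeval ζ (pderiv d (pderiv b (f 0))) * (θ : σ → L) d -
        aeval ζ (pderiv (J 0) (f 0)) * aeval ζ (pderiv b (f 0)) *
          ∑ d, aeval ζ (pderiv d (pderiv (J 0) (f 0))) * (θ : σ → L) d := by
      simp only [sff, map_add, map_sub, map_mul, map_pow, Finset.mul_sum, ← Finset.sum_add_distrib,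
        ← Finset.sum_sub_distrib]
      exact Finset.sum_congr rfl fun d _ => by ring
    rw [h1, h2, ← h3, ← h4] at h5
    generalize aeval ζ (pderiv b (f 0)) = nb at *
    generalize aeval ζ (pderiv (J 0) (f 0)) = no at *
    have h6 := (Φ θ).leibniz (nb / no) no
    rw [div_mul_cancel₀ _ ho, smul_eq_mul, smul_eq_mul] at h6
    have h7 : nb = nb / no * no := (div_mul_cancel₀ _ ho).symm
    refine mul_left_cancel₀ (pow_ne_zero 3 ho) ?_
    linear_combination -h5 - no ^ 2 * h6 + no * Φ θ no * h7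
  choose ν hν using hν
  obtain ⟨c, hc'⟩ := hc (aeval ζ (∑ l, C (ν l) * X l)) fun θ => by
    have h2 := θ.2 0
    refine mul_left_cancel₀ ho ?_
    rw [mul_zero, ← h2]
    simp only [map_sum, map_mul, aeval_C, aeval_X, Derivation.leibniz, Derivation.map_algebraMap,
      add_zero, smul_eq_mul, mul_zero, hΦ, Finset.mul_sum]
    refine Finset.sum_congr rfl fun l _ => ?_
    rw [← hν, ← mul_assoc, mul_div_cancel₀ _ ho]
  refine ⟨ν, c, fun e => ?_, (hk _).1 ?_⟩
  · have h1 := hν (J 0)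
    rw [div_self ho, e, Pi.zero_apply, map_zero] at h1
    exact one_ne_zero h1
  · rw [map_sub, hc', aeval_C, sub_self]

end Vale.Agent.P054S
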