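import Vale.Agent.P054S.GRk

/-!
The hyperplane case.  B = bil as a symmetric nondegenerate LinearMap.BilinForm, n = lift a 0 ν, bil x n = ∑ ν l * prj a x l, prj a n = 0, bil n n = 0.
U = span of the differences x - y, V = B.orthogonal U.  U and V are stable under each D p q (applied coordinatewise; the generators of U are constant).
n ∈ V; rk_indep gives k + 1 independent vectors in V spanning N ≤ V.  If finrank U ≥ k + 1 then finrank V ≤ k + 1 (finrank_orthogonal), N = V;
bil n (D n) = 0, so n ∈ orthogonal V = U (orthogonal_orthogonal), N ≤ U, finrank U = k + 1, so U = V and bil vanishes on U.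
-/

namespace Vale.Agent.P054S

open MvPolynomial Vale.Agent.P054A Vale.Agent.P271 Sum
open scoped Classical

variable {k : ℕ} {a : Pr (k + 1) → ℂ} {D : Ders k}

/-- The form `bil` as a bilinear form. -/
def gnull_B (k : ℕ) : LinearMap.BilinForm ℂ (Tx k → ℂ) :=
  LinearMap.mk₂ ℂ bil bil_add_left (fun c x y => bil_smul_left c x y)
    (fun x y z => by rw [bil_comm, bil_add_left, bil_comm y, bil_comm z])
    (fun c x y => by rw [bil_comm, bil_smul_left, bil_comm y, smul_eq_mul])

theorem gnull_apply (x y : Tx k → ℂ) : gnull_B k x y = bil x y := rfl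

theorem gnull_ker : LinearMap.ker (gnull_B k) = ⊥ := by
  rw [LinearMap.ker_eq_bot']
  intro v hv
  have h : ∀ z, bil v z = 0 := fun z => by rw [← gnull_apply, hv, LinearMap.zero_apply]
  funext l
  rcases l with i | i
  · simpa [bil, Pi.single_apply] using h (Pi.single (inr i) 1)
  · simpa [bil, Pi.single_apply] using h (Pi.single (inl i) 1)

theorem gnull_rank (U : Submodule ℂ (Tx k → ℂ)) :
    Module.finrank ℂ U + Module.finrank ℂ ((gnull_B k).orthogonal U) = 2 * k + 2 := by
  rw [LinearMap.BilinForm.finrank_add_finrank_orthogonal', gnull_ker, inf_bot_eq,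
    finrank_bot, add_zero, Module.finrank_fintype_fun_eq_card, Fintype.card_sum, Fintype.card_fin]
  ring

theorem gnull_der (E : Derivation ℚ ℂ ℂ) (x y : Tx k → ℂ) :
    E (bil x y) = bil (fun l => E (x l)) y + bil x fun l => E (y l) := by
  simp only [bil, map_sum, map_add, Derivation.leibniz, smul_eq_mul, ← Finset.sum_add_distrib]
  exact Finset.sum_congr rfl fun i _ => by ring

theorem gnull_zero (y : Tx k → ℂ) : bil 0 y = 0 := by simp [bil]

theorem gnull_n (a : Pr (k + 1) → ℂ) (ν : Fin (k + 1) → ℂ) :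
    ∃ n : Tx k → ℂ, prj a n = 0 ∧ (∀ l, n (inr l) = ν l) ∧
      ∀ x, bil x n = ∑ l, ν l * prj a x l := by
  refine ⟨Sum.elim (fun i => ∑ j, skw a i j * ν j) ν, ?_, fun _ => rfl, fun x => ?_⟩
  · funext i
    simp [prj]
  · have hs : ∀ i j, skw a j i = -skw a i j := fun i j =>
      congrFun (congrFun (skw_transpose a) i) j
    simp only [bil, prj, Sum.elim_inl, Sum.elim_inr, mul_sub, Finset.sum_add_distrib,
      Finset.sum_sub_distrib, Finset.mul_sum, Finset.sum_mul]
    rw [sub_eq_add_neg, Finset.sum_comm, ← Finset.sum_neg_distrib]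
    congr 1
    · exact Finset.sum_congr rfl fun i _ => mul_comm _ _
    · refine Finset.sum_congr rfl fun i _ => ?_
      rw [← Finset.sum_neg_distrib]
      refine Finset.sum_congr rfl fun j _ => ?_
      rw [hs i j]
      ring

theorem flat_or_null (hD : DirD a D) {T : Finset (Tx k → ℂ)} (hT : ∀ x ∈ T, Cst D x)
    {ν : Fin (k + 1) → ℂ} (hν : ν ≠ 0) {c : ℂ} (h : ∀ x ∈ T, ∑ l, ν l * prj a x l = c) :
    (∀ x ∈ T, ∀ y ∈ T, nul x y) ∨ ∃ (x₀ : Tx k → ℂ) (U : Submodule ℂ (Tx k → ℂ)),
      Module.finrank ℂ U ≤ k ∧ ∀ x ∈ T, x - x₀ ∈ U := by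
  obtain ⟨n, hn0, hnr, hnb⟩ := gnull_n a ν
  have hn : n ≠ 0 := fun h0 => hν (funext fun l => by rw [← hnr l, h0]; rfl)
  let S : Set (Tx k → ℂ) := {v | ∃ x ∈ T, ∃ y ∈ T, v = x - y}
  let U := Submodule.span ℂ S
  have hxy : ∀ x ∈ T, ∀ y ∈ T, x - y ∈ U := fun x hx y hy =>
    Submodule.subset_span ⟨x, hx, y, hy, rfl⟩
  rcases le_or_gt (Module.finrank ℂ U) k with hk | hk
  · rcases T.eq_empty_or_nonempty with rfl | ⟨x₀, h0⟩
    · exact Or.inl (by simp)
    · exact Or.inr ⟨x₀, U, hk, fun x hx => hxy x hx x₀ h0⟩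
  left
  have hS : ∀ v ∈ S, ∀ p q, (fun l => D p q (v l)) = 0 := by
    rintro _ ⟨x, hx, y, hy, rfl⟩ p q
    funext l
    rw [Pi.sub_apply, map_sub, hT x hx, hT y hy, sub_zero]
    rfl
  let V := (gnull_B k).orthogonal U
  have hV : ∀ v, v ∈ V ↔ ∀ u ∈ S, bil u v = 0 := fun v => by
    refine ⟨fun hv u hu => hv u (Submodule.subset_span hu), fun hv u hu => ?_⟩
    have : U ≤ LinearMap.ker ((gnull_B k).flip v) := Submodule.span_le.2 hv
    exact this hu
  have hVD : ∀ v ∈ V, ∀ p q, (fun l => D p q (v l)) ∈ V := fun v hv p q =>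
    (hV _).2 fun u hu => by
      have h1 := gnull_der (D p q) u v
      rw [(hV v).1 hv u hu, hS u hu, gnull_zero, zero_add, map_zero] at h1
      exact h1.symm
  have hUD : ∀ u ∈ U, ∀ p q, (fun l => D p q (u l)) ∈ U := fun u hu p q => by
    induction hu using Submodule.span_induction with
    | mem v hv =>
      rw [hS v hv]
      exact U.zero_mem
    | zero =>
      have : (fun l => D p q ((0 : Tx k → ℂ) l)) = 0 := funext fun l => map_zero _
      rw [this]
      exact U.zero_mem
    | add v w _ _ h1 h2 =>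
      have : (fun l => D p q ((v + w) l)) = (fun l => D p q (v l)) + fun l => D p q (w l) :=
        funext fun l => map_add _ _ _
      rw [this]
      exact U.add_mem h1 h2
    | smul t v h1 h2 =>
      have : (fun l => D p q ((t • v) l)) = (t • fun l => D p q (v l)) + D p q t • v := by
        funext l
        simp only [Pi.smul_apply, Pi.add_apply, smul_eq_mul, Derivation.leibniz]
        ring
      rw [this]
      exact U.add_mem (U.smul_mem _ h2) (U.smul_mem _ h1)
  have hnV : n ∈ V := (hV n).2 (by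
    rintro _ ⟨x, hx, y, hy, rfl⟩
    rw [bil_sub_left, hnb, hnb, h x hx, h y hy, sub_self])
  have hnn : bil n n = 0 := by simp [hnb, hn0]
  obtain ⟨u, hu, hun⟩ := rk_indep hD hn hn0
  let N := Submodule.span ℂ (Set.range u)
  have hN : Module.finrank ℂ N = k + 1 := by
    rw [finrank_span_eq_card hu, Fintype.card_fin]
  have hle : ∀ W : Submodule ℂ (Tx k → ℂ), n ∈ W →
      (∀ v ∈ W, ∀ p q, (fun l => D p q (v l)) ∈ W) → N ≤ W := fun W h1 h2 => by
    refine Submodule.span_le.2 ?_
    rintro _ ⟨b, rfl⟩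
    rcases hun b with h3 | ⟨p, q, h3⟩
    · rw [h3]
      exact h1
    · rw [h3]
      exact h2 n h1 p q
  have r1 : Module.finrank ℂ U + Module.finrank ℂ V = 2 * k + 2 := gnull_rank U
  have hNV : N = V := Submodule.eq_of_le_of_finrank_le (hle V hnV hVD) (by omega)
  have r2 : Module.finrank ℂ V = k + 1 := by rw [← hNV, hN]
  have hUV : U = (gnull_B k).orthogonal V := by
    have r3 := gnull_rank V
    refine Submodule.eq_of_le_of_finrank_le (fun v hv w hw => ?_) (by omega)
    exact (bil_comm w v).trans (hw v hv)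
  have hnU : n ∈ U := by
    rw [hUV, ← hNV]
    intro w hw
    have : N ≤ LinearMap.ker ((gnull_B k).flip n) := by
      refine Submodule.span_le.2 ?_
      rintro _ ⟨b, rfl⟩
      show bil (u b) n = 0
      rcases hun b with h3 | ⟨p, q, h3⟩
      · rw [h3, hnn]
      · have h1 := gnull_der (D p q) n n
        rw [hnn, map_zero, bil_comm n] at h1
        rw [h3]
        linear_combination -h1 / 2
    exact this hw
  have hNU : N = U := Submodule.eq_of_le_of_finrank_le (hle U hnU hUD) (by omega)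
  intro x hx y hy
  have h1 : x - y ∈ V := by
    rw [← hNV, hNU]
    exact hxy x hx y hy
  exact h1 _ (hxy x hx y hy)

end Vale.Agent.P054S
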