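import Vale.Agent.P054S.GIo

/-!
Codimension one, the second derived equation.  n l = pderiv l g, γ l = cD (D o l) g, τ = x (inr o).  first_rel: n o w l = n l τ + γ l.
F = cD (D o d) (cD (D o b) (io a g)) vanishes at x (Cst.van twice); expand with cD_io (twice), cD_sub, cD_mul, cD_X, eval_io; multiply by
(n o) ^ 2 and substitute w b, w d; the coefficient of τ ^ 2 is sff g o b d, the other two are explicit sums of products of three polynomials
of degree ≤ s (deg_pderiv, cD_deg).
-/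

namespace Vale.Agent.P054S

open MvPolynomial Vale.Agent.P054A Vale.Agent.P271 Sum
open scoped Classical

variable {k : ℕ} {a : Pr (k + 1) → ℂ} {D : Ders k}

theorem gquad_mul {σ : Type} {p q r : MvPolynomial σ ℂ} {s : ℕ} (hp : p.totalDegree ≤ s)
    (hq : q.totalDegree ≤ s) (hr : r.totalDegree ≤ s) : (p * q * r).totalDegree ≤ 3 * s := by
  have h1 := totalDegree_mul (p * q) r
  have h2 := totalDegree_mul p q
  omega

theorem gquad_add {σ : Type} {p q : MvPolynomial σ ℂ} {s : ℕ} (hp : p.totalDegree ≤ s)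
    (hq : q.totalDegree ≤ s) : (p + q).totalDegree ≤ s :=
  (totalDegree_add p q).trans (max_le hp hq)

theorem gquad_sub {σ : Type} {p q : MvPolynomial σ ℂ} {s : ℕ} (hp : p.totalDegree ≤ s)
    (hq : q.totalDegree ≤ s) : (p - q).totalDegree ≤ s :=
  (totalDegree_sub p q).trans (max_le hp hq)

theorem gquad_d {σ : Type} {p : MvPolynomial σ ℂ} {s : ℕ} (l : σ) (hp : p.totalDegree ≤ s) :
    (pderiv l p).totalDegree ≤ s := (deg_pderiv l p).trans hp

theorem gquad_c {σ : Type} {p : MvPolynomial σ ℂ} {s : ℕ} (E : Derivation ℚ ℂ ℂ)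
    (hp : p.totalDegree ≤ s) : (cD E p).totalDegree ≤ s := (cD_deg E p).trans hp

theorem sff_deg {σ : Type} {g : MvPolynomial σ ℂ} {s : ℕ} (hs : g.totalDegree ≤ s) (o b d : σ) :
    (sff g o b d).totalDegree ≤ 3 * s := by
  have h1 : ∀ l, (pderiv l g).totalDegree ≤ s := fun l => gquad_d l hs
  have h2 : ∀ l m, (pderiv l (pderiv m g)).totalDegree ≤ s := fun l m => gquad_d l (h1 m)
  rw [sff, sq, ← mul_assoc]
  exact gquad_add (gquad_sub (gquad_sub (gquad_mul (h2 _ _) (h1 _) (h1 _))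
    (gquad_mul (h2 _ _) (h1 _) (h1 _))) (gquad_mul (h2 _ _) (h1 _) (h1 _)))
    (gquad_mul (h2 _ _) (h1 _) (h1 _))

theorem quad_rel (hD : DirD a D) {g : Pz k} {s : ℕ} (hs : g.totalDegree ≤ s)
    (o b d : Fin (k + 1)) : ∃ A₁ A₀ : Pz k, A₁.totalDegree ≤ 3 * s ∧ A₀.totalDegree ≤ 3 * s ∧
      ∀ x, Cst D x → eval (prj a x) g = 0 → eval (prj a x) (sff g o b d) * x (inr o) ^ 2
        + eval (prj a x) A₁ * x (inr o) + eval (prj a x) A₀ = 0 := by
  have h1 : ∀ l, (pderiv l g).totalDegree ≤ s := fun l => gquad_d l hs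
  have h2 : ∀ l m, (pderiv l (pderiv m g)).totalDegree ≤ s := fun l m => gquad_d l (h1 m)
  have h3 : ∀ l, (cD (D o l) g).totalDegree ≤ s := fun l => gquad_c _ hs
  have h4 : ∀ l m, (pderiv l (cD (D o m) g)).totalDegree ≤ s := fun l m => gquad_d l (h3 m)
  have h5 : ∀ l m, (cD (D o l) (pderiv m g)).totalDegree ≤ s := fun l m => gquad_c _ (h1 m)
  refine ⟨pderiv o g * pderiv o g * pderiv d (cD (D o b) g)
      - pderiv o g * pderiv o (cD (D o b) g) * pderiv d g
      - pderiv o g * cD (D o d) (pderiv o g) * pderiv b g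
      + pderiv o (pderiv o g) * pderiv d g * cD (D o b) g
      + pderiv o (pderiv o g) * cD (D o d) g * pderiv b g
      - pderiv d (pderiv o g) * pderiv o g * cD (D o b) g
      + pderiv o g * pderiv o g * cD (D o d) (pderiv b g)
      - pderiv o (pderiv b g) * pderiv o g * cD (D o d) g,
    pderiv o g * pderiv o g * cD (D o d) (cD (D o b) g)
      - pderiv o g * pderiv o (cD (D o b) g) * cD (D o d) g
      - pderiv o g * cD (D o d) (pderiv o g) * cD (D o b) g
      + pderiv o (pderiv o g) * cD (D o d) g * cD (D o b) g, ?_, ?_, fun x hx hg => ?_⟩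
  · exact gquad_sub (gquad_add (gquad_sub (gquad_add (gquad_add (gquad_sub (gquad_sub
      (gquad_mul (h1 _) (h1 _) (h4 _ _)) (gquad_mul (h1 _) (h4 _ _) (h1 _)))
      (gquad_mul (h1 _) (h5 _ _) (h1 _))) (gquad_mul (h2 _ _) (h1 _) (h3 _)))
      (gquad_mul (h2 _ _) (h3 _) (h1 _))) (gquad_mul (h2 _ _) (h1 _) (h3 _)))
      (gquad_mul (h1 _) (h1 _) (h5 _ _))) (gquad_mul (h2 _ _) (h1 _) (h3 _))
  · exact gquad_add (gquad_sub (gquad_sub (gquad_mul (h1 _) (h1 _) (gquad_c _ (h3 _)))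
      (gquad_mul (h1 _) (h4 _ _) (h3 _))) (gquad_mul (h1 _) (h5 _ _) (h3 _)))
      (gquad_mul (h2 _ _) (h3 _) (h3 _))
  · have e0 : eval x (io a g) = 0 := (eval_io a x g).trans hg
    have e1 := hx.van (hx.van e0 o b) o d
    simp only [cD_io hD, cD_sub, cD_mul, cD_X, mul_zero, add_zero, map_sub, map_mul, eval_io,
      eval_X] at e1
    have eb := first_rel hD hx hg o b
    have ed := first_rel hD hx hg o d
    simp only [sff, map_sub, map_add, map_mul, map_pow]
    rw [← eb, ← ed]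
    linear_combination eval (prj a x) (pderiv o g) ^ 2 * e1

end Vale.Agent.P054S
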