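import Vale.Agent.P054S.GIo

/-!
Codimension at least two.  two_minor: in the domain R ⧸ p (RingHom.map_det), if all 2 x 2 minors of rows 0 and 1 vanish then either row 0 is
zero or a nonzero combination of the two rows vanishes (Matrix.exists_vecMul_eq_zero_iff), so the determinant is in p.
rat_two: n = grad g₀, m = grad g₁, Δ = n b m e - n e m b, first_rel gives polynomials for n p w q - n q w p and m p w q - m q w p;
Δ w b = m b (n∧w)(b,e) - n b (m∧w)(b,e), and Δ w l = m e (n∧w)(b,l) - n e (m∧w)(b,l) + (m e n l - n e m l) w b; h = Δ ^ 2 (linear_combination).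
-/

namespace Vale.Agent.P054S

open MvPolynomial Vale.Agent.P054A Vale.Agent.P271 Sum
open scoped Classical

variable {k : ℕ} {a : Pr (k + 1) → ℂ} {D : Ders k}

theorem two_minor {σ : Type} {c : ℕ} {f : Fin (c + 2) → MvPolynomial σ ℂ} {J : Fin (c + 2) → σ}
    {p : Ideal (MvPolynomial σ ℂ)} (hp : p.IsPrime) (hm : minor f J ∉ p) :
    ∃ b e, pderiv b (f 0) * pderiv e (f 1) - pderiv e (f 0) * pderiv b (f 1) ∉ p := by
  by_contra hn
  simp only [not_exists, not_not] at hn
  apply hm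
  rw [← Ideal.Quotient.eq_zero_iff_mem, minor, RingHom.map_det]
  set M := (Ideal.Quotient.mk p).mapMatrix (Matrix.of fun i l => pderiv (J l) (f i)) with hM
  have key : ∀ b e, M 0 b * M 1 e - M 0 e * M 1 b = 0 := fun b e => by
    have h1 := Ideal.Quotient.eq_zero_iff_mem.2 (hn (J b) (J e))
    rwa [map_sub, map_mul, map_mul] at h1
  by_cases h0 : ∀ b, M 0 b = 0
  · exact Matrix.det_eq_zero_of_row_eq_zero 0 h0
  · obtain ⟨b, hb⟩ := not_forall.1 h0
    refine Matrix.exists_vecMul_eq_zero_iff.1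
      ⟨Pi.single 1 (M 0 b) - Pi.single 0 (M 1 b), fun h => hb ?_, ?_⟩
    · have h1 := congrFun h 1
      simpa using h1
    · funext e
      rw [Matrix.sub_vecMul, Matrix.single_vecMul, Matrix.single_vecMul]
      have h1 := key b e
      simp only [Pi.sub_apply, Pi.smul_apply, smul_eq_mul, Matrix.row_apply, Pi.zero_apply]
      linear_combination h1

theorem grat_mul {σ : Type} {A B : MvPolynomial σ ℂ} {s t : ℕ} (hA : A.totalDegree ≤ s)
    (hB : B.totalDegree ≤ t) : (A * B).totalDegree ≤ s + t :=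
  (totalDegree_mul A B).trans (add_le_add hA hB)

theorem grat_two {σ : Type} {A B A' B' : MvPolynomial σ ℂ} {s : ℕ} (hA : A.totalDegree ≤ s)
    (hB : B.totalDegree ≤ s) (hA' : A'.totalDegree ≤ s) (hB' : B'.totalDegree ≤ s) :
    (A * B - A' * B').totalDegree ≤ s + s :=
  (totalDegree_sub _ _).trans (max_le (grat_mul hA hB) (grat_mul hA' hB'))

theorem rat_two (hD : DirD a D) {p : Ideal (Pz k)} (hp : p.IsPrime) {g₀ g₁ : Pz k} {s : ℕ}
    (h₀ : g₀.totalDegree ≤ s) (h₁ : g₁.totalDegree ≤ s) {b e : Fin (k + 1)}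
    (hm : pderiv b g₀ * pderiv e g₁ - pderiv e g₀ * pderiv b g₁ ∉ p) :
    ∃ (h : Pz k) (v : Fin (k + 1) → Pz k), h ∉ p ∧ h.totalDegree ≤ 4 * s ∧
      (∀ l, (v l).totalDegree ≤ 4 * s) ∧ ∀ x, Cst D x → eval (prj a x) g₀ = 0 →
        eval (prj a x) g₁ = 0 → ∀ l, eval (prj a x) h * x (inr l) = eval (prj a x) (v l) := by
  have n : ∀ l, (pderiv l g₀).totalDegree ≤ s := fun l => (deg_pderiv l g₀).trans h₀
  have m : ∀ l, (pderiv l g₁).totalDegree ≤ s := fun l => (deg_pderiv l g₁).trans h₁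
  have n' : ∀ l l', (cD (D l l') g₀).totalDegree ≤ s := fun l l' => (cD_deg _ g₀).trans h₀
  have m' : ∀ l l', (cD (D l l') g₁).totalDegree ≤ s := fun l l' => (cD_deg _ g₁).trans h₁
  have hΔ := grat_two (n b) (m e) (n e) (m b)
  have e4 : s + s + (s + s) = 4 * s := by ring
  refine ⟨(pderiv b g₀ * pderiv e g₁ - pderiv e g₀ * pderiv b g₁) *
      (pderiv b g₀ * pderiv e g₁ - pderiv e g₀ * pderiv b g₁),
    fun l => (pderiv b g₀ * pderiv e g₁ - pderiv e g₀ * pderiv b g₁) *
      (pderiv e g₁ * cD (D b l) g₀ - pderiv e g₀ * cD (D b l) g₁) +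
      (pderiv e g₁ * pderiv l g₀ - pderiv e g₀ * pderiv l g₁) *
        (pderiv b g₁ * cD (D b e) g₀ - pderiv b g₀ * cD (D b e) g₁),
    fun h => (hp.mem_or_mem h).elim hm hm, (grat_mul hΔ hΔ).trans e4.le, fun l => ?_,
    fun x hx k₀ k₁ l => ?_⟩
  · exact (totalDegree_add _ _).trans (max_le
      ((grat_mul hΔ (grat_two (m e) (n' b l) (n e) (m' b l))).trans e4.le)
      ((grat_mul (grat_two (m e) (n l) (n e) (m l)) (grat_two (m b) (n' b e) (n b) (m' b e))).trans
        e4.le))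
  · simp only [map_add, map_mul, map_sub]
    rw [← first_rel hD hx k₀ b l, ← first_rel hD hx k₁ b l, ← first_rel hD hx k₀ b e,
      ← first_rel hD hx k₁ b e]
    ring

end Vale.Agent.P054S
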