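import Vale.Agent.P054S.GCoreB
import Vale.Agent.P054S.GRat
import Vale.Agent.P054S.GQuad
import Vale.Agent.P054S.GHyp
import Vale.Agent.P054S.GFlat
import Vale.Agent.P054S.GNull

/-!
The degree lemma.
-/

namespace Vale.Agent.P054S

open MvPolynomial Vale.Agent.P054A Vale.Agent.P271 Sum
open scoped Classical

variable {k : ℕ} {a : Pr (k + 1) → ℂ} {D : Ders k} {T : Finset (Tx k → ℂ)} {p : Ideal (Pz k)}
  {c d j : ℕ} {f : Fin c → Pz k}

theorem Base.mono (h : Base a D T p f d) {d' : ℕ} (hd : d ≤ d') : Base a D T p f d' :=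
  ⟨h.dir, h.cst, h.prime, h.on, h.mem, fun i => (h.deg i).trans hd, h.loc⟩

theorem WR.mono (h : WR a T p d) {d' : ℕ} (hd : d' ≤ d) : WR a T p d' :=
  fun g hg hz => h g (hg.trans hd) hz

theorem gdl_mul {σ : Type} {F G : MvPolynomial σ ℂ} {m n : ℕ} (hF : F.totalDegree ≤ m)
    (hG : G.totalDegree ≤ n) : (F * G).totalDegree ≤ m + n :=
  (totalDegree_mul F G).trans (add_le_add hF hG)

theorem gdl_sub {σ : Type} {F G : MvPolynomial σ ℂ} {m : ℕ} (hF : F.totalDegree ≤ m)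
    (hG : G.totalDegree ≤ m) : (F - G).totalDegree ≤ m :=
  (totalDegree_sub F G).trans (max_le hF hG)

/-- The alternatives in codimension one. -/
theorem gdl_one {f : Fin 1 → Pz k} {J : Fin 1 → Fin (k + 1)} {p₀ : Fin (k + 1) → ℂ} {s : ℕ}
    (hS : Simple f J p₀) (hB : Base a D T (locP f p₀) f s) (hp : IsVar k (locP f p₀))
    (hW : WR a T (locP f p₀) (200 * s)) :
    (∃ H, H ∉ locP f p₀ ∧ H.totalDegree ≤ 200 * s ∧ Up a T (locP f p₀) k H) ∨
      ∃ (ν : Fin (k + 1) → ℂ) (c : ℂ), ν ≠ 0 ∧ ∀ x ∈ T, ∑ l, ν l * prj a x l = c := by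
  have hm : pderiv (J 0) (f 0) ∉ locP f p₀ := by
    have h1 := minor_notin_locP hS
    rwa [minor, Matrix.det_unique] at h1
  have hn : ∀ l, (pderiv l (f 0)).totalDegree ≤ s := fun l => (deg_pderiv l _).trans (hB.deg 0)
  have hγ : ∀ l, (cD (D (J 0) l) (f 0)).totalDegree ≤ s := fun l => (cD_deg _ _).trans (hB.deg 0)
  have h0 : ∀ x ∈ T, eval (prj a x) (f 0) = 0 := fun x hx => hB.on x hx _ (hB.mem 0)
  have h1 := fun x hx l => first_rel hB.dir (hB.cst x hx) (h0 x hx) (J 0) l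
  by_cases hN : NLin a T (locP f p₀) (J 0) (7 * (3 * s))
  · by_cases hs : ∀ b d, sff (f 0) (J 0) b d ∈ locP f p₀
    · obtain ⟨ν, c, hν, hc⟩ := hyp_lin hS hs
      refine Or.inr ⟨ν, c, hν, fun x hx => ?_⟩
      have h2 := hB.on x hx _ hc
      simp only [map_sub, map_sum, map_mul, eval_C, eval_X] at h2
      exact sub_eq_zero.1 h2
    · push Not at hs
      obtain ⟨b, d, hbd⟩ := hs
      obtain ⟨A₁, A₀, d₁, d₀, hq⟩ := quad_rel hB.dir (hB.deg 0) (J 0) b d
      let R : Pres k := ⟨X (inr (J 0)), pderiv (J 0) (f 0), sff (f 0) (J 0) b d, A₁, A₀,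
        fun l => pderiv l (f 0), fun l => cD (D (J 0) l) (f 0)⟩
      have hR : R.Deg (3 * s) := ⟨Or.inr ⟨_, rfl⟩, (hn _).trans (by omega), sff_deg (hB.deg 0) _ _ _,
        d₁, d₀, fun l => (hn l).trans (by omega), fun l => (hγ l).trans (by omega)⟩
      refine Or.inl ⟨R.h * R.A₂, fun h => (hB.prime.mem_or_mem h).elim hm hbd,
        (gdl_mul hR.h hR.A₂).trans (by omega), core_quad (hB.mono (by omega)) le_rfl hp
          (hW.mono (by omega)) hR rfl hN hm hbd fun x hx o => ?_⟩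
      cases o with
      | none =>
        simp only [Pres.eqn, R, map_add, map_mul, map_pow, eval_io, eval_X]
        exact hq x (hB.cst x hx) (h0 x hx)
      | some l =>
        simp only [Pres.eqn, R, map_sub, map_mul, eval_io, eval_X]
        exact sub_eq_zero.2 (h1 x hx l)
  · simp only [NLin, not_forall] at hN
    obtain ⟨α, β, dα, dβ, hz, hα⟩ := hN
    have hd : (pderiv (J 0) (f 0) * α).totalDegree ≤ 22 * s := (gdl_mul (hn _) dα).trans (by omega)
    have hh : pderiv (J 0) (f 0) * α ∉ locP f p₀ := fun h => (hB.prime.mem_or_mem h).elim hm hα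
    refine Or.inl ⟨_, hh, hd.trans (by omega), core_rat (hB.mono (d' := 22 * s) (by omega)) le_rfl hp
      (hW.mono (by omega)) (v := fun l => cD (D (J 0) l) (f 0) * α - pderiv l (f 0) * β) hh hd
      (fun l => gdl_sub ((gdl_mul (hγ l) dα).trans (by omega))
        ((gdl_mul (hn l) dβ).trans (by omega))) fun x hx l => ?_⟩
    simp only [map_sub, map_mul]
    linear_combination eval (prj a x) α * h1 x hx l + eval (prj a x) (pderiv l (f 0)) * hz x hx

theorem one_le_cG (k : ℕ) : 1 ≤ cG k :=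
  Nat.mul_pos (by norm_num) (pow_pos (Nat.succ_pos k) _)

/-- The degree lemma. -/
theorem dl {J : Fin c → Fin (k + 1)} {p₀ : Fin (k + 1) → ℂ} {s : ℕ} (hD : DirD a D)
    (hT : ∀ x ∈ T, Cst D x) (hjc : j + c = k + 1) (hc : 1 ≤ c) (hS : Simple f J p₀)
    (hs : ∀ i, (f i).totalDegree ≤ s) (hon : ∀ x ∈ T, On (prj a x) (locP f p₀)) (hne : T.Nonempty)
    (hrob : ∀ g, g ∉ locP f p₀ → g.totalDegree ≤ 200 * s →
      200 * (T.filter fun x => eval (prj a x) g = 0).card ≤ T.card) :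
    (j = k ∧ ∀ x ∈ T, ∀ y ∈ T, nul x y) ∨ ∃ j' ≤ j, ∃ P : Ideal (Px k), IsVar j' P ∧
      dg j' P ≤ cG k * dg j (locP f p₀) ∧ T.card ≤ 4 * (zs T P).card := by
  have hp : IsVar j (locP f p₀) := isVar_loc hS (by simpa using hjc)
  have hB : Base a D T (locP f p₀) f s := ⟨hD, hT, hp.prime, hon, mem_locP f p₀, hs,
    fun g ⟨q, hq, hg⟩ => ⟨q, fun h => hq (on_locP hS.1 q h), hg⟩⟩
  have hW : WR a T (locP f p₀) (200 * s) := fun g hg hz => by
    by_contra hn
    have h1 := hrob g hn hg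
    rw [Finset.filter_true_of_mem hz] at h1
    have := hne.card_pos
    omega
  have hup : ∀ H, H ∉ locP f p₀ → H.totalDegree ≤ 200 * s → Up a T (locP f p₀) j H →
      ∃ j' ≤ j, ∃ P : Ideal (Px k), IsVar j' P ∧
        dg j' P ≤ cG k * dg j (locP f p₀) ∧ T.card ≤ 4 * (zs T P).card := by
    rintro H hH hd ⟨P, h1, h2, h3⟩
    refine ⟨j, le_rfl, P, h1, h2, ?_⟩
    have h4 := hrob H hH hd
    have h5 := Finset.card_filter_add_card_filter_not (s := T) fun x => eval (prj a x) H = 0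
    simp only [ne_eq] at h3
    omega
  obtain ⟨c, rfl⟩ : ∃ c', c = c' + 1 := ⟨c - 1, by omega⟩
  rcases c with _ | c
  · obtain rfl : j = k := by omega
    rcases gdl_one hS hB hp hW with ⟨H, h1, h2, h3⟩ | ⟨ν, c, hν, h⟩
    · exact Or.inr (hup H h1 h2 h3)
    · rcases flat_or_null hD hT hν h with h | ⟨x₀, U, hU, h⟩
      · exact Or.inl ⟨rfl, h⟩
      · obtain ⟨P, h1, h2, h3⟩ := flat_var x₀ U
        refine Or.inr ⟨_, hU, P, h1, h2.trans (Nat.mul_pos (one_le_cG j) hp.one_le_dg), ?_⟩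
        rw [zs, Finset.filter_true_of_mem fun x hx => h3 x (h x hx)]
        omega
  · obtain ⟨b, e, hm⟩ := two_minor hB.prime (minor_notin_locP hS)
    obtain ⟨h, v, h1, h2, h3, h4⟩ := rat_two hD hB.prime (hs 0) (hs 1) hm
    refine Or.inr (hup h h1 (h2.trans (by omega)) (core_rat (hB.mono (d' := 4 * s) (by omega))
      (by omega) hp (hW.mono (by omega)) h1 h2 h3 fun x hx l => ?_))
    exact h4 x (hT x hx) (hon x hx _ (hB.mem 0)) (hon x hx _ (hB.mem 1)) l

end Vale.Agent.P054S
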