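import Vale.Agent.P054S.GDef

/-!
Determinant trick.  fInt_iff (P271/FInt.lean); isIntegral_of_smul_mem_submodule for the rees W' submodule of L[X] spanned by
the C m * X ^ N with m in W ^ N: it is nonzero (m = 1), finitely generated (W ^ N is finite dimensional, Submodule.FG.pow), and
(C f * X) * (C m * X ^ N) = C (f * m) * X ^ (N + 1) with f * m in W' * W ^ N (Submodule.mul_induction_on, C_mul_X_pow_mem_rees).
-/

namespace Vale.Agent.P054S

open MvPolynomial Vale.Agent.P054A Vale.Agent.P271 Sum
open scoped Classical

theorem fint_of_pow_le {L : Type} [Field L] [Algebra ℂ L] {W W' : Submodule ℂ L}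
    [FiniteDimensional ℂ W] (h1 : (1 : L) ∈ W) {N : ℕ} (h : W ^ (N + 1) ≤ W' * W ^ N) {f : L}
    (hf : f ∈ W) : FInt W' 1 f := by
  rw [fInt_iff]
  have hfg : (W ^ N).FG := ((Submodule.fg_iff_finiteDimensional W).2 inferInstance).pow N
  obtain ⟨s, hs⟩ := hfg
  have hmem : ∀ m ∈ W ^ N, (Polynomial.C m * Polynomial.X ^ N : Polynomial L) ∈
      Submodule.span (rees W') ((fun m : L => (Polynomial.C m * Polynomial.X ^ N : Polynomial L)) ''
        (s : Set L)) := by
    intro m hm
    rw [← hs] at hm
    induction hm using Submodule.span_induction with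
    | mem x hx => exact Submodule.subset_span ⟨x, hx, rfl⟩
    | zero => simp
    | add x y _ _ hx hy => rw [map_add, add_mul]; exact Submodule.add_mem _ hx hy
    | smul c x _ hx =>
      have e : (Polynomial.C (c • x) * Polynomial.X ^ N : Polynomial L) =
          (algebraMap ℂ (rees W') c) • (Polynomial.C x * Polynomial.X ^ N : Polynomial L) := by
        rw [algebraMap_smul, ← smul_mul_assoc, Polynomial.smul_C]
      rw [e]
      exact Submodule.smul_mem _ _ hx
  refine isIntegral_of_smul_mem_submodule (M := Polynomial L)
    (Submodule.span (rees W') ((fun m : L => (Polynomial.C m * Polynomial.X ^ N : Polynomial L)) ''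
      (s : Set L))) ?_ (Submodule.fg_span (s.finite_toSet.image _)) _ ?_
  · intro h0
    have h2 := hmem 1 (by simpa using Submodule.pow_mem_pow W h1 N)
    rw [h0, Submodule.mem_bot] at h2
    simp at h2
  · intro n hn
    induction hn using Submodule.span_induction with
    | mem x hx =>
      obtain ⟨m, hm, rfl⟩ := hx
      have hmW : m ∈ W ^ N := hs ▸ Submodule.subset_span hm
      have h3 : f * m ∈ W' * W ^ N := by
        apply h
        rw [pow_succ']
        exact Submodule.mul_mem_mul hf hmW
      have e : (Polynomial.C f * Polynomial.X ^ 1 : Polynomial L) •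
          (Polynomial.C m * Polynomial.X ^ N : Polynomial L) =
          Polynomial.C (f * m) * Polynomial.X ^ (N + 1) := by
        rw [smul_eq_mul, map_mul]; ring
      show (Polynomial.C f * Polynomial.X ^ 1 : Polynomial L) •
          (Polynomial.C m * Polynomial.X ^ N : Polynomial L) ∈ _
      rw [e]
      generalize f * m = z at h3
      refine Submodule.mul_induction_on h3 (fun a ha b hb => ?_) (fun a b ha hb => ?_)
      · have ha' : (Polynomial.C a * Polynomial.X ^ 1 : Polynomial L) ∈ rees W' :=
          C_mul_X_pow_mem_rees (by simpa using ha)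
        have e2 : (Polynomial.C (a * b) * Polynomial.X ^ (N + 1) : Polynomial L) =
            (⟨_, ha'⟩ : rees W') • (Polynomial.C b * Polynomial.X ^ N : Polynomial L) := by
          rw [Subalgebra.smul_def, smul_eq_mul, map_mul]; ring
        rw [e2]
        exact Submodule.smul_mem _ _ (hmem b hb)
      · rw [map_add, add_mul]; exact Submodule.add_mem _ ha hb
    | zero => simp
    | add x y _ _ hx hy => rw [smul_add]; exact Submodule.add_mem _ hx hy
    | smul c x _ hx => rw [smul_comm]; exact Submodule.smul_mem _ _ hx

end Vale.Agent.P054S
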