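import Vale.Agent.P054S.GDer

/-!
The projection and its pull back.  exl_map (P054A/Exl.lean) commutes skw with ring homs, skw_transpose.  cD_io: cD_aeval,
then cD (io (X i)) = - ∑ j, C (D (skw a i j)) * X (inr j).  exists_dirD: for p, q take the derivation of GenA for
c r = (if r.1 = (p, q) then 1 else 0) - (if r.1 = (q, p) then 1 else 0), unfold skw.  prj_der: apply D p q to
v (inl i) = ∑ j, skw a i j * v (inr j).  prj_inj: prj_der for v = x - y (all D p q (v l) = 0) with i = p ≠ q gives v (inr q) = 0.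
-/

namespace Vale.Agent.P054S

open MvPolynomial Vale.Agent.P054A Vale.Agent.P271 Sum
open scoped Classical

variable {k : ℕ} {a : Pr (k + 1) → ℂ} {D : Ders k}

theorem io_X (a : Pr (k + 1) → ℂ) (i : Fin (k + 1)) :
    io a (X i) = X (inl i) - ∑ j, C (skw a i j) * X (inr j) := by
  simp only [io, aeval_X, prj, exl_map]

theorem io_X_hom (a : Pr (k + 1) → ℂ) (i : Fin (k + 1)) : (io a (X i)).IsHomogeneous 1 := by
  rw [io_X]
  exact (isHomogeneous_X _ _).sub (IsHomogeneous.sum _ _ _ fun j _ => isHomogeneous_C_mul_X _ _)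

theorem io_deg (a : Pr (k + 1) → ℂ) (g : Pz k) : (io a g).totalDegree ≤ g.totalDegree := by
  conv_lhs => rw [g.as_sum, map_sum]
  refine totalDegree_finsetSum_le fun s hs => le_trans ?_ (le_totalDegree hs)
  rw [monomial_eq, map_mul, Finsupp.prod, map_prod, Finsupp.sum]
  refine (totalDegree_mul _ _).trans ?_
  rw [← algebraMap_eq, AlgHom.commutes, algebraMap_eq, totalDegree_C, zero_add]
  refine (totalDegree_finsetProd _ _).trans (Finset.sum_le_sum fun i _ => ?_)
  rw [map_pow]
  exact (totalDegree_pow _ _).trans (mul_le_of_le_one_right' (io_X_hom a i).totalDegree_le)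

theorem prL_apply {L : Type} [CommRing L] [Algebra ℂ L] (a : Pr (k + 1) → ℂ) (ξ : Tx k → L)
    (i : Fin (k + 1)) :
    prL a ξ i = ξ (inl i) - ∑ j, algebraMap ℂ L (skw a i j) * ξ (inr j) := by
  simp only [prL, prj, exl_map]

theorem aeval_io {L : Type} [CommRing L] [Algebra ℂ L] (a : Pr (k + 1) → ℂ) (ξ : Tx k → L)
    (g : Pz k) : aeval ξ (io a g) = aeval (prL a ξ) g := by
  have h : (aeval ξ).comp (io a) = aeval (prL a ξ) := algHom_ext fun i => by
    simp only [AlgHom.comp_apply, io_X, map_sub, map_sum, map_mul, aeval_X, aeval_C, prL_apply]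
  exact DFunLike.congr_fun h g

theorem eval_io (a : Pr (k + 1) → ℂ) (x : Tx k → ℂ) (g : Pz k) :
    eval x (io a g) = eval (prj a x) g := aeval_io a x g

theorem prL_lift {L : Type} [CommRing L] [Algebra ℂ L] (a : Pr (k + 1) → ℂ)
    (ζ ω : Fin (k + 1) → L) : prL a (lift a ζ ω) = ζ := by
  funext i
  simp only [prL_apply, lift, elim_inl, elim_inr, add_sub_cancel_right]

theorem lift_inr {L : Type} [CommRing L] [Algebra ℂ L] (a : Pr (k + 1) → ℂ)
    (ζ ω : Fin (k + 1) → L) (l : Fin (k + 1)) : lift a ζ ω (inr l) = ω l := rfl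

theorem gio_sum {A : Type} [CommRing A] (w : Fin (k + 1) → A) (p q i : Fin (k + 1)) :
    ∑ j, ((if i = p ∧ j = q then 1 else 0) - if i = q ∧ j = p then 1 else 0) * w j =
      (if i = p then w q else 0) - if i = q then w p else 0 := by
  simp only [sub_mul, Finset.sum_sub_distrib, ite_and]
  congr 1 <;> split_ifs <;> simp

theorem gio_X (hD : DirD a D) (p q i : Fin (k + 1)) : cD (D p q) (io a (X i)) =
    -((if i = p then X (inr q) else 0) - if i = q then X (inr p) else 0) := by
  rw [io_X, cD_sub, cD_X, cD_sum, zero_sub, ← gio_sum (fun j => (X (inr j) : Px k)) p q i]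
  refine congrArg Neg.neg (Finset.sum_congr rfl fun j _ => ?_)
  rw [cD_mul, cD_X, cD_C, hD, mul_zero, add_zero, map_sub, apply_ite C, apply_ite C, map_one,
    map_zero]

theorem cD_io (hD : DirD a D) (p q : Fin (k + 1)) (g : Pz k) :
    cD (D p q) (io a g) = io a (cD (D p q) g)
      - (io a (pderiv p g) * X (inr q) - io a (pderiv q g) * X (inr p)) := by
  have h : cD (D p q) (io a g) = io a (cD (D p q) g) +
      ∑ i, io a (pderiv i g) * cD (D p q) (prj (fun q => C (a q)) X i) := cD_aeval _ _ g
  have e : ∀ i, prj (fun q => C (a q)) X i = io a (X i) := fun i => (aeval_X _ i).symm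
  simp only [h, e, gio_X hD, mul_neg, mul_ite, mul_zero, Finset.sum_neg_distrib,
    Finset.sum_ite_eq', Finset.mem_univ, if_true, sub_eq_add_neg,
    mul_add, Finset.sum_add_distrib]

/-- The first derived equation at a constant point. -/
theorem first_rel (hD : DirD a D) {x : Tx k → ℂ} (hx : Cst D x) {g : Pz k}
    (hg : eval (prj a x) g = 0) (p q : Fin (k + 1)) :
    eval (prj a x) (pderiv p g) * x (inr q) - eval (prj a x) (pderiv q g) * x (inr p)
      = eval (prj a x) (cD (D p q) g) := by
  have h := hx.van ((eval_io a x g).trans hg) p q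
  rw [cD_io hD] at h
  simp only [map_sub, map_mul, eval_io, eval_X] at h
  exact (sub_eq_zero.1 h).symm

theorem exists_dirD {S : Finset (Tx k → ℂ)} (h : GenA (crd S) a) :
    ∃ D : Ders k, DirD a D ∧ ∀ x ∈ S, Cst D x := by
  choose D h1 h2 using fun p q : Fin (k + 1) =>
    h fun r => (if r.1 = (p, q) then 1 else 0) - if r.1 = (q, p) then 1 else 0
  refine ⟨D, fun p q i j => ?_, fun x hx p q l => h1 p q _ ⟨x, hx, l, rfl⟩⟩
  unfold skw
  by_cases h3 : i < j
  · simp only [dif_pos h3, h2, Prod.mk.injEq]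
  · by_cases h4 : j < i
    · simp only [dif_neg h3, dif_pos h4, map_neg, h2, Prod.mk.injEq, neg_sub, and_comm]
    · obtain rfl : i = j := le_antisymm (not_lt.1 h4) (not_lt.1 h3)
      simp only [dif_neg h3, map_zero, and_comm, sub_self]

theorem prj_der (hD : DirD a D) {v : Tx k → ℂ} (h0 : prj a v = 0) (p q i : Fin (k + 1)) :
    prj a (fun l => D p q (v l)) i
      = (if i = p then v (inr q) else 0) - if i = q then v (inr p) else 0 := by
  have h1 : v (inl i) = ∑ j, skw a i j * v (inr j) := sub_eq_zero.1 (congrFun h0 i)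
  rw [← gio_sum (fun j => v (inr j)) p q i, prj, h1, map_sum, ← Finset.sum_sub_distrib]
  refine Finset.sum_congr rfl fun j _ => ?_
  rw [Derivation.leibniz, hD, smul_eq_mul, smul_eq_mul]
  ring

theorem prj_inj (hk : 1 ≤ k) (hD : DirD a D) {x y : Tx k → ℂ} (hx : Cst D x) (hy : Cst D y)
    (h : prj a x = prj a y) : x = y := by
  have h0 : prj a (x - y) = 0 := funext fun i => by
    have h1 := congrFun h i
    simp only [prj, Pi.sub_apply, Pi.zero_apply, mul_sub, Finset.sum_sub_distrib] at h1 ⊢
    linear_combination h1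
  have h2 : ∀ q, (x - y) (inr q) = 0 := fun q => by
    have : Nontrivial (Fin (k + 1)) := Fin.nontrivial_iff_two_le.2 (by omega)
    obtain ⟨p, hp⟩ := exists_ne q
    have h3 := prj_der hD h0 p q p
    simp only [prj, Pi.sub_apply, map_sub, hx p q, hy p q, sub_self, mul_zero,
      Finset.sum_const_zero, if_true, if_neg hp, sub_zero] at h3
    exact h3.symm
  refine sub_eq_zero.1 (funext fun l => ?_)
  rcases l with i | i
  · have h3 := congrFun h0 i
    simp only [prj, h2, mul_zero, Finset.sum_const_zero, sub_zero] at h3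
    exact h3
  · exact h2 i

end Vale.Agent.P054S
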