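import Vale.Agent.P054S.GIo

/-!
Bidegrees and reduction.  All by induction on BV.  der: case z is cD_io.  exists_BV: MvPolynomial.induction_on,
X (inl i) = io a (X i) + ∑ j, io a (C (skw a i j)) * X (inr j).  red, case w l: from (α, β) pass to
α' = - u α A₁ + A₂ (u β + v α), β' = - u α A₀ + A₂ v β (u = R.u l, v = R.v l); case up: multiply by h A₂.
-/

namespace Vale.Agent.P054S

open MvPolynomial Vale.Agent.P054A Vale.Agent.P271 Sum
open scoped Classical

variable {k : ℕ} {a : Pr (k + 1) → ℂ} {D : Ders k} {d t : ℕ} {F G : Px k}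

theorem gred_monoD (h : BV a d t F) {d' : ℕ} (hd : d ≤ d') : BV a d' t F := by
  induction h with
  | z g hg => exact .z g (hg.trans hd)
  | up _ ih => exact .up ih
  | w l _ ih => exact .w l ih
  | add _ _ ih ih' => exact .add ih ih'

theorem BV.mono (h : BV a d t F) {d' t' : ℕ} (hd : d ≤ d') (ht : t ≤ t') : BV a d' t' F := by
  induction ht with
  | refl => exact gred_monoD h hd
  | step _ ih => exact .up ih

theorem BV.mul_io (h : BV a d t F) {g : Pz k} {e : ℕ} (hg : g.totalDegree ≤ e) :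
    BV a (d + e) t (F * io a g) := by
  induction h with
  | z g' hg' =>
    rw [← map_mul]
    exact .z _ ((totalDegree_mul _ _).trans (add_le_add hg' hg))
  | up _ ih => exact .up ih
  | w l _ ih =>
    rw [mul_right_comm]
    exact .w l ih
  | add _ _ ih ih' =>
    rw [add_mul]
    exact .add ih ih'

theorem BV.neg (h : BV a d t F) : BV a d t (-F) := by
  have := h.mul_io (g := -1) (e := 0) (by simp)
  simpa using this

theorem BV.sub (h : BV a d t F) (h' : BV a d t G) : BV a d t (F - G) := by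
  rw [sub_eq_add_neg]
  exact h.add h'.neg

theorem BV.der (hD : DirD a D) (h : BV a d t F) (p q : Fin (k + 1)) :
    BV a d (t + 1) (cD (D p q) F) := by
  induction h with
  | z g hg =>
    rw [cD_io hD]
    exact (BV.z _ ((cD_deg _ g).trans hg)).up.sub
      (((BV.z _ ((deg_pderiv p g).trans hg)).w q).sub ((BV.z _ ((deg_pderiv q g).trans hg)).w p))
  | up _ ih => exact .up ih
  | w l _ ih =>
    rw [cD_mul, cD_X, mul_zero, add_zero]
    exact .w l ih
  | add _ _ ih ih' =>
    rw [cD_add]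
    exact .add ih ih'

theorem gred_zero (a : Pr (k + 1) → ℂ) (d t : ℕ) : BV a d t 0 := by
  have := (BV.z (a := a) (d := d) 0 (by simp)).mono le_rfl (Nat.zero_le t)
  simpa using this

theorem gred_sum {ι : Type} (s : Finset ι) {H : ι → Px k} (h : ∀ i ∈ s, BV a d t (H i)) :
    BV a d t (∑ i ∈ s, H i) :=
  Finset.sum_induction H (BV a d t) (fun _ _ h h' => h.add h') (gred_zero a d t) h

theorem exists_BV (a : Pr (k + 1) → ℂ) (F : Px k) : ∃ d t, BV a d t F := by
  induction F using MvPolynomial.induction_on with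
  | C c =>
    refine ⟨0, 0, ?_⟩
    have := BV.z (a := a) (d := 0) (C c) (by simp)
    rwa [algHom_C, algebraMap_eq] at this
  | add p q hp hq =>
    obtain ⟨d, t, hp⟩ := hp
    obtain ⟨d', t', hq⟩ := hq
    exact ⟨max d d', max t t', (hp.mono (le_max_left _ _) (le_max_left _ _)).add
      (hq.mono (le_max_right _ _) (le_max_right _ _))⟩
  | mul_X p i hp =>
    obtain ⟨d, t, hp⟩ := hp
    rcases i with i | l
    · have e : p * X (inl i) = p * io a (X i) + ∑ j, p * io a (C (skw a i j)) * X (inr j) := by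
        simp only [io_X, algHom_C, algebraMap_eq, mul_sub, Finset.mul_sum, mul_assoc]
        ring
      refine ⟨d + 1, t + 1, ?_⟩
      rw [e]
      exact (hp.mul_io (totalDegree_X i).le).up.add
        (gred_sum _ fun j _ => (hp.mul_io (by simp)).w j)
    · exact ⟨d, t + 1, hp.w l⟩

theorem gred_tau {R : Pres k} {e : ℕ} (hR : R.Deg e) (h : BV a d t F) :
    BV a d (t + 1) (F * R.τ) := by
  rcases hR.τ with h0 | ⟨o, h0⟩
  · rw [h0, mul_zero]
    exact gred_zero a d _
  · rw [h0]
    exact h.w o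

theorem Pres.Deg.bv {R : Pres k} (h : R.Deg d) (a : Pr (k + 1) → ℂ) (o : Option (Fin (k + 1))) :
    BV a d 2 (R.eqn a o) := by
  rcases o with _ | l
  · show BV a d 2 (io a R.A₂ * R.τ ^ 2 + io a R.A₁ * R.τ + io a R.A₀)
    rw [sq, ← mul_assoc]
    exact ((gred_tau h (gred_tau h (.z _ h.A₂))).add (gred_tau h (.z _ h.A₁)).up).add
      (BV.z _ h.A₀).up.up
  · show BV a d 2 (io a R.h * X (inr l) - io a (R.u l) * R.τ - io a (R.v l))
    exact (((BV.z _ h.h).w l).up.sub (gred_tau h (.z _ (h.u l))).up).sub (BV.z _ (h.v l)).up.up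

theorem gred_deg {x y z : Pz k} {e : ℕ} (hx : x.totalDegree ≤ d) (hy : y.totalDegree ≤ d)
    (hz : z.totalDegree ≤ e + 2 * d * t) : (x * y * z).totalDegree ≤ e + 2 * d * (t + 1) := by
  have h1 := totalDegree_mul (x * y) z
  have h2 := totalDegree_mul x y
  have h3 : 2 * d * (t + 1) = 2 * d * t + d + d := by ring
  omega

theorem gred_add {x y : Pz k} {e : ℕ} (hx : x.totalDegree ≤ e) (hy : y.totalDegree ≤ e) :
    (x + y).totalDegree ≤ e := (totalDegree_add x y).trans (max_le hx hy)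

theorem gred_sub {x y : Pz k} {e : ℕ} (hx : x.totalDegree ≤ e) (hy : y.totalDegree ≤ e) :
    (x - y).totalDegree ≤ e := (totalDegree_sub x y).trans (max_le hx hy)

theorem BV.red {d' : ℕ} (h : BV a d' t F) {R : Pres k} (hR : R.Deg d) :
    ∃ α β : Pz k, α.totalDegree ≤ d' + 2 * d * t ∧ β.totalDegree ≤ d' + 2 * d * t ∧
      io a (R.h * R.A₂) ^ t * F - (io a α * R.τ + io a β) ∈ Ideal.span (Set.range (R.eqn a)) := by
  induction h with
  | z g hg =>
    refine ⟨0, g, by simp, by simpa using hg, ?_⟩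
    simp
  | up _ ih =>
    obtain ⟨α, β, hα, hβ, hm⟩ := ih
    refine ⟨R.h * R.A₂ * α, R.h * R.A₂ * β, gred_deg hR.h hR.A₂ hα, gred_deg hR.h hR.A₂ hβ, ?_⟩
    have := Ideal.mul_mem_left _ (io a (R.h * R.A₂)) hm
    convert this using 1
    simp only [map_mul]
    ring
  | w l _ ih =>
    obtain ⟨α, β, hα, hβ, hm⟩ := ih
    refine ⟨R.A₂ * R.u l * β + R.A₂ * R.v l * α - R.u l * R.A₁ * α,
      R.A₂ * R.v l * β - R.u l * R.A₀ * α,
      gred_sub (gred_add (gred_deg hR.A₂ (hR.u l) hβ) (gred_deg hR.A₂ (hR.v l) hα))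
        (gred_deg (hR.u l) hR.A₁ hα),
      gred_sub (gred_deg hR.A₂ (hR.v l) hβ) (gred_deg (hR.u l) hR.A₀ hα), ?_⟩
    have e1 : io a R.h * X (inr l) - io a (R.u l) * R.τ - io a (R.v l) ∈
        Ideal.span (Set.range (R.eqn a)) := Ideal.subset_span ⟨some l, rfl⟩
    have e2 : io a R.A₂ * R.τ ^ 2 + io a R.A₁ * R.τ + io a R.A₀ ∈
        Ideal.span (Set.range (R.eqn a)) := Ideal.subset_span ⟨none, rfl⟩
    have := add_mem (add_mem (Ideal.mul_mem_left _ (io a (R.h * R.A₂) * X (inr l)) hm)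
      (Ideal.mul_mem_left _ ((io a α * R.τ + io a β) * io a R.A₂) e1))
      (Ideal.mul_mem_left _ (io a α * io a (R.u l)) e2)
    convert this using 1
    simp only [map_mul, map_add, map_sub]
    ring
  | add _ _ ih ih' =>
    obtain ⟨α, β, hα, hβ, hm⟩ := ih
    obtain ⟨α', β', hα', hβ', hm'⟩ := ih'
    refine ⟨α + α', β + β', gred_add hα hα', gred_add hβ hβ', ?_⟩
    have := add_mem hm hm'
    convert this using 1
    simp only [map_add]
    ring

end Vale.Agent.P054S
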