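import Vale.Agent.P054S.GIo

/-!
Rank lemma.  Some v (inr o) ≠ 0 (else prj a v = 0 gives v = 0).  u b = if b = o then v else D o b v; apply the linear map
prj a (prj_der) to a relation and read off coordinate b ≠ o.  rk_cols: LocA_minor (P054A/LocA.lean) for the matrix with rows u b
(rank k + 1) gives columns S with nonzero determinant; S is injective (det_zero_of_column_eq), Matrix.eq_zero_of_mulVec_eq_zero.
-/

namespace Vale.Agent.P054S

open MvPolynomial Vale.Agent.P054A Vale.Agent.P271 Sum
open scoped Classical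

variable {k : ℕ} {a : Pr (k + 1) → ℂ} {D : Ders k}

theorem grk_sum (a : Pr (k + 1) → ℂ) (c : Fin (k + 1) → ℂ) (u : Fin (k + 1) → Tx k → ℂ)
    (i : Fin (k + 1)) : prj a (∑ b, c b • u b) i = ∑ b, c b * prj a (u b) i := by
  simp only [prj, Finset.sum_apply, Pi.smul_apply, smul_eq_mul, mul_sub, Finset.sum_sub_distrib,
    Finset.mul_sum]
  rw [Finset.sum_comm]
  congr 1
  exact Finset.sum_congr rfl fun _ _ => Finset.sum_congr rfl fun _ _ => by ring

theorem rk_indep (hD : DirD a D) {v : Tx k → ℂ} (hv : v ≠ 0) (h0 : prj a v = 0) :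
    ∃ u : Fin (k + 1) → Tx k → ℂ, LinearIndependent ℂ u ∧
      ∀ b, u b = v ∨ ∃ p q, u b = fun l => D p q (v l) := by
  obtain ⟨o, ho⟩ : ∃ o, v (inr o) ≠ 0 := by
    by_contra hc
    push Not at hc
    refine hv (funext fun l => ?_)
    rcases l with i | i
    · have := congrFun h0 i
      simpa [prj, hc] using this
    · exact hc i
  refine ⟨fun b => if b = o then v else fun l => D o b (v l), ?_, fun b => ?_⟩
  · rw [Fintype.linearIndependent_iff]
    intro c hc
    have h1 : ∀ b, b ≠ o → c b = 0 := fun b hb => by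
      have e := grk_sum a c (fun b => if b = o then v else fun l => D o b (v l)) b
      rw [hc, Finset.sum_eq_single b] at e
      · simp only [if_neg hb, prj_der hD h0, if_true] at e
        simpa [prj, ho] using e
      · intro b' _ hb'
        by_cases h : b' = o
        · simp only [if_pos h, h0, Pi.zero_apply, mul_zero]
        · simp only [if_neg h, prj_der hD h0, if_neg hb, if_neg hb'.symm, sub_zero, mul_zero]
      · simp
    intro b
    by_cases hb : b = o
    · subst hb
      rw [Finset.sum_eq_single b (fun b' _ h => by rw [h1 b' h, zero_smul]) (by simp), if_pos rfl] at hc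
      exact (smul_eq_zero.1 hc).resolve_right hv
    · exact h1 b hb
  · by_cases hb : b = o
    · exact Or.inl (if_pos hb)
    · exact Or.inr ⟨o, b, if_neg hb⟩

theorem rk_cols (hD : DirD a D) {v : Tx k → ℂ} (hv : v ≠ 0) (h0 : prj a v = 0) :
    ∃ S : Fin (k + 1) → Tx k, Function.Injective S ∧ ∀ c : Fin (k + 1) → ℂ,
      ∑ i, c i * v (S i) = 0 → (∀ p q, ∑ i, c i * D p q (v (S i)) = 0) → c = 0 := by
  obtain ⟨u, h1, h2⟩ := rk_indep hD hv h0
  have h3 : LinearIndependent ℂ (Matrix.of u).row := h1
  have h4 := h3.rank_matrix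
  rw [Fintype.card_fin] at h4
  obtain ⟨ρ, S, h5⟩ := LocA_minor (Matrix.of u) h4.ge
  refine ⟨S, fun i j e => ?_, fun c e1 e2 => ?_⟩
  · by_contra hne
    exact h5 (Matrix.det_zero_of_column_eq hne fun l => by simp [e])
  · refine Matrix.eq_zero_of_mulVec_eq_zero h5 (funext fun b => ?_)
    simp only [Matrix.mulVec, dotProduct, Matrix.submatrix_apply, Matrix.of_apply, Pi.zero_apply]
    rcases h2 (ρ b) with h | ⟨p, q, h⟩
    · rw [h, ← e1]
      exact Finset.sum_congr rfl fun _ _ => mul_comm _ _
    · rw [h, ← e2 p q]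
      exact Finset.sum_congr rfl fun _ _ => mul_comm _ _

end Vale.Agent.P054S
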