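import Vale.Agent.P054S.GRed

/-!
Stability.  P' = kr ξ₁ ⊓ kr ξ₂, I = span (range eqn) ⊔ p.map (io a) ≤ P'.  (sat) q ∉ p, io q * F ∈ P' gives F ∈ P'.  (key) BV a d 3 F and F = 0 on T
give F ∈ P' (BV.red, hV, sat).  So cD (eqn o), cD (io (f i)) are in P' (BV.der, Cst.van); for g ∈ p use hB.loc, cD_span, cD_mul, sat; cD_span again:
cD maps I into P'.  For F ∈ P': exists_BV, BV.red, hN give io (h A₂) ^ t * F ∈ I; this gives both claims.
stab_split: if P₂ ≤ P₁ the inf is P₂, and symmetrically; else G ∈ P₂ not in P₁, F G is in the inf, so both are stable, and every point is on one of them.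
-/

namespace Vale.Agent.P054S

open MvPolynomial Vale.Agent.P054A Vale.Agent.P271 Sum
open scoped Classical

variable {k : ℕ} {a : Pr (k + 1) → ℂ} {D : Ders k} {T : Finset (Tx k → ℂ)} {p : Ideal (Pz k)}
  {c d : ℕ} {f : Fin c → Pz k}

theorem gstab_on {σ : Type} {x : σ → ℂ} {s : Set (MvPolynomial σ ℂ)}
    (h : ∀ F ∈ s, eval x F = 0) : On x (Ideal.span s) := fun _ hg =>
  (Ideal.span_le (I := RingHom.ker (eval x))).2 (fun F hF => h F hF) hg

theorem gstab_one {σ ι : Type} {E : ι → ι → Derivation ℚ ℂ ℂ}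
    {P₁ P₂ : Ideal (MvPolynomial σ ℂ)} (h₁ : P₁.IsPrime) (h : Stab E (P₁ ⊓ P₂))
    (c : ¬P₂ ≤ P₁) : Stab E P₁ := fun u v F hF => by
  obtain ⟨G, hG, hG'⟩ := SetLike.not_le_iff_exists.1 c
  have h2 := (Ideal.mem_inf.1
    (h u v (F * G) (Ideal.mem_inf.2 ⟨P₁.mul_mem_right _ hF, P₂.mul_mem_left _ hG⟩))).1
  rw [cD_mul] at h2
  exact (h₁.mem_or_mem ((P₁.add_mem_iff_left (P₁.mul_mem_right _ hF)).1 h2)).resolve_right hG'

theorem stab_pres (hB : Base a D T p f d) {R : Pres k} (hR : R.Deg d) (hh : R.h ∉ p)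
    (hA : R.A₂ ∉ p) (hT : ∀ x ∈ T, ∀ o, eval x (R.eqn a o) = 0)
    (hV : ∀ α β : Pz k, α.totalDegree ≤ 7 * d → β.totalDegree ≤ 7 * d →
      (∀ x ∈ T, eval x (io a α * R.τ + io a β) = 0) → io a α * R.τ + io a β ∈ p.map (io a))
    {Ω : Type} [Field Ω] [Algebra ℂ Ω] {ξ₁ ξ₂ : Tx k → Ω} (h₁ : kr (prL a ξ₁) = p)
    (h₂ : kr (prL a ξ₂) = p) (e₁ : ∀ o, aeval ξ₁ (R.eqn a o) = 0)
    (e₂ : ∀ o, aeval ξ₂ (R.eqn a o) = 0)
    (hN : ∀ α β : Pz k, aeval ξ₁ (io a α * R.τ + io a β) = 0 →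
      aeval ξ₂ (io a α * R.τ + io a β) = 0 → io a α * R.τ + io a β ∈ p.map (io a)) :
    Stab D (kr ξ₁ ⊓ kr ξ₂) ∧
      ∀ x ∈ T, eval (prj a x) (R.h * R.A₂) ≠ 0 → On x (kr ξ₁ ⊓ kr ξ₂) := by
  set P := kr ξ₁ ⊓ kr ξ₂ with hP
  have mem : ∀ F, F ∈ P ↔ aeval ξ₁ F = 0 ∧ aeval ξ₂ F = 0 := fun F => by
    rw [hP, Ideal.mem_inf, mem_kr, mem_kr]
  have m₁ : ∀ g, aeval ξ₁ (io a g) = 0 ↔ g ∈ p := fun g => by rw [aeval_io, ← mem_kr, h₁]
  have m₂ : ∀ g, aeval ξ₂ (io a g) = 0 ↔ g ∈ p := fun g => by rw [aeval_io, ← mem_kr, h₂]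
  have hio : ∀ g ∈ p, io a g ∈ P := fun g hg => (mem _).2 ⟨(m₁ g).2 hg, (m₂ g).2 hg⟩
  have hmap : p.map (io a) ≤ P := Ideal.map_le_iff_le_comap.2 fun g hg => hio g hg
  have heq : ∀ o, R.eqn a o ∈ P := fun o => (mem _).2 ⟨e₁ o, e₂ o⟩
  have hspan : Ideal.span (Set.range (R.eqn a)) ≤ P := Ideal.span_le.2 (by
    rintro _ ⟨o, rfl⟩
    exact heq o)
  have sat : ∀ q, q ∉ p → ∀ F, io a q * F ∈ P → F ∈ P := fun q hq F hF => by
    rw [mem, map_mul, map_mul] at hF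
    exact (mem _).2 ⟨(mul_eq_zero.1 hF.1).resolve_left fun e => hq ((m₁ q).1 e),
      (mul_eq_zero.1 hF.2).resolve_left fun e => hq ((m₂ q).1 e)⟩
  have hpow : ∀ t : ℕ, (R.h * R.A₂) ^ t ∉ p := fun t e =>
    (hB.prime.mem_or_mem (hB.prime.mem_of_pow_mem t e)).elim hh hA
  have hon : ∀ x ∈ T, On x (Ideal.span (Set.range (R.eqn a))) := fun x hx =>
    gstab_on (by
      rintro _ ⟨o, rfl⟩
      exact hT x hx o)
  have key : ∀ F, BV a d 3 F → (∀ x ∈ T, eval x F = 0) → F ∈ P := fun F hF h0 => by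
    obtain ⟨α, β, hα, hβ, hm⟩ := hF.red hR
    have hL := hV α β (hα.trans (by omega)) (hβ.trans (by omega)) fun x hx => by
      have := hon x hx _ hm
      rw [map_sub, map_mul, h0 x hx, mul_zero, zero_sub, neg_eq_zero] at this
      exact this
    refine sat _ (hpow 3) F ?_
    have := P.add_mem (hspan hm) (hmap hL)
    rwa [sub_add_cancel, ← map_pow] at this
  have hI : ∀ F ∈ P, ∃ t : ℕ, io a ((R.h * R.A₂) ^ t) * F ∈
      Ideal.span (Set.range (R.eqn a) ∪ io a '' p) := fun F hF => by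
    obtain ⟨d', t, hb⟩ := exists_BV a F
    obtain ⟨α, β, -, -, hm⟩ := hb.red hR
    have h1 := P.sub_mem (P.mul_mem_left (io a (R.h * R.A₂) ^ t) hF) (hspan hm)
    rw [sub_sub_cancel, mem] at h1
    have h2 : io a α * R.τ + io a β ∈ Ideal.span (io a '' p) := hN α β h1.1 h1.2
    have h3 := Ideal.add_mem _ (Ideal.span_mono (Set.subset_union_left (t := io a '' p)) hm)
      (Ideal.span_mono Set.subset_union_right h2)
    rw [sub_add_cancel, ← map_pow] at h3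
    exact ⟨t, h3⟩
  refine ⟨fun u v F hF => ?_, fun x hx h0 F hF => ?_⟩
  · have d1 : ∀ o, cD (D u v) (R.eqn a o) ∈ P := fun o =>
      key _ ((hR.bv a o).der hB.dir u v) fun x hx => (hB.cst x hx).van (hT x hx o) u v
    have d2 : ∀ i, cD (D u v) (io a (f i)) ∈ P := fun i =>
      key _ (((BV.z (f i) (hB.deg i)).der hB.dir u v).mono le_rfl (by omega)) fun x hx =>
        (hB.cst x hx).van (by rw [eval_io]; exact hB.on x hx _ (hB.mem i)) u v
    have d3 : ∀ g ∈ p, cD (D u v) (io a g) ∈ P := fun g hg => by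
      obtain ⟨q, hq, hm⟩ := hB.loc g hg
      have h1 := Ideal.mem_map_of_mem (io a) hm
      rw [Ideal.map_span, map_mul] at h1
      have h2 := cD_span (D u v) (P := P) (by
        rintro _ ⟨_, ⟨i, rfl⟩, rfl⟩
        exact ⟨hio _ (hB.mem i), d2 i⟩) h1
      rw [cD_mul] at h2
      exact sat q hq _ ((P.add_mem_iff_right (P.mul_mem_left _ (hio g hg))).1 h2)
    obtain ⟨t, ht⟩ := hI F hF
    have h2 := cD_span (D u v) (P := P) (by
      rintro _ (⟨o, rfl⟩ | ⟨g, hg, rfl⟩)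
      · exact ⟨heq o, d1 o⟩
      · exact ⟨hio g hg, d3 g hg⟩) ht
    rw [cD_mul] at h2
    exact sat _ (hpow t) _ ((P.add_mem_iff_right (P.mul_mem_left _ hF)).1 h2)
  · obtain ⟨t, ht⟩ := hI F hF
    have h2 := gstab_on (x := x) (by
      rintro _ (⟨o, rfl⟩ | ⟨g, hg, rfl⟩)
      · exact hT x hx o
      · rw [eval_io]
        exact hB.on x hx g hg) _ ht
    rw [map_mul, eval_io, map_pow] at h2
    exact (mul_eq_zero.1 h2).resolve_left (pow_ne_zero t h0)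

theorem stab_split {σ ι : Type} {E : ι → ι → Derivation ℚ ℂ ℂ}
    {P₁ P₂ : Ideal (MvPolynomial σ ℂ)} (h₁ : P₁.IsPrime) (h₂ : P₂.IsPrime) (h : Stab E (P₁ ⊓ P₂))
    (S : Finset (σ → ℂ)) (hS : ∀ x ∈ S, On x (P₁ ⊓ P₂)) :
    (Stab E P₁ ∧ S.card ≤ 2 * (zs S P₁).card) ∨ (Stab E P₂ ∧ S.card ≤ 2 * (zs S P₂).card) := by
  have all : ∀ P : Ideal (MvPolynomial σ ℂ), (∀ x ∈ S, On x P) → S.card ≤ 2 * (zs S P).card :=
    fun P hP => by
      rw [zs, Finset.filter_true_of_mem hP]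
      omega
  by_cases c₁ : P₁ ≤ P₂
  · rw [inf_eq_left.2 c₁] at h hS
    exact Or.inl ⟨h, all _ hS⟩
  by_cases c₂ : P₂ ≤ P₁
  · rw [inf_eq_right.2 c₂] at h hS
    exact Or.inr ⟨h, all _ hS⟩
  have s₁ := gstab_one h₁ h c₂
  have s₂ := gstab_one h₂ (by rwa [inf_comm]) c₁
  have hsub : S ⊆ zs S P₁ ∪ zs S P₂ := fun x hx => by
    rw [Finset.mem_union, zs, zs, Finset.mem_filter, Finset.mem_filter]
    by_cases hx1 : On x P₁
    · exact Or.inl ⟨hx, hx1⟩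
    · refine Or.inr ⟨hx, fun G hG => ?_⟩
      obtain ⟨F, hF⟩ := not_forall.1 hx1
      obtain ⟨hF1, hF2⟩ := Classical.not_imp.1 hF
      have := hS x hx (F * G) (Ideal.mem_inf.2 ⟨P₁.mul_mem_right _ hF1, P₂.mul_mem_left _ hG⟩)
      rw [map_mul] at this
      exact (mul_eq_zero.1 this).resolve_left hF2
  have hc := (Finset.card_le_card hsub).trans (Finset.card_union_le _ _)
  rcases le_total (zs S P₁).card (zs S P₂).card with c | c
  · exact Or.inr ⟨s₂, by omega⟩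
  · exact Or.inl ⟨s₁, by omega⟩

end Vale.Agent.P054S
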