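import Vale.Agent.P054S.RDefs

/-!
Bad edges lie in rich motions.  two_mot: Cong gives Bf (y - y') (y - y') = 0 (P054.dot3, d2, Fin.sum_univ_three) and injectivity of the first
projection on T.  T.image fst has more than w points, so some z ∈ T has z.1 off the line through x.1, y.1 (col_ln or col_of_span).  The lines
l1 = hl (y - x), l2 = hl (z - x) are distinct (hl_eq_iff) and meet (hl_meet_iff with Bf_sub_self); thru_mot at l1 ⊓ l2 (inf_one) and inpl_mot at
l1 ⊔ l2 (sup_three); every other hl (v - x) meets both, so meet_two (or it equals l1 or l2).  bad_le: choose for each bad edge off the diagonal the better of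
the two motions; G₁, G₂ = images of the choices, Y₁ g = P.filter (g · ∈ P), Y₂ g = P.filter (g · ∈ -P); an edge assigned to g is determined by
(g, x.1, y.1) (card_le_sum_classes or card_le_card_of_injOn into a sigma type).
-/

namespace Vale.Agent.P054S

open MvPolynomial Vale.Agent.P054A Sum
open Vale.Agent.P054 (V3 V6 Mot Fam ND RB GProp LogB Col Pins)
open scoped Classical

theorem RBad_null {T : Finset V6} (hT : Cong T) {x y : V6} (hx : x ∈ T) (hy : y ∈ T) :
    P054.Bf (y - x) (y - x) = 0 := by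
  have h := hT y hy x hx
  simp only [d2, Fin.sum_univ_three] at h
  simp only [P054.Bf, P054.dot3, Prod.fst_sub, Prod.snd_sub, Pi.sub_apply]
  linear_combination h

theorem RBad_orth {T : Finset V6} (hT : Cong T) {x u v : V6} (hx : x ∈ T) (hu : u ∈ T)
    (hv : v ∈ T) : P054.Bf (u - x) (v - x) = 0 := by
  have h := P054.Bf_sub_self (u - x) (v - x)
  rw [sub_sub_sub_cancel_right, RBad_null hT hv hu, RBad_null hT hx hu, RBad_null hT hx hv] at h
  linarith

theorem RBad_inj {T : Finset V6} (hT : Cong T) : Set.InjOn Prod.fst (T : Set V6) := by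
  intro x hx y hy e
  have h := hT x hx y hy
  have h0 : d2 x.1 y.1 = 0 := by simp [d2, e]
  rw [h0] at h
  refine Prod.ext e (funext fun i => sub_eq_zero.1 (pow_eq_zero_iff two_ne_zero |>.1 ?_))
  exact (Finset.sum_eq_zero_iff_of_nonneg fun i _ => sq_nonneg _).1 h.symm i (Finset.mem_univ _)

theorem two_mot {T : Finset V6} (hT : Cong T) {w : ℕ}
    (hc : ∀ S ⊆ T.image Prod.fst, Col S → S.card ≤ w) (hw : w < T.card) {x y : V6} (hx : x ∈ T)
    (hy : y ∈ T) (hne : x ≠ y) :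
    ∃ g g', Mot g ∧ Mot g' ∧ g x.1 = x.2 ∧ g y.1 = y.2 ∧ g' x.1 = -x.2 ∧ g' y.1 = -y.2 ∧
      ∀ v ∈ T, g v.1 = v.2 ∨ g' v.1 = -v.2 := by
  obtain ⟨z, hz, hz'⟩ : ∃ z ∈ T, z.1 - x.1 ∉ Submodule.span ℝ {y.1 - x.1} := by
    by_contra h
    push Not at h
    have h1 := hc _ Finset.Subset.rfl (P054.col_of_span (p := x.1) (v := y.1 - x.1) fun q hq => by
      obtain ⟨z, hz, rfl⟩ := Finset.mem_image.1 hq
      exact h z hz)
    rw [Finset.card_image_of_injOn (RBad_inj hT)] at h1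
    omega
  have hy0 : y - x ≠ 0 := sub_ne_zero.2 hne.symm
  have hz0 : z - x ≠ 0 := sub_ne_zero.2 fun e => hz' (by rw [e, sub_self]; exact zero_mem _)
  have hyn := RBad_null hT hx hy
  have hzn := RBad_null hT hx hz
  have h1 := P054.hl_finrank hy0 hyn
  have h2 := P054.hl_finrank hz0 hzn
  have h3 : P054.hl (y - x) ≠ P054.hl (z - x) := fun e => by
    have h4 : z - x ∈ Submodule.span ℝ {y - x} := by
      rw [(P054.hl_eq_iff hy0 hyn hz0 hzn).1 e]
      exact Submodule.mem_span_singleton_self _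
    obtain ⟨c, hc'⟩ := Submodule.mem_span_singleton.1 h4
    exact hz' (Submodule.mem_span_singleton.2 ⟨c, congrArg Prod.fst hc'⟩)
  have h4 := (P054.hl_meet_iff hy0 hyn hz0 hzn).2 (RBad_orth hT hx hy hz)
  obtain ⟨g, g1, g2, g3⟩ := P054.thru_mot x (P054.inf_one h1 h2 h3 h4)
  obtain ⟨g', k1, k2, k3⟩ := P054.inpl_mot x (P054.sup_three h1 h2 h3 h4)
  refine ⟨g, g', g1, k1, g2, g3 y inf_le_left, k2, k3 y hne.symm hyn le_sup_left, fun v hv => ?_⟩
  by_cases e : v = x
  · exact Or.inl (e ▸ g2)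
  have hv0 : v - x ≠ 0 := sub_ne_zero.2 e
  have hvn := RBad_null hT hx hv
  exact (P054.meet_two h1 h2 (P054.hl_finrank hv0 hvn) h3 h4
    ((P054.hl_meet_iff hv0 hvn hy0 hyn).2 (RBad_orth hT hx hv hy))
    ((P054.hl_meet_iff hv0 hvn hz0 hzn).2 (RBad_orth hT hx hv hz))).imp (g3 v) (k3 v e hvn)

/-- The edge `e` lies in a rich motion. -/
def RBad_in (P Q : Finset V3) (σ : V3 → V3) (s : ℝ) (e : V6 × V6) (g : V3 → V3) : Prop :=
  Mot g ∧ g e.1.1 = σ e.1.2 ∧ g e.2.1 = σ e.2.2 ∧ s ≤ ((P.filter fun p => g p ∈ Q).card : ℝ)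

theorem RBad_cnt {P Q : Finset V3} {σ : V3 → V3} (hσ : ∀ p, σ (σ p) = p)
    (hQ : ∀ p ∈ P, σ p ∈ Q) {s : ℝ} {E : Finset (V6 × V6)}
    (hE : E ⊆ (P ×ˢ P) ×ˢ (P ×ˢ P)) (h : ∀ e ∈ E, ∃ g, RBad_in P Q σ s e g) :
    ∃ G Y, Fm P Q s G Y ∧ (E.card : ℝ) ≤ ∑ g ∈ G, ((Y g).card : ℝ) ^ 2 := by
  choose! c hc using h
  refine ⟨E.image c, fun g => P.filter fun p => g p ∈ Q, fun g hg => ?_, ?_⟩
  · obtain ⟨e, he, rfl⟩ := Finset.mem_image.1 hg
    exact ⟨(hc e he).1, Finset.filter_subset _ _, fun p hp => (Finset.mem_filter.1 hp).2,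
      (hc e he).2.2.2⟩
  · have h1 := P054.card_le_sum_classes E c (E.image c)
      (fun g => (P.filter fun p => g p ∈ Q).image fun p => (p, σ (g p)))
      (fun g => (P.filter fun p => g p ∈ Q).image fun p => (p, σ (g p))) fun e he => by
        obtain ⟨-, h2, h3, -⟩ := hc e he
        have h4 := hE he
        simp only [Finset.mem_product] at h4
        refine ⟨Finset.mem_image_of_mem _ he, Finset.mem_image.2 ⟨e.1.1, Finset.mem_filter.2
          ⟨h4.1.1, ?_⟩, ?_⟩, Finset.mem_image.2 ⟨e.2.1, Finset.mem_filter.2 ⟨h4.2.1, ?_⟩, ?_⟩⟩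
        · rw [h2]; exact hQ _ h4.1.2
        · rw [h2, hσ]
        · rw [h3]; exact hQ _ h4.2.2
        · rw [h3, hσ]
    have h2 : E.card ≤ ∑ g ∈ E.image c, (P.filter fun p => g p ∈ Q).card ^ 2 :=
      h1.trans (Finset.sum_le_sum fun g _ => by
        rw [sq]
        exact Nat.mul_le_mul Finset.card_image_le Finset.card_image_le)
    exact_mod_cast h2

theorem RBad_part {P Q : Finset V3} {σ g : V3 → V3} (hQ : ∀ p ∈ P, σ p ∈ Q) {T : Finset V6}
    (hT : Cong T) (hP : T ⊆ P ×ˢ P) :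
    (T.filter fun v => g v.1 = σ v.2).card ≤ (P.filter fun p => g p ∈ Q).card := by
  refine Finset.card_le_card_of_injOn Prod.fst (fun v hv => ?_)
    ((RBad_inj hT).mono (Finset.coe_subset.2 (Finset.filter_subset _ _)))
  obtain ⟨h1, h2⟩ := Finset.mem_filter.1 (Finset.mem_coe.1 hv)
  have h3 := Finset.mem_product.1 (hP h1)
  exact Finset.mem_coe.2 (Finset.mem_filter.2 ⟨h3.1, h2 ▸ hQ _ h3.2⟩)

theorem RBad_edge {P : Finset V3} {w r : ℕ} (hc : ∀ S ⊆ P, Col S → S.card ≤ w) (hw : w < r)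
    {e : V6 × V6} (he : e ∈ bad P r) (hne : e.1 ≠ e.2) :
    (∃ g, RBad_in P P (fun p => p) (r / 2) e g) ∨
      ∃ g, RBad_in P (P.image fun p => -p) (fun p => -p) (r / 2) e g := by
  obtain ⟨-, T, hP, h1, h2, hr, hT⟩ := Finset.mem_filter.1 he
  obtain ⟨g, g', a1, a2, a3, a4, a5, a6, a7⟩ := two_mot hT (w := w) (fun S hS => hc S
    (hS.trans fun p hp => by
      obtain ⟨v, hv, rfl⟩ := Finset.mem_image.1 hp
      exact (Finset.mem_product.1 (hP hv)).1)) (hw.trans_le hr) h1 h2 hne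
  have b1 := RBad_part (σ := fun p => p) (g := g) (fun _ h => h) hT hP
  have b2 := RBad_part (σ := fun p => -p) (g := g') (Q := P.image fun p => -p)
    (fun _ h => Finset.mem_image_of_mem _ h) hT hP
  have b3 : T.card ≤ (T.filter fun v => g v.1 = v.2).card +
      (T.filter fun v => g' v.1 = -v.2).card := by
    refine le_trans (Finset.card_le_card fun v hv => ?_) (Finset.card_union_le _ _)
    rw [Finset.mem_union, Finset.mem_filter, Finset.mem_filter]
    exact (a7 v hv).imp (fun h => ⟨hv, h⟩) fun h => ⟨hv, h⟩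
  have b4 : (r : ℝ) ≤ ((P.filter fun p => g p ∈ P).card : ℝ) +
      ((P.filter fun p => g' p ∈ P.image fun p => -p).card : ℝ) := by
    exact_mod_cast hr.trans (b3.trans (Nat.add_le_add b1 b2))
  by_cases h : (r : ℝ) / 2 ≤ ((P.filter fun p => g p ∈ P).card : ℝ)
  · exact Or.inl ⟨g, a1, a3, a4, h⟩
  · exact Or.inr ⟨g', a2, a5, a6, by linarith⟩

theorem bad_le {P : Finset V3} {w r : ℕ} (hc : ∀ S ⊆ P, Col S → S.card ≤ w) (hw : w < r) :
    ∃ G₁ Y₁ G₂ Y₂, Fm P P (r / 2) G₁ Y₁ ∧ Fm P (P.image fun p => -p) (r / 2) G₂ Y₂ ∧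
      ((bad P r).card : ℝ) ≤ (P.card : ℝ) ^ 2 + ∑ g ∈ G₁, ((Y₁ g).card : ℝ) ^ 2 +
        ∑ g ∈ G₂, ((Y₂ g).card : ℝ) ^ 2 := by
  have hs : bad P r ⊆ (P ×ˢ P) ×ˢ (P ×ˢ P) := Finset.filter_subset _ _
  obtain ⟨G₁, Y₁, h1, h2⟩ := RBad_cnt (σ := fun p => p) (fun _ => rfl) (fun _ h => h)
    (E := (bad P r).filter fun e => ∃ g, RBad_in P P (fun p => p) (r / 2) e g)
    ((Finset.filter_subset _ _).trans hs) fun e he => (Finset.mem_filter.1 he).2
  obtain ⟨G₂, Y₂, h3, h4⟩ := RBad_cnt (σ := fun p => -p) (Q := P.image fun p => -p)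
    (fun p => neg_neg p) (fun _ h => Finset.mem_image_of_mem _ h)
    (E := (bad P r).filter fun e => ∃ g, RBad_in P (P.image fun p => -p) (fun p => -p) (r / 2) e g)
    ((Finset.filter_subset _ _).trans hs) fun e he => (Finset.mem_filter.1 he).2
  refine ⟨G₁, Y₁, G₂, Y₂, h1, h3, le_trans ?_ (add_le_add (add_le_add le_rfl h2) h4)⟩
  have h5 : ((bad P r).filter fun e => e.1 = e.2).card ≤ P.card ^ 2 := by
    rw [sq, ← Finset.card_product]
    refine Finset.card_le_card_of_injOn Prod.fst (fun e he => ?_) fun e he e' he' h => ?_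
    · exact Finset.mem_coe.2 (Finset.mem_product.1
        (hs (Finset.mem_filter.1 (Finset.mem_coe.1 he)).1)).1
    · have k1 := (Finset.mem_filter.1 (Finset.mem_coe.1 he)).2
      have k2 := (Finset.mem_filter.1 (Finset.mem_coe.1 he')).2
      exact Prod.ext h (k1.symm.trans (h.trans k2))
  have h6 : (bad P r).card ≤ ((bad P r).filter fun e => e.1 = e.2).card +
      ((bad P r).filter fun e => ∃ g, RBad_in P P (fun p => p) (r / 2) e g).card +
      ((bad P r).filter fun e =>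
        ∃ g, RBad_in P (P.image fun p => -p) (fun p => -p) (r / 2) e g).card := by
    refine le_trans (Finset.card_le_card fun e he => ?_) ((Finset.card_union_le _ _).trans
      (Nat.add_le_add_right (Finset.card_union_le _ _) _))
    simp only [Finset.mem_union, Finset.mem_filter]
    by_cases h : e.1 = e.2
    · exact Or.inl (Or.inl ⟨he, h⟩)
    · exact (RBad_edge hc hw he h).elim (fun k => Or.inl (Or.inr ⟨he, k⟩)) fun k => Or.inr ⟨he, k⟩
  exact_mod_cast h6.trans (Nat.add_le_add_right (Nat.add_le_add_right h5 _) _)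

end Vale.Agent.P054S
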