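import Vale.Agent.P054S.RDefs

/-!
Consequences of capture on curves.  Cp.neg: comap of the prime under the automorphism X ↦ -X is prime, exists_PD, and the
dimension is the same (H_comap_le with s = 1 in both directions, PD.le_of_H, PD.H_le).  Cp.col: T ⊆ p + ℝ v; v = 0 gives one point;
else P = comap of ⊥ under X l ↦ C (p l) + C (v l) * X 0 into MvPolynomial (Fin 1) ℂ (prime), PD j with j ≤ 1 (H_le_pow); j = 0:
PD.card_zs_le_one; j = 1: the image of the capturing g is a nonzero polynomial in one variable of degree at most w.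
nulB_mdl: bil = 2 (|p - p'|² - |q - q'|²), so the first projection is injective on a null set.
-/

namespace Vale.Agent.P054S

open MvPolynomial Vale.Agent.P054A Sum
open Vale.Agent.P054 (V3 V6 Mot Fam ND RB GProp LogB Col Pins)
open scoped Classical

theorem RCap_eval {σ τ : Type} (φ : σ → MvPolynomial τ ℂ) (z : τ → ℂ) (g : MvPolynomial σ ℂ) :
    eval z (aeval φ g) = eval (fun i => eval z (φ i)) g := by
  induction g using MvPolynomial.induction_on with
  | C a => simp
  | add p q hp hq => simp only [map_add, hp, hq]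
  | mul_X p i hp => simp only [map_mul, hp, aeval_X, eval_X]

theorem RCap_evalP {σ : Type} (φ : σ → Polynomial ℂ) (z : ℂ) (g : MvPolynomial σ ℂ) :
    (aeval φ g).eval z = eval (fun i => (φ i).eval z) g := by
  induction g using MvPolynomial.induction_on with
  | C a => simp
  | add p q hp hq => simp only [map_add, Polynomial.eval_add, hp, hq]
  | mul_X p i hp => simp only [map_mul, Polynomial.eval_mul, hp, aeval_X, eval_X]

theorem RCap_cx {τ : Type} : Function.Injective (cx : (τ → ℝ) → τ → ℂ) := fun _ _ e =>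
  funext fun l => Complex.ofReal_injective (congrFun e l)

theorem RCap_dim {σ τ : Type} [Fintype σ] [Fintype τ] {j j' : ℕ}
    (φ : MvPolynomial σ ℂ →ₐ[ℂ] MvPolynomial τ ℂ) (hφ : ∀ i, (φ (X i)).totalDegree ≤ 1)
    {P : Ideal (MvPolynomial τ ℂ)} (hP : PD j P) (hP' : PD j' (P.comap φ)) : j' ≤ j :=
  hP'.le_of_H le_rfl (a := dg j P) fun M => (H_comap_le φ hφ P M).trans (by
    rw [one_mul]
    exact hP.H_le M)

theorem Cp.mono {A A' : Finset V3} {w : ℕ} (h : Cp A w) (hA : A' ⊆ A) : Cp A' w := by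
  intro j h1 h2 P hP
  obtain ⟨g, hg, hd, h0⟩ := h j h1 h2 P hP
  exact ⟨g, hg, hd, fun p hp => h0 p (Finset.image_subset_image hA hp)⟩

theorem Cp.neg {A : Finset V3} {w : ℕ} (h : Cp A w) : Cp (A.image fun p => -p) w := by
  intro j h1 h2 P hP
  set ν : MvPolynomial (Fin 3) ℂ →ₐ[ℂ] MvPolynomial (Fin 3) ℂ := aeval fun i => -X i with hν
  have hd : ∀ i : Fin 3, (-X i : MvPolynomial (Fin 3) ℂ).totalDegree ≤ 1 := fun i => by
    rw [totalDegree_neg, totalDegree_X]
  have hd' : ∀ i, (ν (X i)).totalDegree ≤ 1 := fun i => by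
    rw [hν, aeval_X]
    exact hd i
  have hνν : ∀ g, ν (ν g) = g := fun g => by
    have e : ν.comp ν = AlgHom.id ℂ _ := algHom_ext fun i => by simp [hν]
    exact DFunLike.congr_fun e g
  have hev : ∀ (z : Fin 3 → ℂ) g, eval z (ν g) = eval (-z) g := fun z g => by
    rw [hν, RCap_eval]
    congr 2
    funext i
    simp
  have := hP.prime
  obtain ⟨j', hj'⟩ := exists_PD (Ideal.comap_isPrime ν P)
  have e : (P.comap ν).comap ν = P := Ideal.ext fun g => by
    rw [Ideal.mem_comap, Ideal.mem_comap, hνν]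
  obtain rfl : j' = j := le_antisymm (RCap_dim ν hd' hP hj') (RCap_dim ν hd' hj' (e.symm ▸ hP))
  obtain ⟨g, hg, hg', h0⟩ := h j' h1 h2 _ hj'
  refine ⟨ν g, hg, ((totalDegree_aeval_le _ hd g).trans (one_mul _).le).trans hg',
    fun z hz hz' => ?_⟩
  obtain ⟨_, hq, rfl⟩ := Finset.mem_image.1 hz
  obtain ⟨q, hq', rfl⟩ := Finset.mem_image.1 hq
  have e' : -cx (-q) = cx q := funext fun l => by simp [cx]
  rw [hev]
  refine h0 _ (e' ▸ Finset.mem_image_of_mem _ hq') fun f hf => ?_
  rw [← hev]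
  exact hz' _ hf

theorem Cp.col {A : Finset V3} {w : ℕ} (h : Cp A w) (hw : 1 ≤ w) {T : Finset V3} (hT : T ⊆ A)
    (hc : Col T) : T.card ≤ w := by
  obtain ⟨p, v, hc⟩ := hc
  choose! r hr using hc
  set φ : MvPolynomial (Fin 3) ℂ →ₐ[ℂ] MvPolynomial (Fin 1) ℂ :=
    aeval fun l => C (p l : ℂ) + C (v l : ℂ) * X 0 with hφ
  have hd : ∀ i, (φ (X i)).totalDegree ≤ 1 := fun i => by
    rw [hφ, aeval_X]
    refine (totalDegree_add _ _).trans (max_le (by simp) ((totalDegree_mul _ _).trans ?_))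
    rw [totalDegree_C, totalDegree_X]
  have hev : ∀ (z : Fin 1 → ℂ) g, eval z (φ g) = eval (fun l => p l + v l * z 0) g := fun z g => by
    rw [hφ, RCap_eval]
    simp
  have hq : ∀ q ∈ T, cx q = fun l => (p l : ℂ) + v l * r q := fun q hq => funext fun l => by
    have := congrFun (hr q hq) l
    simp only [Pi.add_apply, Pi.smul_apply, smul_eq_mul] at this
    rw [cx, this]
    push_cast
    ring
  have hon : ∀ q ∈ T, On (cx q) ((⊥ : Ideal (MvPolynomial (Fin 1) ℂ)).comap φ) :=
    fun q hq' f hf => by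
      have h1 := hev (fun _ => (r q : ℂ)) f
      rw [Ideal.mem_bot.1 (Ideal.mem_comap.1 hf), map_zero] at h1
      rw [hq q hq', ← h1]
  obtain ⟨j, hj⟩ := exists_PD (Ideal.comap_isPrime φ ⊥)
  have hj1 : j ≤ 1 := RCap_dim φ hd PD_bot hj
  rcases Nat.eq_zero_or_pos j with rfl | hj0
  · refine le_trans ?_ ((hj.card_zs_le_one (T.image cx)).trans hw)
    exact Finset.card_le_card_of_injOn cx
      (fun q hq' => mem_zs.2 ⟨Finset.mem_image_of_mem _ hq', hon q hq'⟩) RCap_cx.injOn
  obtain ⟨g, hg, hg', h0⟩ := h j hj0 hj1 _ hj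
  set G : Polynomial ℂ :=
    aeval (fun l => Polynomial.C (p l : ℂ) + Polynomial.C (v l : ℂ) * Polynomial.X) g with hG
  have hGe : ∀ z, G.eval z = eval (fun l => p l + v l * z) g := fun z => by
    rw [hG, RCap_evalP]
    simp
  have hG0 : G ≠ 0 := fun e => hg (Ideal.mem_comap.2 (Ideal.mem_bot.2 (MvPolynomial.funext
    fun z => by rw [hev, ← hGe, e, Polynomial.eval_zero, map_zero])))
  have hGd : G.natDegree ≤ w * 1 := aeval_natDegree_le _ hg' _ fun l => by compute_degree
  refine le_trans (Finset.card_le_card_of_injOn (t := G.roots.toFinset) (fun q => (r q : ℂ))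
    (fun q hq' => ?_) fun q hq' q' hq'' e => ?_)
    ((Multiset.toFinset_card_le _).trans (G.card_roots'.trans (hGd.trans (mul_one _).le)))
  · rw [Finset.mem_coe, Multiset.mem_toFinset, Polynomial.mem_roots hG0, Polynomial.IsRoot.def,
      hGe, ← hq q hq']
    exact h0 _ (Finset.mem_image_of_mem _ (hT hq')) (hon q hq')
  · rw [hr q hq', hr q' hq'', Complex.ofReal_injective e]

theorem nulB_mdl {A B : Finset V3} {t : ℕ} (hA : A.card ≤ t) {S : Finset (Tx 2 → ℂ)}
    (hS : S ⊆ (A ×ˢ B).image mdl) : NulB S t := by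
  intro T hT hn
  have hf : ∀ y : V6, (fun i => ((mdl y (inl i) + mdl y (inr i)) / 2).re) = y.1 := fun y =>
    funext fun i => by
      simp only [mdl, Sum.elim_inl, Sum.elim_inr]
      norm_cast
      ring
  refine le_trans (Finset.card_le_card_of_injOn
    (fun (x : Tx 2 → ℂ) i => ((x (inl i) + x (inr i)) / 2).re) (fun x hx => ?_)
    fun x hx x' hx' e => ?_) hA
  · obtain ⟨y, hy, rfl⟩ := Finset.mem_image.1 (hS (hT hx))
    simp only [hf]
    exact (Finset.mem_product.1 hy).1
  · have h1 := hn x hx x' hx'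
    obtain ⟨y, -, rfl⟩ := Finset.mem_image.1 (hS (hT hx))
    obtain ⟨y', -, rfl⟩ := Finset.mem_image.1 (hS (hT hx'))
    simp only [hf] at e
    simp only [nul, bil, mdl, Pi.sub_apply, Sum.elim_inl, Sum.elim_inr, e] at h1
    norm_cast at h1
    refine congrArg mdl (Prod.ext e (funext fun i => ?_))
    have h2 : ∑ l, (y.2 l - y'.2 l) ^ 2 = 0 := by
      have h3 : ∑ l, (y.2 l - y'.2 l) ^ 2 * (-2) = 0 :=
        (Finset.sum_congr rfl fun l _ => by ring).trans h1
      rw [← Finset.sum_mul] at h3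
      linarith
    exact sub_eq_zero.1 ((pow_eq_zero_iff two_ne_zero).1
      ((Finset.sum_eq_zero_iff_of_nonneg fun l _ => sq_nonneg _).1 h2 i (Finset.mem_univ i)))

end Vale.Agent.P054S
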