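import Vale.Agent.P054S.RDefs

/-!
From cells to the whole set.  mass: with v = √σ prove (∑ |Y g|) v ≤ 8 a for all σ ≥ σ₀ by induction on k with |A| < 4 ^ k σ
(then G is empty for k = 0): members with |Y g| < 4 σ give at most 4 σ |G| ≤ 4 a / v, the others form a family for 4 σ.
cell: P054.cells with t; for g the pins (p, g p) are pairwise null (Mot.null) and meet at most 1125 (2 (n / t + 1)) ≤ 4500 n / t pairs of
cells, so at least r / 2 of them lie in pairs (i, j) that hold at least σ₀ pins; for a pair (i, j) the members with at least σ₀ pins form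
an Fm family for A i, B j with Y g filtered by the labels; at most (n / t + 1)² ≤ 4 n² / t² pairs.
-/

namespace Vale.Agent.P054S

open MvPolynomial Vale.Agent.P054A Sum
open Vale.Agent.P054 (V3 V6 Mot Fam ND RB GProp LogB Col Pins)
open scoped Classical

theorem mass {A B : Finset V3} {σ₀ a : ℝ} (h0 : 0 < σ₀) (ha : 0 ≤ a)
    (h : ∀ σ, σ₀ ≤ σ → ∀ G Y, Fm A B σ G Y → (G.card : ℝ) ^ 2 * σ ^ 3 ≤ a ^ 2)
    {G : Finset (V3 → V3)} {Y : (V3 → V3) → Finset V3} (hF : Fm A B σ₀ G Y) :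
    (∑ g ∈ G, ((Y g).card : ℝ)) * √σ₀ ≤ 8 * a := by
  have key : ∀ (k : ℕ) (σ : ℝ) (G : Finset (V3 → V3)), σ₀ ≤ σ → (A.card : ℝ) < σ * 4 ^ k →
      Fm A B σ G Y → (∑ g ∈ G, ((Y g).card : ℝ)) * √σ ≤ 8 * a := by
    intro k
    induction k with
    | zero =>
      intro σ G _ hk hF
      have e : G = ∅ := Finset.eq_empty_of_forall_notMem fun g hg => by
        have h1 : ((Y g).card : ℝ) ≤ A.card := Nat.cast_le.2 (Finset.card_le_card (hF g hg).2.1)
        linarith [(hF g hg).2.2.2]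
      rw [e, Finset.sum_empty, zero_mul]
      linarith
    | succ k ih =>
      intro σ G hσ hk hF
      have σ0 : 0 < σ := h0.trans_le hσ
      have h1 := ih (4 * σ) (G.filter fun g => 4 * σ ≤ ((Y g).card : ℝ)) (by linarith)
        (hk.trans_eq (by ring))
        (hF.mono (Finset.filter_subset _ _) fun g hg => (Finset.mem_filter.1 hg).2)
      have h2 : ∑ g ∈ G.filter fun g => ¬ 4 * σ ≤ ((Y g).card : ℝ), ((Y g).card : ℝ) ≤
          G.card * (4 * σ) := by
        refine (Finset.sum_le_card_nsmul _ _ (4 * σ) fun g hg =>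
          (not_le.1 (Finset.mem_filter.1 hg).2).le).trans ?_
        rw [nsmul_eq_mul]
        exact mul_le_mul_of_nonneg_right (Nat.cast_le.2 (Finset.card_filter_le _ _)) (by linarith)
      have e1 : √(4 * σ) = 2 * √σ := by
        rw [Real.sqrt_mul (by norm_num), show (4 : ℝ) = 2 ^ 2 by norm_num,
          Real.sqrt_sq (by norm_num)]
      have e2 : √σ ^ 2 = σ := Real.sq_sqrt σ0.le
      have h3 : G.card * (σ * √σ) ≤ a := by
        refine le_of_pow_le_pow_left₀ (n := 2) (by norm_num) ha (le_trans (le_of_eq ?_)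
          (h σ hσ G Y hF))
        rw [mul_pow, mul_pow, e2]
        ring
      have h4 := mul_le_mul_of_nonneg_right h2 (Real.sqrt_nonneg σ)
      rw [e1] at h1
      rw [← Finset.sum_filter_add_sum_filter_not G fun g => 4 * σ ≤ ((Y g).card : ℝ)]
      linarith
  obtain ⟨k, hk⟩ := pow_unbounded_of_one_lt (A.card / σ₀ : ℝ) (by norm_num : (1 : ℝ) < 4)
  exact key k σ₀ G le_rfl (by rwa [div_lt_iff₀' h0] at hk) hF

theorem RCell_fib {α β : Type} [DecidableEq β] {Y : Finset α} {I : Finset β} {f : α → β}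
    (hf : ∀ p ∈ Y, f p ∈ I) {σ : ℝ} (hσ : 0 ≤ σ) :
    (Y.card : ℝ) ≤ ∑ x ∈ I, (if σ ≤ ((Y.filter fun p => f p = x).card : ℝ)
      then ((Y.filter fun p => f p = x).card : ℝ) else 0) + (Y.image f).card * σ := by
  have h1 : ∑ x ∈ I, (if x ∈ Y.image f then σ else 0) ≤ (Y.image f).card * σ := by
    rw [Finset.sum_ite_mem, Finset.sum_const, nsmul_eq_mul]
    exact mul_le_mul_of_nonneg_right
      (Nat.cast_le.2 (Finset.card_le_card Finset.inter_subset_right)) hσ
  refine le_trans ?_ (add_le_add le_rfl h1)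
  rw [Finset.card_eq_sum_card_fiberwise (f := f) (t := I) fun p hp => hf p hp, Nat.cast_sum,
    ← Finset.sum_add_distrib]
  refine Finset.sum_le_sum fun x _ => ?_
  by_cases hx : x ∈ Y.image f
  · rw [if_pos hx]
    split_ifs with h
    · linarith
    · linarith
  · have e : (Y.filter fun p => f p = x) = ∅ :=
      Finset.filter_eq_empty_iff.2 fun p hp e => hx (Finset.mem_image.2 ⟨p, hp, e⟩)
    simp [e, hx]

theorem RCell_div {m t : ℕ} {n : ℝ} (htn : (t : ℝ) ≤ n) (hm : (m : ℝ) ≤ n) :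
    ((m / t + 1 : ℕ) : ℝ) * t ≤ 2 * n := by
  have h : ((m / t * t : ℕ) : ℝ) ≤ m := Nat.cast_le.2 (Nat.div_mul_le_self m t)
  push_cast at h ⊢
  linarith

theorem cell {A B : Finset V3} {n r σ₀ a : ℝ} {t : ℕ} (ht : 1 ≤ t) (htn : (t : ℝ) ≤ n)
    (hA : (A.card : ℝ) ≤ n) (hB : (B.card : ℝ) ≤ n) (h0 : 0 < σ₀) (ha : 0 ≤ a)
    (hr : 9000 * n * σ₀ ≤ r * t)
    (h : ∀ A' ⊆ A, ∀ B' ⊆ B, A'.card ≤ t → B'.card ≤ t → ∀ G Y, Fm A' B' σ₀ G Y →
      (∑ g ∈ G, ((Y g).card : ℝ)) * √σ₀ ≤ a)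
    {G : Finset (V3 → V3)} {Y : (V3 → V3) → Finset V3} (hF : Fm A B r G Y) :
    G.card * r * √σ₀ * (t : ℝ) ^ 2 ≤ 8 * n ^ 2 * a := by
  obtain ⟨la, lb, a0, b0, a1, b1, hc⟩ := P054.cells A B t ht
  have t0 : (0 : ℝ) < t := by exact_mod_cast ht
  have dA := RCell_div htn hA
  have dB := RCell_div htn hB
  obtain ⟨I, hI⟩ : ∃ I, I = Finset.range (A.card / t + 1) ×ˢ Finset.range (B.card / t + 1) :=
    ⟨_, rfl⟩
  obtain ⟨Z, hZ⟩ : ∃ Z : ℕ × ℕ → (V3 → V3) → Finset V3,
      ∀ x g, Z x g = (Y g).filter fun p => (la p, lb (g p)) = x := ⟨_, fun _ _ => rfl⟩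
  have h1 : ∀ g ∈ G, r / 2 ≤
      ∑ x ∈ I, if σ₀ ≤ ((Z x g).card : ℝ) then ((Z x g).card : ℝ) else 0 := fun g hg => by
    obtain ⟨g1, g2, g3, g4⟩ := hF g hg
    have c1 := hc ((Y g).image fun p => (p, g p)) (fun w hw => by
      obtain ⟨p, hp, rfl⟩ := Finset.mem_image.1 hw
      exact Finset.mem_product.2 ⟨g2 hp, g3 p hp⟩) fun w hw v hv => by
      obtain ⟨p, -, rfl⟩ := Finset.mem_image.1 hw
      obtain ⟨q, -, rfl⟩ := Finset.mem_image.1 hv
      exact g1.null rfl rfl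
    rw [Finset.image_image] at c1
    have c2 : (((Y g).image fun p => (la p, lb (g p))).card : ℝ) ≤
        1125 * ((A.card / t + 1 : ℕ) + (B.card / t + 1 : ℕ)) := by exact_mod_cast c1
    have c3 : (((Y g).image fun p => (la p, lb (g p))).card : ℝ) * σ₀ ≤ r / 2 := by
      refine le_of_mul_le_mul_right ?_ t0
      have c4 := mul_le_mul_of_nonneg_right c2 t0.le
      have c5 : (((Y g).image fun p => (la p, lb (g p))).card : ℝ) * t ≤ 4500 * n := by linarith
      have c6 := mul_le_mul_of_nonneg_right c5 h0.le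
      linarith
    have c7 := RCell_fib (Y := Y g) (I := I) (f := fun p => (la p, lb (g p))) (fun p hp => by
      rw [hI]
      exact Finset.mem_product.2 ⟨Finset.mem_range.2 (Nat.lt_succ_of_le (a0 p (g2 hp))),
        Finset.mem_range.2 (Nat.lt_succ_of_le (b0 _ (g3 p hp)))⟩) h0.le
    simp only [hZ]
    linarith
  have h2 : ∀ x ∈ I, (∑ g ∈ G, if σ₀ ≤ ((Z x g).card : ℝ) then ((Z x g).card : ℝ) else 0) *
      √σ₀ ≤ a := fun x _ => by
    rw [← Finset.sum_filter]
    refine h _ (Finset.filter_subset _ _) _ (Finset.filter_subset _ _) (a1 x.1) (b1 x.2) _ _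
      fun g hg => ?_
    obtain ⟨hg, hg'⟩ := Finset.mem_filter.1 hg
    refine ⟨(hF g hg).1, fun p hp => ?_, fun p hp => ?_, hg'⟩
    · rw [hZ, Finset.mem_filter] at hp
      exact Finset.mem_filter.2 ⟨(hF g hg).2.1 hp.1, congrArg Prod.fst hp.2⟩
    · rw [hZ, Finset.mem_filter] at hp
      exact Finset.mem_filter.2 ⟨(hF g hg).2.2.1 p hp.1, congrArg Prod.snd hp.2⟩
  have h3 := mul_le_mul_of_nonneg_right (Finset.card_nsmul_le_sum _ _ _ h1) (Real.sqrt_nonneg σ₀)
  have h4 := Finset.sum_le_card_nsmul _ _ _ h2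
  rw [Finset.sum_comm, Finset.sum_mul, nsmul_eq_mul] at h3
  rw [nsmul_eq_mul] at h4
  have h5 : (I.card : ℝ) * t ^ 2 ≤ 4 * n ^ 2 := by
    rw [hI, Finset.card_product, Finset.card_range, Finset.card_range, Nat.cast_mul]
    have := mul_le_mul dA dB (by positivity) (by linarith)
    linarith
  have h6 := mul_le_mul_of_nonneg_right (h3.trans h4) (sq_nonneg (t : ℝ))
  have h7 := mul_le_mul_of_nonneg_right h5 ha
  linarith

end Vale.Agent.P054S
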