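import Vale.Agent.P054S.Alg

/-!
Definitions for part R (rich motions in three-space).
-/

namespace Vale.Agent.P054S

open MvPolynomial Vale.Agent.P054A Sum
open Vale.Agent.P054 (V3 V6 Mot Fam ND RB GProp LogB Col Pins)
open scoped Classical

noncomputable section

/-- The model of a pair of points: `s = p + q`, `w = p - q`. -/
def mdl (y : V6) : Tx 2 → ℂ :=
  Sum.elim (fun i => ((y.1 i + y.2 i : ℝ) : ℂ)) fun i => ((y.1 i - y.2 i : ℝ) : ℂ)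

/-- A plane of skew matrices. -/
def av (Λ : Fin 3 × Pr 3 → ℂ) (b : Fin 2 → ℂ) : Pr 3 → ℂ :=
  fun q => Λ (0, q) + b 0 * Λ (1, q) + b 1 * Λ (2, q)

/-- The point with parameter `b` of the flat of `x`. -/
def pnt (Λ : Fin 3 × Pr 3 → ℂ) (x : Tx 2 → ℂ) (b : Fin 2 → ℂ) : Fin 2 ⊕ Fin 3 → ℂ :=
  Sum.elim b (prj (av Λ b) x)

/-- A line of parameters. -/
def lb (u v μ : ℂ) : Fin 2 → ℂ := ![u + v * μ, μ]

/-- Each member `g` gives a line of parameters over which its pins project to a line. -/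
structure Lns {ι : Type} (Λ : Fin 3 × Pr 3 → ℂ) (G : Finset ι) (Y : ι → Finset (Tx 2 → ℂ))
    (u v : ι → ℂ) (c : ι → Fin 3 → ℂ) : Prop where
  par : ∀ g ∈ G, ∀ x ∈ Y g, ∀ x' ∈ Y g, ∀ μ, ∃ t : ℂ,
    prj (av Λ (lb (u g) (v g) μ)) x = prj (av Λ (lb (u g) (v g) μ)) x' + t • c g
  sep : ∀ g ∈ G, ∀ x ∈ Y g, ∀ x' ∈ Y g, x ≠ x' → ∃ μ,
    prj (av Λ (lb (u g) (v g) μ)) x ≠ prj (av Λ (lb (u g) (v g) μ)) x'
  inj : ∀ g ∈ G, ∀ g' ∈ G, ∀ x ∈ Y g, x ∈ Y g' → u g = u g' → v g = v g' → g = g'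

/-- A family of motions, each matching at least `s` points of `A` with points of `B`. -/
def Fm (A B : Finset V3) (s : ℝ) (G : Finset (V3 → V3)) (Y : (V3 → V3) → Finset V3) : Prop :=
  ∀ g ∈ G, Mot g ∧ Y g ⊆ A ∧ (∀ p ∈ Y g, g p ∈ B) ∧ s ≤ (Y g).card

/-- Not a translation. -/
def NT (g : V3 → V3) : Prop := ∃ p q, g p - g q ≠ p - q

/-- Curves capture the points of `A` in degree `w`. -/
def Cp (A : Finset V3) (w : ℕ) : Prop := CapT (A.image cx) w 1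

/-- The theorems with losses that are available. -/
structure Env (Z Z₁ ζ N n : ℝ) : Prop where
  hZ : 10 ^ 20 ≤ Z
  hG : GProp Z N
  hl : LogB Z₁ N
  h1 : 1 ≤ Z₁
  hz : (10 ^ 14 * Z₁) ^ 2 ≤ Z
  ζ1 : Z ^ 4 ≤ ζ
  ζ2 : ζ ≤ Z ^ 5
  hN : n ^ 6 ≤ N
  rb : ∀ m, 0 ≤ m → m ≤ n → RB (Z ^ 201 * m ^ 4) m ζ

end

theorem Fm.mono {A B : Finset V3} {s s' : ℝ} {G G' : Finset (V3 → V3)}
    {Y : (V3 → V3) → Finset V3} (h : Fm A B s G Y) (hG : G' ⊆ G)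
    (hs : ∀ g ∈ G', s' ≤ (Y g).card) : Fm A B s' G' Y :=
  fun g hg => ⟨(h g (hG hg)).1, (h g (hG hg)).2.1, (h g (hG hg)).2.2.1, hs g hg⟩

theorem Fm.fam {A B : Finset V3} {s ζ w : ℝ} {G : Finset (V3 → V3)}
    {Y : (V3 → V3) → Finset V3} (h : Fm A B s G Y) (hζ : 0 ≤ ζ)
    (hc : ∀ T ⊆ A, Col T → (T.card : ℝ) ≤ w) (hw : ζ * w ≤ s) : Fam A B ζ s G Y :=
  fun g hg => ⟨(h g hg).1, (h g hg).2.1, (h g hg).2.2.1, fun T hT hT' =>
    ((mul_le_mul_of_nonneg_left (hc T (hT.trans (h g hg).2.1) hT') hζ).trans hw).trans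
      (h g hg).2.2.2, (h g hg).2.2.2⟩

theorem Env.mono {Z Z₁ ζ N n n' : ℝ} (h : Env Z Z₁ ζ N n) (h0 : 0 ≤ n') (hn : n' ≤ n) :
    Env Z Z₁ ζ N n' :=
  ⟨h.hZ, h.hG, h.hl, h.h1, h.hz, h.ζ1, h.ζ2, (pow_le_pow_left₀ h0 hn 6).trans h.hN,
    fun m a b => h.rb m a (b.trans hn)⟩

theorem mdl_inj : Function.Injective mdl := by
  intro y y' e
  have h1 : ∀ i, y.1 i + y.2 i = y'.1 i + y'.2 i := fun i =>
    Complex.ofReal_injective (congrFun e (inl i))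
  have h2 : ∀ i, y.1 i - y.2 i = y'.1 i - y'.2 i := fun i =>
    Complex.ofReal_injective (congrFun e (inr i))
  exact Prod.ext (funext fun i => by linarith [h1 i, h2 i]) (funext fun i => by linarith [h1 i, h2 i])

end Vale.Agent.P054S
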