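import Vale.Agent.P054S.RCap

/-!
Density of a product.  cap_dens with j0 = 2.  For a prime P of dimension j ∈ {1, 2}: if no point of S lies on P take g = 1.  Else
P1, P2 = comaps under X i ↦ (s i + w i) / 2 and X i ↦ (s i - w i) / 2, primes of dimension j1, j2 ≤ j (exists_PD, H_comap_le, PD.le_of_H).
If both are 0 then P contains all X l - C (x l) (PD.eq_point), so j = 0 (PD.eq_zero_of_coord).  Dimension 1: Cp gives f.  Dimension 2:
H (vanI points) ≤ t < (M / 2 + 1) ^ 2 ≤ H P1 (2 (M / 2)) (H_vanI_le_card, PD.pow_le), exists_notin_of_H_lt.  Push f forward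
(totalDegree_aeval_le).
-/

namespace Vale.Agent.P054S

open MvPolynomial Vale.Agent.P054A Sum
open Vale.Agent.P054 (V3 V6 Mot Fam ND RB GProp LogB Col Pins)
open scoped Classical

/-- The two projections of the model. -/
noncomputable def RDens_hf (e : ℂ) (i : Fin 3) : MvPolynomial (Tx 2) ℂ :=
  C (1 / 2) * (X (inl i) + C e * X (inr i))

theorem RDens_deg (e : ℂ) (i : Fin 3) : (RDens_hf e i).totalDegree ≤ 1 := by
  unfold RDens_hf
  refine (totalDegree_mul _ _).trans ?_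
  rw [totalDegree_C, zero_add]
  refine (totalDegree_add _ _).trans (max_le (by simp) ((totalDegree_mul _ _).trans ?_))
  simp

theorem RDens_eval (e : ℂ) (x : Tx 2 → ℂ) (g : MvPolynomial (Fin 3) ℂ) :
    eval x (aeval (RDens_hf e) g) = eval (fun i => eval x (RDens_hf e i)) g := by
  induction g using MvPolynomial.induction_on with
  | C a => simp
  | add p q hp hq => simp only [map_add, hp, hq]
  | mul_X p i hp => simp only [map_mul, hp, aeval_X, eval_X]

/-- The projected prime. -/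
noncomputable def RDens_cm (e : ℂ) (P : Ideal (MvPolynomial (Tx 2) ℂ)) :
    Ideal (MvPolynomial (Fin 3) ℂ) :=
  P.comap (aeval (RDens_hf e) : MvPolynomial (Fin 3) ℂ →ₐ[ℂ] MvPolynomial (Tx 2) ℂ)

theorem RDens_on (e : ℂ) {P : Ideal (MvPolynomial (Tx 2) ℂ)} {x : Tx 2 → ℂ} (hx : On x P) :
    On (fun i => eval x (RDens_hf e i)) (RDens_cm e P) := fun g hg => by
  rw [← RDens_eval]
  exact hx _ hg

theorem RDens_pd (e : ℂ) {P : Ideal (MvPolynomial (Tx 2) ℂ)} {j : ℕ} (hP : PD j P) :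
    ∃ j₁ ≤ j, PD j₁ (RDens_cm e P) := by
  have := hP.prime
  obtain ⟨j₁, h⟩ := exists_PD (P := RDens_cm e P) (Ideal.comap_isPrime _ _)
  refine ⟨j₁, h.le_of_H le_rfl (a := dg j P) fun M => ?_, h⟩
  refine (H_comap_le _ (s := 1) (fun l => by rw [aeval_X]; exact RDens_deg _ _) _ M).trans ?_
  rw [one_mul]
  exact hP.H_le M

theorem RDens_key (e : ℂ) {A : Finset V3} {w t M j₁ : ℕ} (hA : Cp A w) (ht : A.card ≤ t)
    (hw : w ≤ M) (hM : 4 * t ≤ M ^ 2) {P : Ideal (MvPolynomial (Tx 2) ℂ)}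
    (h : PD j₁ (RDens_cm e P)) (h1 : 1 ≤ j₁) (h2 : j₁ ≤ 2) :
    ∃ g, g ∉ P ∧ g.totalDegree ≤ M ∧ ∀ x : Tx 2 → ℂ,
      (fun i => eval x (RDens_hf e i)) ∈ A.image cx → On x P → eval x g = 0 := by
  have k : ∃ f, f ∉ RDens_cm e P ∧ f.totalDegree ≤ M ∧
      ∀ p ∈ A.image cx, On p (RDens_cm e P) → eval p f = 0 := by
    rcases Nat.lt_or_ge j₁ 2 with h3 | h3
    · obtain ⟨f, a1, a2, a3⟩ := hA j₁ h1 (by omega) _ h
      exact ⟨f, a1, a2.trans hw, a3⟩
    · obtain rfl : j₁ = 2 := le_antisymm h2 h3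
      have b1 := H_vanI_le_card (A.image cx : Finset (Fin 3 → ℂ)) (2 * (M / 2))
      have b2 := h.pow_le (M / 2)
      have b3 : (A.image cx : Finset (Fin 3 → ℂ)).card ≤ t := Finset.card_image_le.trans ht
      have b4 : t < (M / 2 + 1) ^ 2 := by
        have c1 : M < 2 * (M / 2 + 1) := by omega
        have c2 : M ^ 2 < (2 * (M / 2 + 1)) ^ 2 := Nat.pow_lt_pow_left c1 (by norm_num)
        rw [mul_pow] at c2
        omega
      obtain ⟨f, a1, a2, a3⟩ := exists_notin_of_H_lt (((b1.trans b3).trans_lt b4).trans_le b2)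
      exact ⟨f, a2, a3.trans (by omega), fun p hp _ => a1 p (Finset.mem_coe.2 hp)⟩
  obtain ⟨f, a1, a2, a3⟩ := k
  refine ⟨aeval (RDens_hf e) f, a1, ?_, fun x hx hx' => ?_⟩
  · exact (totalDegree_aeval_le _ (RDens_deg e) f).trans (by omega)
  · rw [RDens_eval]
    exact a3 _ hx (RDens_on e hx')

theorem RDens_zero {P : Ideal (MvPolynomial (Tx 2) ℂ)} {j : ℕ} (hP : PD j P) {x : Tx 2 → ℂ}
    (hx : On x P) (h1 : PD 0 (RDens_cm 1 P)) (h2 : PD 0 (RDens_cm (-1) P)) : j = 0 := by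
  have k : ∀ e : ℂ, PD 0 (RDens_cm e P) → ∀ i,
      RDens_hf e i - C (eval x (RDens_hf e i)) ∈ P := fun e h i => by
    have a1 : (X i - C (eval x (RDens_hf e i)) : MvPolynomial (Fin 3) ℂ) ∈ RDens_cm e P := by
      rw [h.eq_point (RDens_on e hx)]
      intro p hp
      obtain rfl : p = _ := hp
      simp
    have a2 : aeval (RDens_hf e) (X i - C (eval x (RDens_hf e i)) : MvPolynomial (Fin 3) ℂ) ∈ P :=
      a1
    rwa [map_sub, aeval_X, aeval_C, algebraMap_eq] at a2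
  refine hP.eq_zero_of_coord x fun l => ?_
  rcases l with i | i
  · have e : (X (inl i) - C (x (inl i)) : MvPolynomial (Tx 2) ℂ) =
        (RDens_hf 1 i - C (eval x (RDens_hf 1 i))) +
          (RDens_hf (-1) i - C (eval x (RDens_hf (-1) i))) := by
      refine MvPolynomial.funext fun y => ?_
      simp [RDens_hf]
      ring
    rw [e]
    exact P.add_mem (k 1 h1 i) (k (-1) h2 i)
  · have e : (X (inr i) - C (x (inr i)) : MvPolynomial (Tx 2) ℂ) =
        (RDens_hf 1 i - C (eval x (RDens_hf 1 i))) -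
          (RDens_hf (-1) i - C (eval x (RDens_hf (-1) i))) := by
      refine MvPolynomial.funext fun y => ?_
      simp [RDens_hf]
      ring
    rw [e]
    exact P.sub_mem (k 1 h1 i) (k (-1) h2 i)

theorem RDens_fst (y : V6) : (fun i => eval (mdl y) (RDens_hf 1 i)) = cx y.1 := by
  funext i
  simp [RDens_hf, mdl, cx]
  ring

theorem RDens_snd (y : V6) : (fun i => eval (mdl y) (RDens_hf (-1) i)) = cx y.2 := by
  funext i
  simp [RDens_hf, mdl, cx]
  ring

theorem dens_mdl : ∃ c : ℕ, 1 ≤ c ∧ ∀ (A B : Finset V3) (w t M : ℕ), Cp A w → Cp B w →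
    A.card ≤ t → B.card ≤ t → w ≤ M → 4 * t ≤ M ^ 2 → 1 ≤ M →
      ∀ S ⊆ (A ×ˢ B).image mdl, Dens S (c * M) 2 := by
  obtain ⟨c, hc⟩ := cap_dens (Fintype.card (Tx 2))
  refine ⟨c + 1, by omega, fun A B w t M hA hB hAt hBt hw hM h1 S hS => ?_⟩
  have k : CapT S M 2 := by
    intro j hj1 hj2 P hP
    by_cases h0 : ∃ x ∈ S, On x P
    · obtain ⟨x, -, hx⟩ := h0
      obtain ⟨j₁, a1, a2⟩ := RDens_pd 1 hP
      obtain ⟨j₂, b1, b2⟩ := RDens_pd (-1) hP
      rcases Nat.eq_zero_or_pos j₁ with rfl | c1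
      · rcases Nat.eq_zero_or_pos j₂ with rfl | c2
        · have := RDens_zero hP hx a2 b2
          omega
        · obtain ⟨g, d1, d2, d3⟩ := RDens_key (-1) hB hBt hw hM b2 c2 (by omega)
          refine ⟨g, d1, d2, fun p hp hp' => d3 p ?_ hp'⟩
          obtain ⟨y, hy, rfl⟩ := Finset.mem_image.1 (hS hp)
          rw [RDens_snd]
          exact Finset.mem_image_of_mem _ (Finset.mem_product.1 hy).2
      · obtain ⟨g, d1, d2, d3⟩ := RDens_key 1 hA hAt hw hM a2 c1 (by omega)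
        refine ⟨g, d1, d2, fun p hp hp' => d3 p ?_ hp'⟩
        obtain ⟨y, hy, rfl⟩ := Finset.mem_image.1 (hS hp)
        rw [RDens_fst]
        exact Finset.mem_image_of_mem _ (Finset.mem_product.1 hy).1
    · refine ⟨1, fun h => hP.prime.ne_top ((Ideal.eq_top_iff_one _).2 h), by simp,
        fun p hp hp' => absurd ⟨p, hp, hp'⟩ h0⟩
  intro j hj P hP
  refine (hc (Tx 2) rfl S M 2 h1 k j hj P hP).trans (Nat.mul_le_mul_left _ ?_)
  exact Nat.pow_le_pow_left (Nat.mul_le_mul_right _ (by omega)) _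

end Vale.Agent.P054S
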