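import Vale.Agent.P054S.RDefs

/-!
The environment.  See P054.main (Vale/Agent/P054/Final.lean).  Z₁ = τ ^ (1 / 800000), Z = Z₁⁴.  gprop with η = 1 / 4800000 (N ^ η = Z₁²,
K ≤ Z₁²).  LogB: P054.fin_log with t = Z₁ / 2 or directly log₂ k + 1 ≤ c log Z₁ + 1 ≤ Z₁.  levels with j = 800000: 8 ^ j ≤ Z, 10 ^ (12 j) ≤ Z,
τ² = (Z₁²) ^ j ≤ (Z / 2) ^ j, LogB Z from LogB Z₁; RB.mono; ζ = 8 ^ j Z⁴.  Keep the exponents as variables (generalize) to avoid evaluation.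
-/

namespace Vale.Agent.P054S

open MvPolynomial Vale.Agent.P054A Sum
open Vale.Agent.P054 (V3 V6 Mot Fam ND RB GProp LogB Col Pins)
open scoped Classical

theorem REnv_at {J : ℕ} {t K B : ℝ} (hK : ∀ Z N : ℝ, 1 ≤ N → K * N ^ (((48 * J : ℕ) : ℝ)⁻¹) ≤ Z →
    GProp Z N) (hJ : J ≠ 0) (t1 : 10 ^ 20 ≤ t) (hB : (10 : ℝ) ^ (12 * (4 * J)) = B) (t2 : B ≤ t)
    (t3 : K ≤ t) (t4 : (24 * ((8 * J : ℕ) : ℝ) + 1) ^ 2 ≤ t) :
    Env (t ^ 4) (2 * t) (8 ^ (4 * J) * (t ^ 4) ^ 4) (((t ^ 4) ^ J) ^ 12) (((t ^ 4) ^ J) ^ 2) := by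
  have h1 : 1 ≤ t := by linarith
  have h0 : 0 < t := by linarith
  have h2 : 2 ≤ t ^ 2 := by nlinarith
  have h3 : t ≤ t ^ 3 := le_self_pow₀ h1 (by norm_num)
  have h4 : t ≤ t ^ 4 := le_self_pow₀ h1 (by norm_num)
  have hZ : 10 ^ 20 ≤ t ^ 4 := t1.trans h4
  have hZ1 : 1 ≤ t ^ 4 := h1.trans h4
  have h5 : 2 * t ≤ t ^ 4 := by
    rw [show t ^ 4 = t ^ 3 * t by ring]
    exact mul_le_mul_of_nonneg_right (by linarith) h0.le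
  have hl : LogB (2 * t) (((t ^ 4) ^ J) ^ 12) := by
    have e : ((t ^ 4) ^ J) ^ 12 = (t ^ (8 * J)) ^ 6 := by
      simp only [← pow_mul]
      congr 1
      ring
    rw [e]
    exact Vale.Agent.P054.fin_log t4
  have hG : GProp (t ^ 4) (((t ^ 4) ^ J) ^ 12) := by
    refine hK _ _ (one_le_pow₀ (one_le_pow₀ hZ1)) ?_
    have e : ((t ^ 4) ^ J) ^ 12 = t ^ (48 * J) := by
      simp only [← pow_mul]
      congr 1
      ring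
    rw [e, Real.pow_rpow_inv_natCast h0.le (by omega), show t ^ 4 = t ^ 3 * t by ring]
    exact mul_le_mul_of_nonneg_right (t3.trans h3) h0.le
  have h8 : (8 : ℝ) ^ (4 * J) ≤ t ^ 4 := by
    refine le_trans ?_ (t2.trans h4)
    rw [← hB, pow_mul (10 : ℝ)]
    exact pow_le_pow_left₀ (by norm_num) (by norm_num) _
  refine ⟨hZ, hG, hl, by linarith, ?_, le_mul_of_one_le_left (by positivity)
    (one_le_pow₀ (by norm_num)), ?_, le_of_eq (by rw [← pow_mul]), fun m hm0 hm => ?_⟩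
  · have h6 : (2 * 10 ^ 14 : ℝ) ^ 2 ≤ t ^ 2 := pow_le_pow_left₀ (by norm_num) (by linarith) 2
    calc (10 ^ 14 * (2 * t)) ^ 2 = (2 * 10 ^ 14) ^ 2 * t ^ 2 := by ring
      _ ≤ t ^ 2 * t ^ 2 := mul_le_mul_of_nonneg_right h6 (by positivity)
      _ = t ^ 4 := by ring
  · rw [pow_succ' (t ^ 4) 4]
    exact mul_le_mul_of_nonneg_right h8 (by positivity)
  · have h7 : ((t ^ 4) ^ J) ^ 2 ≤ (t ^ 4 / 2) ^ (4 * J) := by
      have e : ((t ^ 4) ^ J) ^ 2 = (t ^ 2) ^ (4 * J) := by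
        simp only [← pow_mul]
        congr 1
        ring
      rw [e]
      refine pow_le_pow_left₀ (by positivity) ?_ _
      rw [le_div_iff₀ two_pos, show t ^ 4 = t ^ 2 * t ^ 2 by ring]
      exact mul_le_mul_of_nonneg_left h2 (by positivity)
    have h9 := Vale.Agent.P054.levels hZ hG (fun k hk => (hl k hk).trans h5) (4 * J) h8 hm0
      ((hm.trans h7).trans (le_mul_of_one_le_left (by positivity) (one_le_pow₀ hZ1)))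
      ((pow_le_pow_left₀ hm0 hm 6).trans (le_of_eq (by rw [← pow_mul])))
    refine h9.mono ?_
    rw [hB, pow_succ' (t ^ 4) 200]
    exact mul_le_mul_of_nonneg_right
      (mul_le_mul_of_nonneg_right (t2.trans h4) (by positivity)) (by positivity)

theorem REnv_gen {J : ℕ} (hJ : J ≠ 0) (C : ℝ) : ∃ τ₀ : ℕ, ∀ τ ≥ τ₀, ∃ Z Z₁ ζ : ℝ, C ≤ Z ∧
    Z ^ J = (τ : ℝ) ∧ Env Z Z₁ ζ ((τ : ℝ) ^ 12) ((τ : ℝ) ^ 2) := by
  have h48 : (0 : ℝ) < ((48 * J : ℕ) : ℝ)⁻¹ := inv_pos.2 (Nat.cast_pos.2 (by omega))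
  have h4 : (0 : ℝ) < ((4 * J : ℕ) : ℝ)⁻¹ := inv_pos.2 (Nat.cast_pos.2 (by omega))
  obtain ⟨K, -, hK⟩ := Vale.Agent.P054.gprop h48
  obtain ⟨B, hB⟩ : ∃ B : ℝ, (10 : ℝ) ^ (12 * (4 * J)) = B := ⟨_, rfl⟩
  have ev : ∀ D : ℝ, ∀ᶠ n : ℕ in Filter.atTop, D ≤ (n : ℝ) ^ (((4 * J : ℕ) : ℝ)⁻¹) := fun D =>
    ((tendsto_rpow_atTop h4).comp tendsto_natCast_atTop_atTop).eventually_ge_atTop D
  obtain ⟨τ₀, h⟩ := Filter.eventually_atTop.1 ((ev (10 ^ 20)).and ((ev B).and ((ev K).and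
    ((ev ((24 * ((8 * J : ℕ) : ℝ) + 1) ^ 2)).and (ev C)))))
  refine ⟨τ₀, fun τ hτ => ?_⟩
  obtain ⟨t1, t2, t3, t4, t5⟩ := h τ hτ
  have e : (((τ : ℝ) ^ (((4 * J : ℕ) : ℝ)⁻¹)) ^ 4) ^ J = τ := by
    rw [← pow_mul, Real.rpow_inv_natCast_pow (Nat.cast_nonneg _) (by omega)]
  have h5 := REnv_at hK hJ t1 hB t2 t3 t4
  rw [e] at h5
  exact ⟨_, _, _, t5.trans (le_self_pow₀ (by linarith) (by norm_num)), e, h5⟩

theorem env (C : ℝ) : ∃ τ₀ : ℕ, ∀ τ ≥ τ₀, ∃ Z Z₁ ζ : ℝ, C ≤ Z ∧ Z ^ 200000 = (τ : ℝ) ∧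
    Env Z Z₁ ζ ((τ : ℝ) ^ 12) ((τ : ℝ) ^ 2) := by
  exact REnv_gen (by norm_num) C

end Vale.Agent.P054S
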