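import Vale.Agent.P054S.RGenA
import Vale.Agent.P054S.Gpt

/-!
The lines of parameters of a family of motions.  Choose a quaternion x g (Mot.vec); its vector part is not zero by NT (if it
is, rm_apply and lm_apply give g p - g q = p - q).  T = T0 with all coordinates of the x g and all differences of coordinates
of pins; exists_genA.  n i = dotA (Λ (i, ·)) (x g); n 1 ≠ 0 (gen_one); u = (x 0 - n 0) / n 1, v = - n 2 / n 1, so dotA (av Λ (lb u v μ)) x = x 0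
(dotA is linear in a).  par: quat_prj.  inj: v = v' gives parallel vector parts (gen_two), x' = κ x on the vector part, u = u' gives
x' 0 = κ x 0; so pt g = pt g' (finrank_pt, or directly snd_eq_of_mem) and Mot.ext_pt at the common pin (mdl_inj).
sep: if the projections agree at μ = 0 and μ = 1 then e × w = 0 with e = v Λ1 + Λ2 (as vectors) and w the difference of the second
coordinates, real and orthogonal to x; multiply by n 1: (n1 Λ2 - n2 Λ1) × w = 0; n1 Λ2 - n2 Λ1 = x × (Λ2 × Λ1) up to sign, so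
(Λ1 × Λ2) . w = 0 (as x ≠ 0, x . w = 0); two derivations (as in gen_two) give w = 0, then s = 0.
-/

namespace Vale.Agent.P054S

open MvPolynomial Vale.Agent.P054A Sum
open Vale.Agent.P054 (V3 V6 Mot Fam ND RB GProp LogB Col Pins)
open scoped Classical

theorem RGen_nt {g : V3 → V3} (hn : NT g) {x : Fin 4 → ℝ} (h0 : x ≠ 0)
    (hx : ∀ p q, x ∈ P054.hl (p - q, g p - g q)) : ¬(x 1 = 0 ∧ x 2 = 0 ∧ x 3 = 0) := by
  rintro ⟨h1, h2, h3⟩
  obtain ⟨p, q, hpq⟩ := hn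
  have hx0 : x 0 ≠ 0 := fun e => h0 (by
    ext i
    fin_cases i
    · exact e
    · exact h1
    · exact h2
    · exact h3)
  have h := P054.mem_hl.1 (hx p q)
  rw [P054.rm_apply, P054.lm_apply] at h
  generalize p - q = P at h hpq
  generalize g p - g q = Q at h hpq
  have e1 : P 0 * x 0 + P 2 * x 2 - P 1 * x 3 = Q 0 * x 0 - Q 2 * x 2 + Q 1 * x 3 := congrFun h 1
  have e2 : P 1 * x 0 - P 2 * x 1 + P 0 * x 3 = Q 1 * x 0 + Q 2 * x 1 - Q 0 * x 3 := congrFun h 2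
  have e3 : P 2 * x 0 + P 1 * x 1 - P 0 * x 2 = Q 2 * x 0 - Q 1 * x 1 + Q 0 * x 2 := congrFun h 3
  rw [h2, h3] at e1
  rw [h1, h3] at e2
  rw [h1, h2] at e3
  apply hpq
  ext i
  fin_cases i
  · exact mul_right_cancel₀ hx0 (show Q 0 * x 0 = P 0 * x 0 by linarith)
  · exact mul_right_cancel₀ hx0 (show Q 1 * x 0 = P 1 * x 0 by linarith)
  · exact mul_right_cancel₀ hx0 (show Q 2 * x 0 = P 2 * x 0 by linarith)

theorem RGen_dot (Λ : Fin 3 × Pr 3 → ℂ) (u v μ : ℂ) (x : Fin 4 → ℝ) :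
    dotA (av Λ (lb u v μ)) x = dotA (fun q => Λ (0, q)) x +
      (u + v * μ) * dotA (fun q => Λ (1, q)) x + μ * dotA (fun q => Λ (2, q)) x := by
  have h0 : lb u v μ 0 = u + v * μ := rfl
  have h1 : lb u v μ 1 = μ := rfl
  simp only [dotA, av, h0, h1]
  ring

theorem RGen_prj (a : Pr 3 → ℂ) (z : Tx 2 → ℂ) :
    prj a z 0 = z (inl 0) - (a ⟨(0, 1), by decide⟩ * z (inr 1) + a ⟨(0, 2), by decide⟩ * z (inr 2)) ∧
    prj a z 1 = z (inl 1) - (-a ⟨(0, 1), by decide⟩ * z (inr 0) + a ⟨(1, 2), by decide⟩ * z (inr 2)) ∧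
    prj a z 2 = z (inl 2) - (-a ⟨(0, 2), by decide⟩ * z (inr 0) - a ⟨(1, 2), by decide⟩ * z (inr 1)) := by
  refine ⟨?_, ?_, ?_⟩ <;> simp [prj, skw, Fin.sum_univ_three, sub_eq_add_neg]

/-- The cross product with the vector part. -/
def RGen_cr (w : V3) (x : Fin 4 → ℝ) : Fin 4 → ℝ :=
  ![0, w 1 * x 3 - w 2 * x 2, w 2 * x 1 - w 0 * x 3, w 0 * x 2 - w 1 * x 1]

theorem RGen_w {w : V3} {x : Fin 4 → ℝ} (hx : ¬(x 1 = 0 ∧ x 2 = 0 ∧ x 3 = 0))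
    (ho : w 0 * x 1 + w 1 * x 2 + w 2 * x 3 = 0)
    (h : x 1 * RGen_cr w x 2 = x 2 * RGen_cr w x 1 ∧ x 1 * RGen_cr w x 3 = x 3 * RGen_cr w x 1 ∧
      x 2 * RGen_cr w x 3 = x 3 * RGen_cr w x 2) : w 0 = 0 ∧ w 1 = 0 ∧ w 2 = 0 := by
  have c1 : RGen_cr w x 1 = w 1 * x 3 - w 2 * x 2 := rfl
  have c2 : RGen_cr w x 2 = w 2 * x 1 - w 0 * x 3 := rfl
  have c3 : RGen_cr w x 3 = w 0 * x 2 - w 1 * x 1 := rfl
  rw [c1, c2, c3] at h
  obtain ⟨h1, h2, h3⟩ := h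
  have hn : x 1 ^ 2 + x 2 ^ 2 + x 3 ^ 2 ≠ 0 := fun e =>
    hx ⟨by nlinarith [sq_nonneg (x 1), sq_nonneg (x 2), sq_nonneg (x 3)],
      by nlinarith [sq_nonneg (x 1), sq_nonneg (x 2), sq_nonneg (x 3)],
      by nlinarith [sq_nonneg (x 1), sq_nonneg (x 2), sq_nonneg (x 3)]⟩
  refine ⟨(mul_eq_zero.1 ?_).resolve_right hn, (mul_eq_zero.1 ?_).resolve_right hn,
    (mul_eq_zero.1 ?_).resolve_right hn⟩
  · linear_combination h3 + x 1 * ho
  · linear_combination (-1 : ℝ) * h2 + x 2 * ho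
  · linear_combination h1 + x 3 * ho

theorem RGen_sep {T : Set ℂ} {Λ : Fin 3 × Pr 3 → ℂ} (hΛ : GenA T Λ) {x : Fin 4 → ℝ}
    (hx : ¬(x 1 = 0 ∧ x 2 = 0 ∧ x 3 = 0)) (hT : ∀ l, (x l : ℂ) ∈ T) {y y' : V6}
    (h : x ∈ P054.hl (y - y'))
    (hT' : ∀ l, (RGen_cr (y.1 - y'.1 - (y.2 - y'.2)) x l : ℂ) ∈ T) {u v : ℂ}
    (hv : v * dotA (fun q => Λ (1, q)) x = -dotA (fun q => Λ (2, q)) x)
    (he : ∀ μ, prj (av Λ (lb u v μ)) (mdl y) = prj (av Λ (lb u v μ)) (mdl y')) :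
    mdl y = mdl y' := by
  have hm := P054.mem_hl.1 h
  rw [P054.rm_apply, P054.lm_apply] at hm
  have e0 : -((y.1 0 - y'.1 0) * x 1) - (y.1 1 - y'.1 1) * x 2 - (y.1 2 - y'.1 2) * x 3 =
      -((y.2 0 - y'.2 0) * x 1) - (y.2 1 - y'.2 1) * x 2 - (y.2 2 - y'.2 2) * x 3 := congrFun hm 0
  obtain ⟨w, hw⟩ : ∃ w : V3, w = y.1 - y'.1 - (y.2 - y'.2) := ⟨_, rfl⟩
  rw [← hw] at hT'
  have hwi : ∀ i, w i = y.1 i - y'.1 i - (y.2 i - y'.2 i) := fun i => by rw [hw]; rfl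
  have hr : ∀ i, mdl y (inr i) = mdl y' (inr i) + (w i : ℂ) := fun i => by
    simp only [mdl, Sum.elim_inr, hwi]
    push_cast
    ring
  have ho : w 0 * x 1 + w 1 * x 2 + w 2 * x 3 = 0 := by
    rw [hwi, hwi, hwi]
    linarith
  have k : ∀ μ, _ := fun μ => RGen_prj (av Λ (lb u v μ)) (mdl y)
  have k' : ∀ μ, _ := fun μ => RGen_prj (av Λ (lb u v μ)) (mdl y')
  have l0 : ∀ μ, lb u v μ 0 = u + v * μ := fun _ => rfl
  have l1 : ∀ μ, lb u v μ 1 = μ := fun _ => rfl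
  have a0 := fun μ => (k μ).1.symm.trans ((congrFun (he μ) 0).trans (k' μ).1)
  have a1 := fun μ => (k μ).2.1.symm.trans ((congrFun (he μ) 1).trans (k' μ).2.1)
  have a2 := fun μ => (k μ).2.2.symm.trans ((congrFun (he μ) 2).trans (k' μ).2.2)
  simp only [av, l0, l1, hr] at a0 a1 a2
  have hw0 : w 0 = 0 ∧ w 1 = 0 ∧ w 2 = 0 := by
    refine RGen_w hx ho (gen_two hΛ hT hT' ?_)
    have c1 : (RGen_cr w x 1 : ℂ) = w 1 * x 3 - w 2 * x 2 := by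
      rw [← Complex.ofReal_mul, ← Complex.ofReal_mul, ← Complex.ofReal_sub]; rfl
    have c2 : (RGen_cr w x 2 : ℂ) = w 2 * x 1 - w 0 * x 3 := by
      rw [← Complex.ofReal_mul, ← Complex.ofReal_mul, ← Complex.ofReal_sub]; rfl
    have c3 : (RGen_cr w x 3 : ℂ) = w 0 * x 2 - w 1 * x 1 := by
      rw [← Complex.ofReal_mul, ← Complex.ofReal_mul, ← Complex.ofReal_sub]; rfl
    have hb : dotA (fun q => Λ (2, q)) (RGen_cr w x) +
        v * dotA (fun q => Λ (1, q)) (RGen_cr w x) = 0 := by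
      simp only [dotA, c1, c2, c3]
      linear_combination (x 1 : ℂ) * (a0 0 - a0 1) + (x 2 : ℂ) * (a1 0 - a1 1) +
        (x 3 : ℂ) * (a2 0 - a2 1)
    linear_combination dotA (fun q => Λ (1, q)) x * hb -
      dotA (fun q => Λ (1, q)) (RGen_cr w x) * hv
  obtain ⟨w0, w1, w2⟩ := hw0
  have b0 := a0 0
  have b1 := a1 0
  have b2 := a2 0
  simp only [w0, w1, w2, Complex.ofReal_zero, add_zero, sub_left_inj] at b0 b1 b2
  funext l
  rcases l with i | i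
  · fin_cases i
    · exact b0
    · exact b1
    · exact b2
  · rw [hr]
    fin_cases i
    · simp [w0]
    · simp [w1]
    · simp [w2]

theorem RGen_par {x x' : Fin 4 → ℝ} (hx : ¬(x 1 = 0 ∧ x 2 = 0 ∧ x 3 = 0))
    (h : x 1 * x' 2 = x 2 * x' 1 ∧ x 1 * x' 3 = x 3 * x' 1 ∧ x 2 * x' 3 = x 3 * x' 2) :
    ∃ κ : ℝ, x' 1 = κ * x 1 ∧ x' 2 = κ * x 2 ∧ x' 3 = κ * x 3 := by
  obtain ⟨h1, h2, h3⟩ := h
  by_cases e1 : x 1 = 0
  · by_cases e2 : x 2 = 0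
    · have e3 : x 3 ≠ 0 := fun e => hx ⟨e1, e2, e⟩
      refine ⟨x' 3 / x 3, ?_, ?_, ?_⟩ <;> field_simp <;> linarith
    · refine ⟨x' 2 / x 2, ?_, ?_, ?_⟩ <;> field_simp <;> linarith
  · refine ⟨x' 1 / x 1, ?_, ?_, ?_⟩ <;> field_simp <;> linarith

theorem RGen_inj {T : Set ℂ} {Λ : Fin 3 × Pr 3 → ℂ} (hΛ : GenA T Λ) {x x' : Fin 4 → ℝ}
    (hx : ¬(x 1 = 0 ∧ x 2 = 0 ∧ x 3 = 0)) (hx' : ¬(x' 1 = 0 ∧ x' 2 = 0 ∧ x' 3 = 0))
    (hT : ∀ l, (x l : ℂ) ∈ T) (hT' : ∀ l, (x' l : ℂ) ∈ T)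
    (hu : (x 0 - dotA (fun q => Λ (0, q)) x) / dotA (fun q => Λ (1, q)) x =
      (x' 0 - dotA (fun q => Λ (0, q)) x') / dotA (fun q => Λ (1, q)) x')
    (hv : -dotA (fun q => Λ (2, q)) x / dotA (fun q => Λ (1, q)) x =
      -dotA (fun q => Λ (2, q)) x' / dotA (fun q => Λ (1, q)) x') : ∃ κ : ℝ, x' = κ • x := by
  have n1 : dotA (fun q => Λ (1, q)) x ≠ 0 := fun e => hx (gen_one hΛ 1 hT e)
  have n1' : dotA (fun q => Λ (1, q)) x' ≠ 0 := fun e => hx' (gen_one hΛ 1 hT' e)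
  rw [div_eq_div_iff n1 n1'] at hu hv
  obtain ⟨κ, k1, k2, k3⟩ := RGen_par hx (gen_two hΛ hT hT' (by linear_combination hv))
  have hd : ∀ a, dotA a x' = κ * dotA a x := fun a => by
    simp only [dotA, k1, k2, k3]
    push_cast
    ring
  rw [hd, hd] at hu
  have k0 : x' 0 = κ * x 0 := by
    apply Complex.ofReal_injective
    push_cast
    apply mul_right_cancel₀ n1
    linear_combination -hu
  refine ⟨κ, ?_⟩
  ext i
  fin_cases i
  · exact k0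
  · exact k1
  · exact k2
  · exact k3

theorem gen_lines {T₀ : Set ℂ} (hT : T₀.Finite) (G : Finset (V3 → V3)) (Y : (V3 → V3) → Finset V3)
    (hG : ∀ g ∈ G, Mot g ∧ NT g) :
    ∃ Λ : Fin 3 × Pr 3 → ℂ, GenA T₀ Λ ∧ ∃ u v c,
      Lns Λ G (fun g => (Y g).image fun p => mdl (p, g p)) u v c := by
  have ex : ∀ g : V3 → V3, ∃ x : Fin 4 → ℝ, g ∈ G →
      x ≠ 0 ∧ ∀ p q, x ∈ P054.hl (p - q, g p - g q) := fun g => by
    by_cases hg : g ∈ G
    · obtain ⟨x, hx⟩ := (hG g hg).1.vec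
      exact ⟨x, fun _ => hx⟩
    · exact ⟨0, fun h => absurd h hg⟩
  choose x hx using ex
  have hn : ∀ g ∈ G, ¬(x g 1 = 0 ∧ x g 2 = 0 ∧ x g 3 = 0) := fun g hg =>
    RGen_nt (hG g hg).2 (hx g hg).1 (hx g hg).2
  obtain ⟨T, hTf, hT0, hT1, hT2⟩ : ∃ T : Set ℂ, T.Finite ∧ T₀ ⊆ T ∧
      (∀ g ∈ G, ∀ l, (x g l : ℂ) ∈ T) ∧ ∀ g ∈ G, ∀ p ∈ Y g, ∀ q ∈ Y g, ∀ l,
        (RGen_cr (p - q - (g p - g q)) (x g) l : ℂ) ∈ T := by
    refine ⟨T₀ ∪ ((⋃ g ∈ G, Set.range fun l => (x g l : ℂ)) ∪ ⋃ g ∈ G, ⋃ p ∈ Y g, ⋃ q ∈ Y g,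
      Set.range fun l => (RGen_cr (p - q - (g p - g q)) (x g) l : ℂ)), ?_, Set.subset_union_left,
      fun g hg l => ?_, fun g hg p hp q hq l => ?_⟩
    · refine hT.union (Set.Finite.union ?_ ?_)
      · exact G.finite_toSet.biUnion fun g _ => Set.finite_range _
      · exact G.finite_toSet.biUnion fun g _ => (Y g).finite_toSet.biUnion fun p _ =>
          (Y g).finite_toSet.biUnion fun q _ => Set.finite_range _
    · exact Or.inr (Or.inl (Set.mem_iUnion₂.2 ⟨g, hg, l, rfl⟩))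
    · exact Or.inr (Or.inr (Set.mem_iUnion₂.2 ⟨g, hg, Set.mem_iUnion₂.2 ⟨p, hp,
        Set.mem_iUnion₂.2 ⟨q, hq, l, rfl⟩⟩⟩))
  obtain ⟨Λ, hΛ⟩ := exists_genA hTf (Fin 3 × Pr 3)
  have n1 : ∀ g ∈ G, dotA (fun q => Λ (1, q)) (x g) ≠ 0 := fun g hg e =>
    hn g hg (gen_one hΛ 1 (hT1 g hg) e)
  refine ⟨Λ, hΛ.mono hT0,
    fun g => (x g 0 - dotA (fun q => Λ (0, q)) (x g)) / dotA (fun q => Λ (1, q)) (x g),
    fun g => -dotA (fun q => Λ (2, q)) (x g) / dotA (fun q => Λ (1, q)) (x g),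
    fun g => ![(x g 1 : ℂ), x g 2, x g 3], ?_, ?_, ?_⟩
  · intro g hg z hz z' hz' μ
    obtain ⟨p, -, rfl⟩ := Finset.mem_image.1 hz
    obtain ⟨q, -, rfl⟩ := Finset.mem_image.1 hz'
    refine quat_prj (y := (p, g p)) (y' := (q, g q)) (hn g hg) ((hx g hg).2 p q) ?_
    rw [RGen_dot]
    have := n1 g hg
    field_simp
    ring
  · intro g hg z hz z' hz' hne
    obtain ⟨p, hp, rfl⟩ := Finset.mem_image.1 hz
    obtain ⟨q, hq, rfl⟩ := Finset.mem_image.1 hz'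
    by_contra hc
    refine hne (RGen_sep (y := (p, g p)) (y' := (q, g q)) hΛ (hn g hg) (hT1 g hg)
      ((hx g hg).2 p q) (hT2 g hg p hp q hq) (div_mul_cancel₀ _ (n1 g hg))
      (u := (x g 0 - dotA (fun q => Λ (0, q)) (x g)) / dotA (fun q => Λ (1, q)) (x g)) fun μ => ?_)
    by_contra hμ
    exact hc ⟨μ, hμ⟩
  · intro g hg g' hg' z hz hz' hu hv
    obtain ⟨p, -, rfl⟩ := Finset.mem_image.1 hz
    obtain ⟨p', -, he⟩ := Finset.mem_image.1 hz'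
    have he' := mdl_inj he
    obtain rfl : p' = p := congrArg Prod.fst he'
    have hp : g' p' = g p' := congrArg Prod.snd he'
    obtain ⟨κ, hκ⟩ := RGen_inj hΛ (hn g hg) (hn g' hg') (hT1 g hg) (hT1 g' hg') hu hv
    funext q
    have h1 : x g' ∈ P054.hl (q - p', g q - g p') := by
      rw [hκ]
      exact Submodule.smul_mem _ _ ((hx g hg).2 q p')
    have h2 : g q - g p' = g' q - g' p' :=
      P054.snd_eq_of_mem (hx g' hg').1 h1 ((hx g' hg').2 q p') rfl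
    rw [hp] at h2
    exact sub_left_injective h2

end Vale.Agent.P054S
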