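import Vale.Agent.P054S.RDefs

/-!
Generic parameters.  Write a ∘ x for the form dotA a x = - a12 x1 + a02 x2 - a01 x3 (the vector of the skew matrix is
(- a12, a02, - a01), and skw a w is its cross product with w).  All genericity proofs: apply a derivation D that kills T and has
D Λ = indicator of one index (Derivation.leibniz, map_add, map_neg); twice for gen_two.  gen_av: D kills integers; take D Λ (0, q) = c q,
D Λ (1, q) = D Λ (2, q) = 0.  r_exists_slice: otherwise F vanishes at all points with integer b; MvPolynomial.funext_set.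
quat_par: x × (s - a × w) = w (x . a - x0) - a (x . w) = 0 and x ≠ 0.
-/

namespace Vale.Agent.P054S

open MvPolynomial Vale.Agent.P054A Sum
open Vale.Agent.P054 (V3 V6 Mot Fam ND RB GProp LogB Col Pins)
open scoped Classical

/-- The vector of the skew matrix paired with the vector part of a quaternion. -/
def dotA (a : Pr 3 → ℂ) (x : Fin 4 → ℝ) : ℂ :=
  -a ⟨(1, 2), by decide⟩ * x 1 + a ⟨(0, 2), by decide⟩ * x 2 - a ⟨(0, 1), by decide⟩ * x 3

theorem RGenA_der {D : Derivation ℚ ℂ ℂ} {x : Fin 4 → ℝ} (hx : ∀ l, D (x l : ℂ) = 0)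
    (a : Pr 3 → ℂ) : D (dotA a x) = dotA (fun q => D (a q)) x := by
  simp only [dotA, map_sub, map_add, Derivation.leibniz, hx, map_neg, smul_eq_mul]
  ring

theorem RGenA_zero {x : Fin 4 → ℝ} (h : ∀ c : Pr 3 → ℂ, dotA c x = 0) :
    x 1 = 0 ∧ x 2 = 0 ∧ x 3 = 0 := by
  have h1 := h fun q => if q.1 = (1, 2) then 1 else 0
  have h2 := h fun q => if q.1 = (0, 2) then 1 else 0
  have h3 := h fun q => if q.1 = (0, 1) then 1 else 0
  simp [dotA] at h1 h2 h3
  exact ⟨h1, h2, h3⟩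

theorem RGenA_ev (b : Fin 2 → ℤ) (z : Fin 3 → ℂ) (F : MvPolynomial (Fin 2 ⊕ Fin 3) ℂ) :
    eval z (aeval (Sum.elim (fun i => C (b i : ℂ)) X : _ → MvPolynomial (Fin 3) ℂ) F) =
      eval (Sum.elim (fun i => (b i : ℂ)) z) F := by
  induction F using MvPolynomial.induction_on with
  | C a => simp
  | add p q hp hq => simp only [map_add, hp, hq]
  | mul_X p i hp =>
    simp only [map_mul, hp, aeval_X, eval_X]
    rcases i with i | i <;> simp

theorem RGenA_par {d x : Fin 3 → ℂ} (hx : ¬(x 0 = 0 ∧ x 1 = 0 ∧ x 2 = 0))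
    (h0 : x 1 * d 2 = x 2 * d 1) (h1 : x 2 * d 0 = x 0 * d 2) (h2 : x 0 * d 1 = x 1 * d 0) :
    ∃ t : ℂ, d = t • x := by
  by_cases a0 : x 0 = 0
  · by_cases a1 : x 1 = 0
    · have a2 : x 2 ≠ 0 := fun a2 => hx ⟨a0, a1, a2⟩
      refine ⟨d 2 / x 2, funext fun i => ?_⟩
      fin_cases i <;> simp <;> field_simp
      · linear_combination h1
      · linear_combination -h0
    · refine ⟨d 1 / x 1, funext fun i => ?_⟩
      fin_cases i <;> simp <;> field_simp
      · linear_combination -h2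
      · linear_combination h0
  · refine ⟨d 0 / x 0, funext fun i => ?_⟩
    fin_cases i <;> simp <;> field_simp
    · linear_combination h2
    · linear_combination -h1

theorem GenA.mono {ι : Type} {T T' : Set ℂ} {a : ι → ℂ} (h : GenA T a) (hT : T' ⊆ T) :
    GenA T' a := fun c => by
  obtain ⟨D, h1, h2⟩ := h c
  exact ⟨D, fun t ht => h1 t (hT ht), h2⟩

theorem gen_av {T : Set ℂ} {Λ : Fin 3 × Pr 3 → ℂ} (h : GenA T Λ) (b : Fin 2 → ℤ) :
    GenA T (av Λ fun i => (b i : ℂ)) := fun c => by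
  obtain ⟨D, h1, h2⟩ := h fun p => if p.1 = 0 then c p.2 else 0
  refine ⟨D, h1, fun q => ?_⟩
  simp [av, Derivation.leibniz, h2]

theorem r_exists_slice {F : MvPolynomial (Fin 2 ⊕ Fin 3) ℂ} (hF : F ≠ 0) :
    ∃ (b : Fin 2 → ℤ) (F' : MvPolynomial (Fin 3) ℂ), F' ≠ 0 ∧ F'.totalDegree ≤ F.totalDegree ∧
      ∀ z, eval z F' = eval (Sum.elim (fun i => (b i : ℂ)) z) F := by
  have he : ∀ (b : Fin 2 → ℤ) (z : Fin 3 → ℂ),
      eval z (aeval (Sum.elim (fun i => C (b i : ℂ)) X : _ → MvPolynomial (Fin 3) ℂ) F) =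
        eval (Sum.elim (fun i => (b i : ℂ)) z) F := by
    intro b z
    exact RGenA_ev b z F
  by_contra hc
  apply hF
  refine MvPolynomial.funext_set
    (Sum.elim (fun _ => Set.range ((↑) : ℤ → ℂ)) fun _ => Set.univ) (fun i => ?_) fun x hx => ?_
  · rcases i with i | i
    · exact Set.infinite_range_of_injective Int.cast_injective
    · exact Set.infinite_univ
  · choose b hb using fun i : Fin 2 => hx (inl i) (Set.mem_univ _)
    have h1 : x = Sum.elim (fun i => (b i : ℂ)) fun i => x (inr i) := by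
      funext i
      rcases i with i | i
      · exact (hb i).symm
      · rfl
    rw [h1, ← he, map_zero]
    by_contra h2
    refine hc ⟨b, _, fun h3 => h2 (by rw [h3, map_zero]), ?_, he b⟩
    refine (totalDegree_aeval_le (s := 1) _ (fun l => ?_) F).trans (one_mul _).le
    rcases l with l | l
    · exact (totalDegree_C _).le.trans zero_le_one
    · simp

theorem gen_one {T : Set ℂ} {Λ : Fin 3 × Pr 3 → ℂ} (h : GenA T Λ) (i : Fin 3) {x : Fin 4 → ℝ}
    (hx : ∀ l, (x l : ℂ) ∈ T) (h0 : dotA (fun q => Λ (i, q)) x = 0) :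
    x 1 = 0 ∧ x 2 = 0 ∧ x 3 = 0 := by
  have key : ∀ c : Pr 3 → ℂ, dotA c x = 0 := fun c => by
    obtain ⟨D, h1, h2⟩ := h fun p => c p.2
    have h3 := RGenA_der (D := D) (fun l => h1 _ (hx l)) fun q => Λ (i, q)
    rw [h0, map_zero] at h3
    simpa only [h2] using h3.symm
  exact RGenA_zero key

theorem gen_two {T : Set ℂ} {Λ : Fin 3 × Pr 3 → ℂ} (h : GenA T Λ) {x y : Fin 4 → ℝ}
    (hx : ∀ l, (x l : ℂ) ∈ T) (hy : ∀ l, (y l : ℂ) ∈ T)
    (h0 : dotA (fun q => Λ (1, q)) x * dotA (fun q => Λ (2, q)) y =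
      dotA (fun q => Λ (2, q)) x * dotA (fun q => Λ (1, q)) y) :
    x 1 * y 2 = x 2 * y 1 ∧ x 1 * y 3 = x 3 * y 1 ∧ x 2 * y 3 = x 3 * y 2 := by
  have z0 : ∀ z : Fin 4 → ℝ, dotA (fun _ => 0) z = 0 := fun z => by simp [dotA]
  have k1 : ∀ c : Pr 3 → ℂ, dotA c x * dotA (fun q => Λ (2, q)) y =
      dotA (fun q => Λ (2, q)) x * dotA c y := fun c => by
    obtain ⟨D, h1, h2⟩ := h fun p => if p.1 = 1 then c p.2 else 0
    have h3 := congrArg D h0
    rw [Derivation.leibniz, Derivation.leibniz, RGenA_der (D := D) (fun l => h1 _ (hx l)),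
      RGenA_der (D := D) (fun l => h1 _ (hx l)), RGenA_der (D := D) (fun l => h1 _ (hy l)),
      RGenA_der (D := D) (fun l => h1 _ (hy l))] at h3
    simp only [h2, if_true, show ((2 : Fin 3) = 1) = False from by decide, if_false, z0,
      smul_eq_mul] at h3
    linear_combination h3
  have k2 : ∀ (p : Fin 3 × Fin 3) (c' : Pr 3 → ℂ),
      dotA (fun q => if q.1 = p then 1 else 0) x * dotA c' y =
        dotA c' x * dotA (fun q => if q.1 = p then 1 else 0) y := fun p c' => by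
    obtain ⟨D, h1, h2⟩ := h fun p => c' p.2
    have h4 : (fun q : Pr 3 => D (if q.1 = p then 1 else 0)) = fun _ => 0 := by
      funext q
      split_ifs <;> simp
    have h3 := congrArg D (k1 fun q => if q.1 = p then 1 else 0)
    rw [Derivation.leibniz, Derivation.leibniz, RGenA_der (D := D) (fun l => h1 _ (hx l)),
      RGenA_der (D := D) (fun l => h1 _ (hx l)), RGenA_der (D := D) (fun l => h1 _ (hy l)),
      RGenA_der (D := D) (fun l => h1 _ (hy l))] at h3
    simp only [h2, h4, z0, smul_eq_mul] at h3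
    linear_combination h3
  have h1 := k2 (1, 2) fun q => if q.1 = (0, 2) then 1 else 0
  have h2 := k2 (1, 2) fun q => if q.1 = (0, 1) then 1 else 0
  have h3 := k2 (0, 2) fun q => if q.1 = (0, 1) then 1 else 0
  simp [dotA] at h1 h2 h3
  exact ⟨by exact_mod_cast h1, by exact_mod_cast h2, by exact_mod_cast h3⟩

/-- Over the plane `dotA a x = x 0` the pins of the motion with quaternion `x` project to a line. -/
theorem quat_prj {x : Fin 4 → ℝ} (hx : ¬(x 1 = 0 ∧ x 2 = 0 ∧ x 3 = 0)) {y y' : V6}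
    (h : x ∈ P054.hl (y - y')) {a : Pr 3 → ℂ} (ha : dotA a x = x 0) :
    ∃ t : ℂ, prj a (mdl y) = prj a (mdl y') + t • ![(x 1 : ℂ), x 2, x 3] := by
  have h0 : (P054.rm (y - y').1 - P054.lm (y - y').2) x = 0 := h
  have e0 := congrFun h0 0
  have e1 := congrFun h0 1
  have e2 := congrFun h0 2
  have e3 := congrFun h0 3
  simp [P054.rm, P054.lm, dotProduct, Fin.sum_univ_four] at e0 e1 e2 e3
  have f0 := congrArg ((↑) : ℝ → ℂ) e0
  have f1 := congrArg ((↑) : ℝ → ℂ) e1
  have f2 := congrArg ((↑) : ℝ → ℂ) e2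
  have f3 := congrArg ((↑) : ℝ → ℂ) e3
  push_cast at f0 f1 f2 f3
  unfold dotA at ha
  have p0 : ∀ z : Tx 2 → ℂ, prj a z 0 = z (inl 0) -
      (a ⟨(0, 1), by decide⟩ * z (inr 1) + a ⟨(0, 2), by decide⟩ * z (inr 2)) := fun z => by
    simp [prj, skw, Fin.sum_univ_three]
  have p1 : ∀ z : Tx 2 → ℂ, prj a z 1 = z (inl 1) -
      (-a ⟨(0, 1), by decide⟩ * z (inr 0) + a ⟨(1, 2), by decide⟩ * z (inr 2)) := fun z => by
    simp [prj, skw, Fin.sum_univ_three]
  have p2 : ∀ z : Tx 2 → ℂ, prj a z 2 = z (inl 2) -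
      (-a ⟨(0, 2), by decide⟩ * z (inr 0) - a ⟨(1, 2), by decide⟩ * z (inr 1)) := fun z => by
    simp [prj, skw, Fin.sum_univ_three, sub_eq_add_neg]
  have key : ∃ t : ℂ, prj a (mdl y) - prj a (mdl y') = t • ![(x 1 : ℂ), x 2, x 3] := by
    refine RGenA_par (by simpa using hx) ?_ ?_ ?_
    · show (x 2 : ℂ) * (prj a (mdl y) 2 - prj a (mdl y') 2) =
        x 3 * (prj a (mdl y) 1 - prj a (mdl y') 1)
      simp only [p1, p2, mdl, Sum.elim_inl, Sum.elim_inr]
      push_cast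
      linear_combination f1 - a ⟨(1, 2), by decide⟩ * f0 +
        ((y.1 0 : ℂ) - y.2 0 - (y'.1 0 - y'.2 0)) * ha
    · show (x 3 : ℂ) * (prj a (mdl y) 0 - prj a (mdl y') 0) =
        x 1 * (prj a (mdl y) 2 - prj a (mdl y') 2)
      simp only [p0, p2, mdl, Sum.elim_inl, Sum.elim_inr]
      push_cast
      linear_combination f2 + a ⟨(0, 2), by decide⟩ * f0 +
        ((y.1 1 : ℂ) - y.2 1 - (y'.1 1 - y'.2 1)) * ha
    · show (x 1 : ℂ) * (prj a (mdl y) 1 - prj a (mdl y') 1) =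
        x 2 * (prj a (mdl y) 0 - prj a (mdl y') 0)
      simp only [p0, p1, mdl, Sum.elim_inl, Sum.elim_inr]
      push_cast
      linear_combination f3 - a ⟨(0, 1), by decide⟩ * f0 +
        ((y.1 2 : ℂ) - y.2 2 - (y'.1 2 - y'.2 2)) * ha
  obtain ⟨t, ht⟩ := key
  exact ⟨t, by rw [← ht]; abel⟩

end Vale.Agent.P054S
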