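import Vale.Agent.P054S.RStep

/-!
Iteration.  step2: K = 10 ^ 10 c² Q².  G is not empty (500² L³ > 0), so r ≤ ρ ≤ |W| ≤ L.  D = ⌈√(240 L / r)⌉₊, 1 ≤ D,
D² r ≤ 960 L, M = max D Md (Dens.mono).  c D³, c D Md², c D t are each at most L / (3 Q) (square both sides).  Y' g = a subset of the
filter with exactly (ρ + 3) / 4 points.  iter: induction on j, generalising everything; L' = L / Q, r' = r / 4, Q ≥ 64.
-/

namespace Vale.Agent.P054S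

open MvPolynomial Vale.Agent.P054A Sum
open Vale.Agent.P054 (V3 V6 Mot Fam ND RB GProp LogB Col Pins)
open scoped Classical

theorem RIter_D {L r : ℝ} (hr : 0 < r) (h : r ≤ L) :
    ∃ D : ℕ, 1 ≤ D ∧ 240 * L ≤ (D : ℝ) ^ 2 * r ∧ (D : ℝ) ^ 2 * r ≤ 960 * L := by
  obtain ⟨x, hx, hx2⟩ : ∃ x : ℝ, 0 ≤ x ∧ x ^ 2 * r = 240 * L :=
    ⟨√(240 * L / r), Real.sqrt_nonneg _, by
      rw [Real.sq_sqrt (div_nonneg (by linarith) hr.le), div_mul_cancel₀ _ hr.ne']⟩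
  have h1 : 1 ≤ x := by
    by_contra h2
    have h3 : x ^ 2 ≤ 1 := pow_le_one₀ hx (not_le.1 h2).le
    nlinarith
  have h2 := Nat.le_ceil x
  have h3 := Nat.ceil_lt_add_one hx
  refine ⟨⌈x⌉₊, Nat.one_le_iff_ne_zero.2 (Nat.ceil_pos.2 (by linarith)).ne', ?_, ?_⟩
  · rw [← hx2]
    exact mul_le_mul_of_nonneg_right (pow_le_pow_left₀ hx h2 2) hr.le
  · have h4 : (⌈x⌉₊ : ℝ) ^ 2 ≤ (2 * x) ^ 2 :=
      pow_le_pow_left₀ (Nat.cast_nonneg _) (by linarith) 2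
    have h5 := mul_le_mul_of_nonneg_right h4 hr.le
    nlinarith

theorem RIter_a {q D L r : ℝ} (hL : 0 < L) (hr : 0 < r) (hD : 0 ≤ D)
    (h1 : D ^ 2 * r ≤ 960 * L) (h2 : 10 ^ 10 * q ^ 2 * L ≤ r ^ 3) : 3 * (q * D ^ 3) ≤ L := by
  refine le_of_sq_le_sq ?_ hL.le
  refine le_of_mul_le_mul_right ?_ (pow_pos hr 3)
  have h3 : (D ^ 2 * r) ^ 3 ≤ (960 * L) ^ 3 := pow_le_pow_left₀ (by positivity) h1 3
  have h4 := mul_le_mul_of_nonneg_left h3 (show 0 ≤ 9 * q ^ 2 by positivity)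
  have h5 := mul_le_mul_of_nonneg_left h2 (sq_nonneg L)
  have h6 : 0 ≤ q ^ 2 * L ^ 3 := by positivity
  nlinarith

theorem RIter_b {q D L r m : ℝ} (hL : 0 < L) (hr : 0 < r)
    (h1 : D ^ 2 * r ≤ 960 * L) (h2 : 10 ^ 10 * q ^ 2 * m ^ 2 ≤ L * r) : 3 * (q * D * m) ≤ L := by
  refine le_of_sq_le_sq ?_ hL.le
  refine le_of_mul_le_mul_right ?_ hr
  have h4 := mul_le_mul_of_nonneg_left h1 (show 0 ≤ 9 * q ^ 2 * m ^ 2 by positivity)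
  have h5 := mul_le_mul_of_nonneg_left h2 hL.le
  have h6 : 0 ≤ q ^ 2 * m ^ 2 * L := by positivity
  nlinarith

theorem step2 (Q : ℝ) (hQ : 64 ≤ Q) : ∃ K : ℝ, 1 ≤ K ∧ ∀ (A B : Finset V3) (t Md ρ : ℕ) (L r : ℝ)
    (G : Finset (V3 → V3)) (Y : (V3 → V3) → Finset V3) (W : Finset V6), A.card ≤ t → W ⊆ A ×ˢ B →
    (∀ S ⊆ (A ×ˢ B).image mdl, Dens S Md 2) →
    (∀ g ∈ G, Mot g ∧ NT g ∧ (Y g).card = ρ ∧ ∀ p ∈ Y g, (p, g p) ∈ W) →
    0 < L → 0 < r → r ≤ ρ → (W.card : ℝ) ≤ L → K * L ≤ r ^ 3 →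
    500 ^ 2 * L ^ 3 ≤ (G.card : ℝ) ^ 2 * r ^ 3 → K * ((Md : ℝ) ^ 4 + (t : ℝ) ^ 2) ≤ L * r →
      ∃ G' ⊆ G, ∃ W' ⊆ W, ∃ (ρ' : ℕ) (Y' : (V3 → V3) → Finset V3), G.card ≤ 32 * G'.card ∧
        (W'.card : ℝ) ≤ L / Q ∧ r / 4 ≤ ρ' ∧
        ∀ g ∈ G', Y' g ⊆ Y g ∧ (Y' g).card = ρ' ∧ ∀ p ∈ Y' g, (p, g p) ∈ W' := by
  obtain ⟨c, hc, hs⟩ := r_step
  have hc' : (1 : ℝ) ≤ c := by exact_mod_cast hc
  have hq : (1 : ℝ) ≤ c * Q := one_le_mul_of_one_le_of_one_le hc' (by linarith)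
  have hq2 : (1 : ℝ) ≤ (c * Q) ^ 2 := one_le_pow₀ hq
  refine ⟨10 ^ 10 * (c * Q) ^ 2, by linarith, ?_⟩
  intro A B t Md ρ L r G Y W hA hW hD hG hL hr hρ hWL h1 h2 h3
  obtain ⟨g₀, hg₀⟩ : G.Nonempty := by
    rw [Finset.nonempty_iff_ne_empty]
    rintro rfl
    have : 0 < 500 ^ 2 * L ^ 3 := by positivity
    simp only [Finset.card_empty, Nat.cast_zero] at h2
    linarith
  have h4 : ρ ≤ W.card := by
    rw [← (hG g₀ hg₀).2.2.1]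
    exact Finset.card_le_card_of_injOn (fun p => (p, g₀ p)) (fun p hp => (hG g₀ hg₀).2.2.2 p hp)
      fun p _ q _ e => congrArg Prod.fst e
  have h5 : (ρ : ℝ) ≤ W.card := by exact_mod_cast h4
  obtain ⟨D, d1, d2, d3⟩ := RIter_D hr (hρ.trans (h5.trans hWL))
  have d0 : (1 : ℝ) ≤ D := by exact_mod_cast d1
  have e1 : 240 * W.card < (D + 1) ^ 2 * ρ := by
    have a : (240 : ℝ) * W.card < (D + 1) ^ 2 * ρ := by
      have b : ((D : ℝ) + 1) ^ 2 * r ≤ (D + 1) ^ 2 * ρ := mul_le_mul_of_nonneg_left hρ (sq_nonneg _)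
      nlinarith
    exact_mod_cast a
  have e2 : 8 * (D + 1) ≤ ρ := by
    have a : (16 : ℝ) * D ≤ r := by
      refine le_of_sq_le_sq (le_of_mul_le_mul_right ?_ hr) hr.le
      have b := mul_le_mul_of_nonneg_right hq2 hL.le
      nlinarith
    have b : (8 : ℝ) * (D + 1) ≤ ρ := by linarith
    exact_mod_cast b
  have e3 : 16 * D * W.card ≤ G.card * ρ := by
    have a : (16 : ℝ) * D * L ≤ G.card * r := by
      refine le_of_sq_le_sq (le_of_mul_le_mul_right ?_ hr) (by positivity)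
      have b := mul_le_mul_of_nonneg_right d3 (sq_nonneg L)
      have b' : 0 < L ^ 3 := by positivity
      nlinarith
    have b : (16 : ℝ) * D * W.card ≤ G.card * ρ :=
      ((mul_le_mul_of_nonneg_left hWL (by positivity)).trans a).trans
        (mul_le_mul_of_nonneg_left hρ (Nat.cast_nonneg _))
    exact_mod_cast b
  obtain ⟨G', hG', W', hW', k1, k2, k3⟩ := hs A B t (max D Md) D ρ G Y W hA hW
    (fun S hS => (hD S hS).mono subset_rfl (le_max_right _ _)) hG d1 (le_max_left _ _) e1 e2 e3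
  have k4 : ∀ g ∈ G', ∃ T ⊆ (Y g).filter fun p => (p, g p) ∈ W', T.card = (ρ + 3) / 4 :=
    fun g hg => Finset.exists_subset_card_eq (by have := k3 g hg; omega)
  choose! Y' y1 y2 using k4
  refine ⟨G', hG', W', hW', (ρ + 3) / 4, Y', k1, ?_, ?_, fun g hg =>
    ⟨(y1 g hg).trans (Finset.filter_subset _ _), y2 g hg,
      fun p hp => (Finset.mem_filter.1 (y1 g hg hp)).2⟩⟩
  · have a : max D Md ^ 2 ≤ D ^ 2 + Md ^ 2 := by
      rcases le_total D Md with h | h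
      · rw [max_eq_right h]; omega
      · rw [max_eq_left h]; omega
    have b : W'.card ≤ c * D * (D ^ 2 + Md ^ 2 + t) :=
      k2.trans (Nat.mul_le_mul_left _ (Nat.add_le_add_right a _))
    have b' : (W'.card : ℝ) ≤ c * D * (D ^ 2 + Md ^ 2 + t) := by exact_mod_cast b
    have n1 : (0 : ℝ) ≤ (c * Q) ^ 2 * (Md : ℝ) ^ 4 := by positivity
    have n2 : (0 : ℝ) ≤ (c * Q) ^ 2 * (t : ℝ) ^ 2 := by positivity
    have f1 := RIter_a hL hr (Nat.cast_nonneg D) d3 h1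
    have f2 := RIter_b (q := c * Q) (m := (Md : ℝ) ^ 2) hL hr d3 (by nlinarith)
    have f3 := RIter_b (q := c * Q) (m := (t : ℝ)) hL hr d3 (by nlinarith)
    rw [le_div_iff₀ (by linarith)]
    have f4 := mul_le_mul_of_nonneg_right b' (show 0 ≤ Q by linarith)
    nlinarith
  · have a : ρ ≤ 4 * ((ρ + 3) / 4) := by omega
    have b : (ρ : ℝ) ≤ 4 * (((ρ + 3) / 4 : ℕ) : ℝ) := by exact_mod_cast a
    linarith

theorem iter (Q : ℝ) (hQ : 64 ≤ Q) : ∃ K : ℝ, 1 ≤ K ∧ ∀ (j : ℕ) (A B : Finset V3) (t Md ρ : ℕ)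
    (L r : ℝ) (G : Finset (V3 → V3)) (Y : (V3 → V3) → Finset V3) (W : Finset V6), A.card ≤ t →
    W ⊆ A ×ˢ B → (∀ S ⊆ (A ×ˢ B).image mdl, Dens S Md 2) →
    (∀ g ∈ G, Mot g ∧ NT g ∧ (Y g).card = ρ ∧ ∀ p ∈ Y g, (p, g p) ∈ W) →
    0 < L → 0 < r → r ≤ ρ → (W.card : ℝ) ≤ L → K * L ≤ r ^ 3 →
    500 ^ 2 * L ^ 3 ≤ (G.card : ℝ) ^ 2 * r ^ 3 →
    K * ((Md : ℝ) ^ 4 + (t : ℝ) ^ 2) * (4 * Q) ^ j ≤ L * r →
      ∃ G' ⊆ G, ∃ W' ⊆ W, ∃ Y' : (V3 → V3) → Finset V3, G.card ≤ 32 ^ j * G'.card ∧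
        (W'.card : ℝ) * Q ^ j ≤ L ∧
        ∀ g ∈ G', Y' g ⊆ Y g ∧ r ≤ 4 ^ j * (Y' g).card ∧ ∀ p ∈ Y' g, (p, g p) ∈ W' := by
  obtain ⟨K, hK, hs⟩ := step2 Q hQ
  have hQ0 : 0 < Q := by linarith
  refine ⟨K, hK, fun j => ?_⟩
  induction j with
  | zero =>
    intro A B t Md ρ L r G Y W _ _ _ hG _ _ hρ hWL _ _ _
    refine ⟨G, subset_rfl, W, subset_rfl, Y, by simp, by simpa using hWL, fun g hg =>
      ⟨subset_rfl, ?_, (hG g hg).2.2.2⟩⟩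
    rw [(hG g hg).2.2.1]
    simpa using hρ
  | succ j ih =>
    intro A B t Md ρ L r G Y W hA hW hD hG hL hr hρ hWL h1 h2 h3
    have h4 : K * ((Md : ℝ) ^ 4 + (t : ℝ) ^ 2) ≤ L * r :=
      (le_mul_of_one_le_right (by positivity) (one_le_pow₀ (by linarith))).trans h3
    obtain ⟨G₁, hG₁, W₁, hW₁, ρ₁, Y₁, k1, k2, k3, k4⟩ :=
      hs A B t Md ρ L r G Y W hA hW hD hG hL hr hρ hWL h1 h2 h4
    have e1 : K * (L / Q) ≤ (r / 4) ^ 3 := by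
      rw [← mul_div_assoc, div_le_iff₀ hQ0]
      have a := mul_le_mul_of_nonneg_left hQ (show 0 ≤ (r / 4) ^ 3 by positivity)
      nlinarith
    have e2 : 500 ^ 2 * (L / Q) ^ 3 ≤ (G₁.card : ℝ) ^ 2 * (r / 4) ^ 3 := by
      have a : (G.card : ℝ) ≤ 32 * G₁.card := by exact_mod_cast k1
      have b : (G.card : ℝ) ^ 2 ≤ (32 * G₁.card) ^ 2 := pow_le_pow_left₀ (Nat.cast_nonneg _) a 2
      have c := mul_le_mul_of_nonneg_right b (pow_pos hr 3).le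
      have d : (64 : ℝ) ^ 3 ≤ Q ^ 3 := pow_le_pow_left₀ (by norm_num) hQ 3
      have n : 0 ≤ (G₁.card : ℝ) ^ 2 * r ^ 3 := by positivity
      have e := mul_le_mul_of_nonneg_left d n
      rw [div_pow, ← mul_div_assoc, div_le_iff₀ (pow_pos hQ0 3)]
      nlinarith
    have e3 : K * ((Md : ℝ) ^ 4 + (t : ℝ) ^ 2) * (4 * Q) ^ j ≤ L / Q * (r / 4) := by
      rw [div_mul_div_comm, le_div_iff₀ (by positivity), mul_comm Q 4, mul_assoc, ← pow_succ]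
      exact h3
    obtain ⟨G', hG', W', hW', Y', m1, m2, m3⟩ := ih A B t Md ρ₁ (L / Q) (r / 4) G₁ Y₁ W₁ hA
      (hW₁.trans hW) hD (fun g hg => ⟨(hG g (hG₁ hg)).1, (hG g (hG₁ hg)).2.1, (k4 g hg).2⟩)
      (div_pos hL hQ0) (by positivity) k3 k2 e1 e2 e3
    refine ⟨G', hG'.trans hG₁, W', hW'.trans hW₁, Y', ?_, ?_, fun g hg =>
      ⟨(m3 g hg).1.trans (k4 g (hG' hg)).1, ?_, (m3 g hg).2.2⟩⟩
    · refine k1.trans ((Nat.mul_le_mul_left 32 m1).trans (le_of_eq ?_))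
      ring
    · rwa [le_div_iff₀ hQ0, mul_assoc, ← pow_succ] at m2
    · have a := (m3 g hg).2.1
      rw [pow_succ]
      linarith

end Vale.Agent.P054S
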