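import Vale.Agent.P054S.RDefs

/-!
Polynomials that vanish on many points of a line, many lines of a plane.
aff_roots: the polynomial aeval (fun l => C (P l) + C (Q l) * X) F in one variable has natDegree at most D.
pnt is affine in b (pnt_aff: funext, cases, simp [pnt, av, prj, skw], Fin.sum_univ_three, or linearity of skw in a).
kill_flat: for μ outside a finite set the values u + v μ are distinct, so F vanishes on the line b 1 = μ (aff_roots); then
for fixed b 0 it vanishes for all μ outside a finite set (aff_cof).  kill_plane: the difference of two projections is affine in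
μ, so by sep it vanishes for at most one μ; outside a finite set the numbers t of par (relative to x) are distinct;
aff_roots with direction Sum.elim 0 (c g), then aff_cof in μ.
-/

namespace Vale.Agent.P054S

open MvPolynomial Vale.Agent.P054A Sum
open Vale.Agent.P054 (V3 V6 Mot Fam ND RB GProp LogB Col Pins)
open scoped Classical

theorem RKill_poly {σ : Type} {F : MvPolynomial σ ℂ} {D : ℕ} (hF : F.totalDegree ≤ D)
    (P Q : σ → ℂ) :
    ∃ p : Polynomial ℂ, p.natDegree ≤ D ∧ ∀ t, p.eval t = eval (P + t • Q) F := by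
  refine ⟨aeval (fun l => Polynomial.C (Q l) * Polynomial.X + Polynomial.C (P l)) F, ?_,
    fun t => ?_⟩
  · have h := aeval_natDegree_le F hF
      (fun l => Polynomial.C (Q l) * Polynomial.X + Polynomial.C (P l)) (n := 1)
      fun _ => Polynomial.natDegree_linear_le
    rwa [mul_one] at h
  · clear hF
    induction F using MvPolynomial.induction_on with
    | C a => simp
    | add p q hp hq => simp only [map_add, Polynomial.eval_add, hp, hq]
    | mul_X p i hp =>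
      simp only [map_mul, Polynomial.eval_mul, hp, aeval_X, eval_X, Polynomial.eval_add,
        Polynomial.eval_C, Polynomial.eval_X, Pi.add_apply, Pi.smul_apply, smul_eq_mul]
      ring

theorem RKill_skw {d : ℕ} (a a' : Pr d → ℂ) (t : ℂ) (i j : Fin d) :
    skw (a + t • a') i j = skw a i j + t * skw a' i j := by
  unfold skw
  split_ifs
  · simp only [Pi.add_apply, Pi.smul_apply, smul_eq_mul]
  · simp only [Pi.add_apply, Pi.smul_apply, smul_eq_mul]
    ring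
  · simp

theorem RKill_av (Λ : Fin 3 × Pr 3 → ℂ) (b b' : Fin 2 → ℂ) (t : ℂ) :
    av Λ (b + t • b') = av Λ b + t • fun q => b' 0 * Λ (1, q) + b' 1 * Λ (2, q) := by
  funext q
  simp only [av, Pi.add_apply, Pi.smul_apply, smul_eq_mul]
  ring

theorem RKill_prj (Λ : Fin 3 × Pr 3 → ℂ) (x : Tx 2 → ℂ) (b b' : Fin 2 → ℂ) :
    ∃ Q, ∀ t : ℂ, prj (av Λ (b + t • b')) x = prj (av Λ b) x + t • Q := by
  refine ⟨fun i => -∑ j, skw (fun q => b' 0 * Λ (1, q) + b' 1 * Λ (2, q)) i j * x (inr j),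
    fun t => ?_⟩
  funext i
  rw [RKill_av]
  simp only [prj, RKill_skw, Pi.add_apply, Pi.smul_apply, smul_eq_mul, add_mul, mul_assoc,
    Finset.sum_add_distrib, ← Finset.mul_sum]
  ring

theorem RKill_lb (u v μ : ℂ) : lb u v μ = ![u, 0] + μ • ![v, 1] := by
  funext i
  fin_cases i <;> simp [lb, mul_comm]

theorem RKill_lb' (u v μ : ℂ) : lb u v μ = ![0, μ] + (u + v * μ) • ![1, 0] := by
  funext i
  fin_cases i <;> simp [lb]

theorem aff_roots {σ : Type} {F : MvPolynomial σ ℂ} {D : ℕ} (hF : F.totalDegree ≤ D) (P Q : σ → ℂ)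
    (U : Finset ℂ) (hU : D < U.card) (h : ∀ t ∈ U, eval (P + t • Q) F = 0) (t : ℂ) :
    eval (P + t • Q) F = 0 := by
  obtain ⟨p, hp, he⟩ := RKill_poly hF P Q
  have h0 : p = 0 := Polynomial.eq_zero_of_natDegree_lt_card_of_eval_eq_zero' p U
    (fun s hs => (he s).trans (h s hs)) (hp.trans_lt hU)
  rw [← he t, h0, Polynomial.eval_zero]

theorem aff_cof {σ : Type} (F : MvPolynomial σ ℂ) (P Q : σ → ℂ) (U : Finset ℂ)
    (h : ∀ t, t ∉ U → eval (P + t • Q) F = 0) (t : ℂ) : eval (P + t • Q) F = 0 := by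
  obtain ⟨p, -, he⟩ := RKill_poly (F := F) le_rfl P Q
  have h0 : p = 0 := Polynomial.eq_zero_of_infinite_isRoot p
    (U.finite_toSet.infinite_compl.mono fun s hs => (he s).trans (h s hs))
  rw [← he t, h0, Polynomial.eval_zero]

theorem pnt_aff (Λ : Fin 3 × Pr 3 → ℂ) (x : Tx 2 → ℂ) (b b' : Fin 2 → ℂ) :
    ∃ Q, ∀ t : ℂ, pnt Λ x (b + t • b') = pnt Λ x b + t • Q := by
  obtain ⟨Q, hQ⟩ := RKill_prj Λ x b b'
  refine ⟨Sum.elim b' Q, fun t => ?_⟩
  funext l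
  cases l with
  | inl i => rfl
  | inr i => exact congrFun (hQ t) i

theorem kill_line {F : MvPolynomial (Fin 2 ⊕ Fin 3) ℂ} {D : ℕ} (hF : F.totalDegree ≤ D)
    (Λ : Fin 3 × Pr 3 → ℂ) (x : Tx 2 → ℂ) (u v : ℂ) (U : Finset ℂ) (hU : D < U.card)
    (h : ∀ μ ∈ U, eval (pnt Λ x (lb u v μ)) F = 0) (μ : ℂ) : eval (pnt Λ x (lb u v μ)) F = 0 := by
  obtain ⟨Q, hQ⟩ := pnt_aff Λ x ![u, 0] ![v, 1]
  rw [RKill_lb, hQ]
  refine aff_roots hF _ _ U hU (fun t ht => ?_) μ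
  rw [← hQ, ← RKill_lb]
  exact h t ht

theorem kill_flat {F : MvPolynomial (Fin 2 ⊕ Fin 3) ℂ} {D : ℕ} (hF : F.totalDegree ≤ D)
    (Λ : Fin 3 × Pr 3 → ℂ) (x : Tx 2 → ℂ) (T : Finset (ℂ × ℂ)) (hT : D < T.card)
    (h : ∀ z ∈ T, ∀ μ, eval (pnt Λ x (lb z.1 z.2 μ)) F = 0) (b : Fin 2 → ℂ) :
    eval (pnt Λ x b) F = 0 := by
  have key : ∀ μ, μ ∉ (T ×ˢ T).image
      (fun w : (ℂ × ℂ) × (ℂ × ℂ) => (w.2.1 - w.1.1) / (w.1.2 - w.2.2)) →
      ∀ t : ℂ, eval (pnt Λ x (![0, μ] + t • ![1, 0])) F = 0 := by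
    intro μ hμ t
    obtain ⟨Q, hQ⟩ := pnt_aff Λ x ![0, μ] ![1, 0]
    have hi : Set.InjOn (fun z : ℂ × ℂ => z.1 + z.2 * μ) (T : Set (ℂ × ℂ)) := by
      intro z hz z' hz' e
      have e' : z.1 + z.2 * μ = z'.1 + z'.2 * μ := e
      by_cases h2 : z.2 = z'.2
      · rw [h2] at e'
        exact Prod.ext (add_right_cancel e') h2
      · refine absurd (Finset.mem_image.2 ⟨(z, z'), Finset.mem_product.2 ⟨hz, hz'⟩, ?_⟩) hμ
        rw [div_eq_iff (sub_ne_zero.2 h2)]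
        linear_combination -e'
    rw [hQ]
    refine aff_roots hF _ _ (T.image fun z : ℂ × ℂ => z.1 + z.2 * μ)
      (by rwa [Finset.card_image_of_injOn hi]) (fun s hs => ?_) t
    obtain ⟨z, hz, rfl⟩ := Finset.mem_image.1 hs
    rw [← hQ, ← RKill_lb']
    exact h z hz μ
  obtain ⟨Q, hQ⟩ := pnt_aff Λ x ![b 0, 0] ![0, 1]
  have hb : b = ![b 0, 0] + b 1 • ![0, 1] := by
    funext i
    fin_cases i <;> simp
  rw [hb, hQ]
  refine aff_cof F _ _ ((T ×ˢ T).image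
    (fun w : (ℂ × ℂ) × (ℂ × ℂ) => (w.2.1 - w.1.1) / (w.1.2 - w.2.2))) (fun μ hμ => ?_) (b 1)
  have e : (![b 0, 0] + μ • ![0, 1] : Fin 2 → ℂ) = ![0, μ] + b 0 • ![1, 0] := by
    funext i
    fin_cases i <;> simp
  rw [← hQ, e]
  exact key μ hμ _

theorem kill_plane {ι : Type} {Λ : Fin 3 × Pr 3 → ℂ} {G : Finset ι} {Y : ι → Finset (Tx 2 → ℂ)}
    {u v : ι → ℂ} {c : ι → Fin 3 → ℂ} (hL : Lns Λ G Y u v c) {g : ι} (hg : g ∈ G)
    {F : MvPolynomial (Fin 2 ⊕ Fin 3) ℂ} {D : ℕ} (hF : F.totalDegree ≤ D)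
    {T : Finset (Tx 2 → ℂ)} (hT : T ⊆ Y g) (hD : D < T.card)
    (h : ∀ x ∈ T, ∀ μ, eval (pnt Λ x (lb (u g) (v g) μ)) F = 0) {x : Tx 2 → ℂ} (hx : x ∈ Y g)
    (μ : ℂ) : eval (pnt Λ x (lb (u g) (v g) μ)) F = 0 := by
  have hsub : ∀ y ∈ T, ∀ y' ∈ T, y ≠ y' → Set.Subsingleton {ν : ℂ |
      prj (av Λ (lb (u g) (v g) ν)) y = prj (av Λ (lb (u g) (v g) ν)) y'} := by
    intro y hy y' hy' hne ν₁ h₁ ν₂ h₂
    by_contra hν
    obtain ⟨ν, hν'⟩ := hL.sep g hg y (hT hy) y' (hT hy') hne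
    obtain ⟨Q, hQ⟩ := RKill_prj Λ y ![u g, 0] ![v g, 1]
    obtain ⟨Q', hQ'⟩ := RKill_prj Λ y' ![u g, 0] ![v g, 1]
    simp only [Set.mem_ofPred_eq, RKill_lb, hQ, hQ'] at h₁ h₂ hν'
    refine hν' (funext fun i => ?_)
    have e₁ := congrFun h₁ i
    have e₂ := congrFun h₂ i
    simp only [Pi.add_apply, Pi.smul_apply, smul_eq_mul] at e₁ e₂ ⊢
    have e₃ : Q i = Q' i := by
      refine mul_left_cancel₀ (sub_ne_zero.2 hν) ?_
      linear_combination e₁ - e₂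
    linear_combination e₁ + (ν - ν₁) * e₃
  have hfin : Set.Finite {ν : ℂ | ∃ y ∈ T, ∃ y' ∈ T, y ≠ y' ∧
      prj (av Λ (lb (u g) (v g) ν)) y = prj (av Λ (lb (u g) (v g) ν)) y'} := by
    have h1 : Set.Finite (⋃ y ∈ (T : Set (Tx 2 → ℂ)), ⋃ y' ∈ (T : Set (Tx 2 → ℂ)), ⋃ _ : y ≠ y',
        {ν : ℂ | prj (av Λ (lb (u g) (v g) ν)) y = prj (av Λ (lb (u g) (v g) ν)) y'}) :=
      T.finite_toSet.biUnion fun y hy => T.finite_toSet.biUnion fun y' hy' =>
        Set.finite_iUnion fun hne => (hsub y hy y' hy' hne).finite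
    refine h1.subset ?_
    rintro ν ⟨y, hy, y', hy', hne, e⟩
    simp only [Set.mem_iUnion]
    exact ⟨y, hy, y', hy', hne, e⟩
  obtain ⟨Q, hQ⟩ := pnt_aff Λ x ![u g, 0] ![v g, 1]
  rw [RKill_lb, hQ]
  refine aff_cof F _ _ hfin.toFinset (fun ν hν => ?_) μ
  rw [← hQ, ← RKill_lb]
  rw [Set.Finite.mem_toFinset] at hν
  choose! t ht using fun y (hy : y ∈ T) => hL.par g hg y (hT hy) x hx ν
  have hi : Set.InjOn t (T : Set (Tx 2 → ℂ)) := by
    intro y hy y' hy' e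
    by_contra hne
    exact hν ⟨y, hy, y', hy', hne, by rw [ht y hy, ht y' hy', e]⟩
  have hk := aff_roots hF (pnt Λ x (lb (u g) (v g) ν)) (Sum.elim (0 : Fin 2 → ℂ) (c g))
    (T.image t)
    (by rwa [Finset.card_image_of_injOn hi]) (fun s hs => ?_) 0
  · rwa [zero_smul, add_zero] at hk
  · obtain ⟨y, hy, rfl⟩ := Finset.mem_image.1 hs
    have e : pnt Λ x (lb (u g) (v g) ν) + t y • Sum.elim (0 : Fin 2 → ℂ) (c g) =
        pnt Λ y (lb (u g) (v g) ν) := by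
      funext l
      cases l with
      | inl i => simp [pnt]
      | inr i => exact (congrFun (ht y hy) i).symm
    rw [e]
    exact h y hy ν

end Vale.Agent.P054S
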