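import Vale.Agent.P054S.RDefs

/-!
Numerics for the local theorem.  exists_j: j least with Z ≤ 32 ^ (2 j); then j ≥ 1 and 32 ^ (2 (j - 1)) < Z.  loc_md: M = max w (2 ⌈√t⌉₊),
M⁴ ≤ w⁴ + 256 t² (⌈√t⌉₊² ≤ 4 t); cube: (Z ^ 2700 w⁴)³ ≤ (Z ^ 700 w) ^ 12 ≤ t⁸ ≤ (t² σ)³.  trans_le: the pin (p, g p) determines a translation g.
-/

namespace Vale.Agent.P054S

open MvPolynomial Vale.Agent.P054A Sum
open Vale.Agent.P054 (V3 V6 Mot Fam ND RB GProp LogB Col Pins)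
open scoped Classical

theorem exists_j {Z : ℝ} (hZ : 10 ^ 20 ≤ Z) :
    ∃ j : ℕ, Z ≤ 32 ^ (2 * j) ∧ ((32 : ℝ) ^ j) ^ 2 ≤ 1024 * Z := by
  have hex : ∃ j : ℕ, Z ≤ 32 ^ (2 * j) := by
    obtain ⟨j, hj⟩ := pow_unbounded_of_one_lt Z (by norm_num : (1 : ℝ) < 32)
    exact ⟨j, hj.le.trans (pow_le_pow_right₀ (by norm_num) (by omega))⟩
  refine ⟨Nat.find hex, Nat.find_spec hex, ?_⟩
  rcases h : Nat.find hex with _ | i
  · norm_num at hZ ⊢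
    linarith
  · have h1 := not_le.1 (Nat.find_min hex (m := i) (by omega))
    have h2 : ((32 : ℝ) ^ (i + 1)) ^ 2 = 1024 * 32 ^ (2 * i) := by ring
    linarith

theorem loc_md {Z σ : ℝ} {t w : ℕ} (hZ : 10 ^ 20 ≤ Z) (hw : 1 ≤ w) (h1 : Z ^ 4100 ≤ t)
    (h2 : (Z ^ 700 * w) ^ 3 ≤ (t : ℝ) ^ 2) (hσ : 0 < σ) (h3 : (t : ℝ) ^ 2 ≤ σ ^ 3) :
    ∃ M : ℕ, w ≤ M ∧ 4 * t ≤ M ^ 2 ∧ Z ^ 2690 * ((M : ℝ) ^ 4 + (t : ℝ) ^ 2) ≤ (t : ℝ) ^ 2 * σ := by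
  have hZ1 : 1 ≤ Z := le_trans (by norm_num) hZ
  have hZ0 : 0 ≤ Z := zero_le_one.trans hZ1
  have ht : 1 ≤ t := by exact_mod_cast (one_le_pow₀ hZ1).trans h1
  have hs : 1 ≤ Nat.sqrt t := Nat.sqrt_pos.2 ht
  have c1 : t < (Nat.sqrt t + 1) ^ 2 := Nat.lt_succ_sqrt' t
  have c2 : Nat.sqrt t ^ 2 ≤ t := Nat.sqrt_le' t
  have c3 : (2 * (Nat.sqrt t + 1)) ^ 2 ≤ 16 * t := by nlinarith
  have c4 : (2 * (Nat.sqrt t + 1)) ^ 4 ≤ 256 * t ^ 2 := by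
    have := Nat.pow_le_pow_left c3 2
    rw [← pow_mul, mul_pow 16] at this
    exact this
  have c5 : 4 * t ≤ (2 * (Nat.sqrt t + 1)) ^ 2 := by nlinarith
  refine ⟨max w (2 * (Nat.sqrt t + 1)), le_max_left _ _,
    c5.trans (Nat.pow_le_pow_left (le_max_right _ _) 2), ?_⟩
  have c6 : max w (2 * (Nat.sqrt t + 1)) ^ 4 ≤ w ^ 4 + 256 * t ^ 2 := by
    rcases le_total w (2 * (Nat.sqrt t + 1)) with k | k
    · rw [max_eq_right k]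
      omega
    · rw [max_eq_left k]
      omega
  have c7 : ((max w (2 * (Nat.sqrt t + 1)) : ℕ) : ℝ) ^ 4 ≤ (w : ℝ) ^ 4 + 256 * (t : ℝ) ^ 2 := by
    exact_mod_cast c6
  generalize ((max w (2 * (Nat.sqrt t + 1)) : ℕ) : ℝ) = M at c7 ⊢
  have p1 : Z ^ 2700 * (w : ℝ) ^ 4 ≤ (t : ℝ) ^ 2 * σ := by
    refine le_of_pow_le_pow_left₀ three_ne_zero (by positivity) ?_
    calc (Z ^ 2700 * (w : ℝ) ^ 4) ^ 3 = Z ^ 8100 * (w : ℝ) ^ 12 := by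
          rw [mul_pow, ← pow_mul, ← pow_mul]
      _ ≤ Z ^ 8400 * (w : ℝ) ^ 12 :=
          mul_le_mul_of_nonneg_right (pow_le_pow_right₀ hZ1 (by norm_num)) (by positivity)
      _ = ((Z ^ 700 * w) ^ 3) ^ 4 := by rw [← pow_mul, mul_pow, ← pow_mul]
      _ ≤ ((t : ℝ) ^ 2) ^ 4 := pow_le_pow_left₀ (by positivity) h2 4
      _ = ((t : ℝ) ^ 2) ^ 3 * (t : ℝ) ^ 2 := by ring
      _ ≤ ((t : ℝ) ^ 2) ^ 3 * σ ^ 3 := mul_le_mul_of_nonneg_left h3 (by positivity)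
      _ = ((t : ℝ) ^ 2 * σ) ^ 3 := by rw [mul_pow]
  have p2 : Z ^ 2700 ≤ σ := by
    refine le_of_pow_le_pow_left₀ three_ne_zero hσ.le ?_
    calc (Z ^ 2700) ^ 3 = Z ^ 8100 := by rw [← pow_mul]
      _ ≤ Z ^ 8200 := pow_le_pow_right₀ hZ1 (by norm_num)
      _ = (Z ^ 4100) ^ 2 := by rw [← pow_mul]
      _ ≤ (t : ℝ) ^ 2 := pow_le_pow_left₀ (by positivity) h1 2
      _ ≤ σ ^ 3 := h3
  have p3 : 514 * Z ^ 2690 ≤ Z ^ 2700 := by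
    have k : (514 : ℝ) ≤ Z ^ 10 :=
      (le_trans (by norm_num) hZ).trans (le_self_pow₀ hZ1 (by norm_num))
    rw [show 2700 = 10 + 2690 from rfl, pow_add]
    exact mul_le_mul_of_nonneg_right k (by positivity)
  have p0 : 0 ≤ Z ^ 2690 := by positivity
  generalize Z ^ 2690 = a at *
  generalize Z ^ 2700 = b at *
  have q1 : 0 ≤ (w : ℝ) ^ 4 := by positivity
  have q2 : 0 ≤ (t : ℝ) ^ 2 := by positivity
  have q3 := mul_le_mul_of_nonneg_right p3 q1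
  have q4 := mul_le_mul_of_nonneg_left (p3.trans p2) q2
  have q5 := mul_le_mul_of_nonneg_left c7 p0
  have q6 := mul_nonneg p0 q1
  nlinarith

theorem trans_le {A B : Finset V3} {s : ℝ} {G : Finset (V3 → V3)} {Y : (V3 → V3) → Finset V3}
    (h : Fm A B s G Y) (hT : ∀ g ∈ G, ¬ NT g) : G.card * s ≤ A.card * B.card := by
  have h1 : (G.sigma Y).card ≤ (A ×ˢ B).card := by
    refine Finset.card_le_card_of_injOn (fun x => (x.2, x.1 x.2)) (fun x hx => ?_) ?_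
    · obtain ⟨k1, k2⟩ := Finset.mem_sigma.1 hx
      exact Finset.mem_coe.2 (Finset.mem_product.2 ⟨(h _ k1).2.1 k2, (h _ k1).2.2.1 _ k2⟩)
    · rintro ⟨g, p⟩ hx ⟨g', p'⟩ hx' e
      obtain ⟨rfl, e2⟩ : p = p' ∧ g p = g' p' := Prod.mk.inj e
      have k := hT g (Finset.mem_sigma.1 hx).1
      have k' := hT g' (Finset.mem_sigma.1 hx').1
      simp only [NT, not_exists, not_not] at k k'
      obtain rfl : g = g' := funext fun q => by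
        rw [sub_eq_iff_eq_add.1 (k q p), sub_eq_iff_eq_add.1 (k' q p), e2]
      rfl
  rw [Finset.card_sigma, Finset.card_product] at h1
  have h2 : (G.card : ℝ) * s ≤ ∑ g ∈ G, ((Y g).card : ℝ) := by
    have := Finset.card_nsmul_le_sum G (fun g => ((Y g).card : ℝ)) s fun g hg => (h g hg).2.2.2
    rwa [nsmul_eq_mul] at this
  refine h2.trans ?_
  exact_mod_cast h1

theorem Fm.exact {A B : Finset V3} {s : ℝ} {G : Finset (V3 → V3)} {Y : (V3 → V3) → Finset V3}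
    (h : Fm A B s G Y) : ∃ Y' : (V3 → V3) → Finset V3, Fm A B s G Y' ∧
      ∀ g ∈ G, (Y' g).card = ⌈s⌉₊ := by
  have h1 : ∀ g, ∃ T : Finset V3, g ∈ G → T ⊆ Y g ∧ T.card = ⌈s⌉₊ := fun g => by
    by_cases hg : g ∈ G
    · obtain ⟨T, hT⟩ := Finset.exists_subset_card_eq (Nat.ceil_le.2 (h g hg).2.2.2)
      exact ⟨T, fun _ => hT⟩
    · exact ⟨∅, fun k => absurd k hg⟩
  choose Y' hY using h1
  refine ⟨Y', fun g hg => ⟨(h g hg).1, (hY g hg).1.trans (h g hg).2.1,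
    fun p hp => (h g hg).2.2.1 p ((hY g hg).1 hp), ?_⟩, fun g hg => (hY g hg).2⟩
  rw [(hY g hg).2]
  exact Nat.le_ceil s

end Vale.Agent.P054S
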