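import Vale.Agent.P054S.RSpA

/-! The sparse rich theorem. -/

namespace Vale.Agent.P054S

open MvPolynomial Vale.Agent.P054A Sum
open Vale.Agent.P054 (V3 V6 Mot Fam ND RB GProp LogB Col Pins)
open scoped Classical

theorem sp_num {Z m ζ s x u M w S S' : ℝ} (hZ : 10 ^ 20 ≤ Z) (hm : 1 ≤ m) (hζ : Z ^ 4 ≤ ζ)
    (hζ' : ζ ≤ Z ^ 5) (hs : 0 < s) (h1 : m ^ 2 ≤ s ^ 3) (hx : Z ^ 900 * s ≤ x) (hu : 0 < u)
    (huu : u ^ 2 = x * s) (hM0 : 0 ≤ M) (hM : m ^ 4 ≤ Z * (M * s ^ 3))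
    (hbig : M * s ≤ 20 * Z * x * w) (hS : w * (s * u) ≤ Z ^ 2 * S)
    (hC : S ≤ S' + 8 * m ^ 4 / (Z ^ 210 * u) + 6 * (Z ^ 201 * m ^ 4) / (ζ * (Z ^ 210 * u)))
    (hD : x * S' ≤ 2 * (((ζ * Z ^ 217) ^ 2 + 1) * M * m ^ 2 +
      2 / (ζ * Z ^ 217) * (Z ^ 4 * x * (S' + ζ * (Z ^ 210 * u) * (2 * s) * w)))) : False := by
  have hZ1 : 1 ≤ Z := le_trans (by norm_num) hZ
  have hZ0 : 0 < Z := by linarith
  have hm0 : 0 < m := by linarith
  have hζ1 : 1 ≤ ζ := le_trans (one_le_pow₀ hZ1) hζ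
  have hζ0 : 0 < ζ := by linarith
  have hx0 : 0 < x := lt_of_lt_of_le (by positivity) hx
  have a1 : m ^ 4 ≤ 20 * Z ^ 4 * (u * S) := by
    calc _ ≤ Z * (M * s * s ^ 2) := by linarith [show M * s ^ 3 = M * s * s ^ 2 by ring]
      _ ≤ Z * (20 * Z * x * w * s ^ 2) := by gcongr
      _ = 20 * Z ^ 2 * u * (w * (s * u)) := by
        rw [show 20 * Z ^ 2 * u * (w * (s * u)) = 20 * Z ^ 2 * w * s * u ^ 2 by ring, huu]; ring
      _ ≤ 20 * Z ^ 2 * u * (Z ^ 2 * S) := by gcongr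
      _ = _ := by ring
  have huS : 0 < u * S := by
    by_contra hc
    push Not at hc
    have : 20 * Z ^ 4 * (u * S) ≤ 0 := mul_nonpos_of_nonneg_of_nonpos (by positivity) hc
    linarith [pow_pos hm0 4]
  have hS0 : 0 < S := pos_of_mul_pos_right huS hu.le
  have p1 : ∀ a b : ℕ, a < b → 640 * Z ^ a ≤ Z ^ b := fun a b h =>
    le_trans (by rw [pow_succ']; gcongr; linarith) (pow_le_pow_right₀ hZ1 (Nat.succ_le_of_lt h))
  have a3 : 6 * (Z ^ 201 * m ^ 4) / (ζ * (Z ^ 210 * u)) ≤ S / 4 := by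
    rw [div_le_iff₀ (by positivity)]
    have b1 : Z ^ 201 * m ^ 4 ≤ Z ^ 201 * (20 * Z ^ 4 * (u * S)) := by gcongr
    have b2 := mul_le_mul_of_nonneg_right (p1 205 210 (by norm_num)) huS.le
    have b3 : Z ^ 210 * (u * S) ≤ ζ * (Z ^ 210 * (u * S)) :=
      le_mul_of_one_le_left (by positivity) hζ1
    have b4 : 0 ≤ Z ^ 205 * (u * S) := by positivity
    linarith
  have a4 : 8 * m ^ 4 / (Z ^ 210 * u) ≤ S / 4 := by
    rw [div_le_iff₀ (by positivity)]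
    have b2 := mul_le_mul_of_nonneg_right (p1 4 210 (by norm_num)) huS.le
    linarith
  have a5 : S ≤ 2 * S' := by linarith
  have hS' : 0 < S' := by linarith
  have a6 : Z ^ 450 * m ^ 2 ≤ s ^ 2 * u := by
    refine (pow_le_pow_iff_left₀ (by positivity) (by positivity) two_ne_zero).1 ?_
    rw [mul_pow, ← pow_mul Z]
    calc Z ^ 900 * (m ^ 2) ^ 2 ≤ Z ^ 900 * (s ^ 3) ^ 2 := by gcongr
      _ = Z ^ 900 * s * s ^ 5 := by generalize Z ^ 900 = q; ring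
      _ ≤ x * s ^ 5 := by gcongr
      _ = _ := by rw [mul_pow, huu]; ring
  have a7 : 2 * (((ζ * Z ^ 217) ^ 2 + 1) * M * m ^ 2) ≤ x * S' / 4 := by
    have b1 : (ζ * Z ^ 217) ^ 2 + 1 ≤ 2 * Z ^ 444 := by
      have c1 : (ζ * Z ^ 217) ^ 2 ≤ (Z ^ 5 * Z ^ 217) ^ 2 := by gcongr
      have c2 := one_le_pow₀ (n := 444) hZ1
      rw [← pow_add, ← pow_mul Z, show (5 + 217) * 2 = 444 from rfl] at c1
      linarith
    have b2 : M * (s ^ 2 * u) ≤ 20 * Z ^ 3 * (x * S) := by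
      calc _ = M * s * (s * u) := by ring
        _ ≤ 20 * Z * x * w * (s * u) := by gcongr
        _ = 20 * Z * x * (w * (s * u)) := by ring
        _ ≤ 20 * Z * x * (Z ^ 2 * S) := by gcongr
        _ = _ := by ring
    have b3 : M * (Z ^ 450 * m ^ 2) ≤ M * (s ^ 2 * u) := by gcongr
    have b0 := p1 (3 + 444) 450 (by norm_num)
    rw [pow_add] at b0
    generalize Z ^ 444 = q at b0 b1
    generalize Z ^ 450 = q' at b0 b3
    have b8 := mul_le_mul_of_nonneg_right b0 (by positivity : 0 ≤ M * m ^ 2)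
    have b4 : Z ^ 3 * (640 * q * (M * m ^ 2)) ≤ Z ^ 3 * (20 * (x * S)) := by linarith
    have b5 := le_of_mul_le_mul_left b4 (by positivity)
    have b6 : ((ζ * Z ^ 217) ^ 2 + 1) * (M * m ^ 2) ≤ 2 * q * (M * m ^ 2) := by gcongr
    have b7 : x * S ≤ x * (2 * S') := by gcongr
    generalize (ζ * Z ^ 217) ^ 2 = q'' at b6 ⊢
    linarith
  have a8 : 2 * (2 / (ζ * Z ^ 217) * (Z ^ 4 * x * (S' + ζ * (Z ^ 210 * u) * (2 * s) * w))) ≤
      x * S' / 4 := by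
    have b1 : S' + ζ * (Z ^ 210 * u) * (2 * s) * w ≤ 5 * ζ * Z ^ 212 * S' := by
      have c1 : ζ * (Z ^ 210 * u) * (2 * s) * w ≤ 2 * ζ * Z ^ 210 * (Z ^ 2 * (2 * S')) := by
        calc _ = 2 * ζ * Z ^ 210 * (w * (s * u)) := by ring
          _ ≤ 2 * ζ * Z ^ 210 * (Z ^ 2 * S) := by gcongr
          _ ≤ _ := by gcongr
      have c2 : 1 ≤ ζ * Z ^ 212 := one_le_mul_of_one_le_of_one_le hζ1 (one_le_pow₀ hZ1)
      have c3 := mul_le_mul_of_nonneg_right c2 hS'.le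
      linarith
    calc _ ≤ 2 * (2 / (ζ * Z ^ 217) * (Z ^ 4 * x * (5 * ζ * Z ^ 212 * S'))) := by gcongr
      _ = 20 / Z * (x * S') := by field_simp; ring
      _ ≤ 1 / 4 * (x * S') := by
        refine mul_le_mul_of_nonneg_right ?_ (by positivity)
        rw [div_le_iff₀ hZ0]; linarith
      _ = _ := by ring
  have : 0 < x * S' := by positivity
  generalize ((ζ * Z ^ 217) ^ 2 + 1) * M * m ^ 2 = q at hD a7
  generalize 2 / (ζ * Z ^ 217) * (Z ^ 4 * x * (S' + ζ * (Z ^ 210 * u) * (2 * s) * w)) = q' at hD a8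
  linarith

theorem sparse {Z Z₁ Λ N m ζ s L : ℝ} (hZ : 10 ^ 20 ≤ Z) (hG : GProp Z N) (hlog : LogB Z₁ N)
    (h₁ : 1 ≤ Z₁) (hΛ : 1 ≤ Λ) (hz : 10 ^ 12 * Λ * Z₁ ≤ Z) (hm : Z ^ 40 ≤ m) (hN : m ^ 6 ≤ N)
    (hζ : Z ^ 4 ≤ ζ) (hζ' : ζ ≤ Z ^ 5) (h : RB (Z ^ 201 * m ^ 4) m ζ) {A B : Finset V3}
    (hA : (A.card : ℝ) ≤ m) (hB : (B.card : ℝ) ≤ m) (hs : 0 < s) (h1 : m ^ 2 ≤ s ^ 3)
    {G : Finset (V3 → V3)} {Y Y' : (V3 → V3) → Finset V3} (hF : Fam A B ζ s G Y)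
    (hY : ∀ g ∈ G, ((Y g).card : ℝ) ≤ 2 * s) {W₀ : Finset V6}
    (hY' : ∀ g ∈ G, Y' g ⊆ Y g ∧ s ≤ Λ * (Y' g).card ∧ ∀ p ∈ Y' g, (p, g p) ∈ W₀)
    (hW : (W₀.card : ℝ) ≤ L) (hL : 16 * Z ^ 901 * L ≤ G.card)
    (hM : m ^ 4 ≤ Z * (G.card * s ^ 3)) : False := by
  have hZ1 : 1 ≤ Z := le_trans (by norm_num) hZ
  have hZ0 : 0 < Z := by linarith
  have hm1 : 1 ≤ m := le_trans (one_le_pow₀ hZ1) hm
  have hm0 : 0 < m := by linarith
  have hζ1 : Z ≤ ζ := le_trans (le_self_pow₀ hZ1 (by norm_num)) hζ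
  have hlog' : LogB Z N := fun k hk => (hlog k hk).trans (le_trans (le_mul_of_one_le_left
    (by linarith) (one_le_mul_of_one_le_of_one_le (by norm_num) hΛ)) hz)
  have hG0 : (0 : ℝ) < G.card := by
    refine lt_of_le_of_ne (Nat.cast_nonneg _) fun e => ?_
    rw [← e, zero_mul, mul_zero] at hM
    linarith [pow_pos hm0 4]
  have hGm : (G.card : ℝ) ≤ Z ^ 201 * m ^ 2 := by
    have b1 := h A B hA hB s hs h1 G Y hF
    have b2 := mul_le_mul_of_nonneg_left h1 hG0.le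
    refine le_of_mul_le_mul_right ?_ (pow_pos hm0 2)
    linarith
  obtain ⟨x, W, X, hP, hx⟩ := spA hZ hG hlog h₁ hΛ hz hm hN hζ hA hB hs h1 hF hY hY' hW
    (Finset.card_pos.1 (by exact_mod_cast hG0)) hL hGm
  have hs2 : Z ^ 2 ≤ s := by
    refine (pow_le_pow_iff_left₀ (by positivity) hs.le (by norm_num : 3 ≠ 0)).1 ?_
    refine le_trans ?_ h1
    calc (Z ^ 2) ^ 3 = Z ^ 6 := by ring
      _ ≤ Z ^ 80 := pow_le_pow_right₀ hZ1 (by norm_num)
      _ = (Z ^ 40) ^ 2 := by ring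
      _ ≤ _ := by gcongr
  have hs3 : m ≤ s ^ 2 := by
    refine (pow_le_pow_iff_left₀ hm0.le (by positivity) (by norm_num : 3 ≠ 0)).1 ?_
    calc m ^ 3 ≤ m ^ 4 := pow_le_pow_right₀ hm1 (by norm_num)
      _ = (m ^ 2) ^ 2 := by ring
      _ ≤ (s ^ 3) ^ 2 := by gcongr
      _ = _ := by ring
  have hx6 : Z ^ 6 * s ≤ x :=
    le_trans (mul_le_mul_of_nonneg_right (pow_le_pow_right₀ hZ1 (by norm_num)) hs.le) hx
  have hx4 : 4 * s ≤ x := by
    refine le_trans ?_ hx6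
    gcongr
    exact le_trans (by linarith) (le_self_pow₀ hZ1 (by norm_num))
  have hx0 : (0 : ℝ) < x := by linarith
  set u := √(x * s) with hu
  have hu0 : 0 < u := Real.sqrt_pos.2 (by positivity)
  have huu : u ^ 2 = x * s := Real.sq_sqrt (by positivity)
  have hZ2 : 8 ≤ Z ^ 2 := le_trans (by linarith) (le_self_pow₀ hZ1 (by norm_num : 2 ≠ 0))
  have hxs : 4 * s * s ≤ x * s := mul_le_mul_of_nonneg_right hx4 hs.le
  have hus : 2 * s ≤ u := by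
    refine (pow_le_pow_iff_left₀ (by positivity) hu0.le two_ne_zero).1 ?_
    rw [huu]; linarith
  have he8 : 8 * Z ^ 2 ≤ (ζ * Z ^ 217) ^ 2 := by
    have b1 : Z * Z ≤ ζ * Z ^ 217 :=
      mul_le_mul hζ1 (le_self_pow₀ hZ1 (by norm_num : 217 ≠ 0)) hZ0.le (by linarith)
    have b2 : (Z * Z) ^ 2 ≤ (ζ * Z ^ 217) ^ 2 := by gcongr
    have b3 : 8 * Z ^ 2 ≤ Z ^ 2 * Z ^ 2 := by gcongr
    generalize (ζ * Z ^ 217) ^ 2 = q at b2 ⊢
    linarith
  have he2 : 2 ≤ ζ * Z ^ 217 := by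
    have := le_mul_of_one_le_right (by linarith : 0 ≤ ζ) (one_le_pow₀ (n := 217) hZ1)
    linarith
  have hB' := fun w (hw : w ∈ W) => P054.critB hZ hA hF hY hP hs2 hx6 h1 he8 hw
  choose! H hH1 hH2 hH3 hH4 using hB'
  have hu1 : u ≤ Z ^ 210 * u := le_mul_of_one_le_left hu0.le (one_le_pow₀ hZ1)
  have hu2 : u ^ 2 ≤ (Z ^ 210 * u) ^ 2 := pow_le_pow_left₀ hu0.le hu1 2
  have hζu : Z ^ 210 * u ≤ ζ * (Z ^ 210 * u) := le_mul_of_one_le_left (by positivity) (by linarith)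
  have hC0 := P054.critC h hA hB (by linarith) (u := Z ^ 210 * u)
  have hD0 := fun H' a => P054.critD (e := ζ * Z ^ 217) (k := ζ * (Z ^ 210 * u)) hZ hG hlog' hA hB
    hF hY hP H' a he2 hs.le
  have hE := fun S S' => sp_num (w := W.card) (S := S) (S' := S') hZ hm1 hζ hζ' hs h1 hx hu0 huu
    hG0.le hM hP.big
  generalize Z ^ 210 * u = u' at hu1 hu2 hζu hC0 hD0 hE
  obtain ⟨H', hH', hC⟩ := hC0 (by linarith) (by linarith) (h1.trans (by gcongr; linarith)) W hP.sub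
    H hH1
  have hWne : W.Nonempty := by
    rw [Finset.nonempty_iff_ne_empty]
    rintro rfl
    have b1 := hP.big
    simp only [Finset.card_empty, Nat.cast_zero, mul_zero] at b1
    linarith [mul_pos hG0 hs]
  have hxN : (x : ℝ) ≤ N := by
    obtain ⟨w, hw⟩ := hWne
    have b1 := Finset.card_le_card (hP.subG w hw)
    rw [hP.card w hw] at b1
    have b2 := hF.card_le (by linarith) hs
    have b3 : (x : ℝ) ≤ (A.card : ℝ) ^ 3 * (B.card : ℝ) ^ 3 := by exact_mod_cast b1.trans b2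
    refine b3.trans (le_trans ?_ hN)
    rw [show m ^ 6 = m ^ 3 * m ^ 3 by ring]
    gcongr
  have hD := hD0 H'
    (fun w hw => ⟨(hH' w hw).1.trans (hH1 w hw), (hH2 w hw).mono (Finset.coe_subset.2 (hH' w hw).1),
      (hH' w hw).2.1, (hH' w hw).2.2, fun v hv => hH4 w hw v ((hH' w hw).1 hv)⟩)
    (by linarith) (by linarith)
    (by
      rw [mul_pow]
      have : 2 ≤ ζ ^ 2 :=
        le_trans (by linarith) (le_self_pow₀ (by linarith : 1 ≤ ζ) (by norm_num : 2 ≠ 0))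
      have := mul_le_mul_of_nonneg_right this (sq_nonneg u')
      linarith)
    (le_trans (by
      have : 2 ≤ m ^ 4 := by
        have b1 : Z ≤ m := le_trans (le_self_pow₀ hZ1 (by norm_num)) hm
        have b2 := le_self_pow₀ hm1 (by norm_num : 4 ≠ 0)
        linarith
      rw [show m ^ 6 = m ^ 4 * m ^ 2 by ring]
      gcongr) hN) hxN
  have hS : W.card * (s * u) ≤ Z ^ 2 * ∑ w ∈ W, ((H w).card : ℝ) := by
    rw [Finset.mul_sum]
    have := Finset.card_nsmul_le_sum W (fun w => Z ^ 2 * ((H w).card : ℝ)) (s * u) (fun w hw => by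
      refine (pow_le_pow_iff_left₀ (by positivity) (by positivity) two_ne_zero).1 ?_
      have := hH3 w hw
      rw [mul_pow, huu]
      linarith)
    rwa [nsmul_eq_mul] at this
  exact hE _ _ hS hC hD

end Vale.Agent.P054S
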