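import Vale.Agent.P054S.RIter
import Vale.Agent.P054S.RDens
import Vale.Agent.P054S.RSpB
import Vale.Agent.P054S.RLocA

/-!
The local theorem.  Q = 32 ^ 2612, K from iter, c from dens_mdl, Z₀ = K c⁴.  Cp.col and Fm.fam give Fam (ζ w ≤ Z⁵ w ≤ σ by cubes).
If Z ^ 402 t² ≤ σ³ use Env.rb at m = t.  Else split G into translations (trans_le, σ ≤ t when G is not empty) and the rest G1.  If
500² t⁶ < |G1|² σ³: Fm.exact, loc_md, dens_mdl (Md = c M), exists_j, iter with L = t², r = σ, W = A ×ˢ B ((4 Q) ^ j ≤ (32 ^ j) ^ 2613 ≤ Z ^ 2613,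
K c⁴ ≤ Z), then sparse with m = t, s = σ, Λ = 4 ^ j ≤ 32 ^ j (Env.hz), L = |W'| ≤ t² / Z ^ 1306; |G1| σ³ ≥ t⁴ and 32 ^ j ≤ Z give hM,
and then |G'| ≥ t² / Z ^ 403 gives hL.  Finally (a + b)² ≤ 2 a² + 2 b².
-/

namespace Vale.Agent.P054S

open MvPolynomial Vale.Agent.P054A Sum
open Vale.Agent.P054 (V3 V6 Mot Fam ND RB GProp LogB Col Pins)
open scoped Classical

theorem RLoc_pow (j : ℕ) : ((32 : ℝ) ^ 2612) ^ j = ((32 ^ j) ^ 2) ^ 1306 ∧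
    (4 * (32 : ℝ) ^ 2612) ^ j ≤ (32 ^ j) ^ 2613 := by
  refine ⟨by simp only [← pow_mul]; exact congrArg _ (by omega), ?_⟩
  rw [← pow_mul, mul_comm j, pow_mul, pow_succ' _ 2612]
  exact pow_le_pow_left₀ (by positivity) (mul_le_mul_of_nonneg_right (by norm_num) (by positivity)) j

theorem RLoc_L {Z T σ g x : ℝ} (hZ : 10 ^ 20 ≤ Z) (hT : 0 < T) (hg : 0 ≤ g) (hx : 0 ≤ x)
    (h1 : T ^ 4 ≤ Z * (g * σ ^ 3)) (h2 : σ ^ 3 ≤ Z ^ 402 * T ^ 2) (h3 : x * Z ^ 1306 ≤ T ^ 2) :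
    16 * Z ^ 901 * x ≤ g := by
  have h0 : 0 < Z := by linarith
  have h4 : T ^ 2 ≤ Z ^ 403 * g := le_of_mul_le_mul_right (a := T ^ 2) (by
    calc T ^ 2 * T ^ 2 = T ^ 4 := by ring
      _ ≤ Z * (g * (Z ^ 402 * T ^ 2)) := h1.trans (by gcongr)
      _ = _ := by ring) (by positivity)
  have h5 : Z ^ 2 * Z ^ 901 * x ≤ g := le_of_mul_le_mul_left (a := Z ^ 403) (by
    calc Z ^ 403 * (Z ^ 2 * Z ^ 901 * x) = x * Z ^ 1306 := by ring
      _ ≤ _ := h3.trans h4) (by positivity)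
  refine le_trans ?_ h5
  gcongr
  nlinarith

theorem loc : ∃ K Z₀ : ℝ, 1 ≤ K ∧ ∀ (Z Z₁ ζ N : ℝ) (t w : ℕ) (A B : Finset V3), Z₀ ≤ Z →
    Env Z Z₁ ζ N t → A.card ≤ t → B.card ≤ t → Cp A w → Cp B w → 1 ≤ w → Z ^ 4100 ≤ t →
    (Z ^ 700 * w) ^ 3 ≤ (t : ℝ) ^ 2 → ∀ σ : ℝ, 0 < σ → K * (t : ℝ) ^ 2 ≤ σ ^ 3 →
      ∀ G Y, Fm A B σ G Y → (G.card : ℝ) ^ 2 * σ ^ 3 ≤ 1000 ^ 2 * (t : ℝ) ^ 6 := by
  obtain ⟨K, hK, H⟩ := iter (32 ^ 2612) ((by norm_num : (64 : ℝ) ≤ 32 ^ 2).trans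
    (pow_le_pow_right₀ (by norm_num) (by norm_num)))
  obtain ⟨c, hc, hD⟩ := dens_mdl
  refine ⟨K, K * c ^ 4, hK, fun Z Z₁ ζ N t w A B hZ₀ E hA hB cA cB hw ht hwt σ hσ hKσ G Y hF => ?_⟩
  have hZ := E.hZ
  have z1 : 1 ≤ Z := by linarith
  have t1 : (1 : ℝ) ≤ t := (one_le_pow₀ z1).trans ht
  have hA' : (A.card : ℝ) ≤ t := by exact_mod_cast hA
  have hB' : (B.card : ℝ) ≤ t := by exact_mod_cast hB
  have hAB : (A.card : ℝ) * B.card ≤ (t : ℝ) ^ 2 := by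
    rw [sq]
    gcongr
  have h3 : (t : ℝ) ^ 2 ≤ σ ^ 3 := (le_mul_of_one_le_left (by positivity) hK).trans hKσ
  have s1 : 1 ≤ σ := (one_le_pow_iff_of_nonneg hσ.le three_ne_zero).1 ((one_le_pow₀ t1).trans h3)
  have fam : ∀ {G Y}, Fm A B σ G Y → Fam A B ζ σ G Y := fun h =>
    h.fam (w := w) ((by positivity : 0 ≤ Z ^ 4).trans E.ζ1)
      (fun T hT hc => by exact_mod_cast cA.col hw hT hc)
      ((mul_le_mul_of_nonneg_right (E.ζ2.trans (pow_le_pow_right₀ z1 (by norm_num)))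
        w.cast_nonneg).trans (le_of_pow_le_pow_left₀ three_ne_zero hσ.le (hwt.trans h3)))
  have rb := E.rb t (by positivity) le_rfl
  have t6 : (0 : ℝ) ≤ (t : ℝ) ^ 6 := by positivity
  rcases le_total (Z ^ 402 * (t : ℝ) ^ 2) (σ ^ 3) with h4 | h4
  · have h5 := rb A B hA' hB' σ hσ h3 G Y (fam hF)
    have h6 : (G.card : ℝ) ^ 2 * σ ^ 3 ≤ (t : ℝ) ^ 6 := le_of_mul_le_mul_right (a := σ ^ 3) (by
      calc (G.card : ℝ) ^ 2 * σ ^ 3 * σ ^ 3 = (G.card * σ ^ 3) ^ 2 := by ring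
        _ ≤ (Z ^ 201 * (t : ℝ) ^ 4) ^ 2 := by gcongr
        _ = (t : ℝ) ^ 6 * (Z ^ 402 * (t : ℝ) ^ 2) := by ring
        _ ≤ _ := by gcongr) (by positivity)
    linarith
  rcases G.eq_empty_or_nonempty with rfl | ⟨g₀, hg₀⟩
  · simp
  have st : σ ≤ t := (hF g₀ hg₀).2.2.2.trans
    ((Nat.cast_le.2 (Finset.card_le_card (hF g₀ hg₀).2.1)).trans hA')
  have sub : ∀ (p : (V3 → V3) → Prop) [DecidablePred p], Fm A B σ (G.filter p) Y := fun p _ =>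
    hF.mono (Finset.filter_subset _ _) fun g hg => (hF g (Finset.mem_filter.1 hg).1).2.2.2
  have a0 : ((G.filter fun g => ¬NT g).card : ℝ) ^ 2 * σ ^ 3 ≤ (t : ℝ) ^ 6 := by
    have h5 := (trans_le (sub fun g => ¬NT g) fun g hg => (Finset.mem_filter.1 hg).2).trans hAB
    calc _ = (((G.filter fun g => ¬NT g).card : ℝ) * σ) ^ 2 * σ := by ring
      _ ≤ ((t : ℝ) ^ 2) ^ 2 * t := by gcongr
      _ = (t : ℝ) ^ 5 := by ring
      _ ≤ _ := pow_le_pow_right₀ t1 (by norm_num)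
  have a1 : ((G.filter NT).card : ℝ) ^ 2 * σ ^ 3 ≤ 500 ^ 2 * (t : ℝ) ^ 6 := by
    refine le_of_not_gt fun h5 => ?_
    obtain ⟨Y₁, f1, e1⟩ := (sub NT).exact
    obtain ⟨M, m1, m2, m3⟩ := loc_md hZ hw ht hwt hσ h3
    obtain ⟨j, j1, j2⟩ := exists_j hZ
    obtain ⟨p1, p2⟩ := RLoc_pow j
    rw [mul_comm 2, pow_mul] at j1
    have j3 : 32 ^ j ≤ Z := le_of_pow_le_pow_left₀ two_ne_zero (by positivity)
      (j2.trans (by nlinarith))
    have c1 : (1 : ℝ) ≤ (c : ℝ) ^ 4 := one_le_pow₀ (by exact_mod_cast hc)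
    obtain ⟨G', g1, W', -, Y', g2, g3, g4⟩ := H j A B t (c * M) ⌈σ⌉₊ ((t : ℝ) ^ 2) σ _ Y₁ (A ×ˢ B)
      hA subset_rfl (hD A B w t M cA cB hA hB m1 m2 (hw.trans m1))
      (fun g hg => ⟨(f1 g hg).1, (Finset.mem_filter.1 hg).2, e1 g hg, fun p hp =>
        Finset.mem_product.2 ⟨(f1 g hg).2.1 hp, (f1 g hg).2.2.1 p hp⟩⟩)
      (by positivity) hσ (Nat.le_ceil σ) (by rwa [Finset.card_product, Nat.cast_mul]) hKσ
      (by rw [← pow_mul]; exact h5.le) (le_trans (by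
        calc _ ≤ K * (((c : ℝ) * M) ^ 4 + (c : ℝ) ^ 4 * (t : ℝ) ^ 2) * Z ^ 2613 := by
              refine mul_le_mul ?_ (p2.trans (by gcongr)) (by positivity) (by positivity)
              rw [Nat.cast_mul]
              gcongr
              exact le_mul_of_one_le_left (by positivity) c1
          _ = K * (c : ℝ) ^ 4 * Z ^ 2613 * ((M : ℝ) ^ 4 + (t : ℝ) ^ 2) := by ring
          _ ≤ Z * Z ^ 2613 * ((M : ℝ) ^ 4 + (t : ℝ) ^ 2) := by gcongr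
          _ ≤ _ := by
              rw [← pow_succ']
              gcongr
              norm_num) m3)
    have g5 : ((G.filter NT).card : ℝ) ≤ Z * G'.card :=
      le_trans (by exact_mod_cast g2) (mul_le_mul_of_nonneg_right j3 (Nat.cast_nonneg _))
    have hM : (t : ℝ) ^ 4 ≤ Z * (G'.card * σ ^ 3) := by
      refine (le_of_pow_le_pow_left₀ two_ne_zero (b := (G.filter NT).card * σ ^ 3) (by positivity)
        ?_).trans (by rw [← mul_assoc]; gcongr)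
      calc ((t : ℝ) ^ 4) ^ 2 = (t : ℝ) ^ 6 * (t : ℝ) ^ 2 := by ring
        _ ≤ ((G.filter NT).card : ℝ) ^ 2 * σ ^ 3 * σ ^ 3 := by
          gcongr
          linarith
        _ = _ := by ring
    have l1 : (4 : ℝ) ^ j ≤ 32 ^ j := by
      gcongr
      norm_num
    have z2 := E.h1
    refine sparse hZ E.hG E.hl z2 (one_le_pow₀ (by norm_num : (1 : ℝ) ≤ 4)) ?_
      ((pow_le_pow_right₀ z1 (by norm_num)).trans ht) E.hN E.ζ1 E.ζ2 rb hA' hB' hσ h3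
      (fam (f1.mono g1 fun g hg => (f1 g (g1 hg)).2.2.2)) (fun g hg => ?_) g4 le_rfl
      (RLoc_L hZ (by linarith) (Nat.cast_nonneg _) (Nat.cast_nonneg _) hM h4
        (le_trans ?_ g3)) hM
    · refine le_of_pow_le_pow_left₀ two_ne_zero (by positivity) ?_
      calc (10 ^ 12 * 4 ^ j * Z₁) ^ 2 ≤ (10 ^ 12 * 32 ^ j * Z₁) ^ 2 := by gcongr
        _ = (32 ^ j) ^ 2 * (10 ^ 12 * Z₁) ^ 2 := by ring
        _ ≤ 1024 * Z * (10 ^ 12 * Z₁) ^ 2 := by gcongr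
        _ ≤ 10 ^ 4 * Z * (10 ^ 12 * Z₁) ^ 2 := by
          gcongr
          norm_num
        _ = Z * (10 ^ 14 * Z₁) ^ 2 := by ring
        _ ≤ Z * Z := by
          gcongr
          exact E.hz
        _ = _ := by ring
    · rw [e1 g (g1 hg)]
      linarith [Nat.ceil_lt_add_one hσ.le]
    · rw [p1]
      gcongr
  rw [← Finset.card_filter_add_card_filter_not (s := G) NT, Nat.cast_add]
  nlinarith [mul_nonneg (sq_nonneg (((G.filter NT).card : ℝ) - (G.filter fun g => ¬NT g).card))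
    (pow_pos hσ 3).le]

end Vale.Agent.P054S
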