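import Vale.Agent.P054S.RDefs

/-!
Sparse pins: copy the proof of P054.critA (Vale/Agent/P054/CritA.lean).  Changes: good g = the points of Y' g with
|Y' g| ≤ 10 ^ 12 dirs (Y' g) p (beck for Y' g: ND (10 ^ 12) (Y' g) from ND ζ (Y g), |Y g| ≤ 2 s ≤ 2 Λ |Y' g|); W0 = filter of W₀ ∩ A ×ˢ B;
dyadic with LogB Z₁ (loss 4 Λ Z₁ ≤ 4 Z); study with LogB Z N (Z₁ ≤ Z); |W₁| ≤ L gives |G| s ≤ 16 Z L x, so Z ^ 900 s ≤ x by hL; dirs_mono and
10 ^ 12 Λ ≤ Z for Pins.mem.  New ca_num: first case as before; second: x³ ≥ Z ^ 2700 s³ ≥ Z ^ 2700 m² against |G| ≤ Z ^ 201 m²; third: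
s x ≤ 10240 Z ^ 21 m against s x ≥ Z ^ 900 s² ≥ Z ^ 900 m.
-/

namespace Vale.Agent.P054S

open MvPolynomial Vale.Agent.P054A Sum
open Vale.Agent.P054 (V3 V6 Mot Fam ND RB GProp LogB Col Pins)
open scoped Classical

section

open Finset Module
open Vale.Agent.P054 (dirs Sub pt beck dyadic study dirs_mono)

theorem RSpA_num {Z m ζ s x M β : ℝ} (hZ : 10 ^ 20 ≤ Z) (hm : 1 ≤ m) (hζ : Z ^ 4 ≤ ζ)
    (hs : 0 < s) (h1 : m ^ 2 ≤ s ^ 3) (hM0 : 0 < M) (hM : M ≤ Z ^ 201 * m ^ 2) (hx0 : 0 < x)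
    (hx : Z ^ 900 * s ≤ x) (hβ : M * s < 40 * Z * β)
    (h : β ≤ 8 * Z ^ 2 * (2 * s / ζ) * M ∨ (x / Z ^ 9) ^ 3 ≤ 16 * Z ^ 4 * M ∨
      β * (x / Z ^ 9) ^ 2 ≤ 64 * Z ^ 2 * (4 * x) * m * M) : False := by
  have hZ1 : 1 ≤ Z := le_trans (by norm_num) hZ
  have hZ0 : 0 < Z := by linarith
  have hm0 : 0 < m := by linarith
  have hζ0 : 0 < ζ := lt_of_lt_of_le (by positivity) hζ
  rcases h with h | h | h
  · have b1 : 2 * s / ζ ≤ 2 * s / Z ^ 4 := div_le_div_of_nonneg_left (by linarith) (by positivity) hζ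
    have b2 : β ≤ 8 * Z ^ 2 * (2 * s / Z ^ 4) * M := h.trans (by gcongr)
    have b3 : 40 * Z * β ≤ 40 * Z * (8 * Z ^ 2 * (2 * s / Z ^ 4) * M) := by gcongr
    have b4 : 40 * Z * (8 * Z ^ 2 * (2 * s / Z ^ 4) * M) = 640 / Z * (M * s) := by
      field_simp; ring
    have b5 : 640 / Z * (M * s) ≤ 1 * (M * s) := by
      refine mul_le_mul_of_nonneg_right ?_ (by positivity)
      rw [div_le_iff₀ hZ0]; linarith
    linarith
  · rw [div_pow, div_le_iff₀ (by positivity)] at h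
    have b1 : (Z ^ 900 * s) ^ 3 ≤ x ^ 3 := by gcongr
    have b2 : 16 * Z ^ 4 * M * (Z ^ 9) ^ 3 ≤ 16 * Z ^ 4 * (Z ^ 201 * m ^ 2) * (Z ^ 9) ^ 3 := by
      gcongr
    have b3 : Z ^ 2700 * m ^ 2 ≤ Z ^ 2700 * s ^ 3 := by gcongr
    have b7 : 17 * (Z ^ 232 * m ^ 2) ≤ Z ^ 2468 * (Z ^ 232 * m ^ 2) := by
      gcongr
      exact le_trans (by linarith) (le_self_pow₀ hZ1 (by norm_num))
    have b8 : 0 < Z ^ 232 * m ^ 2 := by positivity
    have e1 : (Z ^ 900 * s) ^ 3 = Z ^ 2700 * s ^ 3 := by ring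
    have e2 : 16 * Z ^ 4 * (Z ^ 201 * m ^ 2) * (Z ^ 9) ^ 3 = 16 * (Z ^ 232 * m ^ 2) := by ring
    have e3 : Z ^ 2468 * (Z ^ 232 * m ^ 2) = Z ^ 2700 * m ^ 2 := by ring
    linarith
  · rw [div_pow, ← mul_div_assoc, div_le_iff₀ (by positivity)] at h
    have b1 : M * s * x ^ 2 ≤ 40 * Z * β * x ^ 2 := by gcongr
    have b2 : 40 * Z * (β * x ^ 2) ≤ 40 * Z * (64 * Z ^ 2 * (4 * x) * m * M * (Z ^ 9) ^ 2) := by
      gcongr
    have b3 : (M * x) * (s * x) ≤ (M * x) * (10240 * Z ^ 21 * m) := by linarith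
    have b4 := le_of_mul_le_mul_left b3 (by positivity)
    have b5 : m ≤ s ^ 2 := by
      by_contra hc
      push Not at hc
      have c1 : (s ^ 2) ^ 3 < m ^ 3 := by gcongr
      have c2 : (m ^ 2) ^ 2 ≤ (s ^ 3) ^ 2 := by gcongr
      have c3 : m ^ 3 ≤ m ^ 4 := pow_le_pow_right₀ hm (by norm_num)
      have e1 : (s ^ 2) ^ 3 = (s ^ 3) ^ 2 := by ring
      have e2 : (m ^ 2) ^ 2 = m ^ 4 := by ring
      linarith
    have b6 : s * (Z ^ 900 * s) ≤ s * x := by gcongr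
    have b9 : Z ^ 900 * m ≤ Z ^ 900 * s ^ 2 := by gcongr
    have b7 : 10241 * (Z ^ 21 * m) ≤ Z ^ 879 * (Z ^ 21 * m) := by
      gcongr
      exact le_trans (by linarith) (le_self_pow₀ hZ1 (by norm_num))
    have b8 : 0 < Z ^ 21 * m := by positivity
    have e1 : s * (Z ^ 900 * s) = Z ^ 900 * s ^ 2 := by ring
    have e3 : Z ^ 879 * (Z ^ 21 * m) = Z ^ 900 * m := by ring
    linarith

theorem spA {Z Z₁ Λ N m ζ s L : ℝ} (hZ : 10 ^ 20 ≤ Z) (hG : GProp Z N) (hlog : LogB Z₁ N)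
    (h₁ : 1 ≤ Z₁) (hΛ : 1 ≤ Λ) (hz : 10 ^ 12 * Λ * Z₁ ≤ Z) (hm : Z ^ 40 ≤ m) (hN : m ^ 6 ≤ N)
    (hζ : Z ^ 4 ≤ ζ) {A B : Finset V3} (hA : (A.card : ℝ) ≤ m) (hB : (B.card : ℝ) ≤ m) (hs : 0 < s)
    (h1 : m ^ 2 ≤ s ^ 3) {G : Finset (V3 → V3)} {Y Y' : (V3 → V3) → Finset V3}
    (hF : Fam A B ζ s G Y) (hY : ∀ g ∈ G, ((Y g).card : ℝ) ≤ 2 * s) {W₀ : Finset V6}
    (hY' : ∀ g ∈ G, Y' g ⊆ Y g ∧ s ≤ Λ * (Y' g).card ∧ ∀ p ∈ Y' g, (p, g p) ∈ W₀)
    (hW : (W₀.card : ℝ) ≤ L) (hne : G.Nonempty) (hL : 16 * Z ^ 901 * L ≤ G.card)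
    (hM : (G.card : ℝ) ≤ Z ^ 201 * m ^ 2) :
    ∃ x W X, Pins Z s A B G Y x W X ∧ Z ^ 900 * s ≤ x := by
  have hZ1 : 1 ≤ Z := le_trans (by norm_num) hZ
  have hZ0 : 0 < Z := by linarith
  have hm1 : 1 ≤ m := le_trans (one_le_pow₀ hZ1) hm
  have hm0 : 0 < m := by linarith
  have hζ1 : Z ≤ ζ := le_trans (le_self_pow₀ hZ1 (by norm_num)) hζ
  have hΛ0 : 0 < Λ := by linarith
  have hΛZ : 10 ^ 12 * Λ ≤ Z :=
    le_trans (le_mul_of_one_le_right (by positivity) h₁) hz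
  have hΛZ₁ : Λ * Z₁ ≤ Z := by
    have : 0 ≤ Λ * Z₁ := by positivity
    nlinarith
  have hZ₁Z : Z₁ ≤ Z := le_trans (le_mul_of_one_le_left (by linarith) hΛ) hΛZ₁
  have hlogZ : LogB Z N := fun k hk => (hlog k hk).trans hZ₁Z
  have hG0 : (0 : ℝ) < G.card := by exact_mod_cast card_pos.2 hne
  have hND : ∀ g ∈ G, ND (10 ^ 12) (Y' g) := by
    intro g hg T hT hc
    have a1 := (hF g hg).2.2.2.1 T (hT.trans (hY' g hg).1) hc
    have a2 := hY g hg
    have a3 := (hY' g hg).2.1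
    have a4 : 2 * Z ≤ ζ := by
      refine le_trans ?_ hζ
      rw [show Z ^ 4 = Z ^ 3 * Z by ring]
      gcongr
      exact le_trans (by linarith) (le_self_pow₀ hZ1 (by norm_num))
    have a5 : (2 * (10 ^ 12 * Λ)) * (T.card : ℝ) ≤ ζ * T.card :=
      mul_le_mul_of_nonneg_right (by linarith) (Nat.cast_nonneg _)
    have a6 : Λ * (10 ^ 12 * (T.card : ℝ)) ≤ Λ * (Y' g).card := by linarith
    exact le_of_mul_le_mul_left a6 hΛ0
  set good : (V3 → V3) → Finset V3 :=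
    fun g => (Y' g).filter fun p => ((Y' g).card : ℝ) ≤ 10 ^ 12 * dirs (Y' g) p with hgood
  set X₀ : V6 → Finset (V3 → V3) := fun w => G.filter fun g => w.1 ∈ good g ∧ g w.1 = w.2 with hX₀
  set V₀ := (A ×ˢ B).filter fun w => 1 ≤ (X₀ w).card with hV₀
  have hVW : V₀ ⊆ W₀ := by
    intro w hw
    obtain ⟨g, hg⟩ := card_pos.1 (mem_filter.1 hw).2
    obtain ⟨b1, b2, b3⟩ := mem_filter.1 hg
    have := (hY' g b1).2.2 _ (mem_filter.1 b2).1
    rwa [b3] at this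
  have s1 : G.card * s ≤ 4 * Λ * ∑ w ∈ V₀, ((X₀ w).card : ℝ) := by
    have e1 : ∑ w ∈ V₀, ((X₀ w).card : ℝ) = ∑ w ∈ A ×ˢ B, ((X₀ w).card : ℝ) := by
      refine sum_filter_of_ne fun w _ h => ?_
      exact Nat.one_le_iff_ne_zero.2 fun e => h (by rw [e, Nat.cast_zero])
    have e2 : ∑ w ∈ A ×ˢ B, (X₀ w).card
        = ∑ g ∈ G, ((A ×ˢ B).filter fun w => w.1 ∈ good g ∧ g w.1 = w.2).card := by
      simp only [hX₀, card_filter]
      exact sum_comm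
    have e3 : ∀ g ∈ G,
        s ≤ 4 * Λ * (((A ×ˢ B).filter fun w => w.1 ∈ good g ∧ g w.1 = w.2).card : ℝ) := by
      intro g hg
      obtain ⟨-, a2, a3, a4, a5⟩ := hF g hg
      have b1 := beck le_rfl (hND g hg)
      have b2 : (good g).card ≤ ((A ×ˢ B).filter fun w => w.1 ∈ good g ∧ g w.1 = w.2).card := by
        refine card_le_card_of_injOn (fun p => (p, g p)) (fun p hp => ?_)
          (fun p _ q _ e => congrArg Prod.fst e)
        have hp' := (hY' g hg).1 (mem_filter.1 (mem_coe.1 hp)).1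
        exact mem_coe.2 (mem_filter.2 ⟨mem_product.2 ⟨a2 hp', a3 p hp'⟩, hp, rfl⟩)
      have b3 : (_ : ℝ) ≤ _ := Nat.cast_le.2 (b1.trans (Nat.mul_le_mul_left 4 b2))
      push_cast at b3
      have b4 := mul_le_mul_of_nonneg_left b3 hΛ0.le
      have b5 := (hY' g hg).2.1
      linarith
    rw [e1, ← Nat.cast_sum, e2, Nat.cast_sum, mul_sum]
    have := card_nsmul_le_sum G _ s e3
    rwa [nsmul_eq_mul] at this
  have hGN : (G.card : ℝ) ≤ N := by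
    have b2 := hF.card_le (by linarith) hs
    have b3 : (G.card : ℝ) ≤ (A.card : ℝ) ^ 3 * (B.card : ℝ) ^ 3 := by exact_mod_cast b2
    refine b3.trans (le_trans ?_ hN)
    rw [show m ^ 6 = m ^ 3 * m ^ 3 by ring]
    gcongr
  obtain ⟨a, ha1, ha⟩ := dyadic V₀ (fun w => (X₀ w).card) (fun w => ((X₀ w).card : ℝ)) hlog
    (fun w hw => ⟨(mem_filter.1 hw).2,
      le_trans (Nat.cast_le.2 (card_le_card (filter_subset _ _))) hGN⟩)
    (fun w _ => Nat.cast_nonneg _)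
  set W₁ := V₀.filter fun w => a ≤ (X₀ w).card ∧ (X₀ w).card < 2 * a with hW₁
  set F₁ := ∑ w ∈ W₁, ((X₀ w).card : ℝ) with hF₁
  set x := (a + 1) / 2 with hx
  have hW₁s : W₁ ⊆ A ×ˢ B := (filter_subset _ _).trans (filter_subset _ _)
  have hAB : ((A ×ˢ B).card : ℝ) ≤ m ^ 2 := by
    rw [card_product, sq]; push_cast
    exact mul_le_mul hA hB (Nat.cast_nonneg _) hm0.le
  have hW₁m : (W₁.card : ℝ) ≤ m ^ 2 := le_trans (Nat.cast_le.2 (card_le_card hW₁s)) hAB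
  have hW₁c : (W₁.card : ℝ) ≤ L :=
    le_trans (Nat.cast_le.2 (card_le_card ((filter_subset _ _).trans hVW))) hW
  have hX4 : ∀ w ∈ W₁, ((X₀ w).card : ℝ) ≤ 4 * x := by
    intro w hw
    have := (mem_filter.1 hw).2.2
    have b : (X₀ w).card ≤ 4 * x := by omega
    exact_mod_cast b
  have hx0 : (0 : ℝ) < x := by
    have : 0 < x := by omega
    exact_mod_cast this
  have hF0 : 0 ≤ F₁ := sum_nonneg fun w _ => Nat.cast_nonneg _
  have s2 : G.card * s ≤ 4 * Z * F₁ := by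
    have b1 := mul_le_mul_of_nonneg_left ha (show 0 ≤ 4 * Λ by linarith)
    have b2 := mul_le_mul_of_nonneg_right hΛZ₁ hF0
    linarith
  have s3 : G.card * s ≤ 16 * Z * L * x := by
    have b1 := sum_le_card_nsmul W₁ _ _ hX4
    rw [nsmul_eq_mul] at b1
    have b2 : (W₁.card : ℝ) * (4 * x) ≤ L * (4 * x) := by gcongr
    have b3 : 4 * Z * F₁ ≤ 4 * Z * (L * (4 * x)) := by gcongr; exact b1.trans b2
    linarith
  have s4 : Z ^ 900 * s ≤ x := by
    have b1 := mul_le_mul_of_nonneg_left s3 (show 0 ≤ Z ^ 900 by positivity)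
    have b2 := mul_le_mul_of_nonneg_right hL hx0.le
    have e1 : Z ^ 900 * (16 * Z * L * x) = 16 * Z ^ 901 * L * x := by ring
    have b3 : G.card * (Z ^ 900 * s) ≤ G.card * (x : ℝ) := by linarith
    exact le_of_mul_le_mul_left b3 hG0
  have hs1 : 1 ≤ s := by
    by_contra hc
    push Not at hc
    have b1 : s ^ 3 < 1 := pow_lt_one₀ hs.le hc (by norm_num)
    have b2 := one_le_pow₀ (n := 2) hm1
    linarith
  have s5 : Z ^ 56 ≤ x :=
    le_trans (pow_le_pow_right₀ hZ1 (by norm_num))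
      (le_trans (le_mul_of_one_le_right (by positivity) hs1) s4)
  set bad : V6 → Finset (V3 → V3) := fun w => (X₀ w).filter fun g => ∃ l : Sub,
    finrank ℝ l = 2 ∧ pt g ≤ l ∧
      x / Z ^ 9 ≤ (((X₀ w).filter fun g' => pt g' ≤ l).card : ℝ) with hbad
  have hy1 : 16 * Z ^ 18 ≤ x := by
    refine le_trans ?_ s5
    rw [show Z ^ 56 = Z ^ 38 * Z ^ 18 by ring]
    gcongr
    exact le_trans (by linarith) (le_self_pow₀ hZ1 (by norm_num))
  have hst := study (a := 4 * x) (b := 2 * s / ζ) (y := x / Z ^ 9) hZ hG hlogZ A hA G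
    (fun g hg => (hF g hg).1) W₁ X₀ (fun w hw => (mem_product.1 (hW₁s hw)).1)
    (fun w hw => ⟨filter_subset _ _, hX4 w hw, fun g hg => (mem_filter.1 hg).2.2⟩)
    (fun g hg T hT h => by
      have b1 := (hF g hg).2.2.2.1 T
        (fun p hp => (hY' g hg).1 (mem_filter.1 (mem_filter.1 (h p hp).2).2.1).1) hT
      rw [le_div_iff₀ (by linarith)]
      linarith [hY g hg])
    (div_nonneg (by linarith) (by linarith))
    (by
      rw [div_pow, le_div_iff₀ (by positivity)]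
      have := mul_le_mul_of_nonneg_left hy1 hx0.le
      linarith)
    (by
      rw [le_div_iff₀ (by positivity)]
      have : Z ^ 9 ≤ Z ^ 18 := pow_le_pow_right₀ hZ1 (by norm_num)
      have : 0 < Z ^ 18 := by positivity
      linarith)
    (by
      rw [show 2 * (4 * (x : ℝ)) / (x / Z ^ 9) = 8 * Z ^ 9 by field_simp; norm_num]
      have b1 : 8 * Z ^ 9 ≤ m ^ 4 := by
        refine le_trans ?_ (hm.trans (le_self_pow₀ hm1 (by norm_num)))
        rw [show Z ^ 40 = Z ^ 31 * Z ^ 9 by ring]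
        gcongr
        exact le_trans (by linarith) (le_self_pow₀ hZ1 (by norm_num))
      refine le_trans ?_ hN
      rw [show m ^ 6 = m ^ 2 * m ^ 4 by ring]
      gcongr)
    ((le_self_pow₀ hm1 (by norm_num)).trans hN) (β := ∑ w ∈ W₁, ((bad w).card : ℝ)) rfl
  have s6 : 10 * ∑ w ∈ W₁, ((bad w).card : ℝ) ≤ F₁ := by
    by_contra hc
    push Not at hc
    refine RSpA_num hZ hm1 hζ hs h1 hG0 hM hx0 s4 ?_ hst
    have := mul_lt_mul_of_pos_left hc (show 0 < 4 * Z by linarith)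
    linarith
  set W₂ := W₁.filter fun w => 2 * (bad w).card ≤ (X₀ w).card with hW₂
  have hch : ∀ w ∈ W₂, ∃ T ⊆ X₀ w \ bad w, T.card = x := by
    intro w hw
    refine exists_subset_card_eq ?_
    rw [card_sdiff_of_subset (show bad w ⊆ X₀ w from filter_subset _ _)]
    have b1 := (mem_filter.1 hw).2
    have b2 := (mem_filter.1 (mem_filter.1 hw).1).2.1
    omega
  choose! X hX1 hX2 using hch
  have hX3 : ∀ w ∈ W₂, X w ⊆ X₀ w := fun w hw => (hX1 w hw).trans sdiff_subset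
  refine ⟨x, W₂, X, ⟨(filter_subset _ _).trans hW₁s,
    fun w hw => (hX3 w hw).trans (filter_subset _ _), hX2, fun w hw g hg => ?_,
    fun w hw l hl' => ?_, ?_⟩, s4⟩
  · obtain ⟨b1, b2, b3⟩ := mem_filter.1 (hX3 w hw hg)
    obtain ⟨b4, b5⟩ := mem_filter.1 b2
    refine ⟨(hY' g b1).1 b4, b3, (hY' g b1).2.1.trans ?_⟩
    have b6 : (dirs (Y' g) w.1 : ℝ) ≤ dirs (Y g) w.1 :=
      Nat.cast_le.2 (dirs_mono (hY' g b1).1 _)
    calc Λ * ((Y' g).card : ℝ) ≤ Λ * (10 ^ 12 * dirs (Y' g) w.1) := by gcongr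
      _ = (10 ^ 12 * Λ) * dirs (Y' g) w.1 := by ring
      _ ≤ Z * dirs (Y g) w.1 := by gcongr
  · by_contra hc
    push Not at hc
    have b1 : 0 < ((X w).filter fun g => pt g ≤ l).card := by
      rcases Nat.eq_zero_or_pos ((X w).filter fun g => pt g ≤ l).card with h | h
      · rw [h, Nat.cast_zero, mul_zero] at hc
        linarith
      · exact h
    obtain ⟨g, hg⟩ := card_pos.1 b1
    obtain ⟨b2, b3⟩ := mem_filter.1 hg
    refine (mem_sdiff.1 (hX1 w hw b2)).2 (mem_filter.2 ⟨hX3 w hw b2, l, hl', b3, ?_⟩)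
    rw [div_le_iff₀' (by positivity)]
    refine hc.le.trans ?_
    gcongr
    exact hX3 w hw
  · have b1 := sum_filter_add_sum_filter_not W₁ (fun w => 2 * (bad w).card ≤ (X₀ w).card)
      (fun w => ((X₀ w).card : ℝ))
    have b2 := sum_le_card_nsmul W₂ (fun w => ((X₀ w).card : ℝ)) _
      fun w hw => hX4 w (mem_filter.1 hw).1
    rw [nsmul_eq_mul] at b2
    have b3 : ∑ w ∈ W₁.filter (fun w => ¬ 2 * (bad w).card ≤ (X₀ w).card), ((X₀ w).card : ℝ)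
        ≤ ∑ w ∈ W₁, 2 * ((bad w).card : ℝ) := by
      refine le_trans (sum_le_sum fun w hw => ?_) (sum_le_sum_of_subset_of_nonneg
        (filter_subset _ _) fun w _ _ => mul_nonneg zero_le_two (Nat.cast_nonneg _))
      have := (not_le.1 (mem_filter.1 hw).2).le
      exact_mod_cast this
    rw [← mul_sum] at b3
    have b4 : F₁ ≤ 5 * (x * W₂.card) := by linarith
    have b5 := mul_le_mul_of_nonneg_left b4 (show 0 ≤ 4 * Z by linarith)
    linarith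

end

end Vale.Agent.P054S
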