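import Vale.Agent.P054S.RKill

/-!
A polynomial of low degree that vanishes on the planes of many motions.
H_line, H_plane: H_comap_le with the algebra map X l ↦ C (P l) + C (Q l) * X 0 (+ C (R l) * X 1), I = ⊥, s = 1; the comap of ⊥
lies in vanI S; H_anti, H_le_pow.  star_kill: G empty: F = 1.  Else star_fin with the edges (g, x, i), g ∈ G, x ∈ Y g,
i < j = 4 (D + 1), point pnt Λ x (lb (u g) (v g) i), classes a = (x, i) and b = g, P = ⊥.  An a class lies on the line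
b 1 = i of the flat of x (pnt_aff), a b class on a plane: fix x0 ∈ Y g, par, pnt_aff.  H ⊥ D = choose (D + 5) 5, and
(D + 1) ^ 5 ≤ 120 * choose (D + 5) 5.  The second alternative contradicts h1.  In the first one call (g, x) good if more than D
values i are captured (kill_line); at least |G| ρ / 4 good pairs; at least |G| / 8 members have more than D good x; kill_plane.
-/

namespace Vale.Agent.P054S

open MvPolynomial Vale.Agent.P054A Sum
open Vale.Agent.P054 (V3 V6 Mot Fam ND RB GProp LogB Col Pins)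
open scoped Classical

theorem RStar_eval {σ τ : Type} (f : σ → MvPolynomial τ ℂ) (w : τ → ℂ) (g : MvPolynomial σ ℂ) :
    eval w (aeval f g) = eval (fun l => eval w (f l)) g := by
  induction g using MvPolynomial.induction_on with
  | C a => simp
  | add p q hp hq => rw [map_add, map_add, map_add, hp, hq]
  | mul_X p i hp => rw [map_mul, map_mul, map_mul, hp, aeval_X, eval_X]

theorem RStar_H {σ τ : Type} [Fintype σ] [Fintype τ] (f : σ → MvPolynomial τ ℂ)
    (hf : ∀ l, (f l).totalDegree ≤ 1) {S : Set (σ → ℂ)}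
    (h : ∀ z ∈ S, ∃ w : τ → ℂ, z = fun l => eval w (f l)) (D : ℕ) :
    H (vanI S) D ≤ (D + 1) ^ Fintype.card τ := by
  have h1 := H_comap_le (aeval f : MvPolynomial σ ℂ →ₐ[ℂ] MvPolynomial τ ℂ) (s := 1)
    (fun i => by rw [aeval_X]; exact hf i) ⊥ D
  rw [one_mul] at h1
  refine (H_anti (fun g hg z hz => ?_) D).trans (h1.trans (H_le_pow _ _))
  obtain ⟨w, rfl⟩ := h z hz
  rw [Ideal.mem_comap, Ideal.mem_bot] at hg
  rw [← RStar_eval, hg, map_zero]

theorem RStar_deg {τ : Type} (a : ℂ) (i : τ) : (C a * X i : MvPolynomial τ ℂ).totalDegree ≤ 1 :=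
  (totalDegree_mul _ _).trans (by rw [totalDegree_C, totalDegree_X])

theorem RStar_deg0 {τ : Type} (a : ℂ) : (C a : MvPolynomial τ ℂ).totalDegree ≤ 1 := by
  rw [totalDegree_C]
  exact zero_le_one

theorem H_line {σ : Type} [Fintype σ] (P Q : σ → ℂ) {S : Set (σ → ℂ)}
    (h : ∀ z ∈ S, ∃ t : ℂ, z = P + t • Q) (D : ℕ) : H (vanI S) D ≤ D + 1 := by
  have h1 := RStar_H (τ := Fin 1) (fun l => C (P l) + C (Q l) * X 0)
    (fun l => (totalDegree_add _ _).trans (max_le (RStar_deg0 _) (RStar_deg _ _))) (S := S)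
    (fun z hz => by
      obtain ⟨t, rfl⟩ := h z hz
      exact ⟨fun _ => t, funext fun l => by simp [mul_comm]⟩) D
  simpa using h1

theorem H_plane {σ : Type} [Fintype σ] (P Q R : σ → ℂ) {S : Set (σ → ℂ)}
    (h : ∀ z ∈ S, ∃ t t' : ℂ, z = P + t • Q + t' • R) (D : ℕ) : H (vanI S) D ≤ (D + 1) ^ 2 := by
  have h1 := RStar_H (τ := Fin 2) (fun l => C (P l) + C (Q l) * X 0 + C (R l) * X 1)
    (fun l => (totalDegree_add _ _).trans (max_le
      ((totalDegree_add _ _).trans (max_le (RStar_deg0 _) (RStar_deg _ _))) (RStar_deg _ _)))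
    (S := S) (fun z hz => by
      obtain ⟨t, t', rfl⟩ := h z hz
      exact ⟨![t, t'], funext fun l => by simp [mul_comm]⟩) D
  simpa using h1

theorem RStar_sum {α : Type} (s : Finset α) (f : α → ℕ) (B D : ℕ) (h : ∀ x ∈ s, f x ≤ B) :
    ∑ x ∈ s, f x ≤ (s.filter fun x => D < f x).card * B + s.card * D := by
  rw [← Finset.sum_filter_add_sum_filter_not s (fun x => D < f x)]
  refine add_le_add ?_ ?_
  · exact Finset.sum_le_card_nsmul _ _ _ fun x hx => h x (Finset.mem_filter.1 hx).1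
  · refine (Finset.sum_le_card_nsmul _ _ D fun x hx => not_lt.1 (Finset.mem_filter.1 hx).2).trans ?_
    exact Nat.mul_le_mul_right _ (Finset.card_filter_le _ _)

theorem RStar_cls {ι α : Type} (E : Finset ι) (a : ι → α) (f : α → ℕ) (T : Finset α) (B : ℕ)
    (hT : ∀ e ∈ E, a e ∈ T) (h : ∀ e ∈ E, f (a e) ≤ B) : ∑ z ∈ E.image a, f z ≤ T.card * B := by
  refine (Finset.sum_le_card_nsmul _ _ B fun z hz => ?_).trans ?_
  · obtain ⟨e, he, rfl⟩ := Finset.mem_image.1 hz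
    exact h e he
  · refine Nat.mul_le_mul_right _ (Finset.card_le_card fun z hz => ?_)
    obtain ⟨e, he, rfl⟩ := Finset.mem_image.1 hz
    exact hT e he

theorem RStar_choose (D : ℕ) : (D + 1) ^ 5 ≤ 120 * (D + 5).choose 5 := by
  have h1 := Nat.ascFactorial_eq_factorial_mul_choose D 5
  have h2 := Nat.pow_succ_le_ascFactorial (D + 1) 5
  rw [h1] at h2
  exact h2

theorem RStar_a (Λ : Fin 3 × Pr 3 → ℂ) (x : Tx 2 → ℂ) (μ : ℂ) {S : Set (Fin 2 ⊕ Fin 3 → ℂ)}
    (h : ∀ z ∈ S, ∃ u v, z = pnt Λ x (lb u v μ)) (D : ℕ) : H (vanI S) D ≤ D + 1 := by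
  obtain ⟨Q, hQ⟩ := pnt_aff Λ x ![0, μ] ![1, 0]
  refine H_line (pnt Λ x ![0, μ]) Q (fun z hz => ?_) D
  obtain ⟨u, v, rfl⟩ := h z hz
  refine ⟨u + v * μ, ?_⟩
  rw [← hQ]
  refine congrArg (pnt Λ x) (funext fun i => ?_)
  fin_cases i <;> simp [lb]

theorem RStar_b {ι : Type} {Λ : Fin 3 × Pr 3 → ℂ} {G : Finset ι} {Y : ι → Finset (Tx 2 → ℂ)}
    {u v : ι → ℂ} {c : ι → Fin 3 → ℂ} (hL : Lns Λ G Y u v c) {g : ι} (hg : g ∈ G)
    {x₀ : Tx 2 → ℂ} (hx₀ : x₀ ∈ Y g) {S : Set (Fin 2 ⊕ Fin 3 → ℂ)}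
    (h : ∀ z ∈ S, ∃ x ∈ Y g, ∃ μ, z = pnt Λ x (lb (u g) (v g) μ)) (D : ℕ) :
    H (vanI S) D ≤ (D + 1) ^ 2 := by
  obtain ⟨Q, hQ⟩ := pnt_aff Λ x₀ (lb (u g) (v g) 0) ![v g, 1]
  refine H_plane (pnt Λ x₀ (lb (u g) (v g) 0)) Q (Sum.elim 0 (c g)) (fun z hz => ?_) D
  obtain ⟨x, hx, μ, rfl⟩ := h z hz
  obtain ⟨t, ht⟩ := hL.par g hg x hx x₀ hx₀ μ
  refine ⟨μ, t, ?_⟩
  have e : lb (u g) (v g) 0 + μ • ![v g, 1] = lb (u g) (v g) μ := by
    funext i
    fin_cases i <;> simp [lb, mul_comm]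
  rw [← hQ, e]
  unfold pnt
  rw [ht]
  funext l
  cases l <;> simp

theorem star_kill {ι : Type} {Λ : Fin 3 × Pr 3 → ℂ} {G : Finset ι} {Y : ι → Finset (Tx 2 → ℂ)}
    {u v : ι → ℂ} {c : ι → Fin 3 → ℂ} (hL : Lns Λ G Y u v c) {W : Finset (Tx 2 → ℂ)} {ρ D : ℕ}
    (hY : ∀ g ∈ G, Y g ⊆ W ∧ (Y g).card = ρ) (h1 : 240 * W.card < (D + 1) ^ 2 * ρ)
    (h2 : 8 * (D + 1) ≤ ρ) :
    ∃ F : MvPolynomial (Fin 2 ⊕ Fin 3) ℂ, F ≠ 0 ∧ F.totalDegree ≤ D ∧ ∃ G' ⊆ G,
      G.card ≤ 8 * G'.card ∧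
        ∀ g ∈ G', ∀ x ∈ Y g, ∀ μ, eval (pnt Λ x (lb (u g) (v g) μ)) F = 0 := by
  rcases G.eq_empty_or_nonempty with rfl | hG
  · exact ⟨1, one_ne_zero, by simp, ∅, Finset.Subset.refl _, by simp, by simp⟩
  have hG0 : 0 < G.card := hG.card_pos
  have hρ : 0 < ρ := by omega
  obtain ⟨j, hj⟩ : ∃ j, j = 4 * (D + 1) := ⟨_, rfl⟩
  set E : Finset (Σ _ : ι, (Tx 2 → ℂ) × ℕ) := G.sigma fun g => Y g ×ˢ Finset.range j with hE
  have hmem : ∀ e ∈ E, e.1 ∈ G ∧ e.2.1 ∈ Y e.1 ∧ e.2.2 ∈ Finset.range j := fun e he => by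
    rw [hE, Finset.mem_sigma, Finset.mem_product] at he
    exact he
  have hcard : E.card = G.card * (ρ * j) := by
    rw [hE, Finset.card_sigma, Finset.sum_congr rfl fun g hg => by
      rw [Finset.card_product, (hY g hg).2, Finset.card_range]]
    simp
  have hs := star_fin E (fun e => e.2) (fun e => e.1)
    (fun e _ e' _ ha hb => Sigma.ext hb (heq_of_eq ha))
    (fun e => pnt Λ e.2.1 (lb (u e.1) (v e.1) (e.2.2 : ℂ))) ⊥ D
  rcases hs with ⟨F, hF0, hF, hc⟩ | hc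
  · obtain ⟨n, hn⟩ : ∃ n : ι → (Tx 2 → ℂ) → ℕ, n = fun g x => ((Finset.range j).filter
      fun i : ℕ => eval (pnt Λ x (lb (u g) (v g) (i : ℂ))) F = 0).card := ⟨_, rfl⟩
    obtain ⟨m, hm⟩ : ∃ m : ι → ℕ, m = fun g => ((Y g).filter fun x => D < n g x).card := ⟨_, rfl⟩
    have e1 : (E.filter fun e => eval (pnt Λ e.2.1 (lb (u e.1) (v e.1) (e.2.2 : ℂ))) F = 0).card =
        ∑ g ∈ G, ∑ x ∈ Y g, n g x := by
      rw [Finset.card_filter, hE, Finset.sum_sigma]
      refine Finset.sum_congr rfl fun g _ => ?_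
      rw [Finset.sum_product]
      refine Finset.sum_congr rfl fun x _ => ?_
      rw [hn]
      exact (Finset.card_filter _ _).symm
    have e2 : ∑ g ∈ G, ∑ x ∈ Y g, n g x ≤ (∑ g ∈ G, m g) * j + G.card * (ρ * D) := by
      rw [Finset.sum_mul, ← smul_eq_mul G.card, ← Finset.sum_const, ← Finset.sum_add_distrib]
      refine Finset.sum_le_sum fun g hg => ?_
      have h3 := RStar_sum (Y g) (n g) j D fun x _ => by
        rw [hn]
        exact (Finset.card_filter_le _ _).trans (Finset.card_range j).le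
      rw [(hY g hg).2] at h3
      rw [hm]
      exact h3
    have e3 := RStar_sum G m ρ D fun g hg => by
      rw [hm, ← (hY g hg).2]
      exact Finset.card_filter_le _ _
    refine ⟨F, fun h0 => hF0 (Ideal.mem_bot.2 h0), hF, G.filter fun g => D < m g,
      Finset.filter_subset _ _, ?_, fun g hg x hx μ => ?_⟩
    · rw [hcard, e1] at hc
      generalize (G.filter fun g => D < m g).card = k at e3 ⊢
      generalize ∑ g ∈ G, m g = M at e2 e3
      generalize ∑ g ∈ G, ∑ x ∈ Y g, n g x = N at e2 hc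
      generalize G.card = a at hc e2 e3 ⊢
      subst hj
      have h3 : (a * ρ) * (D + 1) ≤ (4 * M) * (D + 1) := by nlinarith [Nat.zero_le (a * ρ)]
      have h4 : a * ρ ≤ 4 * M := Nat.le_of_mul_le_mul_right h3 (Nat.succ_pos D)
      have h5 : a * (8 * (D + 1)) ≤ a * ρ := Nat.mul_le_mul_left a h2
      have h6 : a * ρ ≤ (8 * k) * ρ := by nlinarith [Nat.zero_le a]
      exact Nat.le_of_mul_le_mul_right h6 hρ
    · obtain ⟨hg, hgm⟩ := Finset.mem_filter.1 hg
      rw [hm] at hgm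
      refine kill_plane hL hg hF (Finset.filter_subset _ _) hgm (fun y hy μ' => ?_) hx μ
      have hy2 := (Finset.mem_filter.1 hy).2
      rw [hn] at hy2
      refine kill_line hF Λ y (u g) (v g) (((Finset.range j).filter
        fun i : ℕ => eval (pnt Λ y (lb (u g) (v g) (i : ℂ))) F = 0).image (Nat.cast : ℕ → ℂ)) ?_
        (fun t ht => ?_) μ'
      · rw [Finset.card_image_of_injective _ Nat.cast_injective]
        exact hy2
      · obtain ⟨i, hi, rfl⟩ := Finset.mem_image.1 ht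
        exact (Finset.mem_filter.1 hi).2
  · exfalso
    have k3 : H (⊥ : Ideal (MvPolynomial (Fin 2 ⊕ Fin 3) ℂ)) D * E.card ≤
        2 * ((W ×ˢ Finset.range j).card * (D + 1)) * (G.card * (D + 1) ^ 2) := by
      refine hc.trans (Nat.mul_le_mul (Nat.mul_le_mul_left 2 (RStar_cls E _ _ _ _ ?_ ?_))
        (RStar_cls E _ _ _ _ ?_ ?_))
      · intro e he
        obtain ⟨k1, k2, k3⟩ := hmem e he
        exact Finset.mem_product.2 ⟨(hY _ k1).1 k2, k3⟩
      · intro e₀ _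
        refine RStar_a Λ e₀.2.1 (e₀.2.2 : ℂ) (fun w hw => ?_) D
        obtain ⟨e, he, rfl⟩ := hw
        simp only [Finset.coe_filter, Set.mem_ofPred_eq] at he
        exact ⟨_, _, by rw [← he.2]⟩
      · exact fun e he => (hmem e he).1
      · intro e₀ he₀
        refine RStar_b hL (hmem e₀ he₀).1 (hmem e₀ he₀).2.1 (fun w hw => ?_) D
        obtain ⟨e, he, rfl⟩ := hw
        simp only [Finset.coe_filter, Set.mem_ofPred_eq] at he
        exact ⟨e.2.1, he.2 ▸ (hmem e he.1).2.1, _, by rw [← he.2]⟩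
    rw [Finset.card_product, Finset.card_range] at k3
    rw [H_bot, hcard] at k3
    have e5 : Fintype.card (Fin 2 ⊕ Fin 3) = 5 := by simp
    rw [e5] at k3
    have k4 := RStar_choose D
    generalize (D + 5).choose 5 = C at k3 k4
    have hj0 : 0 < j := by omega
    have k5 : ((D + 1) ^ 2 * ρ) * ((D + 1) ^ 3 * (G.card * j)) ≤
        (240 * W.card) * ((D + 1) ^ 3 * (G.card * j)) :=
      calc ((D + 1) ^ 2 * ρ) * ((D + 1) ^ 3 * (G.card * j))
          = (D + 1) ^ 5 * (G.card * (ρ * j)) := by ring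
        _ ≤ 120 * C * (G.card * (ρ * j)) := Nat.mul_le_mul_right _ k4
        _ = 120 * (C * (G.card * (ρ * j))) := by ring
        _ ≤ 120 * (2 * (W.card * j * (D + 1)) * (G.card * (D + 1) ^ 2)) :=
          Nat.mul_le_mul_left _ k3
        _ = (240 * W.card) * ((D + 1) ^ 3 * (G.card * j)) := by ring
    exact absurd (Nat.le_of_mul_le_mul_right k5 (by positivity)) (not_le.2 h1)

end Vale.Agent.P054S
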