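import Vale.Agent.P054S.RStar
import Vale.Agent.P054S.RGen
import Vale.Agent.P054S.RCap

/-!
One step.  c from gpt 2.  gen_lines with T0 = crd (W.image mdl), star_kill gives F and G1.  W' = pins of W that lie on more than
D members of G1.  For y ∈ W' the pairs (u g, v g) are distinct (inj), kill_flat; r_exists_slice, gen_av, gpt for S = W'.image mdl
(GenA.mono, nulB_mdl, mdl_inj; eval (pnt Λ x b) F = eval (prj (av Λ b) x) F').  Count the pairs (g, p), g ∈ G1, p ∈ Y g: there are |G1| ρ, at most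
D |W| ≤ |G1| ρ / 2 of them have their pin outside W'; so at least a quarter of G1 has ρ / 4 pins in W'.
-/

namespace Vale.Agent.P054S

open MvPolynomial Vale.Agent.P054A Sum
open Vale.Agent.P054 (V3 V6 Mot Fam ND RB GProp LogB Col Pins)
open scoped Classical

theorem RStep_fin {τ : Type} [Fintype τ] (S : Finset (τ → ℂ)) : (crd S).Finite := by
  refine (Finset.finite_toSet ((S ×ˢ (Finset.univ : Finset τ)).image fun z => z.1 z.2)).subset ?_
  rintro t ⟨x, hx, l, rfl⟩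
  exact Finset.mem_coe.2 (Finset.mem_image.2 ⟨(x, l), by simp [hx], rfl⟩)

theorem RStep_count (G : Finset (V3 → V3)) (Y : (V3 → V3) → Finset V3)
    (W W' : Finset V6) {D ρ : ℕ} (hρ : 1 ≤ ρ)
    (hY : ∀ g ∈ G, (Y g).card = ρ ∧ ∀ p ∈ Y g, (p, g p) ∈ W)
    (hW : ∀ y ∈ W, y ∉ W' → (G.filter fun g => y.1 ∈ Y g ∧ g y.1 = y.2).card ≤ D)
    (hD : 2 * D * W.card ≤ G.card * ρ) :
    G.card ≤ 4 * (G.filter fun g => ρ ≤ 4 * ((Y g).filter fun p => (p, g p) ∈ W').card).card := by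
  have h1 : ∀ g ∈ G, ((Y g).filter fun p => (p, g p) ∉ W').card ≤
      ((W \ W').filter fun y => y.1 ∈ Y g ∧ g y.1 = y.2).card := fun g hg => by
    refine Finset.card_le_card_of_injOn (fun p => (p, g p)) (fun p hp => ?_)
      fun p _ q _ e => congrArg Prod.fst e
    have hp' := Finset.mem_filter.1 (Finset.mem_coe.1 hp)
    exact Finset.mem_coe.2 (Finset.mem_filter.2
      ⟨Finset.mem_sdiff.2 ⟨(hY g hg).2 p hp'.1, hp'.2⟩, hp'.1, rfl⟩)
  have h2 : ∑ g ∈ G, ((W \ W').filter fun y => y.1 ∈ Y g ∧ g y.1 = y.2).card =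
      ∑ y ∈ W \ W', (G.filter fun g => y.1 ∈ Y g ∧ g y.1 = y.2).card := by
    simp only [Finset.card_filter]
    exact Finset.sum_comm
  have h3 : ∑ y ∈ W \ W', (G.filter fun g => y.1 ∈ Y g ∧ g y.1 = y.2).card ≤ W.card * D := by
    refine (Finset.sum_le_card_nsmul _ _ D fun y hy => ?_).trans ?_
    · exact hW y (Finset.mem_sdiff.1 hy).1 (Finset.mem_sdiff.1 hy).2
    · rw [smul_eq_mul]
      exact Nat.mul_le_mul_right _ (Finset.card_le_card Finset.sdiff_subset)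
  have h4 : ∑ g ∈ G, ((Y g).filter fun p => (p, g p) ∉ W').card ≤ W.card * D :=
    (Finset.sum_le_sum h1).trans (h2.le.trans h3)
  obtain ⟨Q, hQ⟩ : ∃ Q : (V3 → V3) → Prop, Q = fun g =>
    ρ ≤ 4 * ((Y g).filter fun p => (p, g p) ∈ W').card := ⟨_, rfl⟩
  have h5 : (G.filter fun g => ¬Q g).card * (3 * ρ) ≤
      ∑ g ∈ G.filter fun g => ¬Q g, 4 * ((Y g).filter fun p => (p, g p) ∉ W').card := by
    rw [← smul_eq_mul]
    refine Finset.card_nsmul_le_sum _ _ _ fun g hg => ?_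
    obtain ⟨a1, a2⟩ := Finset.mem_filter.1 hg
    have a3 := Finset.card_filter_add_card_filter_not (s := Y g) fun p => (p, g p) ∈ W'
    rw [(hY g a1).1] at a3
    rw [hQ] at a2
    simp only [not_le] at a2
    omega
  have h6 : ∑ g ∈ G.filter fun g => ¬Q g, 4 * ((Y g).filter fun p => (p, g p) ∉ W').card ≤
      4 * (W.card * D) := by
    rw [← Finset.mul_sum]
    exact Nat.mul_le_mul_left _
      ((Finset.sum_le_sum_of_subset (Finset.filter_subset _ _)).trans h4)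
  have h7 := Finset.card_filter_add_card_filter_not (s := G) Q
  have h8 : 3 * (G.filter fun g => ¬Q g).card ≤ 2 * G.card := by
    refine Nat.le_of_mul_le_mul_right ?_ hρ
    calc 3 * (G.filter fun g => ¬Q g).card * ρ = (G.filter fun g => ¬Q g).card * (3 * ρ) := by ring
      _ ≤ 4 * (W.card * D) := h5.trans h6
      _ = 2 * (2 * D * W.card) := by ring
      _ ≤ 2 * (G.card * ρ) := Nat.mul_le_mul_left _ hD
      _ = _ := by ring
  have h9 : (G.filter fun g => ρ ≤ 4 * ((Y g).filter fun p => (p, g p) ∈ W').card).card =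
      (G.filter Q).card := by
    subst hQ
    congr
  omega

theorem r_step : ∃ c : ℕ, 1 ≤ c ∧ ∀ (A B : Finset V3) (t M D ρ : ℕ) (G : Finset (V3 → V3))
    (Y : (V3 → V3) → Finset V3) (W : Finset V6), A.card ≤ t → W ⊆ A ×ˢ B →
    (∀ S ⊆ (A ×ˢ B).image mdl, Dens S M 2) →
    (∀ g ∈ G, Mot g ∧ NT g ∧ (Y g).card = ρ ∧ ∀ p ∈ Y g, (p, g p) ∈ W) →
    1 ≤ D → D ≤ M → 240 * W.card < (D + 1) ^ 2 * ρ → 8 * (D + 1) ≤ ρ →
    16 * D * W.card ≤ G.card * ρ →
      ∃ G' ⊆ G, ∃ W' ⊆ W, G.card ≤ 32 * G'.card ∧ W'.card ≤ c * D * (M ^ 2 + t) ∧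
        ∀ g ∈ G', ρ ≤ 4 * ((Y g).filter fun p => (p, g p) ∈ W').card := by
  obtain ⟨c, hc⟩ := gpt 2 (by omega)
  refine ⟨c + 1, by omega, fun A B t M D ρ G Y W hA hW hDn hG hD hDM h1 h2 h3 => ?_⟩
  obtain ⟨Λ, hΛ, u, v, cc, hL⟩ := gen_lines (RStep_fin (W.image mdl)) G Y
    fun g hg => ⟨(hG g hg).1, (hG g hg).2.1⟩
  obtain ⟨F, hF, hFD, G1, hG1, hc1, hk⟩ := star_kill hL (W := W.image mdl) (ρ := ρ) (D := D)
    (fun g hg => ⟨fun x hx => by
      obtain ⟨p, hp, rfl⟩ := Finset.mem_image.1 hx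
      exact Finset.mem_image_of_mem _ ((hG g hg).2.2.2 p hp), by
      rw [Finset.card_image_of_injective _ fun p q e => congrArg Prod.fst (mdl_inj e)]
      exact (hG g hg).2.2.1⟩)
    (by rwa [Finset.card_image_of_injective _ mdl_inj]) h2
  obtain ⟨W', hW'⟩ : ∃ W' : Finset V6, W' = W.filter fun y =>
    D < (G1.filter fun g => y.1 ∈ Y g ∧ g y.1 = y.2).card := ⟨_, rfl⟩
  have hsub : W' ⊆ W := hW' ▸ Finset.filter_subset _ _
  have hmem : ∀ y : V6, ∀ g ∈ G1.filter fun g => y.1 ∈ Y g ∧ g y.1 = y.2,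
      mdl y ∈ (Y g).image fun p => mdl (p, g p) := fun y g hg => by
    obtain ⟨-, a2, a3⟩ := Finset.mem_filter.1 hg
    exact Finset.mem_image.2 ⟨y.1, a2, by rw [a3]⟩
  have hflat : ∀ y ∈ W', ∀ b, eval (pnt Λ (mdl y) b) F = 0 := fun y hy b => by
    rw [hW'] at hy
    refine kill_flat hFD Λ (mdl y)
      ((G1.filter fun g => y.1 ∈ Y g ∧ g y.1 = y.2).image fun g => (u g, v g)) ?_ ?_ b
    · rw [Finset.card_image_of_injOn]
      · exact (Finset.mem_filter.1 hy).2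
      · intro g hg g' hg' e
        exact hL.inj g (hG1 (Finset.mem_filter.1 hg).1) g' (hG1 (Finset.mem_filter.1 hg').1)
          (mdl y) (hmem y g hg) (hmem y g' hg') (congrArg Prod.fst e) (congrArg Prod.snd e)
    · intro z hz μ
      obtain ⟨g, hg, rfl⟩ := Finset.mem_image.1 hz
      exact hk g (Finset.mem_filter.1 hg).1 (mdl y) (hmem y g hg) μ
  obtain ⟨b, F', a1, a2, a3⟩ := r_exists_slice hF
  have hS : W'.image mdl ⊆ (A ×ˢ B).image mdl := Finset.image_subset_image (hsub.trans hW)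
  have hcard := hc (W'.image mdl) (av Λ fun i => (b i : ℂ)) M t D F'
    ((gen_av hΛ b).mono fun s ⟨x, hx, l⟩ => ⟨x, Finset.image_subset_image hsub hx, l⟩)
    (hDn _ hS) (nulB_mdl hA hS) hD hDM a1 (a2.trans hFD) fun x hx => by
      obtain ⟨y, hy, rfl⟩ := Finset.mem_image.1 hx
      rw [a3]
      exact hflat y hy _
  rw [Finset.card_image_of_injective _ mdl_inj] at hcard
  have hcount := RStep_count G1 Y W W' (D := D) (ρ := ρ) (by omega)
    (fun g hg => (hG g (hG1 hg)).2.2) (fun y hy hy' => by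
      rw [hW', Finset.mem_filter] at hy'
      exact not_lt.1 fun h => hy' ⟨hy, h⟩) (by
      refine Nat.le_of_mul_le_mul_left (c := 8) ?_ (by omega)
      calc 8 * (2 * D * W.card) = 16 * D * W.card := by ring
        _ ≤ G.card * ρ := h3
        _ ≤ 8 * G1.card * ρ := Nat.mul_le_mul_right _ hc1
        _ = _ := by ring)
  refine ⟨G1.filter fun g => ρ ≤ 4 * ((Y g).filter fun p => (p, g p) ∈ W').card,
    (Finset.filter_subset _ _).trans hG1, W', hsub, ?_, hcard.trans ?_,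
    fun g hg => (Finset.mem_filter.1 hg).2⟩
  · omega
  · gcongr
    omega

end Vale.Agent.P054S
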