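import Vale.Agent.P054S.RLoc
import Vale.Agent.P054S.RCell

/-!
The sharp bound in the window and the sum of squares.  win: t = ⌈K (9000 n / r)³⌉₊, σ₀ = r t / (9000 n), K₂ = 2 K 9000³; r ≤ n
from h1 (r³ ≤ n³), so K (9000 n / r)³ ≥ 1, t ≤ 2 K (9000 n / r)³ ≤ n, t ≥ (n / r)³ ≥ Z ^ 4100, t² ≥ (n² / r²)³; Env.mono, Cp.mono, loc, mass with
a = 1000 t³, cell; square: |G|² r² σ₀ ≤ c n⁴ t², so |G|² r⁶ ≤ c' n⁸.
sq_sum: split at r₁; P054.layer (β = 0, κ = r₀, K = r₁) with win for the members below r₁ (the filter is empty for j ≥ r₁);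
P054.richSum2 with Env.rb at m = n for the others (Fm.fam, Cp.col).
-/

namespace Vale.Agent.P054S

open MvPolynomial Vale.Agent.P054A Sum
open Vale.Agent.P054 (V3 V6 Mot Fam ND RB GProp LogB Col Pins)
open scoped Classical

theorem RWin_fin {g r n t c : ℝ} (hg : 0 ≤ g) (hr : 0 < r) (hn : 0 < n) (ht : 0 < t) (hc : 1 ≤ c)
    (h1 : t * r ^ 3 ≤ c * n ^ 3)
    (h2 : g * r * √(r * t / (9000 * n)) * t ^ 2 ≤ 8 * n ^ 2 * (8 * (1000 * t ^ 3))) :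
    g * r ^ 3 ≤ 64000 * 9000 * c * n ^ 4 := by
  have h3 : g * r * √(r * t / (9000 * n)) ≤ 64000 * n ^ 2 * t :=
    le_of_mul_le_mul_right (h2.trans (le_of_eq (by ring))) (pow_pos ht 2)
  have h4 := pow_le_pow_left₀ (by positivity) h3 2
  rw [mul_pow, Real.sq_sqrt (by positivity), ← mul_div_assoc, div_le_iff₀ (by positivity)] at h4
  have h5 : g ^ 2 * r ^ 3 ≤ 64000 ^ 2 * 9000 * n ^ 5 * t :=
    le_of_mul_le_mul_right ((le_of_eq (by ring)).trans (h4.trans (le_of_eq (by ring)))) ht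
  refine (pow_le_pow_iff_left₀ (by positivity) (by positivity) two_ne_zero).1 ?_
  have h6 : c ≤ 9000 * c ^ 2 := by nlinarith
  calc (g * r ^ 3) ^ 2 = g ^ 2 * r ^ 3 * r ^ 3 := by ring
    _ ≤ 64000 ^ 2 * 9000 * n ^ 5 * t * r ^ 3 := by gcongr
    _ = 64000 ^ 2 * 9000 * n ^ 5 * (t * r ^ 3) := by ring
    _ ≤ 64000 ^ 2 * 9000 * n ^ 5 * (c * n ^ 3) := by gcongr
    _ ≤ 64000 ^ 2 * 9000 * n ^ 5 * (9000 * c ^ 2 * n ^ 3) := by gcongr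
    _ = _ := by ring

theorem RWin_t {K n r : ℝ} (hK : 1 ≤ K) (hr : 0 < r) (hrn : r ≤ n) :
    ∃ t : ℕ, 1 ≤ t ∧ K * 9000 ^ 3 * n ^ 3 ≤ t * r ^ 3 ∧
      t * r ^ 3 ≤ 2 * K * 9000 ^ 3 * n ^ 3 := by
  have h3 : 0 < r ^ 3 := pow_pos hr 3
  have h1 : 1 ≤ K * 9000 ^ 3 * n ^ 3 / r ^ 3 := by
    rw [le_div_iff₀ h3]
    calc 1 * r ^ 3 ≤ (K * 9000 ^ 3) * n ^ 3 := by gcongr; nlinarith
      _ = _ := rfl
  refine ⟨⌈K * 9000 ^ 3 * n ^ 3 / r ^ 3⌉₊, Nat.one_le_ceil_iff.2 (by linarith), ?_, ?_⟩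
  · rw [← div_le_iff₀ h3]
    exact Nat.le_ceil _
  · rw [← le_div_iff₀ h3]
    have h2 := Nat.ceil_lt_add_one (zero_le_one.trans h1)
    have h4 : 2 * K * 9000 ^ 3 * n ^ 3 / r ^ 3 = 2 * (K * 9000 ^ 3 * n ^ 3 / r ^ 3) := by ring
    linarith

theorem win : ∃ K₂ a Z₀ : ℝ, 1 ≤ K₂ ∧ 1 ≤ a ∧ ∀ (Z Z₁ ζ N n r : ℝ) (w : ℕ) (A B : Finset V3), Z₀ ≤ Z →
    Env Z Z₁ ζ N n → (A.card : ℝ) ≤ n → (B.card : ℝ) ≤ n → Cp A w → Cp B w → 1 ≤ w → 0 < n → 0 < r →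
    K₂ * n ^ 2 ≤ r ^ 3 → Z ^ 4100 * r ^ 3 ≤ n ^ 3 → Z ^ 700 * w * r ^ 2 ≤ n ^ 2 →
      ∀ G Y, Fm A B r G Y → G.card * r ^ 3 ≤ a * n ^ 4 := by
  obtain ⟨K, Z₀, hK, h⟩ := loc
  have hK2 : 1 ≤ 2 * K * 9000 ^ 3 := by nlinarith
  refine ⟨2 * K * 9000 ^ 3, 64000 * 9000 * (2 * K * 9000 ^ 3), Z₀, hK2, by nlinarith, ?_⟩
  intro Z Z₁ ζ N n r w A B hZ hE hA hB cA cB hw hn hr k1 k2 k3 G Y hF
  have hZ1 : 1 ≤ Z := le_trans (by norm_num) hE.hZ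
  have hr3 : 0 < r ^ 3 := pow_pos hr 3
  obtain ⟨P, hP, hP1⟩ : ∃ P, P = Z ^ 4100 ∧ 1 ≤ P := ⟨_, rfl, one_le_pow₀ hZ1⟩
  obtain ⟨U, hU, hU0⟩ : ∃ U, U = Z ^ 700 * w ∧ 0 ≤ U := ⟨_, rfl, by positivity⟩
  rw [← hP] at k2
  rw [← hU] at k3
  have hrn : r ≤ n := by
    refine (pow_le_pow_iff_left₀ hr.le hn.le three_ne_zero).1 (le_trans ?_ k2)
    exact le_mul_of_one_le_left hr3.le hP1
  obtain ⟨t, ht, t1, t2⟩ := RWin_t hK hr hrn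
  have ht0 : (0 : ℝ) < t := by exact_mod_cast ht
  have t0 : n ^ 3 ≤ t * r ^ 3 :=
    le_trans (le_mul_of_one_le_left (by positivity) (by nlinarith)) t1
  have htn : (t : ℝ) ≤ n := by
    refine le_of_mul_le_mul_right (t2.trans ?_) hr3
    calc 2 * K * 9000 ^ 3 * n ^ 3 = n * (2 * K * 9000 ^ 3 * n ^ 2) := by ring
      _ ≤ n * r ^ 3 := by gcongr
  have hPt : P ≤ t := le_of_mul_le_mul_right (k2.trans t0) hr3
  have hUt : U ^ 3 ≤ (t : ℝ) ^ 2 := by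
    refine le_of_mul_le_mul_right ?_ (pow_pos hr 6)
    calc U ^ 3 * r ^ 6 = (U * r ^ 2) ^ 3 := by ring
      _ ≤ (n ^ 2) ^ 3 := by gcongr
      _ = (n ^ 3) ^ 2 := by ring
      _ ≤ (t * r ^ 3) ^ 2 := by gcongr
      _ = _ := by ring
  have s0 : 0 < r * t / (9000 * n) := by positivity
  have s1 : K * (t : ℝ) ^ 2 ≤ (r * t / (9000 * n)) ^ 3 := by
    rw [div_pow, le_div_iff₀ (by positivity)]
    calc K * (t : ℝ) ^ 2 * (9000 * n) ^ 3 = K * 9000 ^ 3 * n ^ 3 * (t : ℝ) ^ 2 := by ring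
      _ ≤ t * r ^ 3 * (t : ℝ) ^ 2 := by gcongr
      _ = _ := by ring
  refine RWin_fin (Nat.cast_nonneg _) hr hn ht0 hK2 t2 ?_
  refine cell ht htn hA hB s0 (by positivity) (le_of_eq (by field_simp)) ?_ hF
  intro A' hA' B' hB' a1 b1 G' Y' hF'
  refine mass s0 (by positivity) (fun σ hσ G'' Y'' hF'' => ?_) hF'
  refine (h Z Z₁ ζ N t w A' B' hZ (hE.mono ht0.le htn) a1 b1 (cA.mono hA') (cB.mono hB') hw
    (hP ▸ hPt) (hU ▸ hUt) σ (s0.trans_le hσ) (s1.trans (pow_le_pow_left₀ s0.le hσ 3)) G'' Y''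
    hF'').trans (le_of_eq (by ring))

theorem sq_sum : ∃ K₂ a Z₀ : ℝ, 1 ≤ K₂ ∧ 1 ≤ a ∧ ∀ (Z Z₁ ζ N n r₀ r₁ : ℝ) (w : ℕ) (A B : Finset V3),
    Z₀ ≤ Z → Env Z Z₁ ζ N n → (A.card : ℝ) ≤ n → (B.card : ℝ) ≤ n → Cp A w → Cp B w → 1 ≤ w →
    0 < n → 1 ≤ r₀ → r₀ ≤ r₁ → K₂ * n ^ 2 ≤ r₀ ^ 3 → Z ^ 4100 * r₁ ^ 3 ≤ n ^ 3 →
    Z ^ 700 * w * r₁ ^ 2 ≤ n ^ 2 → Z ^ 5 * w ≤ r₁ →
      ∀ G Y, Fm A B r₀ G Y →
        ∑ g ∈ G, ((Y g).card : ℝ) ^ 2 ≤ 3 * (a * n ^ 4) / r₀ + 3 * (Z ^ 201 * n ^ 4) / r₁ := by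
  obtain ⟨K₂, a, Z₀, hK, ha, h⟩ := win
  refine ⟨K₂, a, Z₀, hK, ha, ?_⟩
  intro Z Z₁ ζ N n r₀ r₁ w A B hZ hE hA hB cA cB hw hn h0 h01 k1 k2 k3 k4 G Y hF
  have hZ0 : 0 ≤ Z := le_trans (by norm_num) hE.hZ
  have hζ : 0 ≤ ζ := le_trans (by positivity) hE.ζ1
  rw [← Finset.sum_filter_add_sum_filter_not G fun g => ((Y g).card : ℝ) < r₁]
  refine add_le_add ?_ ?_
  · have h1 := P054.layer (G.filter fun g => ((Y g).card : ℝ) < r₁) (fun g => (Y g).card)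
      (α := a * n ^ 4) (β := 0) (κ := r₀) (K := r₁) (by positivity) le_rfl h0 (by linarith)
      (fun g hg => ⟨(hF g (Finset.mem_filter.1 hg).1).2.2.2, (Finset.mem_filter.1 hg).2.le⟩)
      (fun j hj => by
        have hj0 : (0 : ℝ) < j := by linarith
        rw [zero_div, add_zero, le_div_iff₀ (by positivity)]
        by_cases hj1 : (j : ℝ) ≤ r₁
        · refine h Z Z₁ ζ N n j w A B hZ hE hA hB cA cB hw hn hj0
            (k1.trans (pow_le_pow_left₀ (by linarith) hj 3))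
            (le_trans (mul_le_mul_of_nonneg_left (pow_le_pow_left₀ hj0.le hj1 3)
              (pow_nonneg hZ0 _)) k2)
            (le_trans (mul_le_mul_of_nonneg_left (pow_le_pow_left₀ hj0.le hj1 2)
              (mul_nonneg (pow_nonneg hZ0 _) (Nat.cast_nonneg _))) k3) _ Y
            (hF.mono ((Finset.filter_subset _ _).trans (Finset.filter_subset _ _)) fun g hg => ?_)
          exact_mod_cast (Finset.mem_filter.1 hg).2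
        · rw [Finset.filter_false_of_mem, Finset.card_empty, Nat.cast_zero, zero_mul]
          · positivity
          · intro g hg hj2
            have h2 : (j : ℝ) ≤ (Y g).card := by exact_mod_cast hj2
            exact hj1 (h2.trans (Finset.mem_filter.1 hg).2.le))
    simpa using h1
  · refine P054.richSum2 (hE.rb n hn.le le_rfl) hA hB (h0.trans h01) ?_
      (Fm.fam (w := w) (hF.mono (Finset.filter_subset _ _) fun g hg =>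
        not_lt.1 (Finset.mem_filter.1 hg).2) hζ
        (fun T hT hc => by exact_mod_cast cA.col hw hT hc)
        (le_trans (mul_le_mul_of_nonneg_right hE.ζ2 (Nat.cast_nonneg _)) k4))
    calc n ^ 2 ≤ K₂ * n ^ 2 := le_mul_of_one_le_left (by positivity) hK
      _ ≤ r₀ ^ 3 := k1
      _ ≤ r₁ ^ 3 := pow_le_pow_left₀ (by linarith) h01 3

end Vale.Agent.P054S
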