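import Vale.Agent.P054S.RWin
import Vale.Agent.P054S.RBad
import Vale.Agent.P054S.REnv
import Vale.Agent.P054S.DC

/-!
Assembly.  n = |P|, w = ⌈τ / Z ^ 2000⌉₊ (τ / Z ^ 2000 = Z ^ 198000, so τ ^ 99 ≤ w ^ 100 and w ≤ 2 Z ^ 198000), dc, Cp.neg, Cp.col, bad_le with
r = κ⁵ τ, sq_sum twice with r₀ = κ⁵ τ / 2, r₁ = Z ^ 202 τ.  κ³ ≥ 128 K₂, κ² ≥ 36 a, Z ≥ 18 κ⁵, Z ≥ Z₀; n ^ 100 = (n²) ^ 50, 16 κ ^ 12 ≤ Z ^ 4000 gives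
n ^ 100 ≤ τ ^ 151; n ≤ τ²; Z ^ 4706 τ³ ≤ n³ by squaring (n⁶ ≥ τ⁹).
-/

namespace Vale.Agent.P054S

open MvPolynomial Vale.Agent.P054A Sum
open Vale.Agent.P054 (V3 V6 Mot Fam ND RB GProp LogB Col Pins)
open scoped Classical

theorem Rich_pow {Z τ : ℝ} {m : ℕ} (hZ : 2 ≤ Z) (h : Z ^ m = τ) (k : ℕ) (hk : k + 1 ≤ m) :
    2 * Z ^ k ≤ τ := by
  have h0 : 0 ≤ Z ^ k := by positivity
  calc 2 * Z ^ k ≤ Z * Z ^ k := mul_le_mul_of_nonneg_right hZ h0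
    _ = Z ^ (k + 1) := by ring
    _ ≤ Z ^ m := pow_le_pow_right₀ (by linarith) hk
    _ = τ := h

theorem Rich_e1 (Z τ : ℝ) (a b c : ℕ) :
    Z ^ a * (2 * Z ^ b) * (Z ^ c * τ) ^ 2 = 2 * Z ^ (a + b + c * 2) * τ ^ 2 := by ring

theorem Rich_e2 (Z τ : ℝ) (a c : ℕ) :
    (Z ^ a * (Z ^ c * τ) ^ 3) ^ 2 = Z ^ (a * 2 + c * 6) * τ ^ 6 := by ring

theorem Rich_e3 (Z : ℝ) (a b : ℕ) : Z ^ a * (2 * Z ^ b) = 2 * Z ^ (a + b) := by ring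

theorem Rich_fin {κ τ n a Z X B p s₁ s₂ : ℝ} (hκ : 2 ≤ κ) (hτ : 1 ≤ τ) (hX : 0 < X) (ha : 1 ≤ a)
    (h36 : 36 * a ≤ κ) (hZ : 18 * κ ^ 5 ≤ Z) (hn : κ ^ 12 * τ ^ 3 ≤ n ^ 2) (hp0 : 0 ≤ p) (hp : p ≤ n)
    (hB : B ≤ p ^ 2 + s₁ + s₂)
    (h1 : s₁ ≤ 3 * (a * n ^ 4) / (κ ^ 5 * τ / 2) + 3 * (X * n ^ 4) / (X * Z * τ))
    (h2 : s₂ ≤ 3 * (a * n ^ 4) / (κ ^ 5 * τ / 2) + 3 * (X * n ^ 4) / (X * Z * τ)) :
    B * (κ ^ 3 * τ) ≤ n ^ 4 := by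
  have hκ0 : 0 < κ := by linarith
  have hτ0 : 0 < τ := by linarith
  have hκ1 : 1 ≤ κ := by linarith
  have hZ0 : 0 < Z := lt_of_lt_of_le (by positivity) hZ
  have hn4 : 0 ≤ n ^ 4 := by positivity
  have a1 : 3 * (a * n ^ 4) / (κ ^ 5 * τ / 2) * (κ ^ 3 * τ) ≤ n ^ 4 / 6 := by
    have e : 3 * (a * n ^ 4) / (κ ^ 5 * τ / 2) * (κ ^ 3 * τ) = 6 * a / κ ^ 2 * n ^ 4 := by
      field_simp
      ring
    have : 6 * a / κ ^ 2 ≤ 1 / 6 := by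
      rw [div_le_iff₀ (by positivity)]
      nlinarith
    rw [e]
    nlinarith
  have a2 : 3 * (X * n ^ 4) / (X * Z * τ) * (κ ^ 3 * τ) ≤ n ^ 4 / 6 := by
    have e : 3 * (X * n ^ 4) / (X * Z * τ) * (κ ^ 3 * τ) = 3 * κ ^ 3 / Z * n ^ 4 := by
      field_simp
    have k : κ ^ 3 ≤ κ ^ 5 := pow_le_pow_right₀ hκ1 (by norm_num)
    have : 3 * κ ^ 3 / Z ≤ 1 / 6 := by
      rw [div_le_iff₀ hZ0]
      linarith
    rw [e]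
    nlinarith
  have a3 : p ^ 2 * (κ ^ 3 * τ) ≤ n ^ 4 / 3 := by
    have k1 : (2 : ℝ) ^ 9 ≤ κ ^ 9 := pow_le_pow_left₀ (by norm_num) hκ 9
    have k2 : τ ≤ τ ^ 3 := le_self_pow₀ hτ (by norm_num)
    have k3 : 3 * (κ ^ 3 * τ) ≤ n ^ 2 := by
      refine le_trans ?_ hn
      calc 3 * (κ ^ 3 * τ) ≤ κ ^ 9 * (κ ^ 3 * τ ^ 3) := by
            refine mul_le_mul (by linarith) (by gcongr) (by positivity) (by positivity)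
        _ = κ ^ 12 * τ ^ 3 := by ring
    have k4 : p ^ 2 ≤ n ^ 2 := pow_le_pow_left₀ hp0 hp 2
    calc p ^ 2 * (κ ^ 3 * τ) ≤ n ^ 2 * (n ^ 2 / 3) :=
          mul_le_mul k4 (by linarith) (by positivity) (by positivity)
      _ = n ^ 4 / 3 := by ring
  have hk : 0 ≤ κ ^ 3 * τ := by positivity
  have b0 := mul_le_mul_of_nonneg_right hB hk
  have b1 := mul_le_mul_of_nonneg_right h1 hk
  have b2 := mul_le_mul_of_nonneg_right h2 hk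
  rw [add_mul, add_mul] at b0
  rw [add_mul] at b1 b2
  linarith

/-- Few edges lie in rich rigid motions of three-space. -/
theorem rich3 : ∃ κ₀ : ℕ, ∀ κ ≥ κ₀, ∃ τ₀ : ℕ, ∀ τ ≥ τ₀, ∀ P : Finset (Pt 3), Win P κ τ →
    ∃ P' ⊆ P, P.card ≤ 2 * P'.card ∧ (bad P' (κ ^ 5 * τ)).card * (κ ^ 3 * τ) ≤ P.card ^ 4 := by
  obtain ⟨K₂, a, Z₀, hK, ha, hsq⟩ := sq_sum
  obtain ⟨τ₂, hdc⟩ := dc
  refine ⟨⌈128 * K₂ + 36 * a⌉₊, fun κ hκ => ?_⟩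
  have hκ' : 128 * K₂ + 36 * a ≤ κ := Nat.ceil_le.1 hκ
  have hκ2 : (2 : ℝ) ≤ κ := by linarith
  have hκ1 : (1 : ℝ) ≤ κ := by linarith
  obtain ⟨τ₁, henv⟩ := env (max Z₀ (18 * (κ : ℝ) ^ 12))
  refine ⟨max τ₁ τ₂, fun τ hτ P hP => ?_⟩
  obtain ⟨Z, Z₁, ζ, hC, hZτ, hE⟩ := henv τ (le_trans (le_max_left _ _) hτ)
  obtain ⟨hnd, hlo, hhi⟩ := hP
  have hlo' : (κ : ℝ) ^ 12 * (τ : ℝ) ^ 3 ≤ (P.card : ℝ) ^ 2 := by exact_mod_cast hlo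
  have hhi' : (P.card : ℝ) ^ 2 ≤ 16 * ((κ : ℝ) ^ 12 * (τ : ℝ) ^ 3) := by exact_mod_cast hhi
  have hZ0 : Z₀ ≤ Z := (le_max_left _ _).trans hC
  have hZκ : 18 * (κ : ℝ) ^ 12 ≤ Z := (le_max_right _ _).trans hC
  have hk12 : (1 : ℝ) ≤ (κ : ℝ) ^ 12 := one_le_pow₀ hκ1
  have hk5 : (κ : ℝ) ^ 5 ≤ (κ : ℝ) ^ 12 := pow_le_pow_right₀ hκ1 (by norm_num)
  have hk5' : (2 : ℝ) ≤ (κ : ℝ) ^ 5 := hκ2.trans (le_self_pow₀ hκ1 (by norm_num))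
  have hZ2 : 2 ≤ Z := by linarith
  have hZ1 : 1 ≤ Z := by linarith
  have hZp : 0 < Z := by linarith
  have hp := Rich_pow hZ2 hZτ
  have hτZ : 2 * Z ≤ τ := by simpa using hp 1 (by norm_num)
  have hτ1 : (1 : ℝ) ≤ τ := by linarith
  have hτ0 : (0 : ℝ) < τ := by linarith
  have hτ3 : (τ : ℝ) ^ 3 ≤ (P.card : ℝ) ^ 2 :=
    le_trans (le_mul_of_one_le_left (by positivity) hk12) hlo'
  have hup : (P.card : ℝ) ^ 2 ≤ Z * (τ : ℝ) ^ 3 := by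
    refine hhi'.trans ?_
    rw [← mul_assoc]
    exact mul_le_mul_of_nonneg_right (by linarith) (by positivity)
  have hn0 : (0 : ℝ) < P.card := by
    refine lt_of_le_of_ne (Nat.cast_nonneg _) fun h => ?_
    rw [← h] at hτ3
    have : (0 : ℝ) < (τ : ℝ) ^ 3 := by positivity
    norm_num at hτ3
    linarith
  have hX1 : 1 ≤ Z ^ 198000 := one_le_pow₀ hZ1
  obtain ⟨w, hw1, hw2⟩ : ∃ w : ℕ, Z ^ 198000 ≤ w ∧ (w : ℝ) ≤ 2 * Z ^ 198000 :=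
    ⟨⌈Z ^ 198000⌉₊, Nat.le_ceil _, by
      have := Nat.ceil_lt_add_one (zero_le_one.trans hX1)
      linarith⟩
  have hw : 1 ≤ w := by exact_mod_cast hX1.trans hw1
  have c1 : τ ^ 149 ≤ P.card ^ 100 := by
    have : (τ : ℝ) ^ 149 ≤ (P.card : ℝ) ^ 100 :=
      calc (τ : ℝ) ^ 149 ≤ (τ : ℝ) ^ (3 * 50) := pow_le_pow_right₀ hτ1 (by norm_num)
        _ = ((τ : ℝ) ^ 3) ^ 50 := pow_mul _ _ _
        _ ≤ ((P.card : ℝ) ^ 2) ^ 50 := pow_le_pow_left₀ (by positivity) hτ3 50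
        _ = _ := (pow_mul _ 2 50).symm
    exact_mod_cast this
  have c2 : P.card ^ 100 ≤ τ ^ 151 := by
    have k : Z ^ 50 ≤ τ := by
      have := hp 50 (by norm_num)
      have : 0 ≤ Z ^ 50 := by positivity
      linarith
    have : (P.card : ℝ) ^ 100 ≤ (τ : ℝ) ^ 151 :=
      calc (P.card : ℝ) ^ 100 = ((P.card : ℝ) ^ 2) ^ 50 := pow_mul _ 2 50
        _ ≤ (Z * (τ : ℝ) ^ 3) ^ 50 := pow_le_pow_left₀ (by positivity) hup 50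
        _ = Z ^ 50 * (τ : ℝ) ^ 150 := by rw [mul_pow, ← pow_mul]
        _ ≤ τ * (τ : ℝ) ^ 150 := mul_le_mul_of_nonneg_right k (by positivity)
        _ = _ := (pow_succ' _ 150).symm
    exact_mod_cast this
  have c3 : τ ^ 99 ≤ w ^ 100 := by
    have : (τ : ℝ) ^ 99 ≤ (w : ℝ) ^ 100 :=
      calc (τ : ℝ) ^ 99 = Z ^ (200000 * 99) := by rw [pow_mul, hZτ]
        _ = (Z ^ 198000) ^ 100 := pow_mul Z 198000 100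
        _ ≤ _ := pow_le_pow_left₀ (by positivity) hw1 100
    exact_mod_cast this
  obtain ⟨P', hP', hcard, hcap⟩ := hdc P τ w (le_trans (le_max_right _ _) hτ) hnd c1 c2 c3
  have hCp : Cp P' w := hcap
  have hwr : w < κ ^ 5 * τ := by
    have k := hp 198000 (by norm_num)
    have : (w : ℝ) < (κ : ℝ) ^ 5 * τ := by nlinarith
    exact_mod_cast this
  obtain ⟨G₁, Y₁, G₂, Y₂, f1, f2, hb⟩ := bad_le (fun S hS hc => hCp.col hw hS hc) hwr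
  push_cast at f1 f2
  have hE' : Env Z Z₁ ζ ((τ : ℝ) ^ 12) P.card := by
    refine hE.mono hn0.le (le_of_sq_le_sq ?_ (by positivity))
    calc (P.card : ℝ) ^ 2 ≤ Z * (τ : ℝ) ^ 3 := hup
      _ ≤ τ * (τ : ℝ) ^ 3 := mul_le_mul_of_nonneg_right (by linarith) (by positivity)
      _ = _ := by ring
  have hA : (P'.card : ℝ) ≤ P.card := by exact_mod_cast Finset.card_le_card hP'
  have hB : ((P'.image fun p => -p).card : ℝ) ≤ P.card :=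
    le_trans (by exact_mod_cast Finset.card_image_le) hA
  have hZ202 : Z ≤ Z ^ 202 := le_self_pow₀ hZ1 (by norm_num)
  have d1 : (1 : ℝ) ≤ (κ : ℝ) ^ 5 * τ / 2 := by nlinarith
  have d2 : (κ : ℝ) ^ 5 * τ / 2 ≤ Z ^ 202 * τ := by
    have : (κ : ℝ) ^ 5 / 2 ≤ Z ^ 202 := by linarith
    calc (κ : ℝ) ^ 5 * τ / 2 = (κ : ℝ) ^ 5 / 2 * τ := by ring
      _ ≤ _ := mul_le_mul_of_nonneg_right this hτ0.le
  have d3 : K₂ * (P.card : ℝ) ^ 2 ≤ ((κ : ℝ) ^ 5 * τ / 2) ^ 3 := by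
    have k : 128 * K₂ ≤ (κ : ℝ) ^ 3 := le_trans (by linarith) (le_self_pow₀ hκ1 (by norm_num))
    calc K₂ * (P.card : ℝ) ^ 2 ≤ K₂ * (16 * ((κ : ℝ) ^ 12 * (τ : ℝ) ^ 3)) :=
          mul_le_mul_of_nonneg_left hhi' (by linarith)
      _ = 128 * K₂ * ((κ : ℝ) ^ 12 * (τ : ℝ) ^ 3 / 8) := by ring
      _ ≤ (κ : ℝ) ^ 3 * ((κ : ℝ) ^ 12 * (τ : ℝ) ^ 3 / 8) :=
          mul_le_mul_of_nonneg_right k (by positivity)
      _ = _ := by ring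
  have d4 : Z ^ 4100 * (Z ^ 202 * τ) ^ 3 ≤ (P.card : ℝ) ^ 3 := by
    refine le_of_sq_le_sq ?_ (by positivity)
    have k := hp (4100 * 2 + 202 * 6) (by norm_num)
    have k0 : 0 ≤ Z ^ (4100 * 2 + 202 * 6) := by positivity
    have k1 : (τ : ℝ) ≤ (τ : ℝ) ^ 3 := le_self_pow₀ hτ1 (by norm_num)
    rw [Rich_e2]
    calc _ ≤ (τ : ℝ) ^ 3 * (τ : ℝ) ^ 6 := mul_le_mul_of_nonneg_right (by linarith) (by positivity)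
      _ = ((τ : ℝ) ^ 3) ^ 3 := by ring
      _ ≤ ((P.card : ℝ) ^ 2) ^ 3 := pow_le_pow_left₀ (by positivity) hτ3 3
      _ = _ := by ring
  have d5 : Z ^ 700 * w * (Z ^ 202 * τ) ^ 2 ≤ (P.card : ℝ) ^ 2 :=
    calc Z ^ 700 * w * (Z ^ 202 * τ) ^ 2 ≤ Z ^ 700 * (2 * Z ^ 198000) * (Z ^ 202 * τ) ^ 2 :=
          mul_le_mul_of_nonneg_right (mul_le_mul_of_nonneg_left hw2 (by positivity)) (by positivity)
      _ = _ := Rich_e1 Z τ 700 198000 202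
      _ ≤ τ * (τ : ℝ) ^ 2 := mul_le_mul_of_nonneg_right (hp _ (by norm_num)) (by positivity)
      _ = (τ : ℝ) ^ 3 := by ring
      _ ≤ _ := hτ3
  have d6 : Z ^ 5 * w ≤ Z ^ 202 * τ :=
    calc Z ^ 5 * w ≤ Z ^ 5 * (2 * Z ^ 198000) := mul_le_mul_of_nonneg_left hw2 (by positivity)
      _ = _ := Rich_e3 Z 5 198000
      _ ≤ τ := hp _ (by norm_num)
      _ ≤ _ := le_mul_of_one_le_left hτ0.le (hZ1.trans hZ202)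
  have s1 := hsq Z Z₁ ζ _ _ _ _ w _ _ hZ0 hE' hA hA hCp hCp hw hn0 d1 d2 d3 d4 d5 d6 G₁ Y₁ f1
  have s2 := hsq Z Z₁ ζ _ _ _ _ w _ _ hZ0 hE' hA hB hCp hCp.neg hw hn0 d1 d2 d3 d4 d5 d6 G₂ Y₂ f2
  rw [show Z ^ 202 = Z ^ 201 * Z from pow_succ Z 201] at s1 s2
  refine ⟨P', hP', hcard, ?_⟩
  have := Rich_fin hκ2 hτ1 (pow_pos hZp 201) ha (by linarith) (by linarith) hlo'
    (Nat.cast_nonneg _) hA hb s1 s2
  exact_mod_cast this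

end Vale.Agent.P054S
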