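import Mathlib

namespace Vale.Agent.P054S

theorem tar_le {k κ τ N a : ℕ} (hk : 2 ≤ k) (hκ : 1 ≤ κ) (hτ : 1 ≤ τ) (ha : a ≤ κ)
    (h1 : κ ^ (4 * (k + 1)) * τ ^ (k + 1) ≤ N ^ 2) : a * (κ ^ 2 * τ) ≤ N := by
  refine (Nat.pow_le_pow_iff_left two_ne_zero).1 (le_trans ?_ h1)
  calc (a * (κ ^ 2 * τ)) ^ 2 ≤ (κ * (κ ^ 2 * τ)) ^ 2 := by gcongr
    _ = κ ^ 6 * τ ^ 2 := by ring
    _ ≤ _ := Nat.mul_le_mul (Nat.pow_le_pow_right hκ (by omega))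
        (Nat.pow_le_pow_right hτ (by omega))

theorem t_ar_edges {k κ τ N s e b : ℕ} (hk : 2 ≤ k) (hκ : 64 ≤ κ) (hτ : 1 ≤ τ)
    (h1 : κ ^ (4 * (k + 1)) * τ ^ (k + 1) ≤ N ^ 2) (h2 : N ^ 2 ≤ κ * s)
    (h3 : s ^ 2 ≤ τ * (e + b + N ^ 3)) (h4 : b * (κ ^ 3 * τ) ≤ 16 * N ^ 4) :
    N ^ 4 ≤ 2 * (κ ^ 2 * τ) * e := by
  have a1 : 4 * (κ ^ 2 * τ) ≤ N := tar_le hk (by omega) hτ (by omega) h1
  have a2 : N ^ 4 ≤ κ ^ 2 * τ * (e + b + N ^ 3) :=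
    calc N ^ 4 = (N ^ 2) ^ 2 := by ring
      _ ≤ (κ * s) ^ 2 := by gcongr
      _ = κ ^ 2 * s ^ 2 := by ring
      _ ≤ κ ^ 2 * (τ * (e + b + N ^ 3)) := by gcongr
      _ = _ := by ring
  have a3 : 64 * (κ ^ 2 * τ * b) ≤ 16 * N ^ 4 :=
    calc 64 * (κ ^ 2 * τ * b) ≤ κ * (κ ^ 2 * τ * b) := by gcongr
      _ = b * (κ ^ 3 * τ) := by ring
      _ ≤ _ := h4
  have a4 : 4 * (κ ^ 2 * τ * N ^ 3) ≤ N ^ 4 :=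
    calc 4 * (κ ^ 2 * τ * N ^ 3) = 4 * (κ ^ 2 * τ) * N ^ 3 := by ring
      _ ≤ N * N ^ 3 := by gcongr
      _ = _ := by ring
  rw [mul_add, mul_add] at a2
  rw [mul_assoc 2]
  omega

theorem t_arith (k u c₀ c₁ c₂ c : ℕ) (hk : 2 ≤ k) (hu : u * (k - 1) < 4 * k) :
    ∃ κ₀ : ℕ, ∀ κ ≥ κ₀, ∀ τ N e : ℕ,
    1 ≤ τ → κ ^ (4 * (k + 1)) * τ ^ (k + 1) ≤ N ^ 2 → N ^ 4 ≤ 2 * (κ ^ 2 * τ) * e →
      c₀ * (N * N) ^ 2 ≤ κ ^ 3 * τ * e ∧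
      ¬ e ^ 2 ≤ c₀ * (c₁ * (c * κ ^ u * τ) ^ (k - 1)) * (N * N) ^ 3 ∧
      ¬ e ≤ c₀ * (c₂ * ((κ ^ 3 * τ + 1) ^ k + N)) * (N * N) := by
  obtain ⟨j, rfl⟩ : ∃ j, k = j + 1 := ⟨k - 1, by omega⟩
  rw [Nat.add_sub_cancel] at hu
  refine ⟨2 * c₀ + 4 * (c₀ * c₁ * c ^ j) + 4 * (c₀ * c₂) * 2 ^ (j + 1) + 1,
    fun κ hκ τ N e hτ h1 h2 => ?_⟩
  have hκ1 : 1 ≤ κ := by omega
  have hκ2 : κ ≤ κ ^ 2 := Nat.le_self_pow two_ne_zero κ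
  have hpos : 0 < κ ^ (4 * (j + 1 + 1)) * τ ^ (j + 1 + 1) := by positivity
  have hN : 0 < N := Nat.pos_of_ne_zero fun h => by
    rw [h] at h1
    omega
  refine ⟨?_, fun h => ?_, fun h => ?_⟩
  · calc c₀ * (N * N) ^ 2 = c₀ * N ^ 4 := by ring
      _ ≤ c₀ * (2 * (κ ^ 2 * τ) * e) := Nat.mul_le_mul_left _ h2
      _ = 2 * c₀ * (κ ^ 2 * τ * e) := by ring
      _ ≤ κ * (κ ^ 2 * τ * e) := Nat.mul_le_mul_right _ (by omega)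
      _ = _ := by ring
  · rw [Nat.add_sub_cancel] at h
    have b0 : κ ^ (4 + u * j) ≤ κ ^ (4 * j + 7) := Nat.pow_le_pow_right hκ1 (by omega)
    have b1 : N ^ 6 * N ^ 2 ≤ N ^ 6 * (4 * (c₀ * c₁ * c ^ j) *
        (κ ^ (4 * j + 7) * τ ^ (j + 1 + 1))) :=
      calc N ^ 6 * N ^ 2 = (N ^ 4) ^ 2 := by ring
        _ ≤ (2 * (κ ^ 2 * τ) * e) ^ 2 := by gcongr
        _ = 4 * (κ ^ 2 * τ) ^ 2 * e ^ 2 := by ring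
        _ ≤ 4 * (κ ^ 2 * τ) ^ 2 * (c₀ * (c₁ * (c * κ ^ u * τ) ^ j) * (N * N) ^ 3) := by gcongr
        _ = N ^ 6 * (4 * (c₀ * c₁ * c ^ j) * (κ ^ (4 + u * j) * τ ^ (j + 1 + 1))) := by ring
        _ ≤ _ := by gcongr
    have b2 := h1.trans (Nat.le_of_mul_le_mul_left b1 (by positivity))
    have b3 : κ ^ (4 * (j + 1 + 1)) * τ ^ (j + 1 + 1) =
        κ * (κ ^ (4 * j + 7) * τ ^ (j + 1 + 1)) := by ring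
    rw [b3] at b2
    have b4 := Nat.le_of_mul_le_mul_right b2 (by positivity)
    omega
  · have hp : 1 ≤ 2 ^ (j + 1) := Nat.one_le_two_pow
    have ha : 4 * (c₀ * c₂) ≤ κ := by
      have := Nat.le_mul_of_pos_right (4 * (c₀ * c₂)) hp
      omega
    have c1 := tar_le hk hκ1 hτ ha h1
    have hT : κ ^ 3 * τ + 1 ≤ 2 * (κ ^ 4 * τ) := by
      have h3 : 0 < κ ^ 3 * τ := by positivity
      have h4 : κ ^ 3 * τ ≤ κ ^ 4 * τ :=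
        Nat.mul_le_mul_right _ (Nat.pow_le_pow_right hκ1 (by norm_num))
      omega
    have c2 : N ^ 2 * N ^ 2 ≤ N ^ 2 * (2 * (c₀ * c₂ * (κ ^ 2 * τ)) *
        (2 * (κ ^ 4 * τ)) ^ (j + 1) + 2 * (c₀ * c₂ * (κ ^ 2 * τ) * N)) :=
      calc N ^ 2 * N ^ 2 = N ^ 4 := by ring
        _ ≤ 2 * (κ ^ 2 * τ) * e := h2
        _ ≤ 2 * (κ ^ 2 * τ) * (c₀ * (c₂ * ((2 * (κ ^ 4 * τ)) ^ (j + 1) + N)) * (N * N)) :=
          Nat.mul_le_mul_left _ (h.trans (by gcongr))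
        _ = _ := by ring
    have c3 := Nat.le_of_mul_le_mul_left c2 (by positivity)
    have c4 : 4 * (c₀ * c₂ * (κ ^ 2 * τ) * N) ≤ N ^ 2 :=
      calc 4 * (c₀ * c₂ * (κ ^ 2 * τ) * N) = 4 * (c₀ * c₂) * (κ ^ 2 * τ) * N := by ring
        _ ≤ N * N := by gcongr
        _ = _ := by ring
    have c5 : N ^ 2 ≤ 2 * (2 * (c₀ * c₂ * (κ ^ 2 * τ)) * (2 * (κ ^ 4 * τ)) ^ (j + 1)) := by
      omega
    have c6 : κ ^ 2 * (κ ^ (4 * (j + 1) + 2) * τ ^ (j + 1 + 1)) ≤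
        4 * (c₀ * c₂) * 2 ^ (j + 1) * (κ ^ (4 * (j + 1) + 2) * τ ^ (j + 1 + 1)) :=
      calc _ = κ ^ (4 * (j + 1 + 1)) * τ ^ (j + 1 + 1) := by ring
        _ ≤ _ := h1.trans c5
        _ = _ := by ring
    have c7 := Nat.le_of_mul_le_mul_right c6 (by positivity)
    omega

theorem t_ar_big {k κ τ N T : ℕ} (hk : 3 ≤ k) (hκ : 1 ≤ κ) (hτ : 1 ≤ τ)
    (h : N ^ 2 ≤ 16 * (κ ^ (4 * (k + 1)) * τ ^ (k + 1))) (hT : 3 * (κ ^ 4 * τ) ≤ T) :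
    N < T ^ (k - 1) := by
  obtain ⟨j, rfl⟩ : ∃ j, k = j + 3 := ⟨k - 3, by omega⟩
  have hX : 1 ≤ κ ^ 4 * τ := by
    have : 0 < κ ^ 4 * τ := by positivity
    omega
  refine (Nat.pow_lt_pow_iff_left two_ne_zero).1 (h.trans_lt ?_)
  have e1 : j + 3 - 1 = j + 2 := by omega
  have e2 : (81 : ℕ) ≤ 3 ^ ((j + 2) * 2) :=
    le_trans (by norm_num) (Nat.pow_le_pow_right (by norm_num) (show 4 ≤ (j + 2) * 2 by omega))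
  rw [e1, pow_mul, ← mul_pow, ← pow_mul]
  calc 16 * (κ ^ 4 * τ) ^ (j + 3 + 1) < 81 * (κ ^ 4 * τ) ^ (j + 3 + 1) :=
        Nat.mul_lt_mul_of_pos_right (by norm_num) (by positivity)
    _ ≤ 3 ^ ((j + 2) * 2) * (κ ^ 4 * τ) ^ ((j + 2) * 2) :=
        Nat.mul_le_mul e2 (Nat.pow_le_pow_right hX (by omega))
    _ = (3 * (κ ^ 4 * τ)) ^ ((j + 2) * 2) := (mul_pow _ _ _).symm
    _ ≤ _ := by gcongr

theorem t_ar_shrink {Y N : ℕ} (hY : 1 ≤ Y) (h : 4 * Y ≤ N ^ 2) :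
    ∃ n ≤ N, 4 * Y ≤ n ^ 2 ∧ n ^ 2 ≤ 16 * Y := by
  have hex : ∃ n : ℕ, 4 * Y ≤ n ^ 2 := ⟨N, h⟩
  refine ⟨Nat.find hex, Nat.find_min' hex h, Nat.find_spec hex, ?_⟩
  have h1 := Nat.find_spec hex
  obtain ⟨m, hm⟩ : ∃ m, Nat.find hex = m + 2 := by
    refine ⟨Nat.find hex - 2, ?_⟩
    have : 2 ≤ Nat.find hex := by
      by_contra hlt
      have : Nat.find hex ^ 2 ≤ 1 ^ 2 := Nat.pow_le_pow_left (by omega) 2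
      omega
    omega
  have h2 := Nat.find_min hex (show m + 1 < Nat.find hex by omega)
  rw [hm]
  nlinarith

theorem t_ar_fin {d : ℕ} (hd : 1 ≤ d) (K τ₀ : ℕ) : ∃ c : ℝ, 0 < c ∧ ∀ N t : ℕ, 1 ≤ t →
    N ^ 2 ≤ K * (max t τ₀) ^ d → c * (N : ℝ) ^ (2 / (d : ℝ)) ≤ t := by
  refine ⟨1 / (((K + 1) * (τ₀ + 1) : ℕ) : ℝ), by positivity, fun N t ht h => ?_⟩
  have h1 : max t τ₀ ≤ (τ₀ + 1) * t := max_le (by nlinarith) (by nlinarith)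
  have h2 : N ^ 2 ≤ ((K + 1) * (τ₀ + 1) * t) ^ d :=
    calc N ^ 2 ≤ K * (max t τ₀) ^ d := h
      _ ≤ (K + 1) ^ d * ((τ₀ + 1) * t) ^ d :=
        Nat.mul_le_mul ((Nat.le_succ K).trans (Nat.le_self_pow (by omega) _)) (by gcongr)
      _ = _ := by rw [← mul_pow, mul_assoc]
  have h3 : ((N : ℝ) ^ 2) ≤ ((((K + 1) * (τ₀ + 1) : ℕ) : ℝ) * t) ^ d := by exact_mod_cast h2
  have hd' : d ≠ 0 := by omega
  have h4 : (N : ℝ) ^ (2 / (d : ℝ)) ≤ (((K + 1) * (τ₀ + 1) : ℕ) : ℝ) * t := by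
    rw [div_eq_mul_inv, Real.rpow_mul (Nat.cast_nonneg _), Real.rpow_two,
      ← Real.pow_rpow_inv_natCast (x := (((K + 1) * (τ₀ + 1) : ℕ) : ℝ) * t) (by positivity) hd']
    exact Real.rpow_le_rpow (by positivity) h3 (by positivity)
  rw [one_div, inv_mul_le_iff₀ (by positivity)]
  exact h4

end Vale.Agent.P054S
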