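import Vale.Agent.P054S.TAr

namespace Vale.Agent.P054S

theorem t_arith2 (k u c₀ c₁ c₂ c : ℕ) (hk : 2 ≤ k) (hu : u * (k - 1) < 4 * k) :
    ∃ κ₀ : ℕ, ∀ κ ≥ κ₀, ∀ τ N e : ℕ,
    1 ≤ τ → κ ^ (4 * (k + 1)) * τ ^ (k + 1) ≤ N ^ 2 → N ^ 4 ≤ 2 * (κ ^ 2 * τ) * e →
      c₀ * (N * N) ^ 2 ≤ κ ^ 3 * τ * e ∧
      ¬ e ^ 2 ≤ c₀ * (c₁ * (c * κ ^ u * τ) ^ (k - 1)) * (N * N) ^ 3 ∧
      ¬ e ≤ c₀ * (c₂ * ((κ ^ 3 * τ + 1) ^ k + N)) * (N * N) := by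
  obtain ⟨j, rfl⟩ : ∃ j, k = j + 1 := ⟨k - 1, by omega⟩
  rw [Nat.add_sub_cancel] at hu ⊢
  refine ⟨2 * c₀ + 4 * (c₀ * c₁ * c ^ j) + 4 * (c₀ * c₂) * 2 ^ (j + 1) + 1,
    fun κ hκ τ N e hτ h1 h2 => ?_⟩
  have hκ1 : 1 ≤ κ := by omega
  have hpos : 0 < κ ^ (4 * (j + 1 + 1)) * τ ^ (j + 1 + 1) := by positivity
  have hN : 0 < N := Nat.pos_of_ne_zero fun h => by
    rw [h] at h1
    omega
  refine ⟨?_, fun h => ?_, fun h => ?_⟩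
  · calc c₀ * (N * N) ^ 2 = c₀ * N ^ 4 := by ring
      _ ≤ c₀ * (2 * (κ ^ 2 * τ) * e) := Nat.mul_le_mul_left _ h2
      _ = (2 * c₀) * (κ ^ 2 * τ * e) := by ring
      _ ≤ κ * (κ ^ 2 * τ * e) := Nat.mul_le_mul_right _ (by omega)
      _ = _ := by ring
  · have b0 : κ ^ (u * j) ≤ κ ^ (4 * j + 3) := Nat.pow_le_pow_right hκ1 (by omega)
    have b1 : N ^ 6 * N ^ 2 ≤ N ^ 6 * (4 * (c₀ * c₁ * c ^ j) *
        (κ ^ (4 * j + 7) * τ ^ (j + 1 + 1))) :=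
      calc N ^ 6 * N ^ 2 = (N ^ 4) ^ 2 := by ring
        _ ≤ (2 * (κ ^ 2 * τ) * e) ^ 2 := by gcongr
        _ = 4 * (κ ^ 2 * τ) ^ 2 * e ^ 2 := by ring
        _ ≤ 4 * (κ ^ 2 * τ) ^ 2 * (c₀ * (c₁ * (c * κ ^ u * τ) ^ j) * (N * N) ^ 3) := by gcongr
        _ = N ^ 6 * (4 * (c₀ * c₁ * c ^ j) * (κ ^ 4 * κ ^ (u * j) * τ ^ (j + 1 + 1))) := by
          rw [mul_pow (c * κ ^ u), mul_pow c, ← pow_mul]
          ring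
        _ ≤ N ^ 6 * (4 * (c₀ * c₁ * c ^ j) * (κ ^ 4 * κ ^ (4 * j + 3) * τ ^ (j + 1 + 1))) := by
          gcongr
        _ = _ := by ring
    have b2 := h1.trans (Nat.le_of_mul_le_mul_left b1 (by positivity))
    have b3 : κ ^ (4 * (j + 1 + 1)) * τ ^ (j + 1 + 1) =
        κ * (κ ^ (4 * j + 7) * τ ^ (j + 1 + 1)) := by ring
    rw [b3] at b2
    have b4 := Nat.le_of_mul_le_mul_right b2 (by positivity)
    omega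
  · have hp : 1 ≤ 2 ^ (j + 1) := Nat.one_le_two_pow
    have ha : 4 * (c₀ * c₂) ≤ κ := by
      have := Nat.le_mul_of_pos_right (4 * (c₀ * c₂)) hp
      omega
    have c1 := tar_le hk hκ1 hτ ha h1
    have hT : κ ^ 3 * τ + 1 ≤ 2 * (κ ^ 3 * τ) := by
      have : 0 < κ ^ 3 * τ := by positivity
      omega
    have c2 : N ^ 2 * N ^ 2 ≤ N ^ 2 * (2 * (c₀ * c₂ * (κ ^ 2 * τ)) *
        (2 * (κ ^ 3 * τ)) ^ (j + 1) + 2 * (c₀ * c₂ * (κ ^ 2 * τ) * N)) :=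
      calc N ^ 2 * N ^ 2 = N ^ 4 := by ring
        _ ≤ 2 * (κ ^ 2 * τ) * e := h2
        _ ≤ 2 * (κ ^ 2 * τ) * (c₀ * (c₂ * ((2 * (κ ^ 3 * τ)) ^ (j + 1) + N)) * (N * N)) :=
          Nat.mul_le_mul_left _ (h.trans (by gcongr))
        _ = _ := by ring
    have c3 := Nat.le_of_mul_le_mul_left c2 (by positivity)
    have c4 : 4 * (c₀ * c₂ * (κ ^ 2 * τ) * N) ≤ N ^ 2 :=
      calc 4 * (c₀ * c₂ * (κ ^ 2 * τ) * N) = 4 * (c₀ * c₂) * (κ ^ 2 * τ) * N := by ring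
        _ ≤ N * N := by gcongr
        _ = _ := by ring
    have c5 : N ^ 2 ≤ 2 * (2 * (c₀ * c₂ * (κ ^ 2 * τ)) * (2 * (κ ^ 3 * τ)) ^ (j + 1)) := by
      omega
    have c0 : κ ^ (3 * j + 5) ≤ κ ^ (4 * j + 7) := Nat.pow_le_pow_right hκ1 (by omega)
    have c6 : κ * (κ ^ (4 * j + 7) * τ ^ (j + 1 + 1)) ≤
        4 * (c₀ * c₂) * 2 ^ (j + 1) * (κ ^ (4 * j + 7) * τ ^ (j + 1 + 1)) :=
      calc _ = κ ^ (4 * (j + 1 + 1)) * τ ^ (j + 1 + 1) := by ring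
        _ ≤ _ := h1.trans c5
        _ = 4 * (c₀ * c₂) * 2 ^ (j + 1) * (κ ^ (3 * j + 5) * τ ^ (j + 1 + 1)) := by ring
        _ ≤ _ := by gcongr
    have c7 := Nat.le_of_mul_le_mul_right c6 (by positivity)
    omega

end Vale.Agent.P054S
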