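import Vale.Agent.P054S.TStar

namespace Vale.Agent.P054S

open MvPolynomial Vale.Agent.P054A Sum
open scoped Classical

theorem tcore_cmp {a b x y : ℕ} (hx : 0 < x) (hy : 0 < y)
    (h : (a : ℚ) ^ 2 / (x : ℚ) ≤ (b : ℚ) ^ 2 / (y : ℚ)) : a ^ 2 * y ≤ b ^ 2 * x := by
  rw [div_le_div_iff₀ (by exact_mod_cast hx) (by exact_mod_cast hy)] at h
  exact_mod_cast h

/-- The densest pair of vertex sets. -/
theorem t_ext {α : Type} (U : Finset α) (E : Finset (α × α)) (hE : E ⊆ U ×ˢ U) (hne : E.Nonempty) :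
    ∃ V ⊆ U, ∃ V' ⊆ U, ∃ F ⊆ E, F ⊆ V ×ˢ V' ∧ F.Nonempty ∧
      E.card ^ 2 * (V.card * V'.card) ≤ F.card ^ 2 * U.card ^ 2 ∧
      (∀ Z ⊆ V, (F.filter fun e => e.1 ∈ Z).card ^ 2 * V.card ≤ F.card ^ 2 * Z.card) ∧
      ∀ Z ⊆ V', (F.filter fun e => e.2 ∈ Z).card ^ 2 * V'.card ≤ F.card ^ 2 * Z.card := by
  let ed : Finset α × Finset α → Finset (α × α) := fun p => E.filter fun e => e.1 ∈ p.1 ∧ e.2 ∈ p.2
  let f : Finset α × Finset α → ℚ := fun p =>
    ((ed p).card : ℚ) ^ 2 / ((p.1.card * p.2.card : ℕ) : ℚ)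
  have hUU : (U, U) ∈ U.powerset ×ˢ U.powerset := by simp
  obtain ⟨⟨V, V'⟩, hp, hmax⟩ := Finset.exists_max_image (U.powerset ×ˢ U.powerset) f ⟨_, hUU⟩
  simp only [Finset.mem_product, Finset.mem_powerset] at hp
  have eU : ed (U, U) = E :=
    Finset.filter_true_of_mem fun e he => Finset.mem_product.1 (hE he)
  have hU : 0 < U.card := by
    obtain ⟨e, he⟩ := hne
    exact Finset.card_pos.2 ⟨e.1, (Finset.mem_product.1 (hE he)).1⟩
  have hEc : 0 < E.card := Finset.card_pos.2 hne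
  have h0 := hmax _ hUU
  simp only [f, eU] at h0
  have hF : (ed (V, V')).Nonempty := by
    by_contra h
    rw [Finset.not_nonempty_iff_eq_empty.1 h] at h0
    have : (0 : ℚ) < (E.card : ℚ) ^ 2 / ((U.card * U.card : ℕ) : ℚ) := by positivity
    simp only [Finset.card_empty, Nat.cast_zero, ne_eq, OfNat.ofNat_ne_zero, not_false_eq_true,
      zero_pow, zero_div] at h0
    linarith
  obtain ⟨e₁, he₁⟩ := id hF
  have hV : 0 < V.card := Finset.card_pos.2 ⟨e₁.1, (Finset.mem_filter.1 he₁).2.1⟩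
  have hV' : 0 < V'.card := Finset.card_pos.2 ⟨e₁.2, (Finset.mem_filter.1 he₁).2.2⟩
  refine ⟨V, hp.1, V', hp.2, ed (V, V'), Finset.filter_subset _ _,
    fun e he => Finset.mem_product.2 (Finset.mem_filter.1 he).2, hF, ?_, fun Z hZ => ?_,
    fun Z hZ => ?_⟩
  · rw [sq U.card]
    exact tcore_cmp (Nat.mul_pos hU hU) (Nat.mul_pos hV hV') h0
  · rcases Z.eq_empty_or_nonempty with rfl | hZ0
    · simp
    have e : ((ed (V, V')).filter fun e => e.1 ∈ Z) = ed (Z, V') := by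
      ext e
      simp only [ed, Finset.mem_filter]
      exact ⟨fun h => ⟨h.1.1, h.2, h.1.2.2⟩, fun h => ⟨⟨h.1, hZ h.2.1, h.2.2⟩, h.2.1⟩⟩
    have h1 := tcore_cmp (Nat.mul_pos (Finset.card_pos.2 hZ0) hV') (Nat.mul_pos hV hV')
      (hmax (Z, V') (by simp [hZ.trans hp.1, hp.2]))
    rw [e]
    refine Nat.le_of_mul_le_mul_right ?_ hV'
    simpa only [mul_assoc] using h1
  · rcases Z.eq_empty_or_nonempty with rfl | hZ0
    · simp
    have e : ((ed (V, V')).filter fun e => e.2 ∈ Z) = ed (V, Z) := by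
      ext e
      simp only [ed, Finset.mem_filter]
      exact ⟨fun h => ⟨h.1.1, h.1.2.1, h.2⟩, fun h => ⟨⟨h.1, h.2.1, hZ h.2.2⟩, h.2.2⟩⟩
    have h1 := tcore_cmp (Nat.mul_pos hV (Finset.card_pos.2 hZ0)) (Nat.mul_pos hV hV')
      (hmax (V, Z) (by simp [hZ.trans hp.2, hp.1]))
    rw [e]
    refine Nat.le_of_mul_le_mul_left ?_ hV
    calc V.card * ((ed (V, Z)).card ^ 2 * V'.card)
        = (ed (V, Z)).card ^ 2 * (V.card * V'.card) := by ring
      _ ≤ (ed (V, V')).card ^ 2 * (V.card * Z.card) := h1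
      _ = V.card * ((ed (V, V')).card ^ 2 * Z.card) := by ring

theorem t_core_ar {C L e₀ e n n' m A B : ℕ} (he : 0 < e) (hn : n ≤ L) (hn' : n' ≤ n) (h0 : 0 < n')
    (h1 : e₀ ^ 2 * (n * n') ≤ e ^ 2 * L ^ 2) (h2 : m * e ≤ C * (n * n'))
    (h3 : e ≤ 4 * (n * (A * m)) ∨ n ≤ 16 * (B * m)) :
    e₀ ^ 2 ≤ 16 * C * A * L ^ 3 ∨ e₀ ≤ 16 * C * B * L := by
  have hn0 : 0 < n := h0.trans_le hn'
  have hp : 0 < n * n' := Nat.mul_pos hn0 h0
  rcases h3 with h3 | h3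
  · left
    have h4 : e ^ 2 ≤ 4 * n * A * (C * (n * n')) :=
      calc e ^ 2 = e * e := sq e
        _ ≤ 4 * (n * (A * m)) * e := Nat.mul_le_mul_right _ h3
        _ = 4 * n * A * (m * e) := by ring
        _ ≤ _ := Nat.mul_le_mul_left _ h2
    refine Nat.le_of_mul_le_mul_right ?_ hp
    calc e₀ ^ 2 * (n * n') ≤ e ^ 2 * L ^ 2 := h1
      _ ≤ 4 * n * A * (C * (n * n')) * L ^ 2 := Nat.mul_le_mul_right _ h4
      _ ≤ 16 * L * A * (C * (n * n')) * L ^ 2 := by gcongr; norm_num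
      _ = _ := by ring
  · right
    have h4 : e ≤ 16 * C * B * n' := by
      refine Nat.le_of_mul_le_mul_left ?_ hn0
      calc n * e ≤ 16 * (B * m) * e := Nat.mul_le_mul_right _ h3
        _ = 16 * B * (m * e) := by ring
        _ ≤ 16 * B * (C * (n * n')) := Nat.mul_le_mul_left _ h2
        _ = _ := by ring
    refine (Nat.pow_le_pow_iff_left two_ne_zero).1 (Nat.le_of_mul_le_mul_right ?_ hp)
    calc e₀ ^ 2 * (n * n') ≤ e ^ 2 * L ^ 2 := h1
      _ ≤ (16 * C * B * n') ^ 2 * L ^ 2 := by gcongr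
      _ = (16 * C * B * L) ^ 2 * (n' * n') := by ring
      _ ≤ _ := by gcongr

theorem t_core_m {C L e₀ e n n' m M : ℕ} (he : 0 < e) (he₀ : 0 < e₀) (hn : n ≤ L) (hn' : n' ≤ L)
    (h1 : e₀ ^ 2 * (n * n') ≤ e ^ 2 * L ^ 2) (h2 : m * e ≤ C * (n * n'))
    (h3 : C * L ^ 2 ≤ M * e₀) : m ≤ M := by
  have h4 : e₀ * (n * n') ≤ e * L ^ 2 := by
    refine (Nat.pow_le_pow_iff_left two_ne_zero).1 ?_
    calc (e₀ * (n * n')) ^ 2 = e₀ ^ 2 * (n * n') * (n * n') := by ring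
      _ ≤ e ^ 2 * L ^ 2 * (L * L) := by gcongr
      _ = _ := by ring
  refine Nat.le_of_mul_le_mul_right ?_ (Nat.mul_pos he he₀)
  calc m * (e * e₀) = m * e * e₀ := by ring
    _ ≤ C * (n * n') * e₀ := Nat.mul_le_mul_right _ h2
    _ = C * (e₀ * (n * n')) := by ring
    _ ≤ C * (e * L ^ 2) := Nat.mul_le_mul_left _ h4
    _ = C * L ^ 2 * e := by ring
    _ ≤ M * e₀ * e := Nat.mul_le_mul_right _ h3
    _ = _ := by ring

theorem tcore_link {ι α : Type} {k : ℕ} {E F : Finset ι} {r : ι → α} {β : ι → Fin k → ℂ} {A M : ℕ}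
    (h : LinkB E r β A M) (hF : F ⊆ E) : LinkB F r β A M := fun x m g h1 h2 h3 h4 =>
  (Finset.card_le_card (Finset.filter_subset_filter _ hF)).trans (h x m g h1 h2 h3 h4)

theorem tcore_top {α : Type} {k : ℕ} {U V : Finset α} {ξ : α → Tx k → ℂ} {B M : ℕ}
    (h : TopB U ξ B M) (hV : V ⊆ U) : TopB V ξ B M := fun Z hZ => h Z (hZ.trans hV)

/-- The incidence bound. -/
theorem t_core (k : ℕ) : ∃ c : ℕ, ∀ (α : Type) (U : Finset α) (E : Finset (α × α))
    (ξ : α → Tx k → ℂ) (β : α × α → Fin k → ℂ) (A B M : ℕ), E ⊆ U ×ˢ U →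
      (∀ e ∈ E, fl (ξ e.2) (β e) = fl (ξ e.1) (β e)) → LinkB E Prod.fst β A M →
      LinkB E Prod.snd β A M → TopB U ξ B M → c * U.card ^ 2 ≤ M * E.card →
      E.card ^ 2 ≤ c * A * U.card ^ 3 ∨ E.card ≤ c * B * U.card := by
  obtain ⟨C, -, hC⟩ := t_star k
  refine ⟨16 * C, fun α U E ξ β A B M hE hfl hL1 hL2 hT hM => ?_⟩
  rcases E.eq_empty_or_nonempty with rfl | hne
  · right
    simp
  obtain ⟨V, hV, V', hV', F, hFE, hF, hF0, h1, h2, h3⟩ := t_ext U E hE hne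
  obtain ⟨m, G, m1, m2, hG, hd, hz⟩ :=
    hC α V V' F ξ β hF hF0 fun e he => hfl e (hFE he)
  have hFc : 0 < F.card := Finset.card_pos.2 hF0
  have hm : m ≤ M := t_core_m hFc (Finset.card_pos.2 hne) (Finset.card_le_card hV)
    (Finset.card_le_card hV') h1 m2
    ((Nat.mul_le_mul_right _ (Nat.le_mul_of_pos_left C (by norm_num))).trans hM)
  obtain ⟨e₁, he₁⟩ := id hF0
  have hp := Finset.mem_product.1 (hF he₁)
  rcases le_total V'.card V.card with h | h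
  · exact t_core_ar hFc (Finset.card_le_card hV) h (Finset.card_pos.2 ⟨_, hp.2⟩) h1 m2
      (t_half F Prod.fst V (fun e he => (Finset.mem_product.1 (hF he)).1) hF0 ξ β h2
        (tcore_link hL1 hFE) (tcore_top hT hV) m1 hm hG hd hz)
  · rw [mul_comm V.card] at h1 m2
    refine t_core_ar hFc (Finset.card_le_card hV') h (Finset.card_pos.2 ⟨_, hp.1⟩) h1 m2
      (t_half F Prod.snd V' (fun e he => (Finset.mem_product.1 (hF he)).2) hF0 ξ β h3
        (tcore_link hL2 hFE) (tcore_top hT hV') m1 hm hG hd ?_)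
    rwa [Finset.filter_congr fun e he => by rw [hfl e (hFE he)]]

end Vale.Agent.P054S
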