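import Vale.Agent.P054S.Defs

namespace Vale.Agent.P054S

open MvPolynomial Vale.Agent.P054A Sum
open scoped Classical

noncomputable section

variable {k : ℕ}

/-- The point of a pair of real points. -/
def emb (z : Pt (k + 1) × Pt (k + 1)) : Tx k → ℂ :=
  Sum.elim (fun i => ((z.1 i - z.2 i : ℝ) : ℂ)) fun i => ((z.1 i + z.2 i : ℝ) : ℂ)

/-- The coordinates of the points of `P`. -/
def cP {d : ℕ} (P : Finset (Pt d)) : Set ℂ := {t | ∃ p ∈ P, ∃ i, (p i : ℂ) = t}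

/-- The affine chart of the first coordinate. -/
def chart (s : Fin (k + 1) → ℂ) : Fin k → ℂ := fun i => s i.succ / s 0

/-- Separators of degree at most `M`. -/
def Sepr {σ : Type} (S : Finset (σ → ℂ)) (M : ℕ) : Prop :=
  ∀ p ∈ S, ∃ g : MvPolynomial σ ℂ, g.totalDegree ≤ M ∧ eval p g ≠ 0 ∧
    ∀ q ∈ S, q ≠ p → eval q g = 0

/-- Distinct points have distinct first coordinates. -/
def Dist0 (P : Finset (Pt (k + 1))) : Prop := ∀ p ∈ P, ∀ q ∈ P, p ≠ q → p 0 ≠ q 0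

/-- Degenerate differences. -/
def Dgn (v : Tx k → ℂ) : Prop := v (inl 0) = 0 ∧ ∀ j : Fin k, v (inr j.succ) = 0

/-- Pairs of pairs. -/
abbrev Qd (d : ℕ) : Type := (Pt d × Pt d) × (Pt d × Pt d)

/-- The edges. -/
def edges (P : Finset (Pt (k + 1))) (S₀ : Finset (Pt (k + 1) × Pt (k + 1))) (r : ℕ) :
    Finset (Qd (k + 1)) :=
  ((P ×ˢ P) ×ˢ (P ×ˢ P)).filter fun e => (e.1.1, e.2.1) ∈ S₀ ∧ (e.2.2, e.1.2) ∈ S₀ ∧
    d2 e.1.1 e.2.1 = d2 e.1.2 e.2.2 ∧ e ∉ bad P r ∧ ¬ Dgn (emb e.2 - emb e.1)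

/-- The parameter of the point of an edge. -/
def ebeta (a : Pr (k + 1) → ℂ) (e : Qd (k + 1)) : Fin k → ℂ := chart (prj a (emb e.2 - emb e.1))

/-- The multiples of the differences. -/
def mults (R : ℕ) (x : Pt (k + 1) × Pt (k + 1)) (W : Finset (Pt (k + 1) × Pt (k + 1))) :
    Finset (Tx k → ℂ) :=
  (Finset.Icc 1 R ×ˢ W).image fun z => (z.1 : ℂ) • (emb z.2 - emb x)

/-- A part `W` of the link of `x`. -/
structure LinkS (P : Finset (Pt (k + 1))) (S₀ : Finset (Pt (k + 1) × Pt (k + 1))) (r : ℕ)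
    (x : Pt (k + 1) × Pt (k + 1)) (W : Finset (Pt (k + 1) × Pt (k + 1))) : Prop where
  mem : x ∈ P ×ˢ P
  sub : W ⊆ P ×ˢ P
  nb : ∀ y ∈ W, y.1 ∈ nbr S₀ x.1
  ne0 : ∀ y ∈ W, y.1 0 ≠ x.1 0
  eq : ∀ y ∈ W, d2 x.1 y.1 = d2 x.2 y.2
  good : ∀ y ∈ W, (x, y) ∉ bad P r

/-- A polynomial of degree `m ≤ M` vanishes on at most `A m` edges of a link. -/
def LinkB {ι α : Type} (E : Finset ι) (r : ι → α) (β : ι → Fin k → ℂ) (A M : ℕ) : Prop :=
  ∀ (x : α) (m : ℕ) (g : MvPolynomial (Fin k) ℂ), g ≠ 0 → 1 ≤ m → m ≤ M → g.totalDegree ≤ m →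
    (E.filter fun e => r e = x ∧ eval (β e) g = 0).card ≤ A * m

/-- A hypersurface of degree `m ≤ M` contains at most `B m` flats. -/
def TopB {α : Type} (U : Finset α) (ξ : α → Tx k → ℂ) (B M : ℕ) : Prop :=
  ∀ V ⊆ U, ∀ (m : ℕ) (G : MvPolynomial (Sx k) ℂ), G ≠ 0 → 1 ≤ m → m ≤ M → G.totalDegree ≤ m →
    (∀ x ∈ V, ∀ b, eval (fl (ξ x) b) G = 0) → V.card ≤ B * m

/-- The exchange of the two first coordinates. -/
def mir (x : Tx k → ℂ) : Tx k → ℂ := fun l => x (Equiv.swap (inl 0) (inr 0) l)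

/-- The skew matrix in the exchanged coordinates. -/
def amir (a : Pr (k + 1) → ℂ) (b : Fin k → ℂ) : Pr (k + 1) → ℂ := fun q =>
  if q.1.1 = 0 then - (Fin.cons 0 b : Fin (k + 1) → ℂ) q.1.2
  else skw a q.1.1 q.1.2 - (Fin.cons 0 b : Fin (k + 1) → ℂ) q.1.1 * skw a 0 q.1.2
    + (Fin.cons 0 b : Fin (k + 1) → ℂ) q.1.2 * skw a 0 q.1.1

end

end Vale.Agent.P054S
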