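import Vale.Agent.P054S.TEmb

namespace Vale.Agent.P054S

open MvPolynomial Vale.Agent.P054A Sum
open scoped Classical

theorem t_dgn_card {k : ℕ} (P : Finset (Pt (k + 1))) :
    (((P ×ˢ P) ×ˢ (P ×ˢ P)).filter fun e : Qd (k + 1) => Dgn (emb e.2 - emb e.1)).card
      ≤ P.card ^ 3 := by
  have h : P.card ^ 3 = ((P ×ˢ P) ×ˢ P).card := by
    rw [Finset.card_product, Finset.card_product]
    ring
  rw [h]
  refine Finset.card_le_card_of_injOn (fun e => (e.1, e.2.1)) (fun e he => ?_) ?_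
  · have h1 := Finset.mem_product.1 (Finset.mem_filter.1 (Finset.mem_coe.1 he)).1
    exact Finset.mem_coe.2 (Finset.mem_product.2 ⟨h1.1, (Finset.mem_product.1 h1.2).1⟩)
  · rintro ⟨x, p, q⟩ he ⟨x', p', q'⟩ he' h2
    obtain ⟨rfl, rfl⟩ : x = x' ∧ p = p' := by simpa using h2
    obtain ⟨h3, h4⟩ := (Finset.mem_filter.1 (Finset.mem_coe.1 he)).2
    obtain ⟨h5, h6⟩ := (Finset.mem_filter.1 (Finset.mem_coe.1 he')).2
    have h7 : q = q' := by
      funext i
      refine Fin.cases ?_ (fun j => ?_) i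
      · simp only [emb, Pi.sub_apply, Sum.elim_inl, ← Complex.ofReal_sub,
          Complex.ofReal_eq_zero] at h3 h5
        linarith
      · have h8 := h4 j
        have h9 := h6 j
        simp only [emb, Pi.sub_apply, Sum.elim_inr, ← Complex.ofReal_sub,
          Complex.ofReal_eq_zero] at h8 h9
        linarith
    rw [h7]

theorem t_edges_card {k : ℕ} {P : Finset (Pt (k + 1))} {S₀ : Finset (Pt (k + 1) × Pt (k + 1))}
    (hS : S₀ ⊆ P ×ˢ P) (hne : ∀ z ∈ S₀, z.1 ≠ z.2) {τ : ℕ} (h : nd2 P ≤ τ) (r : ℕ) :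
    S₀.card ^ 2 ≤ τ * ((edges P S₀ r).card + (bad P r).card + P.card ^ 3) := by
  have h1 := modQ_cs S₀ (fun z => d2 z.1 z.2) (P.offDiag.image fun z => d2 z.1 z.2)
    fun z hz => Finset.mem_image_of_mem _ (Finset.mem_offDiag.2
      ⟨(Finset.mem_product.1 (hS hz)).1, (Finset.mem_product.1 (hS hz)).2, hne z hz⟩)
  refine h1.trans (Nat.mul_le_mul h ?_)
  refine le_trans ?_ (Nat.add_le_add (Finset.card_union_le (edges P S₀ r) (bad P r)) (t_dgn_card P))
  refine le_trans ?_ (Finset.card_union_le _ _)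
  refine Finset.card_le_card_of_injOn (fun z => ((z.1.1, z.2.2), (z.1.2, z.2.1)))
    (fun z hz => ?_) ?_
  · obtain ⟨h2, h3⟩ := Finset.mem_filter.1 (Finset.mem_coe.1 hz)
    obtain ⟨h4, h5⟩ := Finset.mem_product.1 h2
    obtain ⟨h6, h7⟩ := Finset.mem_product.1 (hS h4)
    obtain ⟨h8, h9⟩ := Finset.mem_product.1 (hS h5)
    have hm : ((z.1.1, z.2.2), (z.1.2, z.2.1)) ∈ (P ×ˢ P) ×ˢ (P ×ˢ P) :=
      Finset.mem_product.2 ⟨Finset.mem_product.2 ⟨h6, h9⟩, Finset.mem_product.2 ⟨h7, h8⟩⟩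
    rw [Finset.mem_coe, Finset.mem_union, Finset.mem_union]
    by_cases hb : ((z.1.1, z.2.2), (z.1.2, z.2.1)) ∈ bad P r
    · exact Or.inl (Or.inr hb)
    by_cases hd : Dgn (emb (z.1.2, z.2.1) - emb (z.1.1, z.2.2))
    · exact Or.inr (Finset.mem_filter.2 ⟨hm, hd⟩)
    · exact Or.inl (Or.inl (Finset.mem_filter.2 ⟨hm, h4, h5, h3.trans (t_d2_comm _ _), hb, hd⟩))
  · rintro ⟨⟨a, b⟩, c, d⟩ _ ⟨⟨a', b'⟩, c', d'⟩ _ h2
    simp only [Prod.mk.injEq] at h2 ⊢
    tauto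

theorem tedge_vec {k : ℕ} (P : Finset (Pt (k + 1))) : ∃ v : Pt (k + 1), ∑ i, v i ^ 2 ≠ 0 ∧
    ∀ p ∈ P, ∀ q ∈ P, p ≠ q →
      (p 0 - q 0) * ∑ i, v i ^ 2 - 2 * v 0 * ∑ i, (p i - q i) * v i ≠ 0 := by
  let F : Option (Pt (k + 1) × Pt (k + 1)) → MvPolynomial (Fin (k + 1)) ℂ := fun o =>
    o.elim (∑ i, X i ^ 2) fun z => C ((z.1 0 - z.2 0 : ℝ) : ℂ) * ∑ i, X i ^ 2 -
      C 2 * X 0 * ∑ i, C ((z.1 i - z.2 i : ℝ) : ℂ) * X i
  have e0 : ∀ v : Pt (k + 1), eval (cx v) (F none) = ((∑ i, v i ^ 2 : ℝ) : ℂ) := fun v => by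
    simp [F, cx]
  have e1 : ∀ (v : Pt (k + 1)) z, eval (cx v) (F (some z)) = (((z.1 0 - z.2 0) * ∑ i, v i ^ 2 -
      2 * v 0 * ∑ i, (z.1 i - z.2 i) * v i : ℝ) : ℂ) := fun v z => by
    simp [F, cx]
  obtain ⟨v, hv⟩ := exists_real_ne (Finset.insertNone P.offDiag) F (by
    rintro (_ | z) hz h
    · have h1 := e0 (Pi.single 0 1)
      rw [h, map_zero] at h1
      simp [Pi.single_apply] at h1
    · have h1 : ∀ v : Pt (k + 1), (z.1 0 - z.2 0) * ∑ i, v i ^ 2 -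
          2 * v 0 * ∑ i, (z.1 i - z.2 i) * v i = 0 := fun v => by
        have h2 := e1 v z
        rw [h, map_zero] at h2
        exact_mod_cast h2.symm
      have h2 : z.1 0 - z.2 0 = 0 := by
        have h3 := h1 (Pi.single 0 1)
        simp [Pi.single_apply] at h3
        linarith
      refine (Finset.mem_offDiag.1 (Finset.some_mem_insertNone.1 hz)).2.2 (funext fun i => ?_)
      refine Fin.cases (sub_eq_zero.1 h2) (fun j => ?_) i
      have h3 := h1 (Pi.single 0 1 + Pi.single j.succ 1)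
      simp [Pi.single_apply, h2, mul_add, Finset.sum_add_distrib] at h3
      linarith)
  refine ⟨v, fun h => hv none Finset.none_mem_insertNone (by rw [e0, h]; simp),
    fun p hp q hq hpq h => hv (some (p, q))
      (Finset.some_mem_insertNone.2 (Finset.mem_offDiag.2 ⟨hp, hq, hpq⟩)) (by rw [e1, h]; simp)⟩

/-- A reflection makes the first coordinates distinct. -/
theorem t_rot {k : ℕ} (P : Finset (Pt (k + 1))) :
    ∃ P' : Finset (Pt (k + 1)), P'.card = P.card ∧ nd2 P' = nd2 P ∧ Dist0 P' := by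
  obtain ⟨v, h0, hv⟩ := tedge_vec P
  let R : Pt (k + 1) → Pt (k + 1) := fun p i => p i - 2 * (∑ j, p j * v j) / (∑ j, v j ^ 2) * v i
  have hs : ∀ p q i, R p i - R q i =
      p i - q i - 2 * (∑ j, (p j - q j) * v j) / (∑ j, v j ^ 2) * v i := fun p q i => by
    simp only [R, sub_mul, Finset.sum_sub_distrib]
    ring
  have hd : ∀ p q, d2 (R p) (R q) = d2 p q := fun p q => by
    have e : ∀ i, (R p i - R q i) ^ 2 = (p i - q i) ^ 2 -
        2 * (2 * (∑ j, (p j - q j) * v j) / ∑ j, v j ^ 2) * ((p i - q i) * v i) +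
        (2 * (∑ j, (p j - q j) * v j) / ∑ j, v j ^ 2) ^ 2 * v i ^ 2 := fun i => by
      rw [hs]
      ring
    simp only [d2, e, Finset.sum_add_distrib, Finset.sum_sub_distrib, ← Finset.mul_sum]
    field_simp
    ring
  have hi : Function.Injective R := fun p q h => modQ_zero (by
    rw [← hd, h]
    simp [d2])
  refine ⟨P.image R, Finset.card_image_of_injective _ hi, ?_, ?_⟩
  · unfold nd2
    congr 1
    ext t
    simp only [Finset.mem_image, Finset.mem_offDiag]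
    constructor
    · rintro ⟨z, ⟨⟨p, hp, h1⟩, ⟨q, hq, h2⟩, h3⟩, rfl⟩
      refine ⟨(p, q), ⟨hp, hq, fun h => h3 ?_⟩, ?_⟩
      · rw [← h1, ← h2]
        exact congrArg R h
      · rw [← h1, ← h2, hd]
    · rintro ⟨z, ⟨h1, h2, h3⟩, rfl⟩
      exact ⟨(R z.1, R z.2), ⟨⟨_, h1, rfl⟩, ⟨_, h2, rfl⟩, fun h => h3 (hi h)⟩, hd _ _⟩
  · intro p' hp' q' hq' hne h
    obtain ⟨p, hp, rfl⟩ := Finset.mem_image.1 hp'
    obtain ⟨q, hq, rfl⟩ := Finset.mem_image.1 hq'
    refine hv p hp q hq (fun h1 => hne (by rw [h1])) ?_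
    have h2 := hs p q 0
    rw [sub_eq_zero.2 h] at h2
    field_simp at h2
    linarith

end Vale.Agent.P054S
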