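import Vale.Agent.P054S.TDef

namespace Vale.Agent.P054S

open MvPolynomial Vale.Agent.P054A Sum
open scoped Classical

variable {k : ℕ}

theorem t_emb_inj : Function.Injective (emb (k := k)) := by
  intro x y h
  have h1 : ∀ i, x.1 i - x.2 i = y.1 i - y.2 i := fun i =>
    Complex.ofReal_injective (congrFun h (inl i))
  have h2 : ∀ i, x.1 i + x.2 i = y.1 i + y.2 i := fun i =>
    Complex.ofReal_injective (congrFun h (inr i))
  refine Prod.ext (funext fun i => ?_) (funext fun i => ?_) <;> linarith [h1 i, h2 i]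

theorem t_d2_comm {d : ℕ} (p q : Pt d) : d2 p q = d2 q p := by
  exact Finset.sum_congr rfl fun i _ => by ring

theorem t_nul_emb (x y : Pt (k + 1) × Pt (k + 1)) :
    nul (emb x) (emb y) ↔ d2 x.1 y.1 = d2 x.2 y.2 := by
  have e : bil (emb x - emb y) (emb x - emb y) = ((2 * (d2 x.1 y.1 - d2 x.2 y.2) : ℝ) : ℂ) := by
    simp only [bil, d2, emb, Pi.sub_apply, Sum.elim_inl, Sum.elim_inr, ← Finset.sum_sub_distrib,
      Finset.mul_sum]
    push_cast
    exact Finset.sum_congr rfl fun i _ => by ring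
  rw [nul, e, Complex.ofReal_eq_zero, mul_eq_zero, sub_eq_zero]
  exact or_iff_right two_ne_zero

theorem t_prj_sub (a : Pr (k + 1) → ℂ) (x y : Tx k → ℂ) : prj a (x - y) = prj a x - prj a y := by
  funext i
  simp only [prj, Pi.sub_apply, mul_sub, Finset.sum_sub_distrib]
  ring

theorem t_prj_smul (a : Pr (k + 1) → ℂ) (c : ℂ) (x : Tx k → ℂ) : prj a (c • x) = c • prj a x := by
  funext i
  simp only [prj, Pi.smul_apply, smul_eq_mul, mul_sub, Finset.mul_sum]
  congr 1
  exact Finset.sum_congr rfl fun j _ => by ring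

theorem temb_bil (a : Pr (k + 1) → ℂ) (v : Tx k → ℂ) : bil (tw a v) (tw a v) = bil v v := by
  have hs : ∀ i j, skw a j i = -skw a i j := fun i j => congrFun (congrFun (skw_transpose a) i) j
  have h0 : ∑ i, ∑ j, skw a i j * v (inr j) * v (inr i) = 0 := by
    have h1 : ∑ i, ∑ j, skw a i j * v (inr j) * v (inr i) =
        -∑ i, ∑ j, skw a i j * v (inr j) * v (inr i) := by
      conv_lhs => rw [Finset.sum_comm]
      simp only [← Finset.sum_neg_distrib]
      refine Finset.sum_congr rfl fun i _ => Finset.sum_congr rfl fun j _ => ?_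
      rw [hs i j]
      ring
    linear_combination h1 / 2
  simp only [bil, tw, prj, Sum.elim_inl, Sum.elim_inr, sub_mul, Finset.sum_mul,
    Finset.sum_add_distrib, Finset.sum_sub_distrib, h0, sub_zero]

theorem t_nul_tw (a : Pr (k + 1) → ℂ) (x y : Tx k → ℂ) : nul (tw a x) (tw a y) ↔ nul x y := by
  have e : bil (tw a x - tw a y) (tw a x - tw a y) = bil (x - y) (x - y) := by
    have h1 : tw a x - tw a y = tw a (x - y) := by
      funext l
      rcases l with i | i
      · exact (congrFun (t_prj_sub a x y) i).symm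
      · rfl
    rw [h1]
    exact temb_bil a _
  rw [nul, nul, e]

/-- The two flats of an edge meet. -/
theorem t_fl_edge (a : Pr (k + 1) → ℂ) {x y : Tx k → ℂ} (h : nul x y) (h0 : prj a (y - x) 0 ≠ 0) :
    fl (tw a y) (chart (prj a (y - x))) = fl (tw a x) (chart (prj a (y - x))) := by
  have e : bb (tw a x) (tw a y) = chart (prj a (y - x)) := by
    funext i
    simp only [bb, chart, tw, Sum.elim_inl, t_prj_sub, Pi.sub_apply]
    rw [← neg_div_neg_eq, neg_sub, neg_sub]
  rw [← e]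
  refine fl_bb ((t_nul_tw a x y).2 h) fun h1 => h0 ?_
  rw [t_prj_sub, Pi.sub_apply, sub_eq_zero]
  exact h1.symm

theorem t_prj_swap (a : Pr (k + 1) → ℂ) (x y : Pt (k + 1) × Pt (k + 1)) :
    prj (-a) (emb x.swap - emb y.swap) = prj a (emb y - emb x) := by
  funext i
  have e : ∀ j, skw (-a) i j = -skw a i j := fun j => by
    simp only [skw, Pi.neg_apply]
    split_ifs <;> simp
  simp only [prj, emb, e, Pi.sub_apply, Sum.elim_inl, Sum.elim_inr, Prod.fst_swap, Prod.snd_swap]
  push_cast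
  congr 1
  · ring
  · exact Finset.sum_congr rfl fun j _ => by ring

theorem t_cong_card {d : ℕ} {P : Finset (Pt d)} {T : Finset (Pt d × Pt d)} (hT : T ⊆ P ×ˢ P)
    (h : Cong T) : T.card ≤ P.card := by
  refine Finset.card_le_card_of_injOn Prod.fst
    (fun x hx => (Finset.mem_product.1 (hT hx)).1) fun x hx y hy e => Prod.ext e ?_
  refine modQ_zero ?_
  rw [← h x hx y hy, e]
  simp [d2]

theorem t_nulB_emb {P : Finset (Pt (k + 1))} {V : Finset (Pt (k + 1) × Pt (k + 1))}
    (hV : V ⊆ P ×ˢ P) : NulB (V.image emb) P.card := by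
  intro T hT h
  obtain ⟨T', hT', rfl⟩ := Finset.subset_image_iff.1 hT
  refine Finset.card_image_le.trans (t_cong_card (hT'.trans hV) fun x hx y hy => ?_)
  exact (t_nul_emb x y).1 (h _ (Finset.mem_image_of_mem _ hx) _ (Finset.mem_image_of_mem _ hy))

theorem t_bad_swap {d : ℕ} {P : Finset (Pt d)} {r : ℕ} {e : Qd d} (h : (e.2.swap, e.1.swap) ∈ bad P r) :
    e ∈ bad P r := by
  obtain ⟨h1, T, hT, h2, h3, h4, h5⟩ := Finset.mem_filter.1 h
  simp only [Finset.mem_product, Prod.fst_swap, Prod.snd_swap] at h1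
  refine Finset.mem_filter.2 ⟨?_, T.image Prod.swap, fun z hz => ?_,
    Finset.mem_image.2 ⟨_, h3, rfl⟩, Finset.mem_image.2 ⟨_, h2, rfl⟩, ?_, fun x hx y hy => ?_⟩
  · simp only [Finset.mem_product]
    exact ⟨⟨h1.2.2, h1.2.1⟩, h1.1.2, h1.1.1⟩
  · obtain ⟨w, hw, rfl⟩ := Finset.mem_image.1 hz
    have h6 := Finset.mem_product.1 (hT hw)
    exact Finset.mem_product.2 ⟨h6.2, h6.1⟩
  · rwa [Finset.card_image_of_injective _ Prod.swap_injective]
  · obtain ⟨x', hx', rfl⟩ := Finset.mem_image.1 hx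
    obtain ⟨y', hy', rfl⟩ := Finset.mem_image.1 hy
    exact (h5 x' hx' y' hy').symm

theorem t_bad_mono {d : ℕ} (P : Finset (Pt d)) {r r' : ℕ} (h : r ≤ r') : bad P r' ⊆ bad P r := by
  intro e he
  obtain ⟨h1, T, hT, h2, h3, h4, h5⟩ := Finset.mem_filter.1 he
  exact Finset.mem_filter.2 ⟨h1, T, hT, h2, h3, h.trans h4, h5⟩

theorem t_bad_empty {d : ℕ} (P : Finset (Pt d)) {r : ℕ} (h : P.card < r) : bad P r = ∅ := by
  refine Finset.filter_eq_empty_iff.2 ?_
  rintro e - ⟨T, hT, -, -, h4, h5⟩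
  exact absurd (h4.trans (t_cong_card hT h5)) (not_le.2 h)

end Vale.Agent.P054S
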