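import Vale.Agent.P054S.TDef
import Vale.Agent.P054S.APD

namespace Vale.Agent.P054S

open MvPolynomial Vale.Agent.P054A Sum
open scoped Classical

theorem t_capT_mono {σ : Type} [Fintype σ] {S S' : Finset (σ → ℂ)} {M M' j₀ : ℕ} (h : CapT S M j₀)
    (hS : S' ⊆ S) (hM : M ≤ M') : CapT S' M' j₀ := fun j h1 h2 P hP =>
  let ⟨g, a, b, c⟩ := h j h1 h2 P hP
  ⟨g, a, b.trans hM, fun p hp => c p (hS hp)⟩

/-- Capture through a central projection. -/
theorem t_fibre {σ β : Type} [Fintype σ] [Fintype β] (Δ : MvPolynomial σ ℂ)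
    (Z : β → MvPolynomial σ ℂ) (hΔ : Δ.totalDegree ≤ 1) (hZ : ∀ l, (Z l).totalDegree ≤ 1)
    (S : Finset (σ → ℂ)) (S' : Finset (β → ℂ)) (π : (σ → ℂ) → β → ℂ)
    (h : ∀ v ∈ S, eval v Δ ≠ 0 ∧ (∀ l, eval v (Z l) = eval v Δ * π v l) ∧ π v ∈ S') {M j₀ : ℕ}
    (hS' : CapT S' M (Fintype.card β)) (hf : ∀ b, CapT (S.filter fun v => π v = b) M j₀) :
    CapT S M j₀ := by
  intro j h1 h2 P hP
  have hp := hP.prime
  have h1P : (1 : MvPolynomial σ ℂ) ∉ P := (Ideal.ne_top_iff_one P).1 hp.ne_top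
  by_cases hD : Δ ∈ P
  · exact ⟨1, h1P, by simp, fun v hv ho => ((h v hv).1 (ho _ hD)).elim⟩
  let W : Set (β → ℂ) := {b | ∃ v, On v P ∧ eval v Δ ≠ 0 ∧ ∀ l, eval v (Z l) = eval v Δ * b l}
  have key : ∀ (g : MvPolynomial β ℂ) m, g.totalDegree ≤ m → ∃ G : MvPolynomial σ ℂ,
      G.totalDegree ≤ m ∧ (G ∈ P → g ∈ vanI W) ∧ ∀ v b, (∀ l, eval v (Z l) = eval v Δ * b l) →
        eval v G = eval v Δ ^ m * eval b g := fun g m hg => by
    obtain ⟨G, a, b⟩ := exists_clear Δ Z hΔ hZ g hg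
    refine ⟨G, by simpa using a, fun hG z ⟨v, hv, h0, hz⟩ => ?_, b⟩
    exact (mul_eq_zero.1 ((b v z hz).symm.trans (hv G hG))).resolve_left (pow_ne_zero _ h0)
  have hb : ∀ v, eval v Δ ≠ 0 → ∀ l, eval v (Z l) = eval v Δ * (eval v (Z l) / eval v Δ) :=
    fun v hv l => (mul_div_cancel₀ _ hv).symm
  have hQ : (vanI W).IsPrime := by
    refine ⟨fun e => ?_, fun {g g'} hg => ?_⟩
    · obtain ⟨v, hv, h0⟩ := exists_on_ne hp hD
      have h3 : (1 : MvPolynomial β ℂ) ∈ vanI W := e ▸ Submodule.mem_top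
      simpa using h3 _ ⟨v, hv, h0, hb v h0⟩
    · obtain ⟨G, -, a, b⟩ := key g _ le_rfl
      obtain ⟨G', -, a', b'⟩ := key g' _ le_rfl
      have h5 : Δ * (G * G') ∈ P := by_contra fun hn => by
        obtain ⟨v, hv, h0⟩ := exists_on_ne hp hn
        rw [map_mul, map_mul] at h0
        have h3 := left_ne_zero_of_mul h0
        have h4 := hg _ ⟨v, hv, h3, hb v h3⟩
        rw [map_mul] at h4
        rw [b v _ (hb v h3), b' v _ (hb v h3), mul_mul_mul_comm, h4, mul_zero, mul_zero] at h0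
        exact h0 rfl
      exact (hp.mem_or_mem ((hp.mem_or_mem h5).resolve_left hD)).imp a a'
  obtain ⟨j', hj⟩ := exists_PD hQ
  have hW : ∀ v ∈ S, On v P → On (π v) (vanI W) := fun v hv ho g hg =>
    hg _ ⟨v, ho, (h v hv).1, (h v hv).2.1⟩
  rcases j'.eq_zero_or_pos with rfl | h0
  · by_cases hn : ∃ v ∈ S, On v P
    · obtain ⟨v₀, hv₀, ho₀⟩ := hn
      obtain ⟨g, a, b, c⟩ := hf (π v₀) j h1 h2 P hP
      refine ⟨g, a, b, fun v hv ho => c v (Finset.mem_filter.2 ⟨hv, funext fun l => ?_⟩) ho⟩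
      have h3 := hW v hv ho (X l - C (π v₀ l)) (by
        rw [hj.eq_point (hW v₀ hv₀ ho₀)]
        rintro _ rfl
        simp)
      simpa [sub_eq_zero] using h3
    · exact ⟨1, h1P, by simp, fun v hv ho => (hn ⟨v, hv, ho⟩).elim⟩
  · obtain ⟨g, a, b, c⟩ := hS' j' h0 hj.1 _ hj
    obtain ⟨G, d, e, f⟩ := key g M b
    exact ⟨G, mt e a, d, fun v hv ho => by
      rw [f v _ (h v hv).2.1, c _ (h v hv).2.2 (hW v hv ho), mul_zero]⟩

end Vale.Agent.P054S
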