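import Vale.Agent.P054S.TDef

namespace Vale.Agent.P054S

open MvPolynomial Vale.Agent.P054A Sum
open scoped Classical

variable {k : ℕ}

theorem t_kill {ι : Type} {T T' : Set ℂ} {a : ι → ℂ} (h : GenA T a)
    (hT : ∀ D : Derivation ℚ ℂ ℂ, (∀ t ∈ T, D t = 0) → ∀ t ∈ T', D t = 0) : GenA T' a := by
  intro c
  obtain ⟨D, h1, h2⟩ := h c
  exact ⟨D, hT D h1, h2⟩

theorem t_gen_neg {ι : Type} {T : Set ℂ} {a : ι → ℂ} (h : GenA T a) : GenA T (-a) := by
  intro c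
  obtain ⟨D, h1, h2⟩ := h (-c)
  exact ⟨D, h1, fun q => by simp [h2]⟩

theorem tgen_der {ι : Type} {b : ι → ℂ} (D : Derivation ℚ ℂ ℂ) (i : ι)
    (hb : ∀ j, D (b j) = (Pi.single i 1 : ι → ℂ) j) {g : MvPolynomial ι ℂ}
    (hc : ∀ α, D (coeff α g) = 0) : D (eval b g) = eval b (pderiv i g) := by
  let S : Subsemiring (MvPolynomial ι ℂ) :=
    { carrier := {p | D (eval b p) = eval b (pderiv i p)}
      mul_mem' := fun {p q} hp hq => by
        simp only [Set.mem_ofPred_eq] at hp hq ⊢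
        simp only [map_mul, Derivation.leibniz, smul_eq_mul, map_add, hp, hq]
      one_mem' := by simp
      add_mem' := fun {p q} hp hq => by
        simp only [Set.mem_ofPred_eq] at hp hq ⊢
        simp only [map_add, hp, hq]
      zero_mem' := by simp }
  have hX : ∀ j, X j ∈ S := fun j => by
    change D (eval b (X j)) = eval b (pderiv i (X j))
    rw [eval_X, hb, pderiv_X]
    rcases eq_or_ne j i with rfl | h
    · simp
    · simp [h]
  have hC : ∀ α, C (coeff α g) ∈ S := fun α => by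
    change D (eval b (C _)) = eval b (pderiv i (C _))
    rw [eval_C, hc, pderiv_C, map_zero]
  change g ∈ S
  rw [g.as_sum]
  refine sum_mem fun α _ => ?_
  rw [monomial_eq]
  exact mul_mem (hC α) (prod_mem fun j _ => pow_mem (hX j) _)

theorem tgen_zero {ι : Type} {T : Set ℂ} {b : ι → ℂ} (h : GenA T b) (n : ℕ) :
    ∀ g : MvPolynomial ι ℂ, (∀ D : Derivation ℚ ℂ ℂ, (∀ t ∈ T, D t = 0) → ∀ α, D (coeff α g) = 0) →
      eval b g = 0 → (∀ α : ι →₀ ℕ, n ≤ α.degree → coeff α g = 0) → g = 0 := by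
  induction n with
  | zero => exact fun g _ _ h0 => MvPolynomial.ext _ _ fun α => h0 α (Nat.zero_le _)
  | succ n ih =>
    intro g hc he h0
    have h1 : ∀ i, pderiv i g = 0 := fun i => by
      obtain ⟨D, hD, hb⟩ := h (Pi.single i 1)
      refine ih _ (fun D hD α => ?_) ?_ fun α hα => ?_
      · rw [coeff_pderiv, Derivation.leibniz, hc D hD, map_add, D.map_natCast, D.map_one_eq_zero]
        simp
      · rw [← tgen_der D i hb (hc D hD), he, map_zero]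
      · rw [coeff_pderiv, h0 _ (by rw [map_add, Finsupp.degree_single]; omega), zero_mul]
    have h2 : g = C (coeff 0 g) := by
      refine MvPolynomial.ext _ _ fun α => ?_
      rw [coeff_C]
      split_ifs with hα
      · rw [hα]
      · obtain ⟨i, hi⟩ := Finsupp.ne_iff.1 (Ne.symm hα)
        have h3 := coeff_pderiv (i := i) g (α - Finsupp.single i 1)
        rw [h1, coeff_zero, tsub_add_cancel_of_le
          (Finsupp.single_le_iff.2 (Nat.one_le_iff_ne_zero.2 hi))] at h3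
        exact (mul_eq_zero.1 h3.symm).resolve_right (Nat.cast_add_one_ne_zero _)
    rw [h2, eval_C] at he
    rw [h2, he, C_0]

/-- A nonzero polynomial with constant coefficients does not vanish at a generic point. -/
theorem t_gen_ne {ι : Type} [Fintype ι] {T : Set ℂ} {b : ι → ℂ} (h : GenA T b)
    {g : MvPolynomial ι ℂ} (hg : g ≠ 0)
    (hc : ∀ D : Derivation ℚ ℂ ℂ, (∀ t ∈ T, D t = 0) → ∀ α, D (coeff α g) = 0) :
    eval b g ≠ 0 := by
  exact fun he => hg (tgen_zero h (g.totalDegree + 1) g hc he fun α hα =>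
    coeff_eq_zero_of_totalDegree_lt hα)

/-- Joint genericity. -/
theorem t_joint {ι ι' : Type} {T T' : Set ℂ} {a : ι → ℂ} {b : ι' → ℂ} (ha : GenA T a)
    (hb : GenA T' b) (hT : T ⊆ T') (haT : ∀ q, a q ∈ T') (ca : ι → ℂ) (cb : ι' → ℂ) :
    ∃ D : Derivation ℚ ℂ ℂ, (∀ t ∈ T, D t = 0) ∧ (∀ q, D (a q) = ca q) ∧ ∀ q, D (b q) = cb q := by
  obtain ⟨D₁, h1, h2⟩ := ha ca
  obtain ⟨D₂, h3, h4⟩ := hb fun q => cb q - D₁ (b q)
  refine ⟨D₁ + D₂, fun t ht => ?_, fun q => ?_, fun q => ?_⟩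
  · rw [Derivation.add_apply, h1 t ht, h3 t (hT ht), add_zero]
  · rw [Derivation.add_apply, h2, h3 _ (haT q), add_zero]
  · rw [Derivation.add_apply, h4, add_sub_cancel]

theorem tgen_skw (a : Pr (k + 1) → ℂ) (j : Fin k) :
    skw a 0 j.succ = a ⟨(0, j.succ), Fin.succ_pos j⟩ := dif_pos _

theorem tgen_skw0 (a : Pr (k + 1) → ℂ) : skw a 0 0 = 0 := by simp [skw]

theorem t_prj0_ne {T : Set ℂ} {a : Pr (k + 1) → ℂ} (h : GenA T a) {v : Tx k → ℂ}
    (hv : ∀ D : Derivation ℚ ℂ ℂ, (∀ t ∈ T, D t = 0) → ∀ l, D (v l) = 0) (hd : ¬ Dgn v) :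
    prj a v 0 ≠ 0 := by
  intro h0
  simp only [prj, Fin.sum_univ_succ, tgen_skw, tgen_skw0, zero_mul, zero_add] at h0
  have h1 : ∀ j : Fin k, v (inr j.succ) = 0 := fun j => by
    obtain ⟨D, hD, ha⟩ := h fun q => if q.1.2 = j.succ then 1 else 0
    have h2 := congrArg D h0
    simpa [map_sum, hv D hD, ha] using h2
  exact hd ⟨by simpa [h1] using h0, h1⟩

theorem t_cP_finite {d : ℕ} (P : Finset (Pt d)) : (cP P).Finite := by
  refine ((P.finite_toSet.prod Set.finite_univ).image fun z => (z.1 z.2 : ℂ)).subset ?_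
  rintro _ ⟨p, hp, i, rfl⟩
  exact ⟨(p, i), ⟨hp, trivial⟩, rfl⟩

theorem t_crd_finite {τ : Type} [Fintype τ] (S : Finset (τ → ℂ)) : (crd S).Finite := by
  refine ((S.finite_toSet.prod Set.finite_univ).image fun z => z.1 z.2).subset ?_
  rintro _ ⟨p, hp, i, rfl⟩
  exact ⟨(p, i), ⟨hp, trivial⟩, rfl⟩

theorem t_kill_emb {P : Finset (Pt (k + 1))} {D : Derivation ℚ ℂ ℂ} (hD : ∀ t ∈ cP P, D t = 0)
    {z : Pt (k + 1) × Pt (k + 1)} (hz : z ∈ P ×ˢ P) (l : Tx k) : D (emb z l) = 0 := by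
  obtain ⟨h1, h2⟩ := Finset.mem_product.1 hz
  rcases l with i | i <;>
    simp [emb, hD _ ⟨_, h1, i, rfl⟩, hD _ ⟨_, h2, i, rfl⟩]

theorem t_gen_emb {ι : Type} {P : Finset (Pt (k + 1))} {a : ι → ℂ} (h : GenA (cP P) a)
    {V : Finset (Pt (k + 1) × Pt (k + 1))} (hV : V ⊆ P ×ˢ P) : GenA (crd (V.image emb)) a := by
  refine t_kill h fun D hD t ht => ?_
  obtain ⟨x, hx, l, rfl⟩ := ht
  obtain ⟨z, hz, rfl⟩ := Finset.mem_image.1 hx
  exact t_kill_emb hD (hV hz) l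

theorem t_gen_mults {ι : Type} {P : Finset (Pt (k + 1))} {a : ι → ℂ} (h : GenA (cP P) a)
    {x : Pt (k + 1) × Pt (k + 1)} (hx : x ∈ P ×ˢ P) {W : Finset (Pt (k + 1) × Pt (k + 1))}
    (hW : W ⊆ P ×ˢ P) (R : ℕ) : GenA (crd (mults R x W)) a := by
  refine t_kill h fun D hD t ht => ?_
  obtain ⟨y, hy, l, rfl⟩ := ht
  obtain ⟨z, hz, rfl⟩ := Finset.mem_image.1 hy
  simp [t_kill_emb hD hx l, t_kill_emb hD (hW (Finset.mem_product.1 hz).2) l]

theorem t_gen_mir {T : Set ℂ} {a : Pr (k + 1) → ℂ} {b : Fin k → ℂ}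
    (h : ∀ (ca : Pr (k + 1) → ℂ) (cb : Fin k → ℂ), ∃ D : Derivation ℚ ℂ ℂ,
      (∀ t ∈ T, D t = 0) ∧ (∀ q, D (a q) = ca q) ∧ ∀ q, D (b q) = cb q) : GenA T (amir a b) := by
  intro c
  obtain ⟨cb, hcb⟩ : ∃ cb : Fin k → ℂ, cb = fun j => - c ⟨(0, j.succ), Fin.succ_pos j⟩ := ⟨_, rfl⟩
  obtain ⟨D, hD, ha, hb⟩ := h (fun q => if q.1.1 = 0 then 0 else
    c q + (Fin.cons 0 cb : Fin (k + 1) → ℂ) q.1.1 * skw a 0 q.1.2 -
      (Fin.cons 0 cb : Fin (k + 1) → ℂ) q.1.2 * skw a 0 q.1.1) cb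
  have h1 : ∀ i, D ((Fin.cons 0 b : Fin (k + 1) → ℂ) i) = (Fin.cons 0 cb : Fin (k + 1) → ℂ) i :=
    fun i => by cases i using Fin.cases <;> simp [hb]
  have h2 : ∀ i, D (skw a 0 i) = 0 := fun i => by
    cases i using Fin.cases <;> simp [tgen_skw, tgen_skw0, ha]
  refine ⟨D, hD, ?_⟩
  rintro ⟨⟨i, j⟩, hij⟩
  simp only [amir]
  split_ifs with hi
  · subst hi
    cases j using Fin.cases with
    | zero => exact absurd hij (lt_irrefl _)
    | succ j => simp [hb, hcb]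
  · have e : skw a i j = a ⟨(i, j), hij⟩ := dif_pos hij
    simp only [e, map_add, map_sub, Derivation.leibniz, h1, h2, ha, hi, if_false, smul_eq_mul]
    ring

end Vale.Agent.P054S
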