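import Vale.Agent.P054S.TMul
import Vale.Agent.P054S.TGen
import Vale.Agent.P054S.Gpt

namespace Vale.Agent.P054S

open MvPolynomial Vale.Agent.P054A Sum
open scoped Classical

/-- Homogenisation. -/
theorem t_homog {k m : ℕ} {g : MvPolynomial (Fin k) ℂ} (hg : g ≠ 0) (hm : g.totalDegree ≤ m) :
    ∃ G : MvPolynomial (Fin (k + 1)) ℂ, G ≠ 0 ∧ G.totalDegree ≤ m ∧
      ∀ s : Fin (k + 1) → ℂ, s 0 ≠ 0 → eval (chart s) g = 0 → ∀ t : ℂ, eval (t • s) G = 0 := by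
  obtain ⟨G, h1, h2⟩ := exists_clear (τ := Fin (k + 1)) (X 0) (fun l : Fin k => X l.succ) (r := 1)
    (totalDegree_X _).le (fun l => (totalDegree_X _).le) g hm
  refine ⟨G, fun h0 => hg (MvPolynomial.funext fun z => ?_), by simpa using h1,
    fun s hs hz t => ?_⟩
  · have := h2 (Fin.cons 1 z) z (fun l => by simp)
    simpa [h0] using this.symm
  · rw [h2 (t • s) (chart s) (fun l => ?_), hz, mul_zero]
    simp only [eval_X, Pi.smul_apply, smul_eq_mul, chart]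
    field_simp

/-- The link lemma. -/
theorem t_link (k : ℕ) (hk : 1 ≤ k) : ∃ c : ℕ, ∀ (P : Finset (Pt (k + 1)))
    (S₀ : Finset (Pt (k + 1) × Pt (k + 1))) (T τ m : ℕ) (a : Pr (k + 1) → ℂ)
    (x : Pt (k + 1) × Pt (k + 1)) (W : Finset (Pt (k + 1) × Pt (k + 1)))
    (g : MvPolynomial (Fin k) ℂ), GenA (cP P) a → LinkS P S₀ (T ^ (k - 1)) x W → ConeOK S₀ T →
      nd2 P ≤ τ → τ ≤ T → g ≠ 0 → 1 ≤ m → m ≤ T → g.totalDegree ≤ m →
      (∀ y ∈ W, prj a (emb y - emb x) 0 ≠ 0 ∧ eval (chart (prj a (emb y - emb x))) g = 0) →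
      W.card ≤ c * T ^ (k - 1) * m := by
  obtain ⟨c, hc⟩ := gpt k hk
  obtain ⟨c1, h1, hd⟩ := t_mults_dens k
  refine ⟨c * (c1 ^ k + 1), fun P S₀ T τ m a x W g ha hL hC hτ hτT hg hm hmT hdeg hW => ?_⟩
  have hT : 1 ≤ T := hm.trans hmT
  obtain ⟨G, hG, hGd, hGz⟩ := t_homog hg hdeg
  have key := hc (mults T x W) a (c1 * T) (T * T ^ (k - 1)) m G (t_gen_mults ha hL.mem hL.sub T)
    (hd P S₀ _ T τ x W hL hC hτ hτT hT) (t_mults_nul hL T) hm
    (hmT.trans (Nat.le_mul_of_pos_left T h1)) hG hGd (fun v hv => by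
      obtain ⟨z, hz, rfl⟩ := Finset.mem_image.1 hv
      have hy := hW z.2 (Finset.mem_product.1 hz).2
      rw [t_prj_smul]
      exact hGz _ hy.1 hy.2 _)
  rw [t_mults_card hL (hC x.1).1 T] at key
  obtain ⟨j, rfl⟩ : ∃ j, k = j + 1 := ⟨k - 1, by omega⟩
  simp only [Nat.add_sub_cancel] at key ⊢
  refine Nat.le_of_mul_le_mul_left (key.trans (le_of_eq ?_)) hT
  ring

theorem t_edge_ne {k : ℕ} {P : Finset (Pt (k + 1))} {S₀ : Finset (Pt (k + 1) × Pt (k + 1))} {r : ℕ}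
    {a : Pr (k + 1) → ℂ} (ha : GenA (cP P) a) {e : Qd (k + 1)} (he : e ∈ edges P S₀ r) :
    prj a (emb e.2 - emb e.1) 0 ≠ 0 := by
  obtain ⟨h1, -, -, -, -, h2⟩ := Finset.mem_filter.1 he
  obtain ⟨h3, h4⟩ := Finset.mem_product.1 h1
  refine t_prj0_ne ha (fun D hD l => ?_) h2
  rw [Pi.sub_apply, map_sub, t_kill_emb hD h4, t_kill_emb hD h3, sub_zero]

/-- The link lemma on both sides. -/
theorem t_linkB (k : ℕ) (hk : 1 ≤ k) : ∃ c : ℕ, ∀ (P : Finset (Pt (k + 1)))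
    (S₀ : Finset (Pt (k + 1) × Pt (k + 1))) (T τ : ℕ) (a : Pr (k + 1) → ℂ), GenA (cP P) a →
      Dist0 P → (∀ z ∈ S₀, z.1 ≠ z.2) → ConeOK S₀ T → nd2 P ≤ τ → τ ≤ T →
      LinkB (edges P S₀ (T ^ (k - 1))) Prod.fst (ebeta a) (c * T ^ (k - 1)) T ∧
        LinkB (edges P S₀ (T ^ (k - 1))) Prod.snd (ebeta a) (c * T ^ (k - 1)) T := by
  obtain ⟨c, hc⟩ := t_link k hk
  refine ⟨c, fun P S₀ T τ a ha hD hS hC hτ hτT => ⟨fun x m g hg hm hmT hdeg => ?_,
    fun x m g hg hm hmT hdeg => ?_⟩⟩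
  · suffices H : ∀ F : Finset (Qd (k + 1)), (∀ e ∈ F, e ∈ edges P S₀ (T ^ (k - 1)) ∧ e.1 = x ∧
        eval (ebeta a e) g = 0) → F.card ≤ c * T ^ (k - 1) * m from
      H _ fun e he => by simpa only [Finset.mem_filter] using he
    intro F hF
    rcases F.eq_empty_or_nonempty with h0 | ⟨e0, he0⟩
    · rw [h0]; exact Nat.zero_le _
    have hx : x ∈ P ×ˢ P := by
      obtain ⟨h1, h2, -⟩ := hF _ he0
      exact h2 ▸ (Finset.mem_product.1 (Finset.mem_filter.1 h1).1).1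
    have hm' : ∀ y ∈ F.image Prod.snd, (x, y) ∈ edges P S₀ (T ^ (k - 1)) ∧
        eval (ebeta a (x, y)) g = 0 := by
      intro y hy
      obtain ⟨e, he, rfl⟩ := Finset.mem_image.1 hy
      obtain ⟨h1, rfl, h3⟩ := hF _ he
      exact ⟨h1, h3⟩
    rw [← Finset.card_image_of_injOn (f := Prod.snd) (s := F) (fun e he e' he' h =>
      Prod.ext ((hF _ he).2.1.trans (hF _ he').2.1.symm) h)]
    refine hc P S₀ T τ m a x _ g ha ⟨hx, fun y hy => ?_, fun y hy => ?_, fun y hy => ?_,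
      fun y hy => ?_, fun y hy => ?_⟩ hC hτ hτT hg hm hmT hdeg
      (fun y hy => ⟨t_edge_ne ha (hm' y hy).1, (hm' y hy).2⟩)
    all_goals obtain ⟨h1, h2, h3, h4, h5, -⟩ := Finset.mem_filter.1 (hm' y hy).1
    · exact (Finset.mem_product.1 h1).2
    · exact Finset.mem_image.2 ⟨_, Finset.mem_filter.2 ⟨h2, rfl⟩, rfl⟩
    · exact (hD _ (Finset.mem_product.1 hx).1 _
        (Finset.mem_product.1 (Finset.mem_product.1 h1).2).1 (hS _ h2)).symm
    · exact h4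
    · exact h5
  · suffices H : ∀ F : Finset (Qd (k + 1)), (∀ e ∈ F, e ∈ edges P S₀ (T ^ (k - 1)) ∧ e.2 = x ∧
        eval (ebeta a e) g = 0) → F.card ≤ c * T ^ (k - 1) * m from
      H _ fun e he => by simpa only [Finset.mem_filter] using he
    intro F hF
    rcases F.eq_empty_or_nonempty with h0 | ⟨e0, he0⟩
    · rw [h0]; exact Nat.zero_le _
    have hx : x ∈ P ×ˢ P := by
      obtain ⟨h1, h2, -⟩ := hF _ he0
      exact h2 ▸ (Finset.mem_product.1 (Finset.mem_filter.1 h1).1).2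
    have hm' : ∀ y ∈ F.image (fun e => e.1.swap), (y.swap, x) ∈ edges P S₀ (T ^ (k - 1)) ∧
        eval (ebeta a (y.swap, x)) g = 0 := by
      intro y hy
      obtain ⟨e, he, rfl⟩ := Finset.mem_image.1 hy
      obtain ⟨h1, rfl, h3⟩ := hF _ he
      exact ⟨h1, h3⟩
    rw [← Finset.card_image_of_injOn (f := fun e : Qd (k + 1) => e.1.swap) (s := F)
      (fun e he e' he' h => Prod.ext (Prod.swap_injective h)
        ((hF _ he).2.1.trans (hF _ he').2.1.symm))]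
    have hx' := Finset.mem_product.1 hx
    refine hc P S₀ T τ m (-a) x.swap _ g (t_gen_neg ha) ⟨Finset.mem_product.2 ⟨hx'.2, hx'.1⟩,
      fun y hy => ?_, fun y hy => ?_, fun y hy => ?_, fun y hy => ?_, fun y hy => ?_⟩
      hC hτ hτT hg hm hmT hdeg (fun y hy => ?_)
    rotate_right
    · have h6 := t_prj_swap a y.swap x
      rw [Prod.swap_swap] at h6
      rw [h6]
      exact ⟨t_edge_ne ha (hm' y hy).1, (hm' y hy).2⟩
    all_goals obtain ⟨h1, h2, h3, h4, h5, -⟩ := Finset.mem_filter.1 (hm' y hy).1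
    all_goals have h7 := Finset.mem_product.1 (Finset.mem_product.1 h1).1
    · exact Finset.mem_product.2 ⟨h7.2, h7.1⟩
    · exact Finset.mem_image.2 ⟨_, Finset.mem_filter.2 ⟨h3, rfl⟩, rfl⟩
    · exact (hD _ hx'.2 _ h7.2 (hS _ h3)).symm
    · exact (t_d2_comm _ _).trans (h4.symm.trans (t_d2_comm _ _))
    · exact fun h => h5 (t_bad_swap h)

end Vale.Agent.P054S
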