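import Vale.Agent.P054S.TWin
import Vale.Agent.P054S.Rich

namespace Vale.Agent.P054S

open MvPolynomial Vale.Agent.P054A Sum
open scoped Classical

theorem t_rich_three : RichOK 2 := by
  obtain ⟨κ₀, h⟩ := rich3
  refine ⟨5, κ₀, by norm_num, by norm_num, fun κ hκ => ?_⟩
  obtain ⟨τ₀, h⟩ := h κ hκ
  refine ⟨τ₀, fun τ hτ P hP T hT => ?_⟩
  obtain ⟨P', h1, h2, h3⟩ := h τ hτ P hP
  refine ⟨P', h1, h2, le_trans (Nat.mul_le_mul_right _ (Finset.card_le_card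
    (t_bad_mono P' ?_))) h3⟩
  rw [show 2 - 1 = 1 from rfl, pow_one]
  omega

/-- The sharp bound. -/
theorem t_sharp (d : ℕ) (hd : 3 ≤ d) : ∃ c : ℝ, 0 < c ∧
    ∀ P : Finset (EuclideanSpace ℝ (Fin d)), 2 ≤ P.card →
      c * (P.card : ℝ) ^ (2 / (d : ℝ)) ≤ (nd P : ℝ) := by
  rcases hd.eq_or_lt with rfl | h
  · exact t_sharp_of 2 le_rfl t_rich_three
  · exact t_sharp_high d h

end Vale.Agent.P054S
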