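import Vale.Agent.P054S.TSep
import Vale.Agent.P054S.TFib
import Vale.Agent.P054S.Alg

namespace Vale.Agent.P054S

open MvPolynomial Vale.Agent.P054A Sum
open scoped Classical

variable {k : ℕ} {P : Finset (Pt (k + 1))} {S₀ : Finset (Pt (k + 1) × Pt (k + 1))} {r : ℕ}
  {x : Pt (k + 1) × Pt (k + 1)} {W : Finset (Pt (k + 1) × Pt (k + 1))}

/-- The linear forms which recover the first point. -/
noncomputable def tmulL (i : Fin (k + 1)) : MvPolynomial (Tx k) ℂ :=
  C (1 / 2) * (X (inl i) + X (inr i))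

theorem tmul_deg (i : Fin (k + 1)) : (tmulL i).totalDegree ≤ 1 := by
  refine (totalDegree_mul _ _).trans ?_
  rw [totalDegree_C, zero_add]
  exact (totalDegree_add _ _).trans (max_le (totalDegree_X _).le (totalDegree_X _).le)

theorem tmul_eval (t : ℂ) (x y : Pt (k + 1) × Pt (k + 1)) (i : Fin (k + 1)) :
    eval (t • (emb y - emb x)) (tmulL i) = t * ((y.1 i - x.1 i : ℝ) : ℂ) := by
  simp only [tmulL, map_mul, map_add, eval_C, eval_X, Pi.smul_apply, Pi.sub_apply, emb,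
    Sum.elim_inl, Sum.elim_inr, smul_eq_mul]
  push_cast
  ring

/-- The direction of a vector. -/
noncomputable def tmulP (v : Tx k → ℂ) : Fin k → ℂ :=
  fun l => eval v (tmulL l.succ) / eval v (tmulL 0)

theorem tmul_dir {t : ℂ} (ht : t ≠ 0) (x y : Pt (k + 1) × Pt (k + 1)) :
    tmulP (t • (emb y - emb x)) = dir x.1 y.1 := by
  funext l
  rw [tmulP, tmul_eval, tmul_eval, mul_div_mul_left _ _ ht, dir, Complex.ofReal_div]

theorem tmul_ne {R t : ℕ} (h : t ∈ Finset.Icc 1 R) : (t : ℂ) ≠ 0 :=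
  Nat.cast_ne_zero.2 (Nat.one_le_iff_ne_zero.1 (Finset.mem_Icc.1 h).1)

theorem tmul_mem {R : ℕ} {v : Tx k → ℂ} : v ∈ mults R x W ↔
    ∃ t ∈ Finset.Icc 1 R, ∃ y ∈ W, (t : ℂ) • (emb y - emb x) = v := by
  rw [mults, Finset.mem_image]
  exact ⟨fun ⟨z, hz, h⟩ => ⟨z.1, (Finset.mem_product.1 hz).1, z.2, (Finset.mem_product.1 hz).2, h⟩,
    fun ⟨t, ht, y, hy, h⟩ => ⟨(t, y), Finset.mem_product.2 ⟨ht, hy⟩, h⟩⟩

theorem tmul_exp (a b : ℂ) (v w : Tx k → ℂ) : bil (a • v - b • w) (a • v - b • w) =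
    a ^ 2 * bil v v - 2 * (a * b) * bil v w + b ^ 2 * bil w w := by
  simp only [bil, Finset.mul_sum, ← Finset.sum_sub_distrib, ← Finset.sum_add_distrib,
    Pi.sub_apply, Pi.smul_apply, smul_eq_mul]
  exact Finset.sum_congr rfl fun i _ => by ring

theorem t_mults_card (h : LinkS P S₀ r x W)
    (hi : Set.InjOn (dir x.1) (nbr S₀ x.1 : Set (Pt (k + 1)))) (R : ℕ) :
    (mults R x W).card = R * W.card := by
  rw [mults, Finset.card_image_of_injOn, Finset.card_product, Nat.card_Icc, Nat.add_sub_cancel]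
  rintro ⟨t, y⟩ hz ⟨t', y'⟩ hz' e
  obtain ⟨ht, hy⟩ := Finset.mem_product.1 (Finset.mem_coe.1 hz)
  obtain ⟨ht', hy'⟩ := Finset.mem_product.1 (Finset.mem_coe.1 hz')
  have e' : (t : ℂ) • (emb y - emb x) = (t' : ℂ) • (emb y' - emb x) := e
  have h1 : y.1 = y'.1 := hi (h.nb y hy) (h.nb y' hy') (by
    rw [← tmul_dir (tmul_ne ht), e', tmul_dir (tmul_ne ht')])
  have h2 := congrArg (fun v => eval v (tmulL 0)) e'
  simp only [tmul_eval, ← h1] at h2
  have h3 : t = t' := Nat.cast_injective (mul_right_cancel₀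
    (Complex.ofReal_ne_zero.2 (sub_ne_zero.2 (h.ne0 y hy))) h2)
  subst h3
  exact Prod.ext rfl (t_emb_inj (sub_left_injective (smul_right_injective _ (tmul_ne ht) e')))

theorem t_mults_nul (h : LinkS P S₀ r x W) (R : ℕ) : NulB (mults R x W) (R * r) := by
  intro T hT hn
  set W' := W.filter fun y => ∃ t ∈ Finset.Icc 1 R, (t : ℂ) • (emb y - emb x) ∈ T with hW'
  have h1 : T ⊆ mults R x W' := fun v hv => by
    obtain ⟨t, ht, y, hy, rfl⟩ := tmul_mem.1 (hT hv)
    exact tmul_mem.2 ⟨t, ht, y, Finset.mem_filter.2 ⟨hy, t, ht, hv⟩, rfl⟩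
  have h2 : (mults R x W').card ≤ R * W'.card := by
    refine Finset.card_image_le.trans ?_
    rw [Finset.card_product, Nat.card_Icc, Nat.add_sub_cancel]
  refine ((Finset.card_le_card h1).trans h2).trans (Nat.mul_le_mul_left R ?_)
  rcases W'.eq_empty_or_nonempty with h3 | ⟨y0, h3⟩
  · rw [h3]
    exact Nat.zero_le _
  have hs : ∀ y ∈ W', y ∈ W := fun y hy => (Finset.mem_filter.1 hy).1
  have h0 : ∀ y ∈ W, bil (emb y - emb x) (emb y - emb x) = 0 := fun y hy =>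
    nul_comm.1 ((t_nul_emb x y).2 (h.eq y hy))
  have hc : Cong (insert x W') := by
    intro y hy y' hy'
    rcases Finset.mem_insert.1 hy with rfl | hy <;> rcases Finset.mem_insert.1 hy' with rfl | hy'
    · exact (t_nul_emb _ _).1 (by simp [nul, bil])
    · exact h.eq y' (hs y' hy')
    · rw [t_d2_comm, t_d2_comm y.2]
      exact h.eq y (hs y hy)
    · obtain ⟨hy1, t, ht, hv⟩ := Finset.mem_filter.1 hy
      obtain ⟨hy1', t', ht', hv'⟩ := Finset.mem_filter.1 hy'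
      have h4 := hn _ hv _ hv'
      rw [nul, tmul_exp, h0 y hy1, h0 y' hy1', mul_zero, mul_zero, zero_sub, add_zero,
        neg_eq_zero, mul_eq_zero] at h4
      have h5 := h4.resolve_left (mul_ne_zero two_ne_zero (mul_ne_zero (tmul_ne ht) (tmul_ne ht')))
      have h6 := tmul_exp 1 1 (emb y - emb x) (emb y' - emb x)
      rw [one_smul, one_smul, sub_sub_sub_cancel_right, h0 y hy1, h0 y' hy1', h5] at h6
      exact (t_nul_emb _ _).1 (h6.trans (by ring))
  by_contra h4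
  refine h.good y0 (hs y0 h3) (Finset.mem_filter.2 ⟨Finset.mem_product.2
    ⟨h.mem, h.sub (hs y0 h3)⟩, insert x W', Finset.insert_subset h.mem fun y hy => h.sub (hs y hy),
    Finset.mem_insert_self _ _, Finset.mem_insert_of_mem h3, ?_, hc⟩)
  exact (not_le.1 h4).le.trans (Finset.card_le_card (Finset.subset_insert _ _))

theorem t_mults_dens (k : ℕ) : ∃ c : ℕ, 1 ≤ c ∧ ∀ (P : Finset (Pt (k + 1)))
    (S₀ : Finset (Pt (k + 1) × Pt (k + 1))) (r T τ : ℕ) (x : Pt (k + 1) × Pt (k + 1))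
    (W : Finset (Pt (k + 1) × Pt (k + 1))), LinkS P S₀ r x W → ConeOK S₀ T → nd2 P ≤ τ → τ ≤ T →
      1 ≤ T → Dens (mults T x W) (c * T) k := by
  obtain ⟨c1, h1⟩ := dens_cap k
  obtain ⟨c2, h2⟩ := cap_dens (2 * k + 2)
  refine ⟨c2 * (c1 + 4) + 1, Nat.le_add_left _ _, fun P S₀ r T τ x W h hc hτ hT hT1 => ?_⟩
  have hM : 4 * T ≤ (c1 + 4) * T := Nat.mul_le_mul_right T (Nat.le_add_left _ _)
  have h3 : CapT ((nbr S₀ x.1).image (dir x.1)) ((c1 + 4) * T) (Fintype.card (Fin k)) := by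
    rw [Fintype.card_fin]
    exact t_capT_mono (h1 (Fin k) (Fintype.card_fin k) _ T hT1 (hc x.1).2) subset_rfl
      (Nat.mul_le_mul_right T (Nat.le_add_right _ _))
  have h4 : CapT (mults T x W) ((c1 + 4) * T) k := by
    refine t_fibre (tmulL 0) (fun l => tmulL l.succ) (tmul_deg 0) (fun l => tmul_deg _) _ _ tmulP
      (fun v hv => ?_) h3 fun b => ?_
    · obtain ⟨t, ht, y, hy, rfl⟩ := tmul_mem.1 hv
      have h5 : eval ((t : ℂ) • (emb y - emb x)) (tmulL 0) ≠ 0 := by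
        rw [tmul_eval]
        exact mul_ne_zero (tmul_ne ht) (Complex.ofReal_ne_zero.2 (sub_ne_zero.2 (h.ne0 y hy)))
      refine ⟨h5, fun l => (mul_div_cancel₀ _ h5).symm, ?_⟩
      rw [tmul_dir (tmul_ne ht)]
      exact Finset.mem_image_of_mem _ (h.nb y hy)
    · by_cases hb : ∃ y ∈ W, dir x.1 y.1 = b
      · obtain ⟨y0, hy0, rfl⟩ := hb
        have h5 := t_sepr_mults hτ T x (W := W.filter fun y => y.1 = y0.1)
          ((Finset.filter_subset _ _).trans h.sub) (fun y hy => (Finset.mem_filter.1 hy).2)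
          (h.ne0 y0 hy0)
        refine t_capT_mono (capT_of_sep h5 k) (fun v hv => ?_) (by omega)
        obtain ⟨h6, h7⟩ := Finset.mem_filter.1 hv
        obtain ⟨t, ht, y, hy, rfl⟩ := tmul_mem.1 h6
        rw [tmul_dir (tmul_ne ht)] at h7
        exact tmul_mem.2 ⟨t, ht, y, Finset.mem_filter.2
          ⟨hy, (hc x.1).1 (h.nb y hy) (h.nb y0 hy0) h7⟩, rfl⟩
      · refine t_capT_mono (capT_of_sep (S := ∅) (M := 0) (fun p hp => absurd hp (by simp)) k)
          (fun v hv => ?_) (by omega)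
        obtain ⟨h6, h7⟩ := Finset.mem_filter.1 hv
        obtain ⟨t, ht, y, hy, rfl⟩ := tmul_mem.1 h6
        rw [tmul_dir (tmul_ne ht)] at h7
        exact absurd ⟨y, hy, h7⟩ hb
  refine (h2 (Tx k) (card_Tx k) _ _ k (by omega) h4).mono subset_rfl ?_
  rw [← mul_assoc]
  exact Nat.mul_le_mul_right T (Nat.le_succ _)

end Vale.Agent.P054S
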