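import Vale.Agent.P054S.TEmb

namespace Vale.Agent.P054S

open MvPolynomial Vale.Agent.P054A Sum
open scoped Classical

variable {k : ℕ}

theorem tsep_nc {d : ℕ} {P : Finset (Pt d)} {τ : ℕ} (h : nd2 P ≤ τ) {p : Pt d} (hp : p ∈ P) :
    ∃ g : MvPolynomial (Fin d) ℂ, g.totalDegree ≤ 2 * τ ∧ eval (cx p) g ≠ 0 ∧
      ∀ q ∈ P, q ≠ p → eval (cx q) g = 0 := by
  obtain ⟨g, h1, -, h2, h3⟩ := sep_nc P h p hp (by simp)
  exact ⟨g, h1, h2, fun q hq hne => h3 q hq (by simp) hne⟩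

theorem tsep_deg {σ : Type} (a b c : ℂ) (i j : σ) :
    (C a + C b * X i + C c * X j : MvPolynomial σ ℂ).totalDegree ≤ 1 := by
  have h : ∀ (b : ℂ) (i : σ), (C b * X i : MvPolynomial σ ℂ).totalDegree ≤ 1 := fun b i =>
    (totalDegree_mul _ _).trans (by rw [totalDegree_C, totalDegree_X])
  exact (totalDegree_add _ _).trans (max_le ((totalDegree_add _ _).trans
    (max_le (by rw [totalDegree_C]; exact zero_le_one) (h _ _))) (h _ _))

theorem tsep_pull {σ τ : Type} [Fintype σ] [DecidableEq σ] {φ : σ → MvPolynomial τ ℂ} (hφ : ∀ i, (φ i).totalDegree ≤ 1)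
    {g : MvPolynomial σ ℂ} {m : ℕ} (hg : g.totalDegree ≤ m) : (aeval φ g).totalDegree ≤ m :=
  (totalDegree_aeval_le φ hφ g).trans (by rwa [one_mul])

theorem tsep_bil (v : Tx k → ℂ) : bil (mir v) (mir v) = bil v v := by
  simp only [bil, mir, Fin.sum_univ_succ, Equiv.swap_apply_left, Equiv.swap_apply_right]
  refine congrArg₂ _ (by ring) (Finset.sum_congr rfl fun i _ => ?_)
  rw [Equiv.swap_apply_of_ne_of_ne (by simp [Fin.succ_ne_zero]) (by simp),
    Equiv.swap_apply_of_ne_of_ne (by simp) (by simp [Fin.succ_ne_zero])]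

theorem t_sepr_mono {σ : Type} {S S' : Finset (σ → ℂ)} {M M' : ℕ} (h : Sepr S M) (hS : S' ⊆ S)
    (hM : M ≤ M') : Sepr S' M' := by
  intro p hp
  obtain ⟨g, h1, h2, h3⟩ := h p (hS hp)
  exact ⟨g, h1.trans hM, h2, fun q hq => h3 q (hS hq)⟩

/-- The first point of a pair is an affine function of `c • (emb y - o)`. -/
theorem t_aff_fst (c : ℂ) (hc : c ≠ 0) (o : Tx k → ℂ) :
    ∃ φ : Fin (k + 1) → MvPolynomial (Tx k) ℂ, (∀ i, (φ i).totalDegree ≤ 1) ∧
      ∀ (y : Pt (k + 1) × Pt (k + 1)) (i : Fin (k + 1)),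
        eval (c • (emb y - o)) (φ i) = cx y.1 i := by
  refine ⟨fun i => C ((o (inl i) + o (inr i)) / 2) + C (c⁻¹ / 2) * X (inl i) +
    C (c⁻¹ / 2) * X (inr i), fun i => tsep_deg _ _ _ _ _, fun y i => ?_⟩
  simp only [map_add, map_mul, eval_C, eval_X, Pi.smul_apply, Pi.sub_apply, emb, elim_inl,
    elim_inr, smul_eq_mul, cx]
  push_cast
  field_simp
  ring

/-- The second point of a pair is an affine function of `c • (emb y - o)`. -/
theorem t_aff_snd (c : ℂ) (hc : c ≠ 0) (o : Tx k → ℂ) :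
    ∃ φ : Fin (k + 1) → MvPolynomial (Tx k) ℂ, (∀ i, (φ i).totalDegree ≤ 1) ∧
      ∀ (y : Pt (k + 1) × Pt (k + 1)) (i : Fin (k + 1)),
        eval (c • (emb y - o)) (φ i) = cx y.2 i := by
  refine ⟨fun i => C ((o (inr i) - o (inl i)) / 2) + C (-c⁻¹ / 2) * X (inl i) +
    C (c⁻¹ / 2) * X (inr i), fun i => tsep_deg _ _ _ _ _, fun y i => ?_⟩
  simp only [map_add, map_mul, eval_C, eval_X, Pi.smul_apply, Pi.sub_apply, emb, elim_inl,
    elim_inr, smul_eq_mul, cx]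
  push_cast
  field_simp
  ring

theorem t_sepr_emb {P : Finset (Pt (k + 1))} {τ : ℕ} (h : nd2 P ≤ τ) :
    Sepr ((P ×ˢ P).image emb) (4 * τ) := by
  intro p hp
  obtain ⟨z, hz, rfl⟩ := Finset.mem_image.1 hp
  obtain ⟨φ, a1, a2⟩ := t_aff_fst (k := k) 1 one_ne_zero 0
  obtain ⟨ψ, b1, b2⟩ := t_aff_snd (k := k) 1 one_ne_zero 0
  simp only [sub_zero, one_smul] at a2 b2
  obtain ⟨g, g1, g2, g3⟩ := tsep_nc h (Finset.mem_product.1 hz).1
  obtain ⟨g', g1', g2', g3'⟩ := tsep_nc h (Finset.mem_product.1 hz).2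
  have e : ∀ y, eval (emb y) (aeval φ g * aeval ψ g') = eval (cx y.1) g * eval (cx y.2) g' :=
    fun y => by rw [map_mul, exl_eval, exl_eval, funext (a2 y), funext (b2 y)]
  refine ⟨aeval φ g * aeval ψ g', (totalDegree_mul _ _).trans ?_, by
    rw [e]; exact mul_ne_zero g2 g2', fun q hq hne => ?_⟩
  · have := add_le_add (tsep_pull a1 g1) (tsep_pull b1 g1')
    omega
  · obtain ⟨y, hy, rfl⟩ := Finset.mem_image.1 hq
    rw [e]
    by_cases h1 : y.1 = z.1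
    · exact mul_eq_zero_of_right _ (g3' _ (Finset.mem_product.1 hy).2 fun h2 =>
        hne (congrArg emb (Prod.ext h1 h2)))
    · exact mul_eq_zero_of_left (g3 _ (Finset.mem_product.1 hy).1 h1) _

/-- Separators for the multiples over one first point. -/
theorem t_sepr_mults {P : Finset (Pt (k + 1))} {τ : ℕ} (h : nd2 P ≤ τ) (R : ℕ)
    (x : Pt (k + 1) × Pt (k + 1)) {W : Finset (Pt (k + 1) × Pt (k + 1))} (hW : W ⊆ P ×ˢ P)
    {q : Pt (k + 1)} (hq : ∀ y ∈ W, y.1 = q) (h0 : q 0 ≠ x.1 0) :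
    Sepr (mults R x W) (R + 2 * τ) := by
  intro p hp
  obtain ⟨⟨t₀, y₀⟩, hz, rfl⟩ := Finset.mem_image.1 hp
  obtain ⟨ht₀, hy₀⟩ := Finset.mem_product.1 hz
  have h1 : (t₀ : ℂ) ≠ 0 := by
    have := (Finset.mem_Icc.1 ht₀).1
    exact_mod_cast (by omega : t₀ ≠ 0)
  have h2 : (q 0 : ℂ) - x.1 0 ≠ 0 := by exact_mod_cast sub_ne_zero.2 h0
  obtain ⟨ψ, b1, b2⟩ := t_aff_snd (t₀ : ℂ) h1 (emb x)
  obtain ⟨g, g1, g2, g3⟩ := tsep_nc h (Finset.mem_product.1 (hW hy₀)).2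
  have e : ∀ (s t : ℕ), ∀ y ∈ W, eval ((s : ℂ) • (emb y - emb x))
      (C (-(t * ((q 0 : ℂ) - x.1 0))) + C (1 / 2) * X (inl 0) + C (1 / 2) * X (inr 0)) =
      ((s : ℂ) - t) * ((q 0 : ℂ) - x.1 0) := fun s t y hy => by
    simp only [map_add, map_mul, eval_C, eval_X, Pi.smul_apply, Pi.sub_apply, emb, elim_inl,
      elim_inr, smul_eq_mul, hq y hy]
    push_cast
    ring
  refine ⟨(∏ t ∈ (Finset.Icc 1 R).erase t₀, (C (-(t * ((q 0 : ℂ) - x.1 0))) +
    C (1 / 2) * X (inl 0) + C (1 / 2) * X (inr 0))) * aeval ψ g,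
    (totalDegree_mul _ _).trans (add_le_add ?_ (tsep_pull b1 g1)), ?_, fun v hv hne => ?_⟩
  · refine (totalDegree_finsetProd _ _).trans ((Finset.sum_le_card_nsmul _ _ 1
      fun t _ => tsep_deg _ _ _ _ _).trans ?_)
    rw [smul_eq_mul, mul_one]
    exact Finset.card_erase_le.trans (by simp)
  · rw [map_mul, map_prod, exl_eval, funext (b2 y₀)]
    refine mul_ne_zero (Finset.prod_ne_zero_iff.2 fun t ht => ?_) g2
    rw [e _ _ _ hy₀]
    exact mul_ne_zero (sub_ne_zero.2 (by exact_mod_cast (Finset.ne_of_mem_erase ht).symm)) h2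
  · obtain ⟨⟨t, y⟩, hz', rfl⟩ := Finset.mem_image.1 hv
    obtain ⟨ht, hy⟩ := Finset.mem_product.1 hz'
    rw [map_mul, map_prod]
    by_cases h3 : t = t₀
    · subst h3
      rw [exl_eval, funext (b2 y)]
      refine mul_eq_zero_of_right _ (g3 _ (Finset.mem_product.1 (hW hy)).2 fun h4 => hne ?_)
      rw [show y = y₀ from Prod.ext ((hq y hy).trans (hq y₀ hy₀).symm) h4]
    · refine mul_eq_zero_of_left (Finset.prod_eq_zero (Finset.mem_erase.2 ⟨h3, ht⟩) ?_) _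
      rw [e _ _ _ hy, sub_self, zero_mul]

theorem t_mir_mir (x : Tx k → ℂ) : mir (mir x) = x := by
  funext l
  simp only [mir, Equiv.swap_apply_self]

theorem t_nulB_mir {S : Finset (Tx k → ℂ)} {E : ℕ} (h : NulB S E) : NulB (S.image mir) E := by
  intro T hT hn
  have hi : Function.Injective (mir (k := k)) := Function.Involutive.injective t_mir_mir
  rw [← Finset.card_image_of_injective T hi]
  refine h _ (fun v hv => ?_) fun v hv w hw => ?_
  · obtain ⟨u, hu, rfl⟩ := Finset.mem_image.1 hv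
    obtain ⟨s, hs, rfl⟩ := Finset.mem_image.1 (hT hu)
    rwa [t_mir_mir]
  · obtain ⟨u, hu, rfl⟩ := Finset.mem_image.1 hv
    obtain ⟨u', hu', rfl⟩ := Finset.mem_image.1 hw
    exact (tsep_bil (u - u')).trans (hn u hu u' hu')

theorem t_sepr_mir {S : Finset (Tx k → ℂ)} {M : ℕ} (h : Sepr S M) : Sepr (S.image mir) M := by
  intro p hp
  obtain ⟨s, hs, rfl⟩ := Finset.mem_image.1 hp
  obtain ⟨g, h1, h2, h3⟩ := h s hs
  have e : ∀ v : Tx k → ℂ, eval (mir v) (rename (Equiv.swap (inl 0) (inr 0)) g) = eval v g :=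
    fun v => by rw [eval_rename]; exact congrArg (eval · g) (t_mir_mir v)
  refine ⟨rename (Equiv.swap (inl 0) (inr 0)) g, (totalDegree_rename_le _ _).trans h1,
    by rwa [e], fun v hv hne => ?_⟩
  obtain ⟨u, hu, rfl⟩ := Finset.mem_image.1 hv
  rw [e]
  exact h3 u hu fun h4 => hne (congrArg mir h4)

theorem t_crd_mir (S : Finset (Tx k → ℂ)) : crd (S.image mir) ⊆ crd S := by
  rintro t ⟨v, hv, l, rfl⟩
  obtain ⟨u, hu, rfl⟩ := Finset.mem_image.1 hv
  exact ⟨u, hu, _, rfl⟩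

end Vale.Agent.P054S
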