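import Vale.Agent.P054S.TDef
import Vale.Agent.P054S.APD

namespace Vale.Agent.P054S

open MvPolynomial Vale.Agent.P054A Sum
open scoped Classical

theorem tstar_eval {k : ℕ} (x : Tx k → ℂ) (b : Fin k → ℂ) (G : MvPolynomial (Sx k) ℂ) :
    eval b (aeval (fl (fun l => (C (x l) : MvPolynomial (Fin k) ℂ)) X) G) = eval (fl x b) G := by
  rw [exl_eval]
  have e : (fun i => eval b (fl (fun l => (C (x l) : MvPolynomial (Fin k) ℂ)) X i)) = fl x b := by
    funext o
    rw [map_fl]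
    simp
  rw [e]

/-- The Hilbert function of points on one flat. -/
theorem t_H_flat {k : ℕ} (x : Tx k → ℂ) {Z : Set (Sx k → ℂ)} (hZ : ∀ z ∈ Z, ∃ b, z = fl x b)
    (M : ℕ) : H (vanI Z) M ≤ (M + 1) ^ k := by
  have h1 : (⊥ : Ideal (MvPolynomial (Fin k) ℂ)).comap
      (aeval (fl (fun l => (C (x l) : MvPolynomial (Fin k) ℂ)) X) :
        MvPolynomial (Sx k) ℂ →ₐ[ℂ] MvPolynomial (Fin k) ℂ) ≤ vanI Z := by
    intro g hg z hz
    obtain ⟨b, rfl⟩ := hZ z hz
    rw [Ideal.mem_comap, Ideal.mem_bot] at hg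
    rw [← tstar_eval, hg, map_zero]
  refine (H_anti h1 M).trans ((H_comap_le _ (s := 1) (fun i => ?_) ⊥ M).trans ?_)
  · rw [aeval_X]
    exact totalDegree_fl_le x i
  · simpa using H_le_pow (⊥ : Ideal (MvPolynomial (Fin k) ℂ)) M

theorem tstar_sum {k : ℕ} {ι α : Type} (E : Finset ι) (a : ι → α) (U : Finset α)
    (hU : ∀ e ∈ E, a e ∈ U) (ξ : α → Tx k → ℂ) (p : ι → Sx k → ℂ)
    (hp : ∀ e ∈ E, ∃ b, p e = fl (ξ (a e)) b) (M : ℕ) :
    ∑ z ∈ E.image a, H (vanI (p '' ((E.filter fun e => a e = z : Finset ι) : Set ι))) M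
      ≤ U.card * (M + 1) ^ k := by
  refine (Finset.sum_le_card_nsmul _ _ ((M + 1) ^ k) fun z _ => t_H_flat (ξ z) ?_ M).trans ?_
  · rintro _ ⟨e, he, rfl⟩
    obtain ⟨h1, rfl⟩ := Finset.mem_filter.1 (Finset.mem_coe.1 he)
    exact hp e h1
  · rw [smul_eq_mul]
    exact Nat.mul_le_mul_right _ (Finset.card_le_card (Finset.image_subset_iff.2 hU))

/-- A polynomial of low degree through half of the points. -/
theorem t_star (k : ℕ) : ∃ C : ℕ, 1 ≤ C ∧ ∀ (α : Type) (U V : Finset α) (E : Finset (α × α))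
    (ξ : α → Tx k → ℂ) (β : α × α → Fin k → ℂ), E ⊆ U ×ˢ V → E.Nonempty →
      (∀ e ∈ E, fl (ξ e.2) (β e) = fl (ξ e.1) (β e)) →
      ∃ (m : ℕ) (G : MvPolynomial (Sx k) ℂ), 1 ≤ m ∧ m * E.card ≤ C * (U.card * V.card) ∧ G ≠ 0 ∧
        G.totalDegree ≤ m ∧
        E.card ≤ 2 * (E.filter fun e => eval (fl (ξ e.1) (β e)) G = 0).card := by
  have hC : 0 < 2 * (2 * k + 1) ^ (2 * k) := by positivity
  refine ⟨(2 * k + 1) * (2 * (2 * k + 1) ^ (2 * k)), Nat.succ_le_of_lt (by positivity), ?_⟩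
  intro α U V E ξ β hE hne hfl
  have he : 0 < E.card := hne.card_pos
  have hle : E.card ≤ U.card * V.card := by
    simpa using Finset.card_le_card hE
  obtain ⟨N, hN⟩ : ∃ N, N = 2 * (2 * k + 1) ^ (2 * k) * (U.card * V.card) / E.card := ⟨_, rfl⟩
  have h1 : 1 ≤ N := by
    rw [hN, Nat.le_div_iff_mul_le he, one_mul]
    exact hle.trans (Nat.le_mul_of_pos_left _ hC)
  have h2 : N * E.card ≤ 2 * (2 * k + 1) ^ (2 * k) * (U.card * V.card) := by
    rw [hN]
    exact Nat.div_mul_le_self _ _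
  have h3 : 2 * (2 * k + 1) ^ (2 * k) * (U.card * V.card) < (N + 1) * E.card := by
    rw [hN]
    exact (Nat.div_lt_iff_lt_mul he).1 (Nat.lt_succ_self _)
  rcases star_fin E Prod.fst Prod.snd (fun e _ e' _ a b => Prod.ext a b)
    (fun e => fl (ξ e.1) (β e)) ⊥ ((2 * k + 1) * N) with ⟨G, g1, g2, g3⟩ | h
  · refine ⟨(2 * k + 1) * N, G, Nat.succ_le_of_lt (by positivity), ?_,
      fun h0 => g1 (h0 ▸ Ideal.zero_mem _), g2, g3⟩
    rw [mul_assoc, mul_assoc (2 * k + 1)]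
    exact Nat.mul_le_mul_left _ h2
  · exfalso
    have s1 := tstar_sum E Prod.fst U (fun e he => (Finset.mem_product.1 (hE he)).1) ξ
      (fun e => fl (ξ e.1) (β e)) (fun e _ => ⟨β e, rfl⟩) ((2 * k + 1) * N)
    have s2 := tstar_sum E Prod.snd V (fun e he => (Finset.mem_product.1 (hE he)).2) ξ
      (fun e => fl (ξ e.1) (β e)) (fun e he => ⟨β e, (hfl e he).symm⟩) ((2 * k + 1) * N)
    have s3 := (PD_bot (σ := Sx k)).pow_le N
    rw [card_Sx] at s3
    have s4 : ((2 * k + 1) * N + 1) ^ k ≤ ((2 * k + 1) * (N + 1)) ^ k :=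
      Nat.pow_le_pow_left (by nlinarith) k
    have s5 : (N + 1) ^ (2 * k + 1) * E.card ≤ 2 * (U.card * ((2 * k + 1) * (N + 1)) ^ k) *
        (V.card * ((2 * k + 1) * (N + 1)) ^ k) :=
      (Nat.mul_le_mul_right _ s3).trans (h.trans (Nat.mul_le_mul
        (Nat.mul_le_mul_left _ (s1.trans (Nat.mul_le_mul_left _ s4)))
        (s2.trans (Nat.mul_le_mul_left _ s4))))
    have e1 : (N + 1) ^ (2 * k + 1) * E.card = (N + 1) ^ (2 * k) * ((N + 1) * E.card) := by ring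
    have e2 : 2 * (U.card * ((2 * k + 1) * (N + 1)) ^ k) * (V.card * ((2 * k + 1) * (N + 1)) ^ k)
        = (N + 1) ^ (2 * k) * (2 * (2 * k + 1) ^ (2 * k) * (U.card * V.card)) := by
      rw [mul_pow, mul_comm 2 k, pow_mul, pow_mul]
      ring
    rw [e1, e2] at s5
    exact absurd (Nat.le_of_mul_le_mul_left s5 (by positivity)) (not_le.2 h3)

/-- Heavy flats lie in the hypersurface. -/
theorem t_half {k : ℕ} {ι α : Type} (E : Finset ι) (r : ι → α) (U : Finset α)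
    (hU : ∀ e ∈ E, r e ∈ U) (hE : E.Nonempty) (ξ : α → Tx k → ℂ) (β : ι → Fin k → ℂ) {A B M m : ℕ}
    (hmax : ∀ V ⊆ U, (E.filter fun e => r e ∈ V).card ^ 2 * U.card ≤ E.card ^ 2 * V.card)
    (hL : LinkB E r β A M) (hT : TopB U ξ B M) {G : MvPolynomial (Sx k) ℂ} (h1 : 1 ≤ m)
    (hm : m ≤ M) (hG : G ≠ 0) (hd : G.totalDegree ≤ m)
    (hz : E.card ≤ 2 * (E.filter fun e => eval (fl (ξ (r e)) (β e)) G = 0).card) :
    E.card ≤ 4 * (U.card * (A * m)) ∨ U.card ≤ 16 * (B * m) := by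
  obtain ⟨V, hV⟩ : ∃ V, V = U.filter fun x => ∀ b, eval (fl (ξ x) b) G = 0 := ⟨_, rfl⟩
  have hVU : V ⊆ U := hV ▸ Finset.filter_subset _ _
  have hB : V.card ≤ B * m :=
    hT V hVU m G hG h1 hm hd fun x hx => (Finset.mem_filter.1 (hV ▸ hx)).2
  have hsub : (E.filter fun e => eval (fl (ξ (r e)) (β e)) G = 0) ⊆
      (E.filter fun e => r e ∈ V) ∪ (U \ V).biUnion fun x => E.filter fun e => r e = x ∧
        eval (β e) (aeval (fl (fun l => (C (ξ x l) : MvPolynomial (Fin k) ℂ)) X) G) = 0 := by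
    intro e he
    obtain ⟨a1, a2⟩ := Finset.mem_filter.1 he
    by_cases hv : r e ∈ V
    · exact Finset.mem_union_left _ (Finset.mem_filter.2 ⟨a1, hv⟩)
    · refine Finset.mem_union_right _ (Finset.mem_biUnion.2
        ⟨r e, Finset.mem_sdiff.2 ⟨hU e a1, hv⟩, Finset.mem_filter.2 ⟨a1, rfl, ?_⟩⟩)
      rw [tstar_eval]
      exact a2
  have hb : ((U \ V).biUnion fun x => E.filter fun e => r e = x ∧
      eval (β e) (aeval (fl (fun l => (C (ξ x l) : MvPolynomial (Fin k) ℂ)) X) G) = 0).card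
      ≤ U.card * (A * m) := by
    refine (Finset.card_biUnion_le_card_mul _ _ (A * m) fun x hx => ?_).trans
      (Nat.mul_le_mul_right _ (Finset.card_le_card Finset.sdiff_subset))
    obtain ⟨a1, a2⟩ := Finset.mem_sdiff.1 hx
    refine hL x m _ (fun h0 => a2 ?_) h1 hm ?_
    · rw [hV]
      refine Finset.mem_filter.2 ⟨a1, fun b => ?_⟩
      rw [← tstar_eval, h0, map_zero]
    · refine (totalDegree_aeval_le _ (totalDegree_fl_le (ξ x)) G).trans ?_
      rwa [one_mul]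
  have hc := ((Finset.card_le_card hsub).trans (Finset.card_union_le _ _)).trans
    (Nat.add_le_add_left hb _)
  have hx := hmax V hVU
  have he : 0 < E.card := hE.card_pos
  by_cases hl : E.card ≤ 4 * (U.card * (A * m))
  · exact Or.inl hl
  · right
    have k1 : E.card ≤ 4 * (E.filter fun e => r e ∈ V).card := by omega
    have k2 : E.card ^ 2 * U.card ≤ E.card ^ 2 * (16 * V.card) :=
      calc E.card ^ 2 * U.card ≤ (4 * (E.filter fun e => r e ∈ V).card) ^ 2 * U.card :=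
            Nat.mul_le_mul_right _ (Nat.pow_le_pow_left k1 2)
        _ = 16 * ((E.filter fun e => r e ∈ V).card ^ 2 * U.card) := by ring
        _ ≤ 16 * (E.card ^ 2 * V.card) := Nat.mul_le_mul_left _ hx
        _ = E.card ^ 2 * (16 * V.card) := by ring
    have k3 := Nat.le_of_mul_le_mul_left k2 (by positivity)
    omega

end Vale.Agent.P054S
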