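import Vale.Agent.P054S.TSep
import Vale.Agent.P054S.TGen
import Vale.Agent.P054S.Gpt

namespace Vale.Agent.P054S

open MvPolynomial Vale.Agent.P054A Sum
open scoped Classical

theorem ttop_anti {d : ℕ} (a : Pr d → ℂ) (i j : Fin d) : skw a j i = - skw a i j :=
  congrFun (congrFun (skw_transpose a) i) j

theorem ttop_diag {d : ℕ} (a : Pr d → ℂ) (i : Fin d) : skw a i i = 0 := by
  simp [skw]

theorem ttop_0s {k : ℕ} (a : Pr (k + 1) → ℂ) (b : Fin k → ℂ) (j : Fin k) :
    skw (amir a b) 0 j.succ = - b j := by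
  simp [skw, amir, Fin.succ_pos]

theorem ttop_s0 {k : ℕ} (a : Pr (k + 1) → ℂ) (b : Fin k → ℂ) (i : Fin k) :
    skw (amir a b) i.succ 0 = b i := by
  rw [ttop_anti, ttop_0s, neg_neg]

theorem ttop_lt {k : ℕ} (a : Pr (k + 1) → ℂ) (b : Fin k → ℂ) {i j : Fin k} (h : i < j) :
    skw (amir a b) i.succ j.succ
      = skw a i.succ j.succ - b i * skw a 0 j.succ + b j * skw a 0 i.succ := by
  have h' : i.succ < j.succ := Fin.succ_lt_succ_iff.2 h
  have e : skw (amir a b) i.succ j.succ = amir a b ⟨(i.succ, j.succ), h'⟩ := dif_pos h'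
  rw [e, amir, if_neg (Fin.succ_ne_zero i)]
  simp only [Fin.cons_succ]

theorem ttop_ss {k : ℕ} (a : Pr (k + 1) → ℂ) (b : Fin k → ℂ) (i j : Fin k) :
    skw (amir a b) i.succ j.succ
      = skw a i.succ j.succ - b i * skw a 0 j.succ + b j * skw a 0 i.succ := by
  rcases lt_trichotomy i j with h | rfl | h
  · exact ttop_lt a b h
  · rw [ttop_diag, ttop_diag]; ring
  · rw [ttop_anti, ttop_lt a b h, ttop_anti a i.succ j.succ]; ring

theorem ttop_m0 {k : ℕ} (x : Tx k → ℂ) : mir x (inl 0) = x (inr 0) := by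
  simp [mir]

theorem ttop_m1 {k : ℕ} (x : Tx k → ℂ) : mir x (inr 0) = x (inl 0) := by
  simp [mir]

theorem ttop_ml {k : ℕ} (x : Tx k → ℂ) (i : Fin k) : mir x (inl i.succ) = x (inl i.succ) := by
  rw [mir, Equiv.swap_apply_of_ne_of_ne (by simp) (by simp)]

theorem ttop_mr {k : ℕ} (x : Tx k → ℂ) (i : Fin k) : mir x (inr i.succ) = x (inr i.succ) := by
  rw [mir, Equiv.swap_apply_of_ne_of_ne (by simp) (by simp)]

theorem t_fl_mir0 {k : ℕ} (a : Pr (k + 1) → ℂ) (b : Fin k → ℂ) (x : Tx k → ℂ) :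
    fl (tw a x) b none = prj (amir a b) (mir x) 0 := by
  simp only [fl, tw, prj, Sum.elim_inr, Fin.sum_univ_succ, ttop_diag, ttop_0s, ttop_m0, ttop_mr,
    zero_mul, zero_add, neg_mul, Finset.sum_neg_distrib, sub_neg_eq_add, mul_comm]

theorem t_fl_mir1 {k : ℕ} (a : Pr (k + 1) → ℂ) (b : Fin k → ℂ) (x : Tx k → ℂ) (i : Fin k) :
    fl (tw a x) b (some (inr i))
      = prj (amir a b) (mir x) i.succ + skw a 0 i.succ * prj (amir a b) (mir x) 0 := by
  rw [← t_fl_mir0]
  simp only [fl, tw, prj, Sum.elim_inr, Sum.elim_inl, Fin.sum_univ_succ, ttop_diag, ttop_s0,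
    ttop_ss, ttop_m1, ttop_ml, ttop_mr, ttop_anti a 0 i.succ, add_mul, sub_mul,
    Finset.sum_add_distrib, Finset.sum_sub_distrib]
  have e1 : ∑ j : Fin k, b i * skw a 0 j.succ * x (inr j.succ)
      = (∑ j : Fin k, skw a 0 j.succ * x (inr j.succ)) * b i := by
    rw [Finset.sum_mul]
    exact Finset.sum_congr rfl fun j _ => by ring
  have e2 : ∑ j : Fin k, b j * skw a 0 i.succ * x (inr j.succ)
      = skw a 0 i.succ * ∑ j : Fin k, x (inr j.succ) * b j := by
    rw [Finset.mul_sum]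
    exact Finset.sum_congr rfl fun j _ => by ring
  rw [e1, e2]
  ring

/-- A generic slice of the hypersurface. -/
theorem t_slice {k : ℕ} {T : Set ℂ} (hT : T.Finite) {a : Pr (k + 1) → ℂ} (ha : GenA T a)
    {G : MvPolynomial (Sx k) ℂ} (hG : G ≠ 0) :
    ∃ (b : Fin k → ℂ) (g : MvPolynomial (Fin (k + 1)) ℂ), GenA T (amir a b) ∧ g ≠ 0 ∧
      g.totalDegree ≤ G.totalDegree ∧
      ∀ x : Tx k → ℂ, eval (prj (amir a b) (mir x)) g = eval (fl (tw a x) b) G := by
  obtain ⟨z, hz⟩ : ∃ z : Sx k → ℂ, eval z G ≠ 0 := by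
    by_contra h
    exact hG (MvPolynomial.funext fun z => by
      rw [map_zero]
      exact not_not.1 fun h' => h ⟨z, h'⟩)
  let θ : Sx k → MvPolynomial (Fin k) ℂ := fun o =>
    o.elim (C (z none)) (Sum.elim X fun i => C (z (some (inr i))))
  let zb : (Fin k → ℂ) → Sx k → ℂ := fun b o =>
    o.elim (z none) (Sum.elim b fun i => z (some (inr i)))
  have hθ : ∀ b, eval b (aeval θ G) = eval (zb b) G := fun b => by
    rw [exl_eval]
    refine congrArg (fun u => eval u G) (funext ?_)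
    rintro (_ | i | i) <;> simp [θ, zb]
  have hh : aeval θ G ≠ 0 := fun h => hz (by
    have h1 := hθ fun i => z (some (inl i))
    rw [h, map_zero] at h1
    rw [h1]
    refine congrArg (fun u => eval u G) (funext ?_)
    rintro (_ | i | i) <;> rfl)
  obtain ⟨b, hb⟩ := exists_genA ((hT.union (Set.finite_range a)).union
    ((aeval θ G).support.finite_toSet.image fun α => coeff α (aeval θ G))) (Fin k)
  have hne := t_gen_ne hb hh fun D hD α => by
    by_cases hα : α ∈ (aeval θ G).support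
    · exact hD _ (Or.inr ⟨α, hα, rfl⟩)
    · rw [notMem_support_iff.1 hα, map_zero]
  let φ : Sx k → MvPolynomial (Fin (k + 1)) ℂ := fun o =>
    o.elim (X 0) (Sum.elim (fun i => C (b i)) fun i => X i.succ + C (skw a 0 i.succ) * X 0)
  refine ⟨b, aeval φ G, t_gen_mir (t_joint ha hb (fun t ht => Or.inl (Or.inl ht))
    fun q => Or.inl (Or.inr ⟨q, rfl⟩)), fun h => hne ?_, ?_, fun x => ?_⟩
  · have h1 := exl_eval φ
      (Fin.cons (z none) fun i => z (some (inr i)) - skw a 0 i.succ * z none) G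
    rw [h, map_zero] at h1
    rw [hθ, h1]
    refine congrArg (fun u => eval u G) (funext ?_)
    rintro (_ | i | i) <;> simp [φ, zb]
  · refine (totalDegree_aeval_le φ (s := 1) ?_ G).trans (one_mul _).le
    rintro (_ | i | i)
    · exact (totalDegree_X _).le
    · exact (totalDegree_C _).le.trans zero_le_one
    · refine (totalDegree_add _ _).trans (max_le (totalDegree_X _).le ?_)
      refine (totalDegree_mul _ _).trans ?_
      rw [totalDegree_C, totalDegree_X]
  · rw [exl_eval]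
    refine congrArg (fun u => eval u G) (funext ?_)
    rintro (_ | i | i)
    · rw [t_fl_mir0]; simp [φ]
    · simp [φ, fl]
    · rw [t_fl_mir1]; simp [φ]

/-- Few flats lie in a hypersurface. -/
theorem t_top (k : ℕ) (hk : 1 ≤ k) : ∃ c : ℕ, ∀ (S : Finset (Tx k → ℂ)) (a : Pr (k + 1) → ℂ)
    (M E m : ℕ) (G : MvPolynomial (Sx k) ℂ), GenA (crd S) a → Sepr S M → NulB S E → 1 ≤ m →
      m ≤ M → G ≠ 0 → G.totalDegree ≤ m → (∀ x ∈ S, ∀ b, eval (fl (tw a x) b) G = 0) →
      S.card ≤ c * m * ((M + 1) ^ k + E) := by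
  obtain ⟨c, hc⟩ := gpt k hk
  refine ⟨c, fun S a M E m G ha hS hE h1 hm hG hd hv => ?_⟩
  obtain ⟨b, g, g1, g2, g3, g4⟩ := t_slice (t_crd_finite S) ha hG
  have h := hc (S.image mir) (amir a b) (M + 1) E m g
    (t_kill g1 fun D hD t ht => hD t (t_crd_mir S ht)) (dens_of_sep (t_sepr_mir hS) k)
    (t_nulB_mir hE) h1 (hm.trans M.le_succ) g2 (g3.trans hd) fun y hy => by
      obtain ⟨x, hx, rfl⟩ := Finset.mem_image.1 hy
      rw [g4]
      exact hv x hx b
  rwa [Finset.card_image_of_injective _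
    (Function.LeftInverse.injective (g := mir) t_mir_mir)] at h

theorem t_topB (k : ℕ) (hk : 1 ≤ k) : ∃ c : ℕ, ∀ (P : Finset (Pt (k + 1))) (τ M : ℕ)
    (a : Pr (k + 1) → ℂ), GenA (cP P) a → nd2 P ≤ τ → 4 * τ ≤ M →
      TopB (P ×ˢ P) (fun x => tw a (emb x)) (c * ((M + 1) ^ k + P.card)) M := by
  obtain ⟨c, hc⟩ := t_top k hk
  refine ⟨c, fun P τ M a ha hτ hM V hV m G hG h1 hm hd hv => ?_⟩
  have h := hc (V.image emb) a M P.card m G (t_gen_emb ha hV)
    (t_sepr_mono (t_sepr_emb hτ) (Finset.image_subset_image hV) hM) (t_nulB_emb hV) h1 hm hG hd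
    fun y hy b => by
      obtain ⟨x, hx, rfl⟩ := Finset.mem_image.1 hy
      exact hv x hx b
  rw [Finset.card_image_of_injective _ t_emb_inj] at h
  exact h.trans (mul_right_comm _ _ _).le

end Vale.Agent.P054S
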