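import Vale.Agent.P054S.TLink
import Vale.Agent.P054S.TTop
import Vale.Agent.P054S.TCore
import Vale.Agent.P054S.TEdge
import Vale.Agent.P054S.TArX
import Vale.Agent.P054S.Cone

namespace Vale.Agent.P054S

open MvPolynomial Vale.Agent.P054A Sum
open scoped Classical

/-- Few edges lie in large partial isometries. -/
def RichOK (k : ℕ) : Prop := ∃ u κ₀ : ℕ, 4 ≤ u ∧ u * (k - 1) < 4 * k ∧ ∀ κ ≥ κ₀,
    ∃ τ₀ : ℕ, ∀ τ ≥ τ₀, ∀ P : Finset (Pt (k + 1)), Win P κ τ → ∀ T, 3 * (κ ^ u * τ) ≤ T →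
      ∃ P' ⊆ P, P.card ≤ 2 * P'.card ∧ (bad P' (T ^ (k - 1))).card * (κ ^ 3 * τ) ≤ P.card ^ 4

theorem t_rich_high (k : ℕ) (hk : 3 ≤ k) : RichOK k := by
  refine ⟨4, 1, le_rfl, by omega, fun κ hκ => ⟨1, fun τ hτ P hP T hT => ⟨P, subset_rfl, by omega, ?_⟩⟩⟩
  rw [t_bad_empty P (t_ar_big hk hκ hτ hP.2.2 hT)]
  simp

theorem t_linkB_mono {k : ℕ} {ι α : Type} {E : Finset ι} {r : ι → α} {β : ι → Fin k → ℂ}
    {A M M' : ℕ} (h : LinkB E r β A M) (hM : M' ≤ M) : LinkB E r β A M' :=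
  fun x m g h0 h1 h2 h3 => h x m g h0 h1 (h2.trans hM) h3

theorem t_win (k : ℕ) (hk : 2 ≤ k) (hR : RichOK k) : ∃ κ τ₀ : ℕ, 1 ≤ κ ∧ 1 ≤ τ₀ ∧ ∀ τ ≥ τ₀,
    ∀ P : Finset (Pt (k + 1)), nd2 P ≤ τ → 4 * (κ ^ (4 * (k + 1)) * τ ^ (k + 1)) ≤ P.card ^ 2 →
      P.card ^ 2 ≤ 16 * (κ ^ (4 * (k + 1)) * τ ^ (k + 1)) → Dist0 P → False := by
  obtain ⟨u, κ₁, hu4, hu, h1⟩ := hR
  obtain ⟨c, κ₂, h2⟩ := cone k hk
  obtain ⟨c₀, h0⟩ := t_core k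
  obtain ⟨c₁, h3⟩ := t_linkB k (by omega)
  obtain ⟨c₂, h4⟩ := t_topB k (by omega)
  obtain ⟨κ₃, h5⟩ := t_arith2 k u c₀ c₁ c₂ (c + 3) hk hu
  obtain ⟨κ, hκ⟩ : ∃ κ, κ = κ₁ + κ₂ + κ₃ + 64 := ⟨_, rfl⟩
  obtain ⟨τ₁, h1⟩ := h1 κ (by omega)
  obtain ⟨τ₂, h2⟩ := h2 κ (by omega)
  refine ⟨κ, τ₁ + τ₂ + 1, by omega, by omega, fun τ hτ P hP hlo hup hd => ?_⟩
  have hκ1 : 1 ≤ κ := by omega
  obtain ⟨T, hT⟩ : ∃ T, T = (c + 3) * κ ^ u * τ := ⟨_, rfl⟩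
  have e4 : κ ^ 4 ≤ κ ^ u := Nat.pow_le_pow_right hκ1 hu4
  have e3 : κ ^ 3 ≤ κ ^ u := Nat.pow_le_pow_right hκ1 (by omega)
  have e1 : κ ≤ κ ^ 3 := Nat.le_self_pow (by norm_num) κ
  have hT3 : 3 * (κ ^ u * τ) ≤ T := by
    rw [hT, mul_assoc]
    exact Nat.mul_le_mul_right _ (by omega)
  have hTc : c * κ ^ 4 * τ ≤ T := by
    rw [hT]
    exact Nat.mul_le_mul_right _ (Nat.mul_le_mul (by omega) e4)
  have hM : κ ^ 3 * τ ≤ T := le_trans (Nat.mul_le_mul_right _ e3) (by omega)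
  have hM4 : 4 * τ ≤ κ ^ 3 * τ := Nat.mul_le_mul_right _ (by omega)
  obtain ⟨P', hP', hc, hb⟩ := h1 τ (by omega) P ⟨hP, by omega, hup⟩ T hT3
  have hP1 : nd2 P' ≤ τ := (nd2_mono hP').trans hP
  have hc2 : P.card ^ 2 ≤ 4 * P'.card ^ 2 :=
    calc P.card ^ 2 ≤ (2 * P'.card) ^ 2 := by gcongr
      _ = _ := by ring
  have hc4 : P.card ^ 4 ≤ 16 * P'.card ^ 4 :=
    calc P.card ^ 4 ≤ (2 * P'.card) ^ 4 := by gcongr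
      _ = _ := by ring
  have hlo' : κ ^ (4 * (k + 1)) * τ ^ (k + 1) ≤ P'.card ^ 2 := by omega
  have hup' : P'.card ^ 2 ≤ P.card ^ 2 := Nat.pow_le_pow_left (Finset.card_le_card hP') 2
  have hd' : Dist0 P' := fun p hp q hq => hd p (hP' hp) q (hP' hq)
  obtain ⟨S₀, hS, hne, hS2, hco⟩ := h2 τ (by omega) P' ⟨hP1, hlo', hup'.trans hup⟩ hd'
  have hco' : ConeOK S₀ T := fun p => ⟨(hco p).1, (hco p).2.mono subset_rfl hTc⟩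
  obtain ⟨a, ha⟩ := exists_genA (t_cP_finite P') (Pr (k + 1))
  have he := t_ar_edges hk (by omega) (by omega) hlo' hS2
    (t_edges_card hS hne hP1 (T ^ (k - 1))) (hb.trans hc4)
  obtain ⟨a1, a2, a3⟩ := h5 κ (by omega) τ P'.card _ (by omega) hlo' he
  obtain ⟨l1, l2⟩ := h3 P' S₀ T τ a ha hd' hne hco' hP1 (by omega)
  have hfin := h0 _ (P' ×ˢ P') (edges P' S₀ (T ^ (k - 1))) (fun x => tw a (emb x)) (ebeta a)
    (c₁ * T ^ (k - 1)) (c₂ * ((κ ^ 3 * τ + 1) ^ k + P'.card)) (κ ^ 3 * τ) (Finset.filter_subset _ _)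
    (fun e he => t_fl_edge a ((t_nul_emb _ _).2 (Finset.mem_filter.1 he).2.2.2.1) (t_edge_ne ha he))
    (t_linkB_mono l1 hM) (t_linkB_mono l2 hM) (h4 P' τ _ a ha hP1 hM4)
    (by rw [Finset.card_product]; exact a1)
  rw [Finset.card_product] at hfin
  rw [← hT] at a2
  exact hfin.elim a2 a3

theorem t_main (k : ℕ) (hk : 2 ≤ k) (hR : RichOK k) : ∃ K τ₀ : ℕ, ∀ τ ≥ τ₀,
    ∀ P : Finset (Pt (k + 1)), nd2 P ≤ τ → P.card ^ 2 ≤ K * τ ^ (k + 1) := by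
  obtain ⟨κ, τ₀, hκ, hτ₀, h⟩ := t_win k hk hR
  refine ⟨4 * κ ^ (4 * (k + 1)), τ₀, fun τ hτ P hP => ?_⟩
  by_contra hc
  obtain ⟨P₁, e1, e2, e3⟩ := t_rot P
  have hY : 1 ≤ κ ^ (4 * (k + 1)) * τ ^ (k + 1) := by
    have : 0 < τ := by omega
    have : 0 < κ ^ (4 * (k + 1)) * τ ^ (k + 1) := by positivity
    omega
  obtain ⟨n, hn, h1, h2⟩ := t_ar_shrink (N := P₁.card) hY (by
    rw [e1, ← mul_assoc]
    omega)
  obtain ⟨P₂, hP₂, rfl⟩ := Finset.exists_subset_card_eq hn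
  exact h τ hτ P₂ ((nd2_mono hP₂).trans (e2.le.trans hP)) h1 h2
    fun p hp q hq => e3 p (hP₂ hp) q (hP₂ hq)

theorem t_sharp_of (k : ℕ) (hk : 2 ≤ k) (hR : RichOK k) : ∃ c : ℝ, 0 < c ∧
    ∀ P : Finset (EuclideanSpace ℝ (Fin (k + 1))), 2 ≤ P.card →
      c * (P.card : ℝ) ^ (2 / ((k + 1 : ℕ) : ℝ)) ≤ (nd P : ℝ) := by
  obtain ⟨K, τ₀, h⟩ := t_main k hk hR
  obtain ⟨c, hc, h1⟩ := t_ar_fin (d := k + 1) (by omega) K τ₀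
  refine ⟨c, hc, fun P hP => ?_⟩
  have hcard : (P.image WithLp.ofLp).card = P.card :=
    Finset.card_image_of_injective _ (WithLp.ofLp_injective 2)
  rw [nd_eq_nd2]
  refine h1 _ _ ?_ ?_
  · obtain ⟨p, hp, q, hq, hpq⟩ := Finset.one_lt_card.1 (show 1 < (P.image WithLp.ofLp).card by omega)
    exact Finset.card_pos.2 ⟨_, Finset.mem_image.2 ⟨(p, q), Finset.mem_offDiag.2 ⟨hp, hq, hpq⟩, rfl⟩⟩
  · rw [← hcard]
    exact h _ (le_max_right _ _) _ (le_max_left _ _)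

/-- The sharp bound in dimension at least four. -/
theorem t_sharp_high (d : ℕ) (hd : 4 ≤ d) : ∃ c : ℝ, 0 < c ∧
    ∀ P : Finset (EuclideanSpace ℝ (Fin d)), 2 ≤ P.card →
      c * (P.card : ℝ) ^ (2 / (d : ℝ)) ≤ (nd P : ℝ) := by
  obtain ⟨k, rfl⟩ : ∃ k, d = k + 1 := ⟨d - 1, by omega⟩
  exact t_sharp_of k (by omega) (t_rich_high k (by omega))

end Vale.Agent.P054S
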